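import Crest.Agent.R102.BDa_628
import Crest.Agent.R102.RootSch_909

/-!
Row 102, T1-B, EDGE, block SIDE (helper591): two one-variable lemmas.

* `quot_le`     : `F Y` bounded by `M`, `Y` bounded by `MY`, `|Y c| ≥ c1` ⟹ a bound for `F`
  (the zeros of `Y` are divided out by Blaschke factors, then Harnack);
* `count_le`    : the zeros of `Y` on a smaller disc;
* `schottky_y`  : `F` zero free and `F = 1` only at zeros of `Y`: sharp Schottky with the additive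
  constant `log (MY / c1)`.
-/

set_option autoImplicit false

open Set Filter Metric Complex Topology
open scoped ComplexConjugate

namespace Crest.Agent.R102.Quot591

open Crest.Agent.R102.G864

lemma one_sub_ne {a z : ℂ} (ha : ‖a‖ < 1) (hz : ‖z‖ ≤ 1) : 1 - conj a * z ≠ 0 := by
  intro h
  have h1 : conj a * z = 1 := (sub_eq_zero.1 h).symm
  have h2 : ‖conj a * z‖ = 1 := by rw [h1, norm_one]
  rw [norm_mul, Complex.norm_conj] at h2
  have := norm_nonneg a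
  have := norm_nonneg z
  nlinarith

/-- on the unit circle the Blaschke factor is unimodular -/
lemma norm_factor {a z : ℂ} (hz : ‖z‖ = 1) : ‖1 - conj a * z‖ = ‖z - a‖ := by
  have hz0 : z * conj z = 1 := by
    rw [Complex.mul_conj, Complex.normSq_eq_norm_sq, hz]; simp
  have h1 : 1 - conj a * z = z * conj (z - a) := by
    rw [map_sub, mul_sub, hz0]; ring
  rw [h1, norm_mul, hz, one_mul, Complex.norm_conj]

/-- bound on the closed disc from the circle -/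
lemma max_circle {g : ℂ → ℂ} {U : Set ℂ} (hsub : closedBall 0 1 ⊆ U)
    (hg : DifferentiableOn ℂ g U) {M : ℝ} (hM : ∀ z : ℂ, ‖z‖ = 1 → ‖g z‖ ≤ M) :
    ∀ z ∈ closedBall (0 : ℂ) 1, ‖g z‖ ≤ M := by
  intro z hz
  have hd : DiffContOnCl ℂ g (ball (0 : ℂ) 1) :=
    (hg.mono (by rw [closure_ball (0 : ℂ) one_ne_zero]; exact hsub)).diffContOnCl
  refine Complex.norm_le_of_forall_mem_frontier_norm_le isBounded_ball hd ?_ (z := z) ?_
  · intro w hw
    rw [frontier_ball (0 : ℂ) one_ne_zero] at hw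
    exact hM w (by simpa using hw)
  · rwa [closure_ball (0 : ℂ) one_ne_zero]

/-- divide out the zeros of `Y` in `closedBall 0 ρ` -/
theorem fac {ρ M MY : ℝ} (hρ0 : 0 < ρ) (hρ : ρ < 1) {U : Set ℂ} (hU : IsOpen U)
    (hsub : closedBall 0 1 ⊆ U) {F : ℂ → ℂ} (hF : DifferentiableOn ℂ F U) (n : ℕ) :
    ∀ Y : ℂ → ℂ, DifferentiableOn ℂ Y U → Y 0 ≠ 0 →
      (∀ z ∈ closedBall (0 : ℂ) 1, ‖Y z‖ ≤ MY) → (∀ z ∈ closedBall (0 : ℂ) 1, ‖F z * Y z‖ ≤ M) →
      MY < (1 / ρ) ^ n * ‖Y 0‖ →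
      ∃ Y1 : ℂ → ℂ, DifferentiableOn ℂ Y1 U ∧ (∀ z ∈ closedBall (0 : ℂ) ρ, Y1 z ≠ 0) ∧
        (∀ z ∈ closedBall (0 : ℂ) 1, ‖Y1 z‖ ≤ MY) ∧ ‖Y 0‖ ≤ ‖Y1 0‖ ∧
        ∀ z ∈ closedBall (0 : ℂ) 1, ‖F z * Y1 z‖ ≤ M := by
  induction n with
  | zero =>
    intro Y hY h0 hM hFM hlt
    exfalso
    have := hM 0 (by simp)
    simp only [pow_zero, one_mul] at hlt
    linarith
  | succ n ih =>
    intro Y hY h0 hM hFM hlt
    by_cases hz : ∀ z ∈ closedBall (0 : ℂ) ρ, Y z ≠ 0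
    · exact ⟨Y, hY, hz, hM, le_rfl, hFM⟩
    · push Not at hz
      obtain ⟨a, ha, hYa⟩ := hz
      have ha' : ‖a‖ ≤ ρ := by simpa using ha
      have ha1 : ‖a‖ < 1 := lt_of_le_of_lt ha' hρ
      have ha0 : a ≠ 0 := fun h => h0 (h ▸ hYa)
      have han : 0 < ‖a‖ := norm_pos_iff.2 ha0
      have haU : a ∈ U := hsub (by rw [mem_closedBall, dist_zero_right]; exact ha1.le)
      have hdU : DifferentiableOn ℂ (dslope Y a) U :=
        (Complex.differentiableOn_dslope (hU.mem_nhds haU)).2 hY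
      have hdz : ∀ z, z ≠ a → dslope Y a z * (z - a) = Y z := by
        intro z hza
        have h1 : z - a ≠ 0 := sub_ne_zero.2 hza
        rw [dslope_of_ne _ hza, slope_def_field, hYa, sub_zero, div_mul_cancel₀ _ h1]
      let Y' : ℂ → ℂ := fun z => dslope Y a z * (1 - conj a * z)
      have hY'U : DifferentiableOn ℂ Y' U :=
        hdU.mul (((differentiable_const _).sub
          ((differentiable_const _).mul differentiable_id)).differentiableOn)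
      have hcirc : ∀ z : ℂ, ‖z‖ = 1 → ‖Y' z‖ = ‖Y z‖ := by
        intro z hz1
        have hza : z ≠ a := fun h => by rw [h] at hz1; linarith
        have h2 := hdz z hza
        show ‖dslope Y a z * (1 - conj a * z)‖ = ‖Y z‖
        rw [norm_mul, norm_factor hz1, ← norm_mul, h2]
      have h00 : ‖Y' 0‖ = ‖Y 0‖ / ‖a‖ := by
        have h2 := hdz 0 (Ne.symm ha0)
        have h3 : ‖Y 0‖ = ‖dslope Y a 0‖ * ‖a‖ := by
          rw [← h2, norm_mul]; simp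
        show ‖dslope Y a 0 * (1 - conj a * 0)‖ = _
        rw [mul_zero, sub_zero, mul_one, h3]
        field_simp
      have hge : ‖Y 0‖ ≤ ‖Y' 0‖ := by
        rw [h00, le_div_iff₀ han]
        nlinarith [norm_nonneg (Y 0)]
      have hge2 : (1 / ρ) * ‖Y 0‖ ≤ ‖Y' 0‖ := by
        rw [h00, one_div, div_eq_inv_mul]
        have : ρ⁻¹ ≤ ‖a‖⁻¹ := inv_anti₀ han ha'
        exact mul_le_mul_of_nonneg_right this (norm_nonneg _)
      have hY'0 : Y' 0 ≠ 0 := by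
        have : 0 < ‖Y' 0‖ := lt_of_lt_of_le (norm_pos_iff.2 h0) hge
        exact norm_pos_iff.1 this
      obtain ⟨Y1, e1, e2, e3, e4, e5⟩ := ih Y' hY'U hY'0
        (max_circle hsub hY'U fun z hz1 => by
          rw [hcirc z hz1]; exact hM z (by simp [hz1]))
        (max_circle hsub (hF.mul hY'U) fun z hz1 => by
          show ‖F z * Y' z‖ ≤ M
          rw [norm_mul, hcirc z hz1, ← norm_mul]
          exact hFM z (by simp [hz1]))
        (by
          refine hlt.trans_le ?_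
          rw [pow_succ, mul_assoc]
          exact mul_le_mul_of_nonneg_left hge2 (by positivity))
      exact ⟨Y1, e1, e2, e3, hge.trans e4, e5⟩

/-- Harnack for the logarithm of a zero free function -/
theorem harnack_log {g : ℂ → ℂ} {ρ MY : ℝ} (hρ : 0 < ρ) (hg : DifferentiableOn ℂ g (ball 0 ρ))
    (h0 : ∀ z ∈ ball (0 : ℂ) ρ, g z ≠ 0) (hM : ∀ z ∈ ball (0 : ℂ) ρ, ‖g z‖ ≤ MY) :
    ∀ z ∈ ball (0 : ℂ) ρ, Real.log (MY / ‖g z‖) ≤
      (ρ + ‖z‖) / (ρ - ‖z‖) * Real.log (MY / ‖g 0‖) := by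
  intro z hz
  have hz' : ‖z‖ < ρ := by simpa using hz
  have h00 : (0 : ℂ) ∈ ball (0 : ℂ) ρ := mem_ball_self hρ
  obtain ⟨L, hL, hexp⟩ := M948.exists_log hg h0
  have hMY : 0 < MY := (norm_pos_iff.2 (h0 0 h00)).trans_le (hM 0 h00)
  have hre : ∀ w ∈ ball (0 : ℂ) ρ, (L w).re = Real.log ‖g w‖ := by
    intro w hw
    rw [← hexp w hw, Complex.norm_exp, Real.log_exp]
  have hlog : ∀ w ∈ ball (0 : ℂ) ρ, Real.log (MY / ‖g w‖) = Real.log MY - (L w).re := by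
    intro w hw
    rw [Real.log_div hMY.ne' (norm_pos_iff.2 (h0 w hw)).ne', hre w hw]
  rw [hlog z hz, hlog 0 h00]
  have hA : (L 0).re ≤ Real.log MY := by
    rw [hre 0 h00]
    exact Real.log_le_log (norm_pos_iff.2 (h0 0 h00)) (hM 0 h00)
  have hden : 0 < ρ - ‖z‖ := by linarith
  have key : ∀ ε > 0, Real.log MY - (L z).re ≤
      (ρ + ‖z‖) / (ρ - ‖z‖) * (Real.log MY - (L 0).re) + ε * (2 * ‖z‖ / (ρ - ‖z‖)) := by
    intro ε hε
    have hb := borelCaratheodory_zero (f := fun w => L w - L 0) (M := Real.log MY - (L 0).re + ε)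
      (R := ρ) (z := z) (by linarith) (hL.sub_const (L 0)) ?_ hρ hz (by simp)
    · have h1 : (L 0).re - (L z).re ≤ ‖L z - L 0‖ := by
        have := Complex.abs_re_le_norm (L z - L 0)
        rw [Complex.sub_re] at this
        have := neg_abs_le ((L z).re - (L 0).re)
        linarith
      have h2 : (ρ + ‖z‖) / (ρ - ‖z‖) = 1 + 2 * ‖z‖ / (ρ - ‖z‖) := by
        field_simp; ring
      rw [h2]
      have h3 : 2 * (Real.log MY - (L 0).re + ε) * ‖z‖ / (ρ - ‖z‖) =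
        2 * ‖z‖ / (ρ - ‖z‖) * (Real.log MY - (L 0).re) + ε * (2 * ‖z‖ / (ρ - ‖z‖)) := by
        field_simp
      rw [h3] at hb
      nlinarith
    · intro w hw
      simp only [mem_ofPred_eq, Complex.sub_re]
      have := Real.log_le_log (norm_pos_iff.2 (h0 w hw)) (hM w hw)
      rw [← hre w hw] at this
      linarith
  refine le_of_forall_pos_le_add fun δ hδ => ?_
  have hk0 : 0 ≤ 2 * ‖z‖ / (ρ - ‖z‖) := by positivity
  have h5 := key (δ / (1 + 2 * ‖z‖ / (ρ - ‖z‖))) (by positivity)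
  have h6 : δ / (1 + 2 * ‖z‖ / (ρ - ‖z‖)) * (2 * ‖z‖ / (ρ - ‖z‖)) ≤ δ := by
    rw [div_mul_eq_mul_div, div_le_iff₀ (by positivity)]
    nlinarith
  linarith

/-- **the quotient lemma**, unit disc -/
theorem quot_unit {ρ M MY c1 : ℝ} (hρ0 : 0 < ρ) (hρ : ρ < 1) {U : Set ℂ} (hU : IsOpen U)
    (hsub : closedBall 0 1 ⊆ U) {F Y : ℂ → ℂ} (hF : DifferentiableOn ℂ F U)
    (hY : DifferentiableOn ℂ Y U) (hMY : ∀ z ∈ closedBall (0 : ℂ) 1, ‖Y z‖ ≤ MY)
    (hM : ∀ z ∈ closedBall (0 : ℂ) 1, ‖F z * Y z‖ ≤ M) (hc1 : 0 < c1) (hYc : c1 ≤ ‖Y 0‖) :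
    ∀ z ∈ ball (0 : ℂ) ρ, ‖F z‖ ≤ M / MY * (MY / c1) ^ ((ρ + ‖z‖) / (ρ - ‖z‖)) := by
  intro z hz
  have hz' : ‖z‖ < ρ := by simpa using hz
  have hY0 : 0 < ‖Y 0‖ := hc1.trans_le hYc
  have hMY0 : 0 < MY := hY0.trans_le (hMY 0 (by simp))
  have hM0 : 0 ≤ M := (norm_nonneg _).trans (hM 0 (by simp))
  obtain ⟨n, hn⟩ : ∃ n : ℕ, MY < (1 / ρ) ^ n * ‖Y 0‖ := by
    obtain ⟨n, hn⟩ := pow_unbounded_of_one_lt (MY / ‖Y 0‖) (one_lt_one_div hρ0 hρ)
    exact ⟨n, by rwa [div_lt_iff₀ hY0] at hn⟩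
  obtain ⟨Y1, e1, e2, e3, e4, e5⟩ := fac hρ0 hρ hU hsub hF n Y hY (norm_pos_iff.1 hY0) hMY hM hn
  have hbs : ball (0 : ℂ) ρ ⊆ U :=
    (ball_subset_closedBall.trans (closedBall_subset_closedBall hρ.le)).trans hsub
  have hbs1 : ball (0 : ℂ) ρ ⊆ closedBall 0 1 :=
    ball_subset_closedBall.trans (closedBall_subset_closedBall hρ.le)
  have hH := harnack_log hρ0 (e1.mono hbs) (fun w hw => e2 w (ball_subset_closedBall hw))
    (fun w hw => e3 w (hbs1 hw)) z hz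
  have hYz : 0 < ‖Y1 z‖ := norm_pos_iff.2 (e2 z (ball_subset_closedBall hz))
  have hK : 0 ≤ (ρ + ‖z‖) / (ρ - ‖z‖) := by
    have : 0 < ρ - ‖z‖ := by linarith
    positivity
  have h1 : ‖F z‖ ≤ M / MY * (MY / ‖Y1 z‖) := by
    have := e5 z (hbs1 hz)
    rw [norm_mul] at this
    rw [div_mul_div_comm, mul_comm M MY, mul_div_mul_left _ _ hMY0.ne', le_div_iff₀ hYz]
    exact this
  have h2 : MY / ‖Y1 z‖ ≤ (MY / c1) ^ ((ρ + ‖z‖) / (ρ - ‖z‖)) := by
    have h3 : Real.log (MY / ‖Y1 0‖) ≤ Real.log (MY / c1) := by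
      apply Real.log_le_log (div_pos hMY0 (hY0.trans_le e4))
      exact div_le_div_of_nonneg_left hMY0.le hc1 (hYc.trans e4)
    have h4 : Real.log (MY / ‖Y1 z‖) ≤ (ρ + ‖z‖) / (ρ - ‖z‖) * Real.log (MY / c1) :=
      hH.trans (mul_le_mul_of_nonneg_left h3 hK)
    have h5 := Real.exp_le_exp.2 h4
    rw [Real.exp_log (by positivity)] at h5
    rwa [Real.rpow_def_of_pos (by positivity), mul_comm (Real.log _)]
  calc ‖F z‖ ≤ M / MY * (MY / ‖Y1 z‖) := h1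
    _ ≤ _ := mul_le_mul_of_nonneg_left h2 (by positivity)

/-- **THE QUOTIENT LEMMA**: `F Y` bounded by `M`, `Y` bounded by `MY` and `c1 ≤ |Y c|` -/
theorem quot_le {F Y : ℂ → ℂ} {c : ℂ} {R M MY c1 θ : ℝ} (hR : 0 < R)
    (hF : DifferentiableOn ℂ F (ball c R)) (hY : DifferentiableOn ℂ Y (ball c R))
    (hM : ∀ z ∈ ball c R, ‖F z * Y z‖ ≤ M) (hMY : ∀ z ∈ ball c R, ‖Y z‖ ≤ MY)
    (hc1 : 0 < c1) (hYc : c1 ≤ ‖Y c‖) (hθ0 : 0 ≤ θ) (hθ1 : θ < 1) :
    ∀ z ∈ closedBall c (θ * R), ‖F z‖ ≤ M / MY * (MY / c1) ^ ((1 + 7 * θ) / (1 - θ)) := by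
  intro z hz
  have hzc : ‖z - c‖ ≤ θ * R := by simpa [dist_eq_norm] using hz
  set R' : ℝ := (1 + θ) / 2 * R with hR'
  have hR'0 : 0 < R' := by positivity
  have hR'R : R' < R := by rw [hR']; nlinarith
  set ρ : ℝ := (1 + 3 * θ) / (2 * (1 + θ)) with hρ
  have hρ0 : 0 < ρ := by positivity
  have hρ1 : ρ < 1 := by rw [hρ, div_lt_one (by positivity)]; linarith
  have hcM : c ∈ ball c R := mem_ball_self hR
  have hMY0 : 0 < MY := (hc1.trans_le hYc).trans_le (hMY c hcM)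
  have hM0 : 0 ≤ M := (norm_nonneg _).trans (hM c hcM)
  let m : ℂ → ℂ := fun ζ => c + R' * ζ
  have hmd : Differentiable ℂ m := (differentiable_const c).add
    ((differentiable_const (R' : ℂ)).mul differentiable_id)
  have hmc : Continuous m := hmd.continuous
  have hnm : ∀ ζ, ‖m ζ - c‖ = R' * ‖ζ‖ := by
    intro ζ
    show ‖c + R' * ζ - c‖ = _
    rw [add_sub_cancel_left, norm_mul, Complex.norm_real, Real.norm_of_nonneg hR'0.le]
  have hU : IsOpen (m ⁻¹' ball c R) := isOpen_ball.preimage hmc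
  have hsub : closedBall 0 1 ⊆ m ⁻¹' ball c R := by
    intro ζ hζ
    have hζ' : ‖ζ‖ ≤ 1 := by simpa using hζ
    rw [mem_preimage, mem_ball, dist_eq_norm, hnm]
    nlinarith [norm_nonneg ζ]
  have hq := quot_unit (M := M) (MY := MY) (c1 := c1) hρ0 hρ1 hU hsub
    (F := fun ζ => F (m ζ)) (Y := fun ζ => Y (m ζ))
    (hF.comp hmd.differentiableOn fun ζ hζ => hζ) (hY.comp hmd.differentiableOn fun ζ hζ => hζ)
    (fun ζ hζ => hMY _ (hsub hζ)) (fun ζ hζ => hM _ (hsub hζ)) hc1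
    (by show c1 ≤ ‖Y (c + R' * 0)‖; simpa using hYc)
  set ζ : ℂ := (z - c) / R' with hζ
  have hmζ : m ζ = z := by
    show c + R' * ((z - c) / R') = z
    have : (R' : ℂ) ≠ 0 := by exact_mod_cast hR'0.ne'
    field_simp
    ring
  have hnζ : ‖ζ‖ = ‖z - c‖ / R' := by
    rw [hζ, norm_div, Complex.norm_real, Real.norm_of_nonneg hR'0.le]
  have hnζ' : ‖ζ‖ ≤ 2 * θ / (1 + θ) := by
    rw [hnζ, div_le_iff₀ hR'0, hR']
    have : 2 * θ / (1 + θ) * ((1 + θ) / 2 * R) = θ * R := by field_simp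
    rw [this]; exact hzc
  have h2 : 2 * θ / (1 + θ) < ρ := by
    rw [hρ, div_lt_div_iff₀ (by positivity) (by positivity)]
    nlinarith
  have h3 : ‖ζ‖ < ρ := hnζ'.trans_lt h2
  have h4 := hq ζ (by simpa using h3)
  simp only [hmζ] at h4
  refine h4.trans ?_
  have hge : 1 ≤ MY / c1 := by
    rw [one_le_div hc1]; exact hYc.trans (hMY c hcM)
  refine mul_le_mul_of_nonneg_left ?_ (by positivity)
  refine Real.rpow_le_rpow_of_exponent_le hge ?_
  have h5 : 0 < ρ - ‖ζ‖ := by linarith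
  rw [div_le_div_iff₀ h5 (by linarith)]
  have h6 : ‖ζ‖ * (1 + θ) ≤ 2 * θ := by
    rwa [le_div_iff₀ (by positivity)] at hnζ'
  have h7 : ρ * (2 * (1 + θ)) = 1 + 3 * θ := by rw [hρ]; field_simp
  -- (ρ + t)(1-θ) ≤ (1+7θ)(ρ - t)  ⟺ t(1-θ+1+7θ) ≤ ρ(1+7θ-1+θ) : t(2+6θ) ≤ 8θρ
  have h8 : ‖ζ‖ * (2 + 6 * θ) * (1 + θ) ≤ 8 * θ * ρ * (1 + θ) := by
    have e1 : 8 * θ * ρ * (1 + θ) = 4 * θ * (1 + 3 * θ) := by linear_combination 4 * θ * h7
    rw [e1]
    nlinarith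
  have h9 : ‖ζ‖ * (2 + 6 * θ) ≤ 8 * θ * ρ := le_of_mul_le_mul_right h8 (by linarith)
  nlinarith

/-- **zero count** on a smaller disc, the zeros as a finite set -/
theorem count_le {Y : ℂ → ℂ} {c : ℂ} {R MY c1 θ : ℝ} (hR : 0 < R)
    (hY : DifferentiableOn ℂ Y (ball c R)) (hMY : ∀ z ∈ ball c R, ‖Y z‖ ≤ MY)
    (hc1 : 0 < c1) (hYc : c1 ≤ ‖Y c‖) (hθ0 : 0 < θ) (hθ1 : θ < 1) :
    ∃ Zs : Finset ℂ, (Zs.card : ℝ) ≤ 4 / (1 - θ) * Real.log (MY / c1) ∧
      ∀ z ∈ closedBall c (θ * R), Y z = 0 → z ∈ Zs := by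
  have hcM : c ∈ ball c R := mem_ball_self hR
  have hY0 : 0 < ‖Y c‖ := hc1.trans_le hYc
  have hMY0 : 0 < MY := hY0.trans_le (hMY c hcM)
  set R2 : ℝ := (1 + θ) / 2 * R with hR2
  have hR20 : 0 < R2 := by positivity
  have hR2R : R2 < R := by rw [hR2]; nlinarith
  have hθR : θ * R < R2 := by rw [hR2]; nlinarith
  have hd : DiffContOnCl ℂ Y (ball c R2) :=
    (hY.mono (by
      rw [closure_ball c hR20.ne']
      exact closedBall_subset_ball hR2R)).diffContOnCl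
  have hq : R2 / (θ * R) = (1 + θ) / (2 * θ) := by rw [hR2]; field_simp
  have hlog : (1 - θ) / 2 ≤ Real.log (R2 / (θ * R)) := by
    rw [hq]
    have h1 := Real.one_sub_inv_le_log_of_pos (x := (1 + θ) / (2 * θ)) (by positivity)
    have h2 : 1 - ((1 + θ) / (2 * θ))⁻¹ = (1 - θ) / (1 + θ) := by
      field_simp; ring
    rw [h2] at h1
    refine le_trans ?_ h1
    rw [div_le_div_iff₀ (by norm_num) (by linarith)]
    nlinarith
  have hcard : ∀ T : Finset ℂ, (∀ a ∈ T, a ∈ closedBall c (θ * R) ∧ Y a = 0) →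
      (T.card : ℝ) ≤ 4 / (1 - θ) * Real.log (MY / c1) := by
    intro T hT
    have h1 := BD628.zero_count (F := Y) (c := c) (ρ := θ * R) (R := R2) (M := MY) (by positivity)
      hθR hd (fun z hz => hMY z (by
        rw [mem_sphere] at hz; rw [mem_ball, hz]; exact hR2R)) (norm_pos_iff.1 hY0) T hT
    have h2 : Real.log MY - Real.log ‖Y c‖ ≤ Real.log (MY / c1) := by
      rw [Real.log_div hMY0.ne' hc1.ne']
      have := Real.log_le_log hc1 hYc
      linarith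
    have h3 : (T.card : ℝ) * ((1 - θ) / 2) ≤ Real.log (MY / c1) :=
      (mul_le_mul_of_nonneg_left hlog (Nat.cast_nonneg _)).trans (h1.trans h2)
    have h4 : 0 < 1 - θ := by linarith
    rw [div_mul_eq_mul_div, le_div_iff₀ h4]
    have h5 : 0 ≤ Real.log (MY / c1) := by
      refine le_trans ?_ h3
      positivity
    nlinarith
  have hfin : {z | z ∈ closedBall c (θ * R) ∧ Y z = 0}.Finite := by
    by_contra hinf
    obtain ⟨n, hn⟩ := exists_nat_gt (4 / (1 - θ) * Real.log (MY / c1))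
    obtain ⟨T, hT, hTc⟩ := Set.Infinite.exists_subset_card_eq (hinf : Set.Infinite _) n
    have := hcard T (fun a ha => hT ha)
    rw [hTc] at this
    linarith
  refine ⟨hfin.toFinset, hcard _ fun a ha => ?_, fun z hz hYz => ?_⟩
  · simpa using ha
  · rw [Set.Finite.mem_toFinset]
    exact ⟨hz, hYz⟩

/-- **sharp Schottky when the value `1` is only taken at zeros of `Y`** -/
theorem schottky_y {F Y : ℂ → ℂ} {c : ℂ} {R MY c1 θ : ℝ} (hR : 0 < R)
    (hF : DifferentiableOn ℂ F (ball c R)) (h0 : ∀ z ∈ ball c R, F z ≠ 0)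
    (hY : DifferentiableOn ℂ Y (ball c R)) (hMY : ∀ z ∈ ball c R, ‖Y z‖ ≤ MY)
    (h1 : ∀ z ∈ ball c R, F z = 1 → Y z = 0)
    (hc1 : 0 < c1) (hYc : c1 ≤ ‖Y c‖) (hθ0 : 0 ≤ θ) (hθ1 : θ < 1) :
    ∀ z ∈ closedBall c (θ * R), |Real.log ‖F z‖| ≤
      KS (2 * θ / (1 + θ)) * (8 / (1 - θ) * Real.log (MY / c1) + 1 + |Real.log ‖F c‖|) := by
  intro z hz
  set R1 : ℝ := (1 + θ) / 2 * R with hR1
  have hR10 : 0 < R1 := by positivity
  have hR1R : R1 < R := by rw [hR1]; nlinarith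
  have hsub : ball c R1 ⊆ ball c R := ball_subset_ball hR1R.le
  obtain ⟨Zs, hcard, hZs⟩ := count_le hR hY hMY hc1 hYc (θ := (1 + θ) / 2) (by linarith)
    (by linarith)
  have h2 := RootSch909.root_schottky hR10 (hF.mono hsub) (fun w hw => h0 w (hsub hw)) le_rfl
    (Zs := Zs) (fun w hw hF1 => hZs w (ball_subset_closedBall hw) (h1 w (hsub hw) hF1))
    (θ := 2 * θ / (1 + θ)) (by positivity) (by rw [div_lt_one (by linarith)]; linarith) z (by
      have : 2 * θ / (1 + θ) * R1 = θ * R := by rw [hR1]; field_simp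
      rwa [this])
  refine h2.trans ?_
  have hKS : 0 ≤ KS (2 * θ / (1 + θ)) := (KS_pos _).le
  refine mul_le_mul_of_nonneg_left ?_ hKS
  have h5 : 4 / (1 - (1 + θ) / 2) = 8 / (1 - θ) := by
    have h6 : 1 - (1 + θ) / 2 = (1 - θ) / 2 := by ring
    rw [h6, div_div_eq_mul_div]; norm_num
  rw [h5] at hcard
  linarith

end Crest.Agent.R102.Quot591
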