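import Mathlib
import Crest.Agent.R102.Schottky_948

/-!
Row 102, T1-B, EDGE, SIDE (iv) (helper672): the quotient lemma.

If `F * Y` is bounded by `M` and `Y` by `MY` on a disc (bidisc) and `c1 ≤ ‖Y‖` at one point, then
`‖F‖ ≤ (M / MY) * (MY / c1) ^ E` at the other points, `E` = exponential of the Kobayashi distance.
-/

set_option autoImplicit false

open Set Filter Metric Complex Topology
open scoped ComplexConjugate

noncomputable section

namespace Crest.Agent.R102.Quot672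

theorem normSq_add_conj (g a : ℂ) :
    ‖g + conj a‖ ^ 2 = ‖g - a‖ ^ 2 + 4 * g.re * a.re := by
  rw [← Complex.normSq_eq_norm_sq, ← Complex.normSq_eq_norm_sq, Complex.normSq_apply,
    Complex.normSq_apply]
  simp only [add_re, add_im, sub_re, sub_im, conj_re, conj_im]
  ring

/-- sharp Harnack inequality, positive real part -/
theorem harnack_pos {g : ℂ → ℂ} {c : ℂ} {R : ℝ} (hR : 0 < R) (hg : DifferentiableOn ℂ g (ball c R))
    (hpos : ∀ z ∈ ball c R, 0 < (g z).re) {z : ℂ} (hz : z ∈ ball c R) :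
    (g z).re * (R - dist z c) ≤ (g c).re * (R + dist z c) := by
  have hcB : c ∈ ball c R := mem_ball_self hR
  have ha0 : 0 < (g c).re := hpos c hcB
  have hden : ∀ z ∈ ball c R, g z + conj (g c) ≠ 0 := by
    intro z hz h0
    have h1 : (g z + conj (g c)).re = 0 := by rw [h0]; rfl
    rw [add_re, conj_re] at h1
    linarith [hpos z hz]
  have hd : DifferentiableOn ℂ (fun z => (g z - g c) / (g z + conj (g c))) (ball c R) :=
    (hg.sub_const _).div (hg.add_const _) hden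
  have hmaps : MapsTo (fun z => (g z - g c) / (g z + conj (g c))) (ball c R)
      (ball ((fun z => (g z - g c) / (g z + conj (g c))) c) 1) := by
    intro z hz
    simp only [sub_self, zero_div]
    rw [mem_ball_zero_iff, norm_div, div_lt_one (norm_pos_iff.2 (hden z hz))]
    have h1 := normSq_add_conj (g z) (g c)
    have h2 : 0 < (g z).re * (g c).re := mul_pos (hpos z hz) ha0
    exact lt_of_pow_lt_pow_left₀ 2 (norm_nonneg _) (by nlinarith)
  have hS := Complex.dist_le_div_mul_dist_of_mapsTo_ball hd (hmaps.mono_right ball_subset_closedBall) hz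
  rw [sub_self, zero_div, dist_zero_right] at hS
  have hS' : ‖(g z - g c) / (g z + conj (g c))‖ ≤ 1 / R * dist z c := hS
  rw [norm_div, div_le_iff₀ (norm_pos_iff.2 (hden z hz))] at hS'
  replace hS := hS'
  set x := (g z).re
  set α := (g c).re
  set d := dist z c with hdd
  have hd0 : 0 ≤ d := dist_nonneg
  have hdR : d < R := hz
  have hx : 0 < x := hpos z hz
  have h1 := normSq_add_conj (g z) (g c)
  have hre : x + α ≤ ‖g z + conj (g c)‖ := by
    have := Complex.re_le_norm (g z + conj (g c))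
    rwa [add_re, conj_re] at this
  set N := ‖g z + conj (g c)‖
  have hS2 : ‖g z - g c‖ ^ 2 ≤ (1 / R * d) ^ 2 * N ^ 2 := by
    rw [← mul_pow]
    exact pow_le_pow_left₀ (norm_nonneg _) hS 2
  have h3 : (R ^ 2 - d ^ 2) * N ^ 2 ≤ 4 * x * α * R ^ 2 := by
    have h4 : R ^ 2 * ‖g z - g c‖ ^ 2 ≤ d ^ 2 * N ^ 2 := by
      calc R ^ 2 * ‖g z - g c‖ ^ 2 ≤ R ^ 2 * ((1 / R * d) ^ 2 * N ^ 2) :=
            mul_le_mul_of_nonneg_left hS2 (by positivity)
        _ = d ^ 2 * N ^ 2 := by field_simp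
    have h5 : N ^ 2 = ‖g z - g c‖ ^ 2 + 4 * x * α := h1
    have h6 : R ^ 2 * N ^ 2 = R ^ 2 * ‖g z - g c‖ ^ 2 + 4 * x * α * R ^ 2 := by rw [h5]; ring
    linarith
  have h7 : (R ^ 2 - d ^ 2) * (x + α) ^ 2 ≤ 4 * x * α * R ^ 2 := by
    refine le_trans (mul_le_mul_of_nonneg_left ?_ (by nlinarith)) h3
    exact pow_le_pow_left₀ (by linarith) hre 2
  by_contra hcon
  push Not at hcon
  have h8 : 0 < x * (R - d) - α * (R + d) := by linarith
  have h9 : 0 < x * (R + d) - α * (R - d) := by nlinarith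
  have h10 := mul_pos h8 h9
  nlinarith

/-- sharp Harnack inequality -/
theorem harnack {g : ℂ → ℂ} {c : ℂ} {R : ℝ} (hR : 0 < R) (hg : DifferentiableOn ℂ g (ball c R))
    (hpos : ∀ z ∈ ball c R, 0 ≤ (g z).re) {z : ℂ} (hz : z ∈ ball c R) :
    (g z).re * (R - dist z c) ≤ (g c).re * (R + dist z c) := by
  have hd0 : 0 ≤ dist z c := dist_nonneg
  refine le_of_forall_pos_le_add fun ε hε => ?_
  set e : ℝ := ε / (2 * dist z c + 1) with he
  have he0 : 0 < e := by positivity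
  have h1 := harnack_pos hR (hg.add_const (e : ℂ)) (fun w hw => by
    rw [add_re, ofReal_re]; linarith [hpos w hw]) hz
  rw [add_re, ofReal_re, add_re, ofReal_re] at h1
  have h2 : e * (2 * dist z c) ≤ ε := by
    rw [he, div_mul_eq_mul_div, div_le_iff₀ (by positivity)]
    nlinarith
  nlinarith

/-- zero free functions: lower bound -/
theorem zero_free_lower {W : ℂ → ℂ} {c : ℂ} {R MY : ℝ} (hR : 0 < R)
    (hW : DifferentiableOn ℂ W (ball c R)) (h0 : ∀ z ∈ ball c R, W z ≠ 0)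
    (hM : ∀ z ∈ ball c R, ‖W z‖ ≤ MY) {z : ℂ} (hz : z ∈ ball c R) :
    (Real.log MY - Real.log ‖W z‖) * (R - dist z c) ≤
      (Real.log MY - Real.log ‖W c‖) * (R + dist z c) := by
  obtain ⟨L, hL, hexp⟩ := M948.exists_log hW h0
  have hre : ∀ z ∈ ball c R, ((Real.log MY : ℂ) - L z).re = Real.log MY - Real.log ‖W z‖ := by
    intro z hz
    rw [sub_re, ofReal_re, ← hexp z hz, Complex.norm_exp, Real.log_exp]
  have h1 := harnack hR (hL.const_sub (Real.log MY : ℂ)) (fun w hw => by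
    rw [hre w hw]
    have := Real.log_le_log (norm_pos_iff.2 (h0 w hw)) (hM w hw)
    linarith) hz
  rwa [hre z hz, hre c (mem_ball_self hR)] at h1

/-- removal of one zero -/
theorem step {F W : ℂ → ℂ} {c u : ℂ} {R R1 ρ M MY : ℝ} (hρ : 0 < ρ) (hρ1 : ρ < R1) (hR1 : R1 < R)
    (hF : DifferentiableOn ℂ F (ball c R)) (hW : DifferentiableOn ℂ W (ball c R))
    (hWM : ∀ z ∈ closedBall c R1, ‖W z‖ ≤ MY) (hFW : ∀ z ∈ closedBall c R1, ‖F z * W z‖ ≤ M)
    (hWc : W c ≠ 0) (hu : u ∈ closedBall c ρ) (hWu : W u = 0) :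
    ∃ W' : ℂ → ℂ, DifferentiableOn ℂ W' (ball c R) ∧ (∀ z ∈ closedBall c R1, ‖W' z‖ ≤ MY) ∧
      (∀ z ∈ closedBall c R1, ‖F z * W' z‖ ≤ M) ∧ R1 / ρ * ‖W c‖ ≤ ‖W' c‖ := by
  have hR10 : 0 < R1 := hρ.trans hρ1
  have huR : u ∈ ball c R := by
    rw [mem_ball]; exact lt_of_le_of_lt (mem_closedBall.1 hu) (hρ1.trans hR1)
  set b : ℂ → ℂ := fun z => ((R1 : ℂ) ^ 2 - conj (u - c) * (z - c)) / R1 with hb
  have hbd : Differentiable ℂ b := by
    intro z
    simp only [hb]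
    fun_prop
  have hsub : closedBall c R1 ⊆ ball c R := closedBall_subset_ball hR1
  have hds : DifferentiableOn ℂ (dslope W u) (ball c R) :=
    (Complex.differentiableOn_dslope (isOpen_ball.mem_nhds huR)).2 hW
  have hW'd : DifferentiableOn ℂ (fun z => dslope W u z * b z) (ball c R) :=
    hds.mul hbd.differentiableOn
  have hne : u ≠ c := by rintro rfl; exact hWc hWu
  have hsl : ∀ z, z ≠ u → dslope W u z = W z / (z - u) := by
    intro z hz
    rw [dslope_of_ne _ hz, slope_def_field, hWu, sub_zero]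
  have hnb : ∀ z, dist z c = R1 → ‖b z‖ = ‖z - u‖ := by
    intro z hz
    have h1 : (R1 : ℂ) ^ 2 = (z - c) * conj (z - c) := by
      rw [Complex.mul_conj, Complex.normSq_eq_norm_sq, ← dist_eq_norm, hz]
      push_cast; ring
    have h2 : (R1 : ℂ) ^ 2 - conj (u - c) * (z - c) = (z - c) * conj (z - u) := by
      rw [h1]
      simp only [map_sub]
      ring
    simp only [hb]
    rw [h2, norm_div, norm_mul, Complex.norm_conj, Complex.norm_real, Real.norm_eq_abs,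
      abs_of_pos hR10, ← dist_eq_norm z c, hz]
    field_simp
  have hneR : ∀ z, dist z c = R1 → z ≠ u := by
    rintro z hz rfl
    exact absurd (mem_closedBall.1 hu) (by rw [hz]; exact not_le.2 hρ1)
  have hcl : closure (ball c R1) = closedBall c R1 := closure_ball c hR10.ne'
  have hfr : frontier (ball c R1) = sphere c R1 := frontier_ball c hR10.ne'
  have key : ∀ (Φ : ℂ → ℂ) (K : ℝ), DifferentiableOn ℂ Φ (ball c R) →
      (∀ z, dist z c = R1 → ‖Φ z‖ ≤ K) → ∀ z ∈ closedBall c R1, ‖Φ z‖ ≤ K := by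
    intro Φ K hΦ hK z hz
    refine Complex.norm_le_of_forall_mem_frontier_norm_le isBounded_ball
      (U := ball c R1) (f := Φ) ?_ (fun w hw => hK w (by rw [hfr] at hw; exact hw)) (by rwa [hcl])
    refine ⟨hΦ.mono (ball_subset_ball hR1.le), ?_⟩
    rw [hcl]
    exact (hΦ.mono hsub).continuousOn
  refine ⟨fun z => dslope W u z * b z, hW'd, ?_, ?_, ?_⟩
  · refine key _ MY hW'd fun z hz => ?_
    have hzu := hneR z hz
    have h1 : 0 < ‖z - u‖ := norm_pos_iff.2 (sub_ne_zero.2 hzu)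
    rw [norm_mul, hsl z hzu, norm_div, hnb z hz, div_mul_cancel₀ _ h1.ne']
    exact hWM z (mem_closedBall.2 hz.le)
  · refine key (fun z => F z * (dslope W u z * b z)) M (hF.mul hW'd) fun z hz => ?_
    have hzu := hneR z hz
    have h1 : 0 < ‖z - u‖ := norm_pos_iff.2 (sub_ne_zero.2 hzu)
    rw [norm_mul, norm_mul, hsl z hzu, norm_div, hnb z hz, div_mul_cancel₀ _ h1.ne', ← norm_mul]
    exact hFW z (mem_closedBall.2 hz.le)
  · have h1 : b c = R1 := by
      simp only [hb, sub_self, mul_zero, sub_zero]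
      field_simp
    have h2 : ‖c - u‖ ≤ ρ := by
      rw [← dist_eq_norm, dist_comm]; exact mem_closedBall.1 hu
    have h3 : 0 < ‖c - u‖ := norm_pos_iff.2 (sub_ne_zero.2 (Ne.symm hne))
    show R1 / ρ * ‖W c‖ ≤ ‖dslope W u c * b c‖
    rw [hsl c (Ne.symm hne), norm_mul, h1, norm_div, Complex.norm_real, Real.norm_eq_abs,
      abs_of_pos hR10]
    rw [div_mul_eq_mul_div, div_mul_eq_mul_div, mul_comm R1]
    exact div_le_div_of_nonneg_left (by positivity) h3 h2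

/-- one radius -/
theorem quotAux {F Y : ℂ → ℂ} {c : ℂ} {R R1 ρ M MY c1 : ℝ} (hρ : 0 < ρ) (hρ1 : ρ < R1)
    (hR1 : R1 < R) (hc1 : 0 < c1) (hF : DifferentiableOn ℂ F (ball c R))
    (hY : DifferentiableOn ℂ Y (ball c R)) (hFY : ∀ z ∈ ball c R, ‖F z * Y z‖ ≤ M)
    (hYM : ∀ z ∈ ball c R, ‖Y z‖ ≤ MY) (hY0 : c1 ≤ ‖Y c‖) {z : ℂ} (hz : z ∈ ball c ρ) :
    ‖F z‖ ≤ M / MY * (MY / c1) ^ ((ρ + dist z c) / (ρ - dist z c)) := by
  have hR10 : 0 < R1 := hρ.trans hρ1
  have hRR : 0 < R := hR10.trans hR1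
  have hcR : c ∈ ball c R := mem_ball_self hRR
  have hMY : 0 < MY := hc1.trans_le (hY0.trans (hYM c hcR))
  have hM0 : 0 ≤ M := (norm_nonneg _).trans (hFY c hcR)
  have hsub : closedBall c R1 ⊆ ball c R := closedBall_subset_ball hR1
  have hq : 1 < R1 / ρ := (one_lt_div hρ).2 hρ1
  let Q : ℕ → Prop := fun n => ∃ W : ℂ → ℂ, DifferentiableOn ℂ W (ball c R) ∧
    (∀ z ∈ closedBall c R1, ‖W z‖ ≤ MY) ∧ (∀ z ∈ closedBall c R1, ‖F z * W z‖ ≤ M) ∧
    c1 * (R1 / ρ) ^ n ≤ ‖W c‖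
  have hQ0 : Q 0 := ⟨Y, hY, fun z hz => hYM z (hsub hz), fun z hz => hFY z (hsub hz), by simpa⟩
  have hQN : ∃ N, ¬ Q N := by
    obtain ⟨N, hN⟩ := pow_unbounded_of_one_lt (MY / c1) hq
    refine ⟨N, ?_⟩
    rintro ⟨W, -, h1, -, h2⟩
    have h3 := h1 c (mem_closedBall_self hR10.le)
    rw [div_lt_iff₀ hc1] at hN
    linarith [mul_comm c1 ((R1 / ρ) ^ N)]
  obtain ⟨n, ⟨W, hWd, hWM, hFW, hWc⟩, hn⟩ : ∃ n, Q n ∧ ¬ Q (n + 1) := by
    by_contra hcon
    push Not at hcon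
    obtain ⟨N, hN⟩ := hQN
    exact hN (Nat.rec hQ0 hcon N)
  have hpow : 1 ≤ (R1 / ρ) ^ n := one_le_pow₀ hq.le
  have hWc1 : c1 ≤ ‖W c‖ := le_trans (le_mul_of_one_le_right hc1.le hpow) hWc
  have hWc0 : W c ≠ 0 := norm_pos_iff.1 (hc1.trans_le hWc1)
  have hfree : ∀ u ∈ ball c ρ, W u ≠ 0 := by
    intro u hu hWu
    obtain ⟨W', h1, h2, h3, h4⟩ := step hρ hρ1 hR1 hF hWd hWM hFW hWc0 (ball_subset_closedBall hu) hWu
    refine hn ⟨W', h1, h2, h3, ?_⟩
    calc c1 * (R1 / ρ) ^ (n + 1) = R1 / ρ * (c1 * (R1 / ρ) ^ n) := by ring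
      _ ≤ R1 / ρ * ‖W c‖ := mul_le_mul_of_nonneg_left hWc (by positivity)
      _ ≤ _ := h4
  have hsubρ : ball c ρ ⊆ closedBall c R1 := ball_subset_closedBall.trans
    (closedBall_subset_closedBall hρ1.le)
  have hlow := zero_free_lower hρ (hWd.mono (hsubρ.trans hsub)) hfree
    (fun z hz => hWM z (hsubρ hz)) hz
  set d := dist z c with hd
  have hd0 : 0 ≤ d := dist_nonneg
  have hdρ : d < ρ := hz
  have hWz : 0 < ‖W z‖ := norm_pos_iff.2 (hfree z hz)
  have hFz : ‖F z‖ ≤ M / ‖W z‖ := by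
    rw [le_div_iff₀ hWz, ← norm_mul]
    exact hFW z (hsubρ hz)
  refine hFz.trans ?_
  have h5 : Real.log MY - Real.log ‖W z‖ ≤
      (Real.log MY - Real.log c1) * ((ρ + d) / (ρ - d)) := by
    rw [mul_div_assoc', le_div_iff₀ (by linarith)]
    refine hlow.trans (mul_le_mul_of_nonneg_right ?_ (by linarith))
    have := Real.log_le_log hc1 hWc1
    linarith
  have h6 : MY / ‖W z‖ ≤ (MY / c1) ^ ((ρ + d) / (ρ - d)) := by
    rw [Real.rpow_def_of_pos (by positivity), Real.log_div hMY.ne' hc1.ne',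
      ← Real.exp_log (show 0 < MY / ‖W z‖ by positivity), Real.log_div hMY.ne' hWz.ne']
    exact Real.exp_le_exp.2 h5
  calc M / ‖W z‖ = M / MY * (MY / ‖W z‖) := by field_simp
    _ ≤ M / MY * (MY / c1) ^ ((ρ + d) / (ρ - d)) := mul_le_mul_of_nonneg_left h6 (by positivity)

/-- **the quotient lemma**, disc -/
theorem quot {F Y : ℂ → ℂ} {c : ℂ} {R M MY c1 r : ℝ} (hR : 0 < R) (_hr0 : 0 ≤ r) (hr1 : r < 1)
    (hc1 : 0 < c1) (hF : DifferentiableOn ℂ F (ball c R)) (hY : DifferentiableOn ℂ Y (ball c R))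
    (hFY : ∀ z ∈ ball c R, ‖F z * Y z‖ ≤ M) (hYM : ∀ z ∈ ball c R, ‖Y z‖ ≤ MY)
    (hY0 : c1 ≤ ‖Y c‖) {z : ℂ} (hz : z ∈ closedBall c (r * R)) :
    ‖F z‖ ≤ M / MY * (MY / c1) ^ ((1 + r) / (1 - r)) := by
  have hcR : c ∈ ball c R := mem_ball_self hR
  have hMY1 : c1 ≤ MY := hY0.trans (hYM c hcR)
  have hMY : 0 < MY := hc1.trans_le hMY1
  have hM0 : 0 ≤ M := (norm_nonneg _).trans (hFY c hcR)
  set d := dist z c with hd
  have hd0 : 0 ≤ d := dist_nonneg
  have hdr : d ≤ r * R := mem_closedBall.1 hz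
  have hdR : d < R := by nlinarith
  have h1 : ∀ ρ : ℝ, d < ρ → ρ < R → ‖F z‖ ≤ M / MY * (MY / c1) ^ ((ρ + d) / (ρ - d)) := by
    intro ρ h1 h2
    exact quotAux (hd0.trans_lt h1) (show ρ < (ρ + R) / 2 by linarith)
      (show (ρ + R) / 2 < R by linarith) hc1 hF hY hFY hYM hY0 (mem_ball.2 h1)
  have h2 : ‖F z‖ ≤ M / MY * (MY / c1) ^ ((R + d) / (R - d)) := by
    have hcont : ContinuousAt (fun ρ : ℝ => M / MY * (MY / c1) ^ ((ρ + d) / (ρ - d))) R := by
      have h3 : ContinuousAt (fun ρ : ℝ => (ρ + d) / (ρ - d)) R :=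
        (continuousAt_id.add continuousAt_const).div (continuousAt_id.sub continuousAt_const)
          (sub_ne_zero.2 hdR.ne')
      exact continuousAt_const.mul
        ((Real.continuousAt_const_rpow (div_pos hMY hc1).ne').comp h3)
    have h4 : Tendsto (fun ρ : ℝ => M / MY * (MY / c1) ^ ((ρ + d) / (ρ - d))) (𝓝[<] R)
        (𝓝 (M / MY * (MY / c1) ^ ((R + d) / (R - d)))) := hcont.tendsto.mono_left nhdsWithin_le_nhds
    refine ge_of_tendsto h4 ?_
    filter_upwards [Ioo_mem_nhdsLT hdR] with ρ hρ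
    exact h1 ρ hρ.1 hρ.2
  refine h2.trans (mul_le_mul_of_nonneg_left ?_ (by positivity))
  refine Real.rpow_le_rpow_of_exponent_le ((one_le_div hc1).2 hMY1) ?_
  rw [div_le_div_iff₀ (by linarith) (by linarith)]
  nlinarith


end Crest.Agent.R102.Quot672
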