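import Mathlib
import Crest.Agent.R102.Match_554
import Crest.Agent.R102.ExtDer_554

/-!
# Row 102, (RAT-2b) = leaf R2e, helper554

A formal chain over `(M, D₀, D₁)` all of whose elements are algebraic over a `D`-stable subfield `K`
containing the first and the last line; every mirror can be displaced alone by every monomial; then
`b 0 ∈ K`.
-/

set_option autoImplicit false
set_option linter.unusedSectionVars false
set_option linter.style.haveILetI false

noncomputable section

namespace Crest.Agent.R102.RAT554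

variable {A k : Type*} [CommRing A] [Field k] [Algebra A k] [CharZero k]
  {D : Fin 2 → Derivation A k k} {N : ℕ} {b : ℕ → k} {x : ℕ → ℕ → k} {E l : ℕ → k}
  {b' : ℕ → k} {x' : ℕ → ℕ → k} {E' l' : ℕ → k} {N' : ℕ}

/-- gradient of the first mirror label, if line `0` is a coordinate line -/
theorem first_grad (h : Chain D N b x E l) (hN : 0 < N) (h00 : D 0 (E 0 ^ 2) = 1)
    (h10 : D 1 (E 0 ^ 2) = 0) (l00 : D 0 (l 0) = 0) (l10 : D 1 (l 0) = 1) :
    D 1 (b 0) ≠ 0 ∧ D 0 (b 0) = b 0 * D 1 (b 0) := by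
  have key : ∀ i, x 0 1 * D i (b 0) = D i (E 0 ^ 2) * b 0 + E 0 ^ 2 * D i (b 0) + D i (l 0) := by
    intro i
    rw [← h.dx 0 hN 0 i, h.l0 0 hN, map_add, Derivation.leibniz, smul_eq_mul, smul_eq_mul]
    ring
  have k0 := key 0
  have k1 := key 1
  rw [h00, l00] at k0
  rw [h10, l10] at k1
  have h1 : (x 0 1 - E 0 ^ 2) * D 1 (b 0) = 1 := by linear_combination k1
  have hne : D 1 (b 0) ≠ 0 := by
    intro h0
    rw [h0, mul_zero] at h1
    exact zero_ne_one h1
  refine ⟨hne, ?_⟩
  have h2 : (x 0 1 - E 0 ^ 2) * D 0 (b 0) = b 0 := by linear_combination k0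
  linear_combination D 1 (b 0) * h2 - D 0 (b 0) * h1

/-- **formal core of RAT-2b**: two chains of the same length and with the same end lines. -/
theorem same_first (hc : ∀ f, D 0 (D 1 f) = D 1 (D 0 f)) (h : Chain D N b x E l)
    (h' : Chain D N b' x' E' l') (hN : 0 < N) (hE0 : E' 0 = E 0) (hl0 : l' 0 = l 0)
    (hEN : E' N = E N) (hlN : l' N = l N) (hS : ∀ j < N, E j ≠ E (j + 1))
    (hS' : ∀ j < N, E' j ≠ E' (j + 1))
    (hjac : ∀ i < N, ∀ j < N, i ≠ j → jac D (b i) (b j) ≠ 0)
    (hjac' : ∀ i < N, ∀ j < N, i ≠ j → jac D (b' i) (b' j) ≠ 0)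
    (h00 : D 0 (E 0 ^ 2) = 1) (h10 : D 1 (E 0 ^ 2) = 0) (l00 : D 0 (l 0) = 0)
    (l10 : D 1 (l 0) = 1)
    (disp : ∀ j < N, ∀ p : ℕ, ∃ δ : Derivation A k k, ∀ i < N, ∀ r,
      δ (x i r) - x i (r + 1) * δ (b i) = if i = j ∧ r = p then 1 else 0)
    (foc : ∀ j, 0 < j → j < N → D 1 (b j) ≠ 0 → jac D (D 0 (b j) / D 1 (b j)) (b j) ≠ 0) : b' 0 = b 0 := by
  classical
  have hm : ∀ j : Fin N, ∃ i : Fin N, jac D (b j) (b' i) = 0 := by
    intro j
    choose δ hδ using disp j j.2
    obtain ⟨i, hi, hij⟩ := match_mirror hc h h' hE0 hl0 hEN hlN hS hS' hjac' hN j.2 δ hδ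
    exact ⟨⟨i, hi⟩, hij⟩
  choose m hm using hm
  have hg' := first_grad h' hN (by rw [hE0]; exact h00) (by rw [hE0]; exact h10)
    (by rw [hl0]; exact l00) (by rw [hl0]; exact l10)
  have hg := first_grad h hN h00 h10 l00 l10
  have hinj : Function.Injective m := by
    intro j1 j2 hj
    by_contra hne
    have hgr : D 0 (b' (m j1)) ≠ 0 ∨ D 1 (b' (m j1)) ≠ 0 := by
      by_cases h0 : m j1 = ⟨0, hN⟩
      · right
        rw [h0]
        exact hg'.1
      · have := hjac' (m j1) (m j1).2 0 hN fun he => h0 (Fin.ext he)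
        by_contra hc'
        push Not at hc'
        apply this
        rw [jac, hc'.1, hc'.2, zero_mul, zero_mul, sub_zero]
    apply hjac j1 j1.2 j2 j2.2 fun he => hne (Fin.ext he)
    have e1 := hm j1
    have e2 := hm j2
    rw [← hj] at e2
    rw [jac] at e1 e2 ⊢
    rcases hgr with hgr | hgr
    · apply mul_left_cancel₀ hgr
      linear_combination D 0 (b j2) * e1 - D 0 (b j1) * e2
    · apply mul_left_cancel₀ hgr
      linear_combination D 1 (b j2) * e1 - D 1 (b j1) * e2
  obtain ⟨j, hj⟩ := (Finite.injective_iff_surjective.mp hinj) ⟨0, hN⟩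
  have e1 := hm j
  rw [hj] at e1
  have e2 : jac D (b j) (b' 0) = 0 := e1
  have hgj : D 0 (b j) ≠ 0 ∨ D 1 (b j) ≠ 0 := by
    by_cases h0 : (j : ℕ) = 0
    · right
      rw [h0]
      exact hg.1
    · have := hjac j j.2 0 hN h0
      by_contra hc'
      push Not at hc'
      apply this
      rw [jac, hc'.1, hc'.2, zero_mul, zero_mul, sub_zero]
  have hj1 : D 1 (b j) ≠ 0 := by
    intro h0
    rw [jac, h0, zero_mul, sub_zero] at e2
    rcases mul_eq_zero.mp e2 with h1 | h1
    · rcases hgj with h2 | h2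
      · exact h2 h1
      · exact h2 h0
    · exact hg'.1 h1
  have hq : b' 0 = D 0 (b j) / D 1 (b j) := by
    rw [eq_div_iff hj1]
    rw [jac, hg'.2] at e2
    apply mul_left_cancel₀ hg'.1
    linear_combination -e2
  by_cases h0 : (j : ℕ) = 0
  · rw [hq, h0, hg.2, mul_div_assoc, div_self hg.1, mul_one]
  · exfalso
    apply foc j (Nat.pos_of_ne_zero h0) j.2 hj1
    rw [← hq, jac_swap, e2, neg_zero]

/-! ## transport of chains -/

section Transport

variable {A' k' : Type*} [CommRing A'] [Field k'] [Algebra A' k'] {D' : Fin 2 → Derivation A' k' k'}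

theorem Chain.map (h : Chain D N b x E l) (φ : k →+* k') (hφ : ∀ i a, φ (D i a) = D' i (φ a)) :
    Chain D' N (fun j => φ (b j)) (fun j r => φ (x j r)) (fun j => φ (E j)) (fun j => φ (l j)) where
  dx j hj r i := by rw [← hφ, ← hφ, h.dx j hj r i, map_mul]
  l0 j hj := by rw [h.l0 j hj, map_add, map_mul, map_pow]
  l1 j hj := by rw [h.l1 j hj, map_add, map_mul, map_pow]
  re j hj := by rw [← h.re j hj, map_mul]
  ne j hj := by
    intro h0
    exact h.ne j hj ((map_eq_zero φ).mp h0)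

theorem jac_map (φ : k →+* k') (hφ : ∀ i a, φ (D i a) = D' i (φ a)) (f g : k) :
    φ (jac D f g) = jac D' (φ f) (φ g) := by
  rw [jac, jac, map_sub, map_mul, map_mul, hφ, hφ, hφ, hφ]

theorem Chain.comap {b : ℕ → k'} {x : ℕ → ℕ → k'} {E l : ℕ → k'} (h : Chain D' N b x E l)
    (φ : k →+* k') (hφ : ∀ i a, φ (D i a) = D' i (φ a)) {b0 : ℕ → k} {x0 : ℕ → ℕ → k}
    {E0 l0 : ℕ → k} (hb : ∀ j < N, φ (b0 j) = b j) (hx : ∀ j < N, ∀ r, φ (x0 j r) = x j r)
    (hE : ∀ j ≤ N, φ (E0 j) = E j) (hl : ∀ j ≤ N, φ (l0 j) = l j) : Chain D N b0 x0 E0 l0 where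
  dx j hj r i := by
    apply φ.injective
    rw [map_mul, hφ, hφ, hx j hj, hx j hj, hb j hj, h.dx j hj r i]
  l0 j hj := by
    apply φ.injective
    rw [map_add, map_mul, map_pow, hx j hj, hE j hj.le, hb j hj, hl j hj.le, h.l0 j hj]
  l1 j hj := by
    apply φ.injective
    rw [map_add, map_mul, map_pow, hx j hj, hE (j + 1) hj, hb j hj, hl (j + 1) hj, h.l1 j hj]
  re j hj := by
    apply φ.injective
    rw [map_mul, hx j hj, hE j hj.le, hE (j + 1) hj, h.re j hj]
  ne j hj := by
    intro h0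
    apply h.ne j hj
    rw [← hE j hj, h0, map_zero]

end Transport

/-! ## the theorem over an arbitrary field -/

section Final

variable {F M : Type*} [Field F] [Field M] [Algebra F M] [CharZero M]

/-- restriction of a derivation to a stable subfield -/
def resDer (K : IntermediateField F M) (d : Derivation F M M) (h : ∀ a ∈ K, d a ∈ K) :
    Derivation F K K :=
  Derivation.mk'
    { toFun := fun a => ⟨d a, h a a.2⟩
      map_add' := fun a c => Subtype.ext (map_add d (a : M) (c : M))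
      map_smul' := fun r a => Subtype.ext (Derivation.map_smul d r (a : M)) }
    fun a c => Subtype.ext (Derivation.leibniz d (a : M) (c : M))

theorem resDer_coe (K : IntermediateField F M) (d : Derivation F M M) (h : ∀ a ∈ K, d a ∈ K)
    (a : K) : ((resDer K d h a : K) : M) = d a := rfl

/-- **RAT-2b** (leaf R2e). -/
theorem rat2b (D : Fin 2 → Derivation F M M) (hc : ∀ f, D 0 (D 1 f) = D 1 (D 0 f)) {N : ℕ}
    {b : ℕ → M} {x : ℕ → ℕ → M} {E l : ℕ → M} (h : Chain D N b x E l) (hN : 0 < N)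
    (hS : ∀ j < N, E j ≠ E (j + 1))
    (hjac : ∀ i < N, ∀ j < N, i ≠ j → jac D (b i) (b j) ≠ 0)
    (h00 : D 0 (E 0 ^ 2) = 1) (h10 : D 1 (E 0 ^ 2) = 0) (l00 : D 0 (l 0) = 0)
    (l10 : D 1 (l 0) = 1)
    (disp : ∀ j < N, ∀ p : ℕ, ∃ δ : Derivation F M M, ∀ i < N, ∀ r,
      δ (x i r) - x i (r + 1) * δ (b i) = if i = j ∧ r = p then 1 else 0)
    (foc : ∀ j, 0 < j → j < N → D 1 (b j) ≠ 0 → jac D (D 0 (b j) / D 1 (b j)) (b j) ≠ 0)
    (K : IntermediateField F M) (hK : ∀ i, ∀ a ∈ K, D i a ∈ K)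
    (kE0 : E 0 ∈ K) (kl0 : l 0 ∈ K) (kEN : E N ∈ K) (klN : l N ∈ K)
    (ab : ∀ j < N, IsAlgebraic K (b j)) (ax : ∀ j < N, ∀ r, IsAlgebraic K (x j r))
    (aE : ∀ j ≤ N, IsAlgebraic K (E j)) (al : ∀ j ≤ N, IsAlgebraic K (l j)) : b 0 ∈ K := by
  classical
  let Ω := AlgebraicClosure M
  haveI : CharZero Ω := charZero_of_injective_algebraMap (algebraMap M Ω).injective
  let L := algebraicClosure K Ω
  let DΩ : Fin 2 → Derivation F Ω Ω := fun i => extDer (D i)
  have hDΩ : ∀ i a, algebraMap M Ω (D i a) = DΩ i (algebraMap M Ω a) := fun i a =>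
    (extDer_apply (D i) a).symm
  have hcΩ : ∀ f, DΩ 0 (DΩ 1 f) = DΩ 1 (DΩ 0 f) := by
    have h1 : ⁅DΩ 0, DΩ 1⁆ = (0 : Derivation F Ω Ω) := by
      apply der_unique (M := M)
      intro m
      rw [Derivation.commutator_apply, ← hDΩ, ← hDΩ, ← hDΩ, ← hDΩ, hc, sub_self]
      rfl
    intro f
    have h2 := congrArg (fun d : Derivation F Ω Ω => d f) h1
    simp only [Derivation.commutator_apply] at h2
    exact sub_eq_zero.mp h2
  let dK : Fin 2 → Derivation F K K := fun i => resDer K (D i) (hK i)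
  haveI : CharZero K := ⟨fun m n hmn => Nat.cast_injective (R := M) (by
    have := congrArg (algebraMap K M) hmn
    simpa using this)⟩
  haveI : Algebra.IsAlgebraic K L := algebraicClosure.isAlgebraic K Ω
  haveI : IsAlgClosure K L := algebraicClosure.isAlgClosure K Ω
  haveI : Normal K L := IsAlgClosure.normal K L
  haveI : IsGalois K L := ⟨⟩
  let φ : L →+* Ω := algebraMap L Ω
  haveI : IsScalarTower F L Ω := ⟨fun a y z => smul_mul_assoc a (y : Ω) z⟩
  let dL : Fin 2 → Derivation F L L := fun i => extDer (dK i)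
  have hdL0 : ∀ i (a : K), dL i (algebraMap K L a) = algebraMap K L (dK i a) := fun i a =>
    extDer_apply (dK i) a
  have hφK : ∀ a : K, φ (algebraMap K L a) = algebraMap M Ω (a : M) := fun a => rfl
  have hφ : ∀ i a, φ (dL i a) = DΩ i (φ a) := by
    intro i a
    have h1 : ((Algebra.linearMap L Ω).compDer (dL i) : Derivation F L Ω) =
        (DΩ i).compAlgebraMap L := by
      apply der_unique (M := K)
      intro m
      show φ (dL i (algebraMap K L m)) = DΩ i (φ (algebraMap K L m))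
      rw [hdL0, hφK, hφK, ← hDΩ]
      rfl
    exact congrArg (fun d : Derivation F L Ω => d a) h1
  have hτ : ∀ (τ : L ≃ₐ[K] L) i a, τ (dL i a) = dL i (τ a) := fun τ i a =>
    der_aut (dL i) τ (fun m => ⟨dK i m, hdL0 i m⟩) a
  -- lifts
  have hlift : ∀ a : M, IsAlgebraic K a → ∃ y : L, φ y = algebraMap M Ω a := by
    intro a ha
    exact ⟨⟨algebraMap M Ω a, mem_algebraicClosure_iff.mpr ha.algebraMap⟩, rfl⟩
  let lift : M → L := fun a => if h : IsAlgebraic K a then (hlift a h).choose else 0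
  have hl : ∀ a : M, IsAlgebraic K a → φ (lift a) = algebraMap M Ω a := by
    intro a ha
    show φ (if h : IsAlgebraic K a then (hlift a h).choose else 0) = _
    rw [dif_pos ha]
    exact (hlift a ha).choose_spec
  have hlK : ∀ (τ : L ≃ₐ[K] L) (a : M), a ∈ K → τ (lift a) = lift a := by
    intro τ a ha
    have h1 : lift a = algebraMap K L ⟨a, ha⟩ := by
      apply φ.injective
      rw [hl a (isAlgebraic_algebraMap (⟨a, ha⟩ : K)), hφK]
    rw [h1, AlgEquiv.commutes]
  have hΩ : Chain DΩ N (fun j => algebraMap M Ω (b j)) (fun j r => algebraMap M Ω (x j r))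
      (fun j => algebraMap M Ω (E j)) (fun j => algebraMap M Ω (l j)) :=
    h.map (algebraMap M Ω) hDΩ
  have hL : Chain dL N (fun j => lift (b j)) (fun j r => lift (x j r)) (fun j => lift (E j))
      (fun j => lift (l j)) :=
    hΩ.comap φ hφ (fun j hj => hl _ (ab j hj)) (fun j hj r => hl _ (ax j hj r))
      (fun j hj => hl _ (aE j hj)) (fun j hj => hl _ (al j hj))
  have key : ∀ τ : L ≃ₐ[K] L, τ (lift (b 0)) = lift (b 0) := by
    intro τ
    let ψ : L →+* Ω := φ.comp (τ : L →+* L)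
    have hψ : ∀ i a, ψ (dL i a) = DΩ i (ψ a) := by
      intro i a
      show φ (τ (dL i a)) = DΩ i (φ (τ a))
      rw [hτ, hφ]
    have h' := hL.map ψ hψ
    have hE' : ∀ a ∈ K, ψ (lift a) = algebraMap M Ω a := by
      intro a ha
      show φ (τ (lift a)) = _
      rw [hlK τ a ha, hl a (isAlgebraic_algebraMap (⟨a, ha⟩ : K))]
    have hb : ∀ j < N, φ (lift (b j)) = algebraMap M Ω (b j) := fun j hj => hl _ (ab j hj)
    have hSL : ∀ j < N, lift (E j) ≠ lift (E (j + 1)) := by
      intro j hj he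
      apply hS j hj
      apply (algebraMap M Ω).injective
      rw [← hl _ (aE j hj.le), ← hl _ (aE (j + 1) hj), he]
    have hjL : ∀ i < N, ∀ j < N, i ≠ j → jac dL (lift (b i)) (lift (b j)) ≠ 0 := by
      intro i hi j hj hij h0
      apply hjac i hi j hj hij
      apply (algebraMap M Ω).injective
      rw [jac_map (algebraMap M Ω) hDΩ, ← hb i hi, ← hb j hj, ← jac_map φ hφ, h0, map_zero,
        map_zero]
    have h1 := same_first hcΩ hΩ h' hN (hE' _ kE0) (hE' _ kl0) (hE' _ kEN) (hE' _ klN)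
      (fun j hj he => hS j hj ((algebraMap M Ω).injective he))
      (fun j hj he => hSL j hj (ψ.injective he))
      (by
        intro i hi j hj hij h0
        apply hjac i hi j hj hij
        apply (algebraMap M Ω).injective
        rw [jac_map (algebraMap M Ω) hDΩ, h0, map_zero])
      (by
        intro i hi j hj hij h0
        apply hjL i hi j hj hij
        apply ψ.injective
        rw [jac_map ψ hψ, h0, map_zero])
      (by rw [← map_pow, ← hDΩ, h00, map_one])
      (by rw [← map_pow, ← hDΩ, h10, map_zero])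
      (by rw [← hDΩ, l00, map_zero])
      (by rw [← hDΩ, l10, map_one])
      (by
        intro j hj p
        obtain ⟨δ, hδ⟩ := disp j hj p
        refine ⟨extDer δ, fun i hi r => ?_⟩
        rw [extDer_apply, extDer_apply, ← map_mul, ← map_sub, hδ i hi r]
        split_ifs <;> simp)
      (by
        intro j h0 hj h3 h2
        apply foc j h0 hj (fun h4 => h3 (by rw [← hDΩ, h4, map_zero]))
        apply (algebraMap M Ω).injective
        rw [jac_map (algebraMap M Ω) hDΩ, map_div₀, hDΩ, hDΩ, h2, map_zero])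
    apply φ.injective
    rw [hb 0 hN]
    exact h1
  obtain ⟨y, hy⟩ := (InfiniteGalois.mem_range_algebraMap_iff_fixed (lift (b 0))).mpr key
  have h3 : algebraMap M Ω (y : M) = algebraMap M Ω (b 0) := by
    rw [← hφK, hy, hl _ (ab 0 hN)]
  have h4 : (y : M) = b 0 := (algebraMap M Ω).injective h3
  rw [← h4]
  exact y.2

end Final

end Crest.Agent.R102.RAT554
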