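import Crest.Agent.R102.RatFinA_926
import Crest.Agent.R102.FreeAn_781

/-!
# Row 102, [H3], THEOREM (RAT): the field side (helper926): literal Props of R4 (389), RUN (58)

`M = FractionRing (Hol (WO c₀ ρ))`, `WO c₀ ρ = ball c₀ ρ × ball 0 ρ`.
-/

set_option autoImplicit false

open Set Filter Topology Metric TopologicalSpace

noncomputable section

namespace Crest.Agent.R102.RAT

open Crest.Agent.R102.H3 Crest.Agent.R102.Glue798 Crest.Agent.R102.Rat7217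
  Crest.Agent.R102.Free781

/-- the elements of `A` are rational functions of `z, g, g', …` -/
def Gen {c₀ : ℂ} {r : ℝ} (A : Subalgebra ℂ (Hol (bO c₀ r))) (G : Hol (bO c₀ r)) : Prop :=
  ∀ f ∈ A, ∃ u ∈ Algebra.adjoin ℂ (insert (zH (bO c₀ r)) (range fun n => (DH (bO c₀ r))^[n] G)),
    ∃ v ∈ Algebra.adjoin ℂ (insert (zH (bO c₀ r)) (range fun n => (DH (bO c₀ r))^[n] G)),
      v ≠ 0 ∧ v * f = u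

/-- square roots of the slopes -/
structure Sq (g : ℂ → ℂ) (c₀ : ℂ) (N : ℕ) (ρ : ℝ) (β m e : ℕ → ℂ × ℂ → ℂ) : Prop where
  an : ∀ i ≤ N, AnalyticOnNhd ℂ (e i) (ball c₀ ρ ×ˢ ball (0 : ℂ) ρ)
  sq : ∀ i ≤ N, ∀ x ∈ ball c₀ ρ ×ˢ ball (0 : ℂ) ρ, e i x ^ 2 = m i x
  refl : ∀ i < N, ∀ x ∈ ball c₀ ρ ×ˢ ball (0 : ℂ) ρ,
    e i x * e (i + 1) x = deriv g (x.1 + x.2 * β i x)

/-- the element of `FractionRing (Hol W)` given by a function -/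
def toM (W : Opens (ℂ × ℂ)) (F : ℂ × ℂ → ℂ) : FractionRing (Hol W) :=
  algebraMap (Hol W) (FractionRing (Hol W)) (toH W F)

/-- vertices, jets, lines -/
def bM (W : Opens (ℂ × ℂ)) (β : ℕ → ℂ × ℂ → ℂ) (j : ℕ) : FractionRing (Hol W) :=
  toM W fun x => x.1 + x.2 * β j x
def xM (W : Opens (ℂ × ℂ)) (g : ℂ → ℂ) (β : ℕ → ℂ × ℂ → ℂ) (j r : ℕ) : FractionRing (Hol W) :=
  toM W fun x => iteratedDeriv r g (x.1 + x.2 * β j x)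
def lM (W : Opens (ℂ × ℂ)) (e : ℕ → ℂ × ℂ → ℂ) (j : ℕ) : FractionRing (Hol W) := toM W (e j)

/-- the vertices lie in the disc -/
def InD (c₀ : ℂ) (r : ℝ) (N : ℕ) (ρ : ℝ) (β : ℕ → ℂ × ℂ → ℂ) : Prop :=
  ∀ x ∈ ball c₀ ρ ×ˢ ball (0 : ℂ) ρ, x.1 - x.2 ∈ ball c₀ r ∧
    ∀ j ≤ N, x.1 + x.2 * β j x ∈ ball c₀ r

/-- **R4** (389): RAT-1, `L` is algebraic over `K` -/
def R4Stmt : Prop :=
  ∀ (g : ℂ → ℂ) (c₀ : ℂ) (r : ℝ) (A : Subalgebra ℂ (Hol (bO c₀ r))) (G : Hol (bO c₀ r)),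
    FT g c₀ r A G → Gen A G → ∀ (N : ℕ) (ρ : ℝ) (β m k q q' e : ℕ → ℂ × ℂ → ℂ), 0 < N →
    F7389.Chain g c₀ N ρ β m k q q' → Sq g c₀ N ρ β m e → InD c₀ r N ρ β →
    ∀ [IsDomain (Hol (WO c₀ ρ))]
      (D₁ D₂ : Derivation ℂ (FractionRing (Hol (WO c₀ ρ))) (FractionRing (Hol (WO c₀ ρ)))),
      Dual (toH (WO c₀ ρ) (m 0)) (toH (WO c₀ ρ) (k 0)) D₁ D₂ →
      FChain D₁ D₂ N (bM (WO c₀ ρ) β) (xM (WO c₀ ρ) g β) (lM (WO c₀ ρ) e) (lM (WO c₀ ρ) k) →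
      ∀ f ∈ LL N (bM (WO c₀ ρ) β) (xM (WO c₀ ρ) g β) (lM (WO c₀ ρ) e) (lM (WO c₀ ρ) k),
        IsAlgebraic (KK D₁ D₂ N (lM (WO c₀ ρ) e) (lM (WO c₀ ρ) k)) f

/-- **RUN** (58) -/
def RunStmt : Prop :=
  ∀ (g : ℂ → ℂ) (c₀ : ℂ) (r : ℝ) (A : Subalgebra ℂ (Hol (bO c₀ r))) (G : Hol (bO c₀ r)),
    FT g c₀ r A G → Gen A G → ∀ (N : ℕ) (ρ₀ : ℝ) (β m k q q' e : ℕ → ℂ × ℂ → ℂ), 0 < N →
    F7389.Chain g c₀ (2 * N) ρ₀ β m k q q' → Sq g c₀ (2 * N) ρ₀ β m e →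
    InD c₀ r (2 * N) ρ₀ β → ∃ R > 0, R ≤ ρ₀ ∧ ∀ ρ, 0 < ρ → ρ ≤ R →
    ∀ [IsDomain (Hol (WO c₀ ρ))]
      (D₁ D₂ : Derivation ℂ (FractionRing (Hol (WO c₀ ρ))) (FractionRing (Hol (WO c₀ ρ)))),
      Dual (toH (WO c₀ ρ) (m 0)) (toH (WO c₀ ρ) (k 0)) D₁ D₂ →
      FChain D₁ D₂ (2 * N) (bM (WO c₀ ρ) β) (xM (WO c₀ ρ) g β) (lM (WO c₀ ρ) e)
        (lM (WO c₀ ρ) k) →
      (∀ f ∈ LL N (bM (WO c₀ ρ) β) (xM (WO c₀ ρ) g β) (lM (WO c₀ ρ) e) (lM (WO c₀ ρ) k),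
        IsAlgebraic (KK D₁ D₂ N (lM (WO c₀ ρ) e) (lM (WO c₀ ρ) k)) f) →
      bM (WO c₀ ρ) β 0 ∉ KK D₁ D₂ N (lM (WO c₀ ρ) e) (lM (WO c₀ ρ) k) →
      ∀ δ > 0, ∀ ρ', 0 < ρ' → ρ' < ρ → ∃ N', 0 < N' ∧ N' ≤ 2 * N ∧
        RunOut g c₀ A G N' ρ β m k δ ρ'

/-- **fchain** (798) -/
def FChainStmt : Prop :=
  ∀ (g : ℂ → ℂ) (c₀ : ℂ) (N : ℕ) (ρ : ℝ) (β m k q q' e : ℕ → ℂ × ℂ → ℂ),
    F7389.Chain g c₀ N ρ β m k q q' → Sq g c₀ N ρ β m e →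
    ∀ [IsDomain (Hol (WO c₀ ρ))]
      (D₁ D₂ : Derivation ℂ (FractionRing (Hol (WO c₀ ρ))) (FractionRing (Hol (WO c₀ ρ)))),
      Dual (toH (WO c₀ ρ) (m 0)) (toH (WO c₀ ρ) (k 0)) D₁ D₂ →
      FChain D₁ D₂ N (bM (WO c₀ ρ) β) (xM (WO c₀ ρ) g β) (lM (WO c₀ ρ) e) (lM (WO c₀ ρ) k)

end Crest.Agent.R102.RAT
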