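import Crest.Agent.R102.RATDefs3_926

/-!
# Row 102, [H3], THEOREM (RAT): the target (helper926), `RatGerm` of 217 with `2 N` vertices
-/

set_option autoImplicit false

open Set Filter Topology Metric TopologicalSpace

noncomputable section

namespace Crest.Agent.R102.RAT

open Crest.Agent.R102.H3 Crest.Agent.R102.Glue798 Crest.Agent.R102.Rat7217
  Crest.Agent.R102.Free781 Crest.Agent.R102.DF389

/-- conclusion of `RatGerm` -/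
def RGC (c₀ : ℂ) (N : ℕ) (ρ : ℝ) (m k : ℕ → ℂ × ℂ → ℂ) : Prop :=
  ∃ W : Opens (ℂ × ℂ), (W : Set (ℂ × ℂ)).Nonempty ∧ IsPreconnected (W : Set (ℂ × ℂ)) ∧
    (W : Set (ℂ × ℂ)) ⊆ ball c₀ ρ ×ˢ ball 0 ρ ∧ (∀ x ∈ W, x.2 ≠ 0) ∧
    ∃ E0 k0 EN kN b0 : Hol W,
      (∀ x : W, (E0 : W → ℂ) x ^ 2 = m 0 x ∧ (EN : W → ℂ) x ^ 2 = m N x ∧
        (k0 : W → ℂ) x = k 0 x ∧ (kN : W → ℂ) x = k N x ∧
        (b0 : W → ℂ) x = (x : ℂ × ℂ).1 + (x : ℂ × ℂ).2) ∧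
      ∀ (M : Type) [Field M] [Algebra ℂ M] [Algebra (Hol W) M] [IsScalarTower ℂ (Hol W) M]
        [IsFractionRing (Hol W) M] (D₁ D₂ : Derivation ℂ M M),
        Dual (E0 ^ 2) k0 D₁ D₂ →
        algebraMap (Hol W) M b0 ∈ dfield ![D₁, D₂]
          {algebraMap (Hol W) M E0, algebraMap (Hol W) M k0, algebraMap (Hol W) M EN,
            algebraMap (Hol W) M kN}

/-- **target of the chain side** (a chain with `2 N` vertices is given) -/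
def RatGerm2 : Prop :=
  ∀ (g : ℂ → ℂ) (c₀ : ℂ) (N : ℕ) (ρ : ℝ) (β m k q q' : ℕ → ℂ × ℂ → ℂ), 0 < N →
    F7389.Chain g c₀ (2 * N) ρ β m k q q' → ¬ AlgGerm g c₀ → RGC c₀ N ρ m k

/-- RAT-INF (201) -/
def RatInfStmt : Prop :=
  ∀ (g : ℂ → ℂ) (c₀ : ℂ) (N : ℕ) (ρ : ℝ) (β m k q q' : ℕ → ℂ × ℂ → ℂ), 0 < N →
    F7389.Chain g c₀ (2 * N) ρ β m k q q' → DiffTr g c₀ → RGC c₀ N ρ m k

/-- RAT-FIN (926) -/
def RatFinStmt : Prop :=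
  ∀ (g : ℂ → ℂ) (c₀ : ℂ) (N : ℕ) (ρ : ℝ) (β m k q q' : ℕ → ℂ × ℂ → ℂ), 0 < N →
    F7389.Chain g c₀ (2 * N) ρ β m k q q' → ¬ DiffTr g c₀ → ¬ AlgGerm g c₀ → RGC c₀ N ρ m k

theorem ratGerm2_of (h1 : RatInfStmt) (h2 : RatFinStmt) : RatGerm2 := by
  intro g c₀ N ρ β m k q q' hN hC hna
  by_cases h : DiffTr g c₀
  · exact h1 g c₀ N ρ β m k q q' hN hC h
  · exact h2 g c₀ N ρ β m k q q' hN hC h hna

end Crest.Agent.R102.RAT
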