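import Crest.Agent.R102.MelA_231

/-!
# T5 MEL: limits of the chord slope, common part (helper231)
-/

set_option autoImplicit false

open Set Filter Topology Metric MeasureTheory
open scoped ComplexConjugate

noncomputable section

namespace Crest.Agent.R102.Mel

open Crest.Agent.R102.T5R Crest.Agent.R102.Mel231 Crest.Agent.R102.T5R.L4346

variable {κ c β C : ℝ} {q : ℂ → ℂ}

/-- arc bound -/
theorem arc_bound (h : EndQ κ c β C q) {e : ℂ} (he : ‖e‖ = 1) (hei : e.im < κ) :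
    ‖q (((1 / 2 : ℝ) : ℂ) * e) - q (((1 / 2 : ℝ) : ℂ) * (-Complex.I))‖ ≤ Real.pi * (|c| + C) := by
  have hC := C_nonneg h
  set φ : ℝ := Complex.arg (Complex.I * e) with hφ
  have hφ1 : |φ| ≤ Real.pi := Complex.abs_arg_le_pi _
  set f : ℝ → ℂ := fun s => ((1 / 2 : ℝ) : ℂ) * (-Complex.I * Complex.exp (s * (φ * Complex.I)))
    with hf
  have hexp1 : Complex.exp (φ * Complex.I) = Complex.I * e := by
    have h1 := Complex.norm_mul_exp_arg_mul_I (Complex.I * e)
    rw [norm_mul, Complex.norm_I, he] at h1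
    simpa using h1
  have hcos1 : Real.cos φ = -e.im := by
    have h1 := congrArg Complex.re hexp1
    rw [Complex.exp_ofReal_mul_I_re] at h1
    rw [h1]; simp
  have hf1 : f 1 = ((1 / 2 : ℝ) : ℂ) * e := by
    simp only [hf, Complex.ofReal_one, one_mul]
    rw [hexp1]
    congr 1
    linear_combination (-e) * Complex.I_mul_I
  have hf0 : f 0 = ((1 / 2 : ℝ) : ℂ) * (-Complex.I) := by
    simp [hf]
  have hnorm : ∀ s : ℝ, ‖f s‖ = 1 / 2 := by
    intro s
    have h1 : (s : ℂ) * (φ * Complex.I) = ((s * φ : ℝ) : ℂ) * Complex.I := by push_cast; ring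
    simp only [hf]
    rw [norm_mul, norm_mul, norm_neg, Complex.norm_I, h1, Complex.norm_exp_ofReal_mul_I,
      Complex.norm_real]
    norm_num
  have him : ∀ s : ℝ, (f s).im = -(1 / 2) * Real.cos (s * φ) := by
    intro s
    have h1 : (s : ℂ) * (φ * Complex.I) = ((s * φ : ℝ) : ℂ) * Complex.I := by push_cast; ring
    simp only [hf]
    rw [h1, Complex.im_ofReal_mul, neg_mul, Complex.neg_im, Complex.I_mul_im,
      Complex.exp_ofReal_mul_I_re]
    ring
  have hmem : ∀ s ∈ Icc (0 : ℝ) 1, f s ∈ Sg κ := by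
    intro s hs
    refine ⟨?_, ?_, ?_⟩
    · intro h0
      have := hnorm s
      rw [h0] at this
      norm_num at this
    · rw [hnorm]; norm_num
    · rw [hnorm, him]
      have h1 : Real.cos φ ≤ Real.cos (s * φ) := by
        rw [← Real.cos_abs φ, ← Real.cos_abs (s * φ)]
        apply Real.cos_le_cos_of_nonneg_of_le_pi (abs_nonneg _) hφ1
        rw [abs_mul, abs_of_nonneg hs.1]
        exact mul_le_of_le_one_left (abs_nonneg _) hs.2
      rw [hcos1] at h1
      linarith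
  have hder : ∀ s : ℝ, HasDerivAt f (f s * (φ * Complex.I)) s := by
    intro s
    have h1 : HasDerivAt (fun s : ℝ => (s : ℂ) * (φ * Complex.I)) (φ * Complex.I) s := by
      simpa using ((hasDerivAt_id s).ofReal_comp).mul_const (φ * Complex.I)
    refine ((h1.cexp.const_mul (-Complex.I)).const_mul (((1 / 2 : ℝ) : ℂ))).congr_deriv ?_
    simp only [hf]
    ring
  have key := norm_image_sub_le_of_norm_deriv_le_segment_01' (f := fun s : ℝ => q (f s))
    (f' := fun s => deriv q (f s) * (f s * (φ * Complex.I))) (C := Real.pi * (|c| + C))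
    (fun s hs => ?_) (fun s hs => ?_)
  · simp only [hf1, hf0] at key
    exact key
  · have h1 : HasDerivAt q (deriv q (f s)) (f s) :=
      (h.diff.differentiableAt ((isOpen_Sg κ).mem_nhds (hmem s hs))).hasDerivAt
    exact (HasDerivAt.comp s h1 (hder s)).hasDerivWithinAt
  · have h1 := norm_deriv_le h (hmem s ⟨hs.1, hs.2.le⟩)
    rw [hnorm] at h1
    rw [norm_mul, norm_mul (f s), norm_mul (φ : ℂ), Complex.norm_I, Complex.norm_real, hnorm,
      mul_one, Real.norm_eq_abs]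
    calc ‖deriv q (f s)‖ * (1 / 2 * |φ|) ≤ ((|c| + C) / (1 / 2)) * (1 / 2 * Real.pi) := by
          have : 0 ≤ (|c| + C) / (1 / 2) := by positivity
          gcongr
      _ = Real.pi * (|c| + C) := by ring

/-- growth of `exp q` on the whole sector -/
theorem exp_q_bound (h : EndQ κ c β C q) :
    ∃ K : ℝ, 0 < K ∧ ∀ x ∈ Sg κ, ‖x‖ ≤ 1 / 2 → ‖Complex.exp (q x)‖ ≤ K * ‖x‖ ^ c := by
  have hC := C_nonneg h
  set K0 : ℝ := (q (((1 / 2 : ℝ) : ℂ) * (-Complex.I))).re + Real.pi * (|c| + C) -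
    c * Real.log (1 / 2) + C / β * (1 / 2) ^ β with hK0
  refine ⟨Real.exp K0, Real.exp_pos _, fun x hx hx2 => ?_⟩
  have hx0 : 0 < ‖x‖ := norm_pos_iff.2 hx.1
  have hxc : (‖x‖ : ℂ) ≠ 0 := by exact_mod_cast hx0.ne'
  set e : ℂ := x / ‖x‖ with he
  have hen : ‖e‖ = 1 := by
    rw [he, norm_div, Complex.norm_real, norm_norm, div_self hx0.ne']
  have hei : e.im < κ := by
    rw [he, Complex.div_ofReal_im, div_lt_iff₀ hx0]
    exact hx.2.2
  have hxe : (‖x‖ : ℂ) * e = x := by rw [he]; field_simp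
  have h1 := radial h hen hei hx0 hx2 (by norm_num)
  have h2 := arc_bound h hen hei
  rw [hxe] at h1
  have h3 := (abs_le.1 ((Complex.abs_re_le_norm _).trans h1)).1
  have h4 := (abs_le.1 ((Complex.abs_re_le_norm _).trans h2)).2
  simp only [Complex.sub_re, Complex.re_ofReal_mul, Complex.ofReal_re] at h3 h4
  have h5 : (q x).re ≤ K0 + c * Real.log ‖x‖ := by
    rw [hK0]
    linarith
  rw [Complex.norm_exp]
  calc Real.exp (q x).re ≤ Real.exp (K0 + c * Real.log ‖x‖) := Real.exp_le_exp.2 h5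
    _ = Real.exp K0 * ‖x‖ ^ c := by
        rw [Real.exp_add, Real.rpow_def_of_pos hx0, mul_comm c]

/-! ### The segment -/

theorem pow_bound' (β : ℝ) {r1 r2 t : ℝ} (h1 : 0 < r1) (h2 : r1 ≤ t) (h3 : t ≤ r2) :
    t ^ (β - 1) ≤ r1 ^ (β - 1) + r2 ^ (β - 1) := by
  have hr2 : 0 < r2 := h1.trans_le (h2.trans h3)
  rcases le_or_gt 0 (β - 1) with h | h
  · have := Real.rpow_le_rpow (h1.trans_le h2).le h3 h
    have h4 := Real.rpow_nonneg h1.le (β - 1)
    linarith
  · have := Real.rpow_le_rpow_of_nonpos h1 h2 h.le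
    have h4 := Real.rpow_nonneg hr2.le (β - 1)
    linarith

theorem seg_slit {x y : ℂ} (hx : x ≠ 0) (h : ∀ u ∈ Icc (0 : ℝ) 1, x + u * (y - x) ≠ 0) :
    ∀ u ∈ Icc (0 : ℝ) 1, (x + u * (y - x)) / x ∈ Complex.slitPlane := by
  intro u hu
  by_contra hn
  rw [Complex.mem_slitPlane_iff, not_or, not_lt, not_not] at hn
  obtain ⟨h1, h2⟩ := hn
  set r : ℝ := -((x + u * (y - x)) / x).re with hr
  have hr0 : 0 ≤ r := by rw [hr]; linarith
  have h3 : (x + u * (y - x)) / x = -(r : ℂ) := by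
    apply Complex.ext
    · simp [hr]
    · simp [h2]
  have h4 : x + u * (y - x) = -(r : ℂ) * x := by rw [← h3]; field_simp
  have hr1 : (1 + (r : ℂ)) ≠ 0 := by
    have : (1 + r : ℝ) ≠ 0 := by positivity
    exact_mod_cast this
  apply h (u / (1 + r)) ⟨div_nonneg hu.1 (by linarith), by
    rw [div_le_one (by linarith)]; linarith [hu.2]⟩
  push_cast
  have h5 : (u : ℂ) * (y - x) = -((1 + r) * x) := by linear_combination h4
  field_simp
  linear_combination h5

/-- the data of a chord: `q z_u - q x = c Λ u + L u` -/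
structure Chord (κ c : ℝ) (q : ℂ → ℂ) (N l : ℝ) (x y : ℂ) (Λ L : ℝ → ℂ) : Prop where
  Λ_exp : ∀ u ∈ Icc (0 : ℝ) 1, Complex.exp (Λ u) = (x + u * (y - x)) / x
  Λ_zero : Λ 0 = 0
  Λ_der : ∀ u ∈ Icc (0 : ℝ) 1, HasDerivAt Λ ((y - x) / (x + u * (y - x))) u
  L_bd : ∀ u ∈ Icc (0 : ℝ) 1, ‖L u‖ ≤ l
  dec : ∀ u ∈ Icc (0 : ℝ) 1, q (x + u * (y - x)) - q x = c * Λ u + L u
  contQ : ContinuousOn (fun u : ℝ => q (x + u * (y - x))) (Icc 0 1)
  contL : ContinuousOn L (Icc 0 1)

theorem exists_chord (h : EndQ κ c β C q) {N : ℝ} (hN : 1 ≤ N) {x y : ℂ} (hA : Adm κ N x y) :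
    ∃ Λ L : ℝ → ℂ, Chord κ c q N
      (C * ((1 / N) ^ (β - 1) + N ^ (β - 1)) * (N + 1) * ‖x‖ ^ β) x y Λ L := by
  have hC := C_nonneg h
  have hseg : ∀ u ∈ Icc (0 : ℝ) 1, x + u * (y - x) ∈ Sg κ := fun u hu => (hA u hu).1
  have hx : x ∈ Sg κ := by
    have := hseg 0 ⟨le_rfl, zero_le_one⟩
    simpa using this
  have hx0 : 0 < ‖x‖ := norm_pos_iff.2 hx.1
  have hy : ‖y‖ ≤ N * ‖x‖ := by
    have := (hA 1 ⟨zero_le_one, le_rfl⟩).2.2
    simpa using this
  have hyx : ‖y - x‖ ≤ (N + 1) * ‖x‖ := by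
    have := norm_sub_le y x
    linarith
  have hslit := seg_slit hx.1 (fun u hu => (hseg u hu).1)
  set Λ : ℝ → ℂ := fun u => Complex.log ((x + u * (y - x)) / x) with hΛ
  have hΛd : ∀ u ∈ Icc (0 : ℝ) 1, HasDerivAt Λ ((y - x) / (x + u * (y - x))) u := by
    intro u hu
    have h1 : HasDerivAt (fun u : ℝ => (x + u * (y - x)) / x) ((y - x) / x) u := by
      have h2 : HasDerivAt (fun u : ℝ => (u : ℂ) * (y - x)) (y - x) u := by
        simpa using ((hasDerivAt_id u).ofReal_comp).mul_const (y - x)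
      exact (h2.const_add x).div_const x
    refine (h1.clog_real (hslit u hu)).congr_deriv ?_
    have := (hseg u hu).1
    have := hx.1
    field_simp
  set L : ℝ → ℂ := fun u => q (x + u * (y - x)) - q x - c * Λ u with hL
  have hqc := exp_gg_cont h.diff hseg
  have hLd : ∀ u ∈ Icc (0 : ℝ) 1, HasDerivAt L
      ((deriv q (x + u * (y - x)) - c / (x + u * (y - x))) * (y - x)) u := by
    intro u hu
    have h1 : HasDerivAt q (deriv q (x + u * (y - x))) (x + u * (y - x)) :=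
      (h.diff.differentiableAt ((isOpen_Sg κ).mem_nhds (hseg u hu))).hasDerivAt
    have h2 : HasDerivAt (fun u : ℝ => x + (u : ℂ) * (y - x)) (y - x) u := by
      have h2 : HasDerivAt (fun u : ℝ => (u : ℂ) * (y - x)) (y - x) u := by
        simpa using ((hasDerivAt_id u).ofReal_comp).mul_const (y - x)
      exact h2.const_add x
    have h3 : HasDerivAt (fun u : ℝ => q (x + u * (y - x))) (deriv q (x + u * (y - x)) * (y - x)) u :=
      HasDerivAt.comp_of_eq u h1 h2 rfl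
    refine ((h3.sub_const (q x)).sub ((hΛd u hu).const_mul (c : ℂ))).congr_deriv ?_
    ring
  have hL0 : L 0 = 0 := by
    simp [hL, hΛ, hx.1]
  have hbd : ∀ u ∈ Icc (0 : ℝ) 1, ‖(deriv q (x + u * (y - x)) - c / (x + u * (y - x))) * (y - x)‖ ≤
      C * ((1 / N) ^ (β - 1) + N ^ (β - 1)) * (N + 1) * ‖x‖ ^ β := by
    intro u hu
    have h1 := h.asym _ (hseg u hu)
    obtain ⟨_, h2, h3⟩ := hA u hu
    have h4 : ‖x‖ / N ≤ ‖x + u * (y - x)‖ := by
      rw [div_le_iff₀ (by linarith)]; linarith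
    have h5 := pow_bound' β (show 0 < ‖x‖ / N by positivity) h4 h3
    have h6 : (‖x‖ / N) ^ (β - 1) + (N * ‖x‖) ^ (β - 1) =
        ((1 / N) ^ (β - 1) + N ^ (β - 1)) * ‖x‖ ^ (β - 1) := by
      rw [show ‖x‖ / N = (1 / N) * ‖x‖ by ring, Real.mul_rpow (by positivity) hx0.le,
        Real.mul_rpow (by positivity) hx0.le]
      ring
    have h7 : ‖x‖ ^ (β - 1) * ‖x‖ = ‖x‖ ^ β := by
      rw [Real.rpow_sub_one hx0.ne']; field_simp
    have h8 : 0 ≤ ‖x‖ ^ (β - 1) := Real.rpow_nonneg hx0.le _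
    have h9 : 0 ≤ (1 / N) ^ (β - 1) + N ^ (β - 1) :=
      add_nonneg (Real.rpow_nonneg (by positivity) _) (Real.rpow_nonneg (by positivity) _)
    rw [norm_mul]
    calc ‖deriv q (x + u * (y - x)) - c / (x + u * (y - x))‖ * ‖y - x‖
        ≤ (C * ‖x + u * (y - x)‖ ^ (β - 1)) * ((N + 1) * ‖x‖) := by gcongr
      _ ≤ (C * (((1 / N) ^ (β - 1) + N ^ (β - 1)) * ‖x‖ ^ (β - 1))) * ((N + 1) * ‖x‖) := by
          rw [h6] at h5
          gcongr
      _ = C * ((1 / N) ^ (β - 1) + N ^ (β - 1)) * (N + 1) * (‖x‖ ^ (β - 1) * ‖x‖) := by ring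
      _ = _ := by rw [h7]
  refine ⟨Λ, L, ?_, ?_, hΛd, ?_, ?_, hqc, ?_⟩
  · intro u hu
    simp only [hΛ]
    rw [Complex.exp_log (Complex.slitPlane_ne_zero (hslit u hu))]
  · simp [hΛ, hx.1]
  · intro u hu
    have key := norm_image_sub_le_of_norm_deriv_le_segment' (f := L)
      (f' := fun u : ℝ => (deriv q (x + u * (y - x)) - c / (x + u * (y - x))) * (y - x)) (a := 0)
      (b := 1) (C := C * ((1 / N) ^ (β - 1) + N ^ (β - 1)) * (N + 1) * ‖x‖ ^ β)
      (fun s hs => (hLd s hs).hasDerivWithinAt) (fun s hs => hbd s ⟨hs.1, hs.2.le⟩) u hu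
    rw [hL0, sub_zero, sub_zero] at key
    refine key.trans ?_
    have h0 : 0 ≤ C * ((1 / N) ^ (β - 1) + N ^ (β - 1)) * (N + 1) * ‖x‖ ^ β :=
      (norm_nonneg _).trans (hbd u hu)
    exact mul_le_of_le_one_right h0 hu.2
  · intro u hu
    simp only [hL]
    ring
  · exact fun u hu => (hLd u hu).continuousAt.continuousWithinAt

end Crest.Agent.R102.Mel
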