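import Crest.Agent.R102.RLimI_231

/-!
# T5 MEL: leaf ML-LF (`RLimF`) (helper231)
-/

set_option autoImplicit false

open Set Filter Topology Metric MeasureTheory
open scoped ComplexConjugate

noncomputable section

namespace Crest.Agent.R102.Mel

open Crest.Agent.R102.T5R Crest.Agent.R102.Mel231 Crest.Agent.R102.T5R.L4346

/-- the perturbation lemma for the slope of a small chord -/
theorem core {A k : ℝ} {w w0 θ θ0 : ℝ → ℂ} {η P0 j : ℂ} (hA : 1 ≤ A) (hj : ‖j‖ = 1)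
    (cw : ContinuousOn w (Icc 0 1)) (cw0 : ContinuousOn w0 (Icc 0 1))
    (cθ : ContinuousOn θ (Icc 0 1)) (cθ0 : ContinuousOn θ0 (Icc 0 1))
    (b1 : ∀ s ∈ Icc (0 : ℝ) 1, ‖w s - w0 s‖ ≤ k * A)
    (b2 : ∀ s ∈ Icc (0 : ℝ) 1, ‖θ s - θ0 s‖ ≤ k * A)
    (b3 : ∀ s ∈ Icc (0 : ℝ) 1, ‖w0 s‖ ≤ A)
    (b4 : ∀ s ∈ Icc (0 : ℝ) 1, ‖θ0 s‖ ≤ A) (hk : 0 ≤ k) (hk1 : k ≤ 1)
    (hη : 2 * A * ‖η‖ ≤ 1)
    (i0 : (∫ s in (0 : ℝ)..1, w0 s) = P0) (i1 : (∫ s in (0 : ℝ)..1, w0 s * θ0 s) = P0 / 2)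
    (hP : 1 / A ≤ ‖P0‖) (hs : k * A + 8 * A ^ 2 * ‖η‖ ≤ 1 / (2 * A)) :
    (∫ s in (0 : ℝ)..1, w s * Complex.exp (j * (η * θ s))) ≠ 0 ∧
    (∫ s in (0 : ℝ)..1, w s * Complex.exp (-j * (η * θ s))) ≠ 0 ∧
    ‖(∫ s in (0 : ℝ)..1, w s * Complex.exp (j * (η * θ s))) /
      (∫ s in (0 : ℝ)..1, w s * Complex.exp (-j * (η * θ s))) - 1 - j * η‖ ≤
      2 * A * ‖η‖ * (24 * A ^ 3 * ‖η‖ + 7 * A ^ 2 * k) := by
  have hI : uIcc (0 : ℝ) 1 = Icc 0 1 := uIcc_of_le zero_le_one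
  have hA0 : 0 < A := by linarith
  have bw : ∀ s ∈ Icc (0 : ℝ) 1, ‖w s‖ ≤ 2 * A := by
    intro s hs
    have h1 := norm_add_le (w s - w0 s) (w0 s)
    rw [sub_add_cancel] at h1
    have := b1 s hs
    have := b3 s hs
    nlinarith
  have bθ : ∀ s ∈ Icc (0 : ℝ) 1, ‖θ s‖ ≤ 2 * A := by
    intro s hs
    have h1 := norm_add_le (θ s - θ0 s) (θ0 s)
    rw [sub_add_cancel] at h1
    have := b2 s hs
    have := b4 s hs
    nlinarith
  have bz : ∀ i : ℂ, ‖i‖ = 1 → ∀ s ∈ Icc (0 : ℝ) 1, ‖i * (η * θ s)‖ ≤ 2 * A * ‖η‖ := by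
    intro i hi s hs
    rw [norm_mul, norm_mul, hi, one_mul, mul_comm]
    have := bθ s hs
    gcongr
  have cexp : ∀ i : ℂ, ContinuousOn (fun s => w s * Complex.exp (i * (η * θ s))) (Icc 0 1) :=
    fun i => cw.mul (Complex.continuous_exp.comp_continuousOn
      (continuousOn_const.mul (continuousOn_const.mul cθ)))
  -- each integral is near `P0`
  have near : ∀ i : ℂ, ‖i‖ = 1 →
      ‖(∫ s in (0 : ℝ)..1, w s * Complex.exp (i * (η * θ s))) - P0‖ ≤ k * A + 8 * A ^ 2 * ‖η‖ := by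
    intro i hi
    rw [← i0]
    refine int_near (cexp i) cw0 ?_
    intro s hs
    have e1 : w s * Complex.exp (i * (η * θ s)) - w0 s =
        (w s - w0 s) + w s * (Complex.exp (i * (η * θ s)) - 1) := by ring
    rw [e1]
    refine (norm_add_le _ _).trans ?_
    rw [norm_mul]
    have h1 := bz i hi s hs
    have h2 := Complex.norm_exp_sub_one_le (h1.trans hη)
    have h3 : ‖w s‖ * ‖Complex.exp (i * (η * θ s)) - 1‖ ≤ (2 * A) * (2 * (2 * A * ‖η‖)) := by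
      have := bw s hs
      have h4 : ‖Complex.exp (i * (η * θ s)) - 1‖ ≤ 2 * (2 * A * ‖η‖) := by linarith
      gcongr
    have := b1 s hs
    nlinarith
  have lower : ∀ i : ℂ, ‖i‖ = 1 →
      1 / (2 * A) ≤ ‖∫ s in (0 : ℝ)..1, w s * Complex.exp (i * (η * θ s))‖ := by
    intro i hi
    have h1 := near i hi
    have h2 := norm_sub_norm_le P0 (∫ s in (0 : ℝ)..1, w s * Complex.exp (i * (η * θ s)))
    rw [norm_sub_rev] at h2
    have h3 : 1 / A = 1 / (2 * A) + 1 / (2 * A) := by field_simp; ring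
    linarith
  have hpos : 0 < 1 / (2 * A) := by positivity
  have hj' : ‖-j‖ = 1 := by rw [norm_neg, hj]
  have n1 : (∫ s in (0 : ℝ)..1, w s * Complex.exp (j * (η * θ s))) ≠ 0 :=
    norm_pos_iff.1 (hpos.trans_le (lower j hj))
  have n2 : (∫ s in (0 : ℝ)..1, w s * Complex.exp (-j * (η * θ s))) ≠ 0 :=
    norm_pos_iff.1 (hpos.trans_le (lower (-j) hj'))
  refine ⟨n1, n2, ?_⟩
  set P1 := ∫ s in (0 : ℝ)..1, w s * Complex.exp (j * (η * θ s)) with hP1
  set P2 := ∫ s in (0 : ℝ)..1, w s * Complex.exp (-j * (η * θ s)) with hP2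
  have ii : ∀ i : ℂ, IntervalIntegrable (fun s => w s * Complex.exp (i * (η * θ s))) volume 0 1 :=
    fun i => ContinuousOn.intervalIntegrable (by rw [hI]; exact cexp i)
  have iwθ : IntervalIntegrable (fun s => w s * θ s) volume 0 1 :=
    ContinuousOn.intervalIntegrable (by rw [hI]; exact cw.mul cθ)
  -- first piece
  have p1 : ‖P1 - P2 - 2 * j * η * ∫ s in (0 : ℝ)..1, w s * θ s‖ ≤ 16 * A ^ 3 * ‖η‖ ^ 2 := by
    rw [hP1, hP2, ← intervalIntegral.integral_const_mul, ← intervalIntegral.integral_sub (ii j)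
      (ii (-j)), ← intervalIntegral.integral_sub ((ii j).sub (ii (-j))) (iwθ.const_mul _)]
    have := intervalIntegral.norm_integral_le_of_norm_le_const
      (f := fun s => w s * Complex.exp (j * (η * θ s)) - w s * Complex.exp (-j * (η * θ s)) -
        2 * j * η * (w s * θ s)) (a := 0) (b := 1) (C := 16 * A ^ 3 * ‖η‖ ^ 2) (fun s hs => ?_)
    · simpa using this
    · rw [uIoc_of_le zero_le_one] at hs
      have hs' : s ∈ Icc (0 : ℝ) 1 := ⟨hs.1.le, hs.2⟩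
      have e1 : w s * Complex.exp (j * (η * θ s)) - w s * Complex.exp (-j * (η * θ s)) -
          2 * j * η * (w s * θ s) = w s * ((Complex.exp (j * (η * θ s)) - 1 - j * (η * θ s)) -
          (Complex.exp (-j * (η * θ s)) - 1 - -j * (η * θ s))) := by ring
      rw [e1, norm_mul]
      have h1 := bz j hj s hs'
      have h2 := bz (-j) hj' s hs'
      have h3 := Complex.norm_exp_sub_one_sub_id_le (h1.trans hη)
      have h4 := Complex.norm_exp_sub_one_sub_id_le (h2.trans hη)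
      have h5 := norm_sub_le (Complex.exp (j * (η * θ s)) - 1 - j * (η * θ s))
        (Complex.exp (-j * (η * θ s)) - 1 - -j * (η * θ s))
      have h6 : ‖j * (η * θ s)‖ ^ 2 ≤ (2 * A * ‖η‖) ^ 2 := by gcongr
      have h7 : ‖-j * (η * θ s)‖ ^ 2 ≤ (2 * A * ‖η‖) ^ 2 := by gcongr
      have h8 := bw s hs'
      calc ‖w s‖ * _ ≤ (2 * A) * ((2 * A * ‖η‖) ^ 2 + (2 * A * ‖η‖) ^ 2) := by
            gcongr
            linarith
        _ = 16 * A ^ 3 * ‖η‖ ^ 2 := by ring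
  -- second piece
  have p2 : ‖(∫ s in (0 : ℝ)..1, w s * θ s) - P0 / 2‖ ≤ 3 * A ^ 2 * k := by
    rw [← i1]
    refine int_near (cw.mul cθ) (cw0.mul cθ0) ?_
    intro s hs
    have e1 : w s * θ s - w0 s * θ0 s = (w s - w0 s) * θ s + w0 s * (θ s - θ0 s) := by ring
    rw [e1]
    refine (norm_add_le _ _).trans ?_
    rw [norm_mul, norm_mul]
    have h1 := b1 s hs
    have h2 := b2 s hs
    have h3 := b3 s hs
    have h4 := bθ s hs
    calc ‖w s - w0 s‖ * ‖θ s‖ + ‖w0 s‖ * ‖θ s - θ0 s‖ ≤ (k * A) * (2 * A) + A * (k * A) := by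
          gcongr
      _ = 3 * A ^ 2 * k := by ring
  have p3 := near (-j) hj'
  rw [← hP2] at p3
  have e2 : P1 / P2 - 1 - j * η = ((P1 - P2 - 2 * j * η * ∫ s in (0 : ℝ)..1, w s * θ s) +
      2 * j * η * ((∫ s in (0 : ℝ)..1, w s * θ s) - P0 / 2) - j * η * (P2 - P0)) / P2 := by
    field_simp
    ring
  have hη0 := norm_nonneg η
  have hnum : ‖(P1 - P2 - 2 * j * η * ∫ s in (0 : ℝ)..1, w s * θ s) +
      2 * j * η * ((∫ s in (0 : ℝ)..1, w s * θ s) - P0 / 2) - j * η * (P2 - P0)‖ ≤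
      ‖η‖ * (24 * A ^ 3 * ‖η‖ + 7 * A ^ 2 * k) := by
    refine (norm_sub_le _ _).trans ?_
    have h1 := norm_add_le (P1 - P2 - 2 * j * η * ∫ s in (0 : ℝ)..1, w s * θ s)
      (2 * j * η * ((∫ s in (0 : ℝ)..1, w s * θ s) - P0 / 2))
    have h2 : ‖2 * j * η * ((∫ s in (0 : ℝ)..1, w s * θ s) - P0 / 2)‖ ≤
        2 * ‖η‖ * (3 * A ^ 2 * k) := by
      rw [norm_mul, norm_mul, norm_mul, hj, Complex.norm_ofNat, mul_one]
      gcongr
    have h3 : ‖j * η * (P2 - P0)‖ ≤ ‖η‖ * (k * A + 8 * A ^ 2 * ‖η‖) := by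
      rw [norm_mul, norm_mul, hj, one_mul]
      gcongr
    have h4 : k * A ≤ A ^ 2 * k := by
      have : A ≤ A ^ 2 := by nlinarith
      nlinarith
    have h5 : A ^ 2 * ‖η‖ ≤ A ^ 3 * ‖η‖ := by
      have : A ^ 2 ≤ A ^ 3 := pow_le_pow_right₀ hA (by norm_num)
      gcongr
    calc _ ≤ 16 * A ^ 3 * ‖η‖ ^ 2 + 2 * ‖η‖ * (3 * A ^ 2 * k) +
          ‖η‖ * (k * A + 8 * A ^ 2 * ‖η‖) := by linarith
      _ = ‖η‖ * (16 * A ^ 3 * ‖η‖ + 6 * A ^ 2 * k + k * A + 8 * (A ^ 2 * ‖η‖)) := by ring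
      _ ≤ ‖η‖ * (24 * A ^ 3 * ‖η‖ + 7 * A ^ 2 * k) :=
          mul_le_mul_of_nonneg_left (by linarith) hη0
  rw [e2, norm_div, div_le_iff₀ (norm_pos_iff.2 n2)]
  have hl := lower (-j) hj'
  rw [← hP2] at hl
  have h0 : 0 ≤ ‖η‖ * (24 * A ^ 3 * ‖η‖ + 7 * A ^ 2 * k) := by positivity
  calc _ ≤ ‖η‖ * (24 * A ^ 3 * ‖η‖ + 7 * A ^ 2 * k) := hnum
    _ = 2 * A * ‖η‖ * (24 * A ^ 3 * ‖η‖ + 7 * A ^ 2 * k) * (1 / (2 * A)) := by field_simp
    _ ≤ _ := by gcongr

/-- model integrals: `c = 0` -/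
theorem model0 : (∫ _s in (0 : ℝ)..1, (1 : ℂ)) = 1 ∧
    (∫ s in (0 : ℝ)..1, (1 : ℂ) * (s : ℂ)) = 1 / 2 := by
  constructor
  · simp
  · have hd : ∀ u ∈ uIcc (0 : ℝ) 1, HasDerivAt (fun u : ℝ => (u : ℂ) ^ 2 / 2) ((1 : ℂ) * u) u := by
      intro u _
      have h1 : HasDerivAt (fun r : ℝ => (r : ℂ)) 1 u := by
        simpa using (hasDerivAt_id u).ofReal_comp
      refine ((h1.pow 2).div_const 2).congr_deriv ?_
      push_cast
      ring
    rw [intervalIntegral.integral_eq_sub_of_hasDerivAt hd (by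
      apply Continuous.intervalIntegrable; fun_prop)]
    simp

/-- model integrals: `c = 1` -/
theorem model1 {x y : ℂ} (h : ∀ u ∈ Icc (0 : ℝ) 1, x + u * (y - x) ≠ 0) :
    (∫ s in (0 : ℝ)..1, (((x + s * (y - x)) / x) ^ 2)⁻¹) = x / y ∧
    (∫ s in (0 : ℝ)..1, (((x + s * (y - x)) / x) ^ 2)⁻¹ *
      ((s : ℂ) + (y - x) / x * (s : ℂ) ^ 2 / 2)) = x / y / 2 := by
  have hx : x ≠ 0 := by
    have := h 0 ⟨le_rfl, zero_le_one⟩
    simpa using this
  have hy : y ≠ 0 := by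
    have := h 1 ⟨zero_le_one, le_rfl⟩
    simpa using this
  have hI : uIcc (0 : ℝ) 1 = Icc 0 1 := uIcc_of_le zero_le_one
  have hV : ∀ u ∈ Icc (0 : ℝ) 1, (x + u * (y - x)) / x ≠ 0 := fun u hu => div_ne_zero (h u hu) hx
  have cV : ContinuousOn (fun u : ℝ => (((x + u * (y - x)) / x) ^ 2)⁻¹) (Icc 0 1) := by
    apply ContinuousOn.inv₀
    · fun_prop
    · intro u hu; exact pow_ne_zero 2 (hV u hu)
  have hV1 : ∀ u : ℝ, HasDerivAt (fun u : ℝ => x + (u : ℂ) * (y - x)) (y - x) u := by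
    intro u
    have h2 : HasDerivAt (fun u : ℝ => (u : ℂ) * (y - x)) (y - x) u := by
      simpa using ((hasDerivAt_id u).ofReal_comp).mul_const (y - x)
    exact h2.const_add x
  have hid : ∀ u : ℝ, HasDerivAt (fun r : ℝ => (r : ℂ)) 1 u := by
    intro u
    simpa using (hasDerivAt_id u).ofReal_comp
  constructor
  · have hd : ∀ u ∈ uIcc (0 : ℝ) 1, HasDerivAt (fun u : ℝ => (u : ℂ) * x / (x + u * (y - x)))
        ((((x + u * (y - x)) / x) ^ 2)⁻¹) u := by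
      intro u hu
      rw [hI] at hu
      have h0 := h u hu
      refine (((hid u).mul_const x).div (hV1 u) h0).congr_deriv ?_
      field_simp
      ring
    rw [intervalIntegral.integral_eq_sub_of_hasDerivAt hd
      (ContinuousOn.intervalIntegrable (by rw [hI]; exact cV))]
    simp
  · have hd : ∀ u ∈ uIcc (0 : ℝ) 1, HasDerivAt
        (fun u : ℝ => (u : ℂ) ^ 2 * x / (2 * (x + u * (y - x))))
        ((((x + u * (y - x)) / x) ^ 2)⁻¹ * ((u : ℂ) + (y - x) / x * (u : ℂ) ^ 2 / 2)) u := by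
      intro u hu
      rw [hI] at hu
      have h0 := h u hu
      refine ((((hid u).pow 2).mul_const x).div ((hV1 u).const_mul 2)
        (mul_ne_zero two_ne_zero h0)).congr_deriv ?_
      simp only [Pi.pow_apply]
      push_cast
      field_simp
      ring
    rw [intervalIntegral.integral_eq_sub_of_hasDerivAt hd
      (ContinuousOn.intervalIntegrable (by rw [hI]; exact cV.mul (by fun_prop)))]
    simp
    field_simp

variable {κ c β C : ℝ} {q : ℂ → ℂ}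

theorem flat_core {N l : ℝ} (hN : 1 ≤ N) {x y : ℂ} {Λ L : ℝ → ℂ}
    (hch : Chord κ c q N l x y Λ L) {V θ0 : ℝ → ℂ} {P0 j : ℂ} (hj : ‖j‖ = 1)
    (hV : ∀ s ∈ Icc (0 : ℝ) 1, V s = Complex.exp (c * Λ s)) (hVc : ContinuousOn V (Icc 0 1))
    (hθ : ∀ s ∈ Icc (0 : ℝ) 1, HasDerivAt θ0 (V s) s) (hθ0 : θ0 0 = 0)
    (bV : ∀ s ∈ Icc (0 : ℝ) 1, ‖V s‖ ≤ N) (bV' : ∀ s ∈ Icc (0 : ℝ) 1, ‖(V s)⁻¹‖ ≤ N)
    (i0 : (∫ s in (0 : ℝ)..1, (V s ^ 2)⁻¹) = P0)
    (i1 : (∫ s in (0 : ℝ)..1, (V s ^ 2)⁻¹ * θ0 s) = P0 / 2) (hP : 1 / N ≤ ‖P0‖)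
    (hl : 4 * l ≤ 1) (hl0 : 0 ≤ l) (hη : 2 * N ^ 2 * ‖(y - x) * Complex.exp (q x)‖ ≤ 1)
    (hs : 4 * l * N ^ 2 + 8 * (N ^ 2) ^ 2 * ‖(y - x) * Complex.exp (q x)‖ ≤ 1 / (2 * N ^ 2)) :
    Pj q j x y ≠ 0 ∧ ‖Rj q j x y - 1 - j * ((y - x) * Complex.exp (q x))‖ ≤
      2 * N ^ 2 * ‖(y - x) * Complex.exp (q x)‖ *
        (24 * (N ^ 2) ^ 3 * ‖(y - x) * Complex.exp (q x)‖ + 7 * (N ^ 2) ^ 2 * (4 * l)) := by
  have hN0 : 0 < N := by linarith
  have hA : 1 ≤ N ^ 2 := one_le_pow₀ hN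
  set θ : ℝ → ℂ := fun s => ∫ r in (0 : ℝ)..s, Complex.exp (q (x + r * (y - x)) - q x) with hθdef
  have hgc : ContinuousOn (fun r : ℝ => Complex.exp (q (x + r * (y - x)) - q x)) (Icc (0 : ℝ) 1) :=
    Complex.continuous_exp.comp_continuousOn (hch.contQ.sub continuousOn_const)
  have hθd := hasDeriv_prim hgc
  have hgV : ∀ s ∈ Icc (0 : ℝ) 1, Complex.exp (q (x + s * (y - x)) - q x) =
      V s * Complex.exp (L s) := by
    intro s hs
    rw [hch.dec s hs, Complex.exp_add, hV s hs]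
  have hV0 : ∀ s ∈ Icc (0 : ℝ) 1, V s ≠ 0 := by
    intro s hs; rw [hV s hs]; exact Complex.exp_ne_zero _
  have hL1 : ∀ s ∈ Icc (0 : ℝ) 1, ‖Complex.exp (L s) - 1‖ ≤ 2 * l := by
    intro s hs
    have h1 := hch.L_bd s hs
    have := Complex.norm_exp_sub_one_le (h1.trans (by linarith))
    linarith
  have hL2 : ∀ s ∈ Icc (0 : ℝ) 1, ‖Complex.exp (-2 * L s) - 1‖ ≤ 4 * l := by
    intro s hs
    have h1 := hch.L_bd s hs
    have h2 : ‖-2 * L s‖ ≤ 2 * l := by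
      rw [norm_mul, norm_neg, Complex.norm_ofNat]; linarith
    have := Complex.norm_exp_sub_one_le (h2.trans (by linarith))
    linarith
  have hw : ∀ s ∈ Icc (0 : ℝ) 1, Complex.exp (-2 * (q (x + s * (y - x)) - q x)) =
      (V s ^ 2)⁻¹ * Complex.exp (-2 * L s) := by
    intro s hs
    rw [hch.dec s hs, hV s hs, ← Complex.exp_nat_mul, ← Complex.exp_neg, ← Complex.exp_add]
    congr 1
    push_cast
    ring
  have key := core (A := N ^ 2) (k := 4 * l)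
    (w := fun s : ℝ => Complex.exp (-2 * (q (x + s * (y - x)) - q x)))
    (w0 := fun s => (V s ^ 2)⁻¹) (θ := θ) (θ0 := θ0) (η := (y - x) * Complex.exp (q x)) (P0 := P0)
    (j := j) hA hj ?_ ?_ ?_ ?_ ?_ ?_ ?_ ?_ (by linarith) hl hη i0 i1 ?_ hs
  · have hPj : ∀ i : ℂ, Pj q i x y = ∫ s in (0 : ℝ)..1,
        Complex.exp (-2 * (q (x + s * (y - x)) - q x)) *
          Complex.exp (i * ((y - x) * Complex.exp (q x) * θ s)) := by
      intro i
      unfold Pj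
      apply intervalIntegral.integral_congr
      intro s _
      simp only [hθdef]
      have e1 : (∫ s' in (0 : ℝ)..s, Complex.exp (q (x + s' * (y - x)))) =
          ∫ r in (0 : ℝ)..s, Complex.exp (q x) * Complex.exp (q (x + r * (y - x)) - q x) := by
        apply intervalIntegral.integral_congr
        intro r _
        simp only
        rw [← Complex.exp_add]
        congr 1
        ring
      rw [e1, intervalIntegral.integral_const_mul]
      congr 3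
      ring
    obtain ⟨k1, k2, k3⟩ := key
    unfold Rj
    rw [hPj j, hPj (-j)]
    exact ⟨k1, k3⟩
  · exact Complex.continuous_exp.comp_continuousOn (continuousOn_const.mul
      (hch.contQ.sub continuousOn_const))
  · exact (hVc.pow 2).inv₀ fun s hs => pow_ne_zero 2 (hV0 s hs)
  · exact fun s hs => (hθd s hs).continuousWithinAt
  · exact fun s hs => (hθ s hs).continuousAt.continuousWithinAt
  · intro s hs
    rw [hw s hs, ← mul_sub_one, norm_mul]
    have h1 := hL2 s hs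
    have h2 : ‖(V s ^ 2)⁻¹‖ ≤ N ^ 2 := by
      rw [← inv_pow, norm_pow]
      have := bV' s hs
      gcongr
    calc ‖(V s ^ 2)⁻¹‖ * ‖Complex.exp (-2 * L s) - 1‖ ≤ N ^ 2 * (4 * l) := by gcongr
      _ = 4 * l * N ^ 2 := by ring
  · intro s hs
    have key := norm_image_sub_le_of_norm_deriv_le_segment' (f := fun s => θ s - θ0 s)
      (f' := fun u : ℝ => Complex.exp (q (x + u * (y - x)) - q x) - V u) (a := 0) (b := 1)
      (C := 4 * l * N ^ 2)
      (fun u hu => (hθd u hu).sub (hθ u hu).hasDerivWithinAt) (fun u hu => ?_) s hs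
    · have h0 : θ 0 = 0 := by simp [hθdef]
      simp only [h0, hθ0, sub_zero] at key
      refine key.trans ?_
      exact mul_le_of_le_one_right (by positivity) hs.2
    · have hu' : u ∈ Icc (0 : ℝ) 1 := ⟨hu.1, hu.2.le⟩
      rw [hgV u hu', ← mul_sub_one, norm_mul]
      have h1 := hL1 u hu'
      have h2 := bV u hu'
      calc ‖V u‖ * ‖Complex.exp (L u) - 1‖ ≤ N * (2 * l) := by gcongr
        _ ≤ 4 * l * N ^ 2 := by nlinarith [mul_nonneg hl0 hN0.le, mul_nonneg hl0 (sub_nonneg.2 hN)]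
  · intro s hs
    rw [← inv_pow, norm_pow]
    have := bV' s hs
    gcongr
  · intro s hs
    have key := norm_image_sub_le_of_norm_deriv_le_segment' (f := θ0)
      (f' := V) (a := 0) (b := 1) (C := N)
      (fun u hu => (hθ u hu).hasDerivWithinAt) (fun u hu => bV u ⟨hu.1, hu.2.le⟩) s hs
    rw [hθ0, sub_zero, sub_zero] at key
    have : N * s ≤ N := mul_le_of_le_one_right hN0.le hs.2
    nlinarith
  · refine le_trans ?_ hP
    exact one_div_le_one_div_of_le hN0 (by nlinarith)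

/-- **ML-LF** -/
theorem rLimF : RLimF := by
  intro κ c β C q j hc hj h N ε hN hε
  have hC := C_nonneg h
  have hN0 : 0 < N := by linarith
  have hj1 : ‖j‖ = 1 := by rcases hj with rfl | rfl <;> simp
  obtain ⟨K2, hK2, hexp⟩ := exp_q_bound h
  have hc0 : 0 ≤ c := by rcases hc with rfl | rfl <;> norm_num
  set K : ℝ := C * ((1 / N) ^ (β - 1) + N ^ (β - 1)) * (N + 1) with hK
  have hK0 : 0 ≤ K := by positivity
  set A : ℝ := N ^ 2 with hA
  have hA1 : 1 ≤ A := one_le_pow₀ hN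
  set t1 : ℝ := min (min 1 (1 / (2 * A))) (min (1 / (2 * A * (A + 8 * A ^ 2)))
    (ε / (2 * A * (N + 1) * (24 * A ^ 3 + 7 * A ^ 2)))) with ht1
  have ht1pos : 0 < t1 := by positivity
  have t1a : t1 ≤ 1 := (min_le_left _ _).trans (min_le_left _ _)
  have t1b : 2 * A * t1 ≤ 1 := by
    have : t1 ≤ 1 / (2 * A) := (min_le_left _ _).trans (min_le_right _ _)
    rw [le_div_iff₀ (by positivity)] at this
    linarith
  have t1c : t1 * A + 8 * A ^ 2 * t1 ≤ 1 / (2 * A) := by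
    have h1 : t1 ≤ 1 / (2 * A * (A + 8 * A ^ 2)) := (min_le_right _ _).trans (min_le_left _ _)
    rw [le_div_iff₀ (by positivity)] at h1
    rw [le_div_iff₀ (by positivity)]
    linarith
  have t1d : 2 * A * (N + 1) * (24 * A ^ 3 * t1 + 7 * A ^ 2 * t1) ≤ ε := by
    have h1 : t1 ≤ ε / (2 * A * (N + 1) * (24 * A ^ 3 + 7 * A ^ 2)) :=
      (min_le_right _ _).trans (min_le_right _ _)
    rw [le_div_iff₀ (by positivity)] at h1
    linarith
  -- radius for the power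
  obtain ⟨r2, hr2, hpow⟩ : ∃ r2 > 0, ∀ t : ℝ, 0 < t → t < r2 → K * t ^ β ≤ t1 / 4 := by
    have h1 : ContinuousAt (fun t : ℝ => K * t ^ β) 0 :=
      continuousAt_const.mul (Real.continuousAt_rpow_const 0 β (Or.inr h.β_pos.le))
    have h2 := h1.tendsto
    simp only [Real.zero_rpow h.β_pos.ne', mul_zero] at h2
    have h3 : ∀ᶠ t : ℝ in 𝓝 0, K * t ^ β < t1 / 4 := h2.eventually (gt_mem_nhds (by positivity))
    obtain ⟨r2, hr2, h4⟩ := Metric.eventually_nhds_iff.1 h3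
    refine ⟨r2, hr2, fun t ht htr => (h4 ?_).le⟩
    rw [Real.dist_eq, sub_zero, abs_of_pos ht]; exact htr
  refine ⟨min (min (1 / 2) (t1 / ((N + 1) * K2))) r2, by positivity, fun x y hAd hxδ => ?_⟩
  obtain ⟨Λ, L, hch⟩ := exists_chord h hN hAd
  rw [← hK] at hch
  have hseg : ∀ u ∈ Icc (0 : ℝ) 1, x + u * (y - x) ∈ Sg κ := fun u hu => (hAd u hu).1
  have hx : x ∈ Sg κ := by
    have := hseg 0 ⟨le_rfl, zero_le_one⟩
    simpa using this
  have hx0 : 0 < ‖x‖ := norm_pos_iff.2 hx.1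
  have hy : ‖y‖ ≤ N * ‖x‖ := by
    have := (hAd 1 ⟨zero_le_one, le_rfl⟩).2.2
    simpa using this
  have hxy : ‖x‖ ≤ N * ‖y‖ := by
    have := (hAd 1 ⟨zero_le_one, le_rfl⟩).2.1
    simpa using this
  have hyx : ‖y - x‖ ≤ (N + 1) * ‖x‖ := by
    have := norm_sub_le y x
    linarith
  have hx2 : ‖x‖ ≤ 1 / 2 := (hxδ.le.trans (min_le_left _ _)).trans (min_le_left _ _)
  have hx3 : (N + 1) * K2 * ‖x‖ ≤ t1 := by
    have h1 := (hxδ.le.trans (min_le_left _ _)).trans (min_le_right _ _)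
    rw [le_div_iff₀ (by positivity)] at h1
    linarith
  have hl := hpow _ hx0 (hxδ.trans_le (min_le_right _ _))
  set l : ℝ := K * ‖x‖ ^ β with hldef
  have hl0 : 0 ≤ l := by positivity
  have hexpx : ‖Complex.exp (q x)‖ ≤ K2 := by
    have h1 := hexp x hx hx2
    have h2 : ‖x‖ ^ c ≤ 1 := Real.rpow_le_one hx0.le (by linarith) hc0
    nlinarith
  set η : ℂ := (y - x) * Complex.exp (q x) with hη
  have hη1 : ‖η‖ ≤ (N + 1) * ‖x‖ * ‖Complex.exp (q x)‖ := by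
    rw [hη, norm_mul]; gcongr
  have hη2 : ‖η‖ ≤ t1 := by
    calc ‖η‖ ≤ (N + 1) * ‖x‖ * K2 := hη1.trans (by gcongr)
      _ = (N + 1) * K2 * ‖x‖ := by ring
      _ ≤ t1 := hx3
  have hηA : 2 * N ^ 2 * ‖η‖ ≤ 1 := by
    rw [← hA]
    calc 2 * A * ‖η‖ ≤ 2 * A * t1 := by gcongr
      _ ≤ 1 := t1b
  have hsA : 4 * l * N ^ 2 + 8 * (N ^ 2) ^ 2 * ‖η‖ ≤ 1 / (2 * N ^ 2) := by
    rw [← hA]
    have h4 : 4 * l ≤ t1 := by linarith
    calc 4 * l * A + 8 * A ^ 2 * ‖η‖ ≤ t1 * A + 8 * A ^ 2 * t1 := by gcongr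
      _ ≤ _ := t1c
  have hfin : ‖Rj q j x y - 1 - j * η‖ ≤
      2 * N ^ 2 * ‖η‖ * (24 * (N ^ 2) ^ 3 * ‖η‖ + 7 * (N ^ 2) ^ 2 * (4 * l)) →
      ‖Rj q j x y - 1 - j * Complex.exp (q x) * (y - x)‖ ≤ ε * ‖Complex.exp (q x)‖ * ‖x‖ := by
    intro h1
    rw [← hA] at h1
    have e1 : j * Complex.exp (q x) * (y - x) = j * η := by rw [hη]; ring
    rw [e1]
    refine h1.trans ?_
    have h4 : 4 * l ≤ t1 := by linarith
    calc 2 * A * ‖η‖ * (24 * A ^ 3 * ‖η‖ + 7 * A ^ 2 * (4 * l))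
        ≤ 2 * A * ((N + 1) * ‖x‖ * ‖Complex.exp (q x)‖) * (24 * A ^ 3 * t1 + 7 * A ^ 2 * t1) := by
          gcongr
      _ = (2 * A * (N + 1) * (24 * A ^ 3 * t1 + 7 * A ^ 2 * t1)) *
          (‖Complex.exp (q x)‖ * ‖x‖) := by ring
      _ ≤ ε * (‖Complex.exp (q x)‖ * ‖x‖) := by gcongr
      _ = _ := by ring
  have hz0 : ∀ u ∈ Icc (0 : ℝ) 1, x + u * (y - x) ≠ 0 := fun u hu => (hseg u hu).1
  rcases hc with rfl | rfl
  · -- `c = 0`
    have k := flat_core (V := fun _ => 1) (θ0 := fun s => (s : ℂ)) (P0 := 1) hN hch hj1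
      (fun s _ => by simp) continuousOn_const
      (fun s _ => by simpa using (hasDerivAt_id s).ofReal_comp) (by simp)
      (fun s _ => by simpa using hN) (fun s _ => by simpa using hN)
      (by simp) (by
        have := model0.2
        simp only [one_mul] at this
        simpa using this) (by
        rw [norm_one]
        exact (div_le_one hN0).2 hN) (by linarith) hl0 hηA hsA
    exact ⟨k.1, hfin k.2⟩
  · -- `c = 1`
    have hx' := hx.1
    have hy' : y ≠ 0 := by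
      have := hz0 1 ⟨zero_le_one, le_rfl⟩
      simpa using this
    have m1 := model1 hz0
    have k := flat_core (V := fun s => (x + s * (y - x)) / x)
      (θ0 := fun s => ((s : ℂ) + (y - x) / x * (s : ℂ) ^ 2 / 2)) (P0 := x / y) hN hch hj1
      (fun s hs => by
        rw [Complex.ofReal_one, one_mul, hch.Λ_exp s hs]) (by fun_prop)
      (fun s _ => by
        have h1 : HasDerivAt (fun r : ℝ => (r : ℂ)) 1 s := by
          simpa using (hasDerivAt_id s).ofReal_comp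
        refine (h1.add (((h1.pow 2).const_mul ((y - x) / x)).div_const 2)).congr_deriv ?_
        push_cast
        field_simp) (by simp)
      (fun s hs => by
        rw [norm_div, div_le_iff₀ hx0]
        exact (hAd s hs).2.2) (fun s hs => by
        rw [inv_div, norm_div, div_le_iff₀ (norm_pos_iff.2 (hz0 s hs))]
        exact (hAd s hs).2.1)
      m1.1 m1.2 (by
        rw [norm_div, div_le_div_iff₀ hN0 (norm_pos_iff.2 hy')]
        linarith) (by linarith) hl0 hηA hsA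
    exact ⟨k.1, hfin k.2⟩

end Crest.Agent.R102.Mel
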