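import Crest.Agent.R102.Rat1B_389

/-!
Row 102, [H3], theorem (RAT), RAT-1, part C: the deformed last line is undeformed.
-/

set_option linter.unusedSectionVars false
set_option autoImplicit false

namespace Crest.Agent.R102.H3

open PowerSeries Finset

section gam'

variable {K T Ω A : Type*} [Field K] [CommRing T] [Algebra K T] [CommRing Ω] [Algebra K Ω]
  [CommRing A] [Algebra K A]

/-- **identity principle for deformations**, abstract form -/
theorem gam' {ι : Type*} (D : ι → Derivation K T T) (e : T →+* Ω)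
    (hid : ∀ t, (∀ l, e (word D l t) = 0) → t = 0)
    (heK : ∀ c : K, e (algebraMap K T c) = algebraMap K Ω c)
    (inc : A →ₐ[K] T) (hinc : Function.Injective inc) (ψ : A →ₐ[K] Ω⟦X⟧) (S : Set T⟦X⟧)
    (hS1 : ∀ s ∈ S, ∃ a : A, inc a = constantCoeff s ∧ PowerSeries.map e s = ψ a)
    (hS2 : ∀ s ∈ S, ∀ a, cD (D a) s ∈ Algebra.adjoin K S) {s : T⟦X⟧}
    (hs : s ∈ Algebra.adjoin K S) (h0 : constantCoeff s = 0) : s = 0 := by
  -- agreement on the whole subalgebra
  have hag : ∀ s ∈ Algebra.adjoin K S,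
      ∃ a : A, inc a = constantCoeff s ∧ PowerSeries.map e s = ψ a := by
    intro s hs
    induction hs using Algebra.adjoin_induction with
    | mem x hx => exact hS1 x hx
    | algebraMap r =>
      refine ⟨algebraMap K A r, ?_, ?_⟩
      · rw [AlgHom.commutes, PowerSeries.algebraMap_apply]; simp
      · rw [AlgHom.commutes, PowerSeries.algebraMap_apply, PowerSeries.algebraMap_apply, map_C,
          heK]
    | add x y _ _ hx hy =>
      obtain ⟨a, hx1, hx2⟩ := hx
      obtain ⟨b, hy1, hy2⟩ := hy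
      exact ⟨a + b, by rw [map_add, map_add, hx1, hy1], by rw [map_add, map_add, hx2, hy2]⟩
    | mul x y _ _ hx hy =>
      obtain ⟨a, hx1, hx2⟩ := hx
      obtain ⟨b, hy1, hy2⟩ := hy
      exact ⟨a * b, by rw [map_mul, map_mul, hx1, hy1], by rw [map_mul, map_mul, hx2, hy2]⟩
  have hst : ∀ l : List ι, word (fun a => cD (D a)) l s ∈ Algebra.adjoin K S := by
    intro l
    induction l with
    | nil => exact hs
    | cons a l ih => exact adjoin_stable (cD (D a)) S (fun s hs => hS2 s hs a) ih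
  ext n
  rw [map_zero]
  refine hid _ fun l => ?_
  obtain ⟨a, h1, h2⟩ := hag _ (hst l)
  rw [constantCoeff_word_cD, h0, word_zero] at h1
  have h3 : a = 0 := hinc (by rw [h1, map_zero])
  rw [h3, map_zero] at h2
  have h4 := congrArg (coeff n) h2
  rwa [coeff_map, coeff_word_cD, map_zero] at h4

end gam'

section undef

variable {K H T A A0 : Type*} [Field K] [CharZero K] [CommRing H] [Algebra K H] [CommRing T]
  [Algebra K T] [CommRing A] [Algebra K A] [CommRing A0] [Algebra K A0]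

theorem Chain.congr {Λ : Type*} [CommRing Λ] {d : Derivation K H H} {z : H} {G : ℕ → H} {N : ℕ}
    {Φ Φ' : ℕ → H →+* Λ} {m k : ℕ → Λ} (h : Chain d z G N Φ m k) (hΦ : ∀ i < N, Φ i = Φ' i) :
    Chain d z G N Φ' m k where
  inc i hi := by rw [← hΦ i hi]; exact h.inc i hi
  inc' i hi := by rw [← hΦ i hi]; exact h.inc' i hi
  refl i hi := by rw [← hΦ i hi]; exact h.refl i hi

theorem cD_map_C (d : Derivation K H H) (δ : Derivation K T T) (φ : H →+* T) (v : T)
    (hφ : ∀ f, δ (φ f) = φ (d f) * v) (f : H⟦X⟧) :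
    cD δ (PowerSeries.map φ f) = PowerSeries.map φ (cD d f) * C v := by
  ext n
  rw [coeff_cD, coeff_map, hφ, coeff_mul_C, coeff_map, coeff_cD]

/-- **the deformed last line is undeformed** -/
theorem undeformed {ι : Type*} (D : ι → Derivation K T T) (e : T →ₐ[K] K)
    (hid : ∀ t, (∀ l, e (word D l t) = 0) → t = 0)
    (d : Derivation K H H) {z : H} (hz : d z = 1) (φ : ℕ → H →ₐ[K] T)
    (hφ : ∀ a i f, D a (φ i f) = φ i (d f) * D a (φ i z))
    (d0 : Derivation K A0 A0) (z0 g0 : A0) (ρ : A0 →ₐ[K] H)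
    (F : ℕ → A0 →ₐ[K] H⟦X⟧) (hFd : ∀ i a, F i (d0 a) = cD d (F i a))
    (hFz : ∀ i, F i z0 = C z) (hFc : ∀ i a, constantCoeff (F i a) = ρ a)
    (N : ℕ) (y m k : ℕ → T⟦X⟧) (hy : ∀ i, X ∣ y i)
    (hout : Chain (cD d) (C z) (fun i => F i g0) N
      (fun i => pt (cD d) (PowerSeries.map (φ i : H →+* T)) (y i) (hy i)) m k)
    (inc : A →ₐ[K] T) (hinc : Function.Injective inc) (ψ : A →ₐ[K] K⟦X⟧)
    (B : Subalgebra K A) (hBD : ∀ a, ∀ b ∈ B, ∃ b' ∈ B, D a (inc b) = inc b')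
    (hψB : ∀ b ∈ B, ψ b = C (e (inc b)))
    (σ : ℕ → A0 →ₐ[K] A) (hσ : ∀ i < N, ∀ a, inc (σ i a) = φ i (ρ a))
    (mA kA μA τA : ℕ → A) (hmA : ∀ i ≤ N, inc (mA i) = constantCoeff (m i))
    (hkA : ∀ i ≤ N, inc (kA i) = constantCoeff (k i))
    (hμA : ∀ i < N, μA i * mA i = 1) (hτA : ∀ i < N, τA i * (σ i (d0 g0) - mA i) = 1)
    (hB0 : mA 0 ∈ B) (hB0' : kA 0 ∈ B) (hBN : mA N ∈ B)
    (hm0 : m 0 = C (inc (mA 0))) (hk0 : k 0 = C (inc (kA 0)))
    (w : ℕ → K⟦X⟧) (hw : ∀ i, X ∣ w i)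
    (hψ : ∀ i < N, ∀ a, ψ (σ i a) =
      pt (cD d) (PowerSeries.map ((e : T →+* K).comp (φ i : H →+* T))) (w i) (hw i) (F i a)) :
    m N = C (inc (mA N)) := by
  classical
  have hzz : cD d (C z) = (1 : H⟦X⟧) := by rw [cD_C, hz, map_one]
  set Φ : ℕ → H⟦X⟧ →+* T⟦X⟧ :=
    fun i => pt (cD d) (PowerSeries.map (φ i : H →+* T)) (y i) (hy i) with hΦ
  have hcc : ∀ i f, constantCoeff (Φ i f) = φ i (constantCoeff f) := by
    intro i f
    rw [hΦ]
    simp only
    rw [constantCoeff_pt, constantCoeff_map]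
    rfl
  have hρz : ρ z0 = z := by rw [← hFc 0, hFz, constantCoeff_C]
  -- relations in `A`
  have hAinc : ∀ i < N, σ i g0 = mA i * σ i z0 + kA i := by
    intro i hi
    refine hinc ?_
    have h1 := congrArg constantCoeff (hout.inc i hi)
    rw [hcc, hFc, map_add, map_mul, hcc, constantCoeff_C] at h1
    rw [map_add, map_mul, hσ i hi, hσ i hi, hmA i hi.le, hkA i hi.le, hρz]
    exact h1
  have hAinc' : ∀ i < N, σ i g0 = mA (i + 1) * σ i z0 + kA (i + 1) := by
    intro i hi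
    refine hinc ?_
    have h1 := congrArg constantCoeff (hout.inc' i hi)
    rw [hcc, hFc, map_add, map_mul, hcc, constantCoeff_C] at h1
    rw [map_add, map_mul, hσ i hi, hσ i hi, hmA (i + 1) hi, hkA (i + 1) hi, hρz]
    exact h1
  have hArefl : ∀ i < N, mA (i + 1) * mA i = (σ i (d0 g0)) ^ 2 := by
    intro i hi
    refine hinc ?_
    have h1 := congrArg constantCoeff (hout.refl i hi)
    rw [map_mul, map_pow, hcc, ← hFd, hFc] at h1
    rw [map_mul, map_pow, hσ i hi, hmA (i + 1) hi, hmA i hi.le]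
    exact h1
  -- the chain of `ψ`
  set Ψ : ℕ → H⟦X⟧ →+* K⟦X⟧ := fun i =>
    pt (cD d) (PowerSeries.map ((e : T →+* K).comp (φ i : H →+* T))) (w i) (hw i) with hΨ
  have hcψ : Chain (cD d) (C z) (fun i => F i g0) N Ψ (fun i => ψ (mA i)) (fun i => ψ (kA i)) := by
    refine ⟨fun i hi => ?_, fun i hi => ?_, fun i hi => ?_⟩
    · rw [← hFz i, ← hψ i hi, ← hψ i hi, ← map_mul, ← map_add, ← hAinc i hi]
    · rw [← hFz i, ← hψ i hi, ← hψ i hi, ← map_mul, ← map_add, ← hAinc' i hi]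
    · rw [← hFd, ← hψ i hi, ← map_mul, ← map_pow, ← hArefl i hi]
  -- the image of the deformed chain
  have hXe : (X : K⟦X⟧) ∣ PowerSeries.map (e : T →+* K) X := by rw [map_X]
  have hye : ∀ i, X ∣ PowerSeries.map (e : T →+* K) (y i) := fun i =>
    hXe.trans (map_dvd _ (hy i))
  have hpe : ∀ i, (PowerSeries.map (e : T →+* K)).comp (Φ i) =
      pt (cD d) (PowerSeries.map ((e : T →+* K).comp (φ i : H →+* T)))
        (PowerSeries.map (e : T →+* K) (y i)) (hye i) := by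
    intro i
    rw [hΦ]
    simp only
    rw [comp_pt (cD d) (PowerSeries.map (e : T →+* K)) hXe]
    refine pt_congr (cD d) _ _ ?_ rfl
    rw [← PowerSeries.map_comp]
  have hce := (hout.map (PowerSeries.map (e : T →+* K))).congr (fun i _ => hpe i)
  have hum : ∀ i < N, IsUnit (ψ (mA i)) := fun i hi =>
    (IsUnit.of_mul_eq_one _ (by rw [mul_comm]; exact hμA i hi) : IsUnit (mA i)).map ψ
  have huτ : ∀ i < N, IsUnit (ψ (σ i (d0 g0) - mA i)) := fun i hi =>
    (IsUnit.of_mul_eq_one _ (by rw [mul_comm]; exact hτA i hi) :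
      IsUnit (σ i (d0 g0) - mA i)).map ψ
  obtain ⟨hyw, hmk⟩ := outer_chain_unique (cD d) hzz N (fun i => F i g0)
    (fun i => PowerSeries.map ((e : T →+* K).comp (φ i : H →+* T))) w
    (fun i => PowerSeries.map (e : T →+* K) (y i)) (fun i => ψ (mA i))
    (fun i => PowerSeries.map (e : T →+* K) (m i)) (fun i => ψ (kA i))
    (fun i => PowerSeries.map (e : T →+* K) (k i)) hw hye hcψ hce
    (by rw [hψB _ hB0, hm0, map_C]; rfl) (by rw [hψB _ hB0', hk0, map_C]; rfl) hum (by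
      intro i hi
      have h1 := huτ i hi
      rw [PowerSeries.isUnit_iff_constantCoeff, map_sub, map_sub, hψ i hi, constantCoeff_pt,
        hFd] at h1
      rw [map_sub]
      exact h1)
  -- inverses
  have huT : ∀ i < N, IsUnit (m i) := by
    intro i hi
    rw [PowerSeries.isUnit_iff_constantCoeff, ← hmA i hi.le]
    exact (IsUnit.of_mul_eq_one _ (by rw [mul_comm]; exact hμA i hi) : IsUnit (mA i)).map inc
  have hvT : ∀ i < N, IsUnit (Φ i (F i (d0 g0)) - m i) := by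
    intro i hi
    rw [PowerSeries.isUnit_iff_constantCoeff, map_sub, hcc, hFc, ← hσ i hi, ← hmA i hi.le,
      ← map_sub]
    exact (IsUnit.of_mul_eq_one _ (by rw [mul_comm]; exact hτA i hi) :
      IsUnit (σ i (d0 g0) - mA i)).map inc
  have hμex : ∀ i, ∃ u : T⟦X⟧, i < N → u * m i = 1 := by
    intro i
    by_cases hi : i < N
    · obtain ⟨u, hu⟩ := (huT i hi).exists_left_inv
      exact ⟨u, fun _ => hu⟩
    · exact ⟨0, fun h => absurd h hi⟩
  have hτex : ∀ i, ∃ u : T⟦X⟧, i < N → u * (Φ i (F i (d0 g0)) - m i) = 1 := by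
    intro i
    by_cases hi : i < N
    · obtain ⟨u, hu⟩ := (hvT i hi).exists_left_inv
      exact ⟨u, fun _ => hu⟩
    · exact ⟨0, fun h => absurd h hi⟩
  choose μ hμ using hμex
  choose τ hτ using hτex
  -- the generators
  let S : Set T⟦X⟧ := {s | (∃ b ∈ B, s = C (inc b)) ∨ (∃ i ≤ N, s = m i) ∨ (∃ i ≤ N, s = k i) ∨
    (∃ i < N, ∃ a, s = Φ i (F i a)) ∨ (∃ i < N, s = μ i) ∨ (∃ i < N, s = τ i)}
  set Γ := Algebra.adjoin K S with hΓ
  have gB : ∀ b ∈ B, C (inc b) ∈ Γ := fun b hb => Algebra.subset_adjoin (Or.inl ⟨b, hb, rfl⟩)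
  have gm : ∀ i ≤ N, m i ∈ Γ := fun i hi => Algebra.subset_adjoin (Or.inr (Or.inl ⟨i, hi, rfl⟩))
  have gk : ∀ i ≤ N, k i ∈ Γ := fun i hi =>
    Algebra.subset_adjoin (Or.inr (Or.inr (Or.inl ⟨i, hi, rfl⟩)))
  have gΦ : ∀ i < N, ∀ a, Φ i (F i a) ∈ Γ := fun i hi a =>
    Algebra.subset_adjoin (Or.inr (Or.inr (Or.inr (Or.inl ⟨i, hi, a, rfl⟩))))
  have gμ : ∀ i < N, μ i ∈ Γ := fun i hi =>
    Algebra.subset_adjoin (Or.inr (Or.inr (Or.inr (Or.inr (Or.inl ⟨i, hi, rfl⟩)))))
  have gτ : ∀ i < N, τ i ∈ Γ := fun i hi =>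
    Algebra.subset_adjoin (Or.inr (Or.inr (Or.inr (Or.inr (Or.inr ⟨i, hi, rfl⟩)))))
  -- closure
  have hΔΦ : ∀ a i x, cD (D a) (Φ i (F i x)) =
      Φ i (F i (d0 x)) * cD (D a) (Φ i (F i z0)) := by
    intro a i x
    have h1 := fun f => cD_pt (cD d) (D a) (PowerSeries.map (φ i : H →+* T)) (C (D a (φ i z)))
      (fun f => cD_map_C d (D a) (φ i : H →+* T) (D a (φ i z)) (hφ a i) f) (hy i) f
    have h2 : cD (D a) (Φ i (F i z0)) = C (D a (φ i z)) + cD (D a) (y i) := by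
      have h3 := h1 (F i z0)
      rw [hFz i, hzz, map_one, one_mul] at h3
      rw [hFz i]
      exact h3
    rw [h2, hFd]
    exact h1 (F i x)
  have hcl : ∀ a, ∀ i ≤ N, cD (D a) (m i) ∈ Γ ∧ cD (D a) (k i) ∈ Γ ∧
      ∀ j < i, (∀ x, cD (D a) (Φ j (F j x)) ∈ Γ) ∧ cD (D a) (μ j) ∈ Γ ∧ cD (D a) (τ j) ∈ Γ := by
    intro a i
    induction i with
    | zero =>
      intro _
      refine ⟨?_, ?_, fun j hj => absurd hj (by omega)⟩
      · rw [hm0, cD_C]
        obtain ⟨b', hb', h⟩ := hBD a _ hB0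
        rw [h]; exact gB _ hb'
      · rw [hk0, cD_C]
        obtain ⟨b', hb', h⟩ := hBD a _ hB0'
        rw [h]; exact gB _ hb'
    | succ i ih =>
      intro hi
      have hi' : i < N := hi
      obtain ⟨h1, h2, h3⟩ := ih hi'.le
      have hv := vertex_mem (cD (D a)) d0 (z0 := z0) (g0 := g0)
        ((Φ i).comp (F i : A0 →+* H⟦X⟧)) (hΔΦ a i) (m := m i) (k := k i) (τ := τ i)
        (by
          have := hout.inc i hi'
          rw [← hFz i] at this
          exact this) (hτ i hi') Γ (gΦ i hi') (gτ i hi') h1 h2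
      have hl := line_mem (cD (D a)) d0 (z0 := z0) (g0 := g0)
        ((Φ i).comp (F i : A0 →+* H⟦X⟧)) (m := m i) (m' := m (i + 1)) (k' := k (i + 1))
        (μ := μ i)
        (by
          have := hout.inc' i hi'
          rw [← hFz i] at this
          exact this)
        (by
          have := hout.refl i hi'
          rw [← hFd i] at this
          exact this) (hμ i hi') Γ (gΦ i hi') hv.2.1 (gm _ hi) (gμ i hi') h1
      refine ⟨hl.1, hl.2.1, fun j hj => ?_⟩
      rcases Nat.lt_succ_iff_lt_or_eq.1 hj with h4 | h4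
      · exact h3 j h4
      · subst h4
        exact ⟨hv.2.1, hl.2.2, hv.2.2⟩
  have hS2 : ∀ s ∈ S, ∀ a, cD (D a) s ∈ Γ := by
    rintro s (⟨b, hb, rfl⟩ | ⟨i, hi, rfl⟩ | ⟨i, hi, rfl⟩ | ⟨i, hi, x, rfl⟩ | ⟨i, hi, rfl⟩ |
      ⟨i, hi, rfl⟩) a
    · rw [cD_C]
      obtain ⟨b', hb', h⟩ := hBD a _ hb
      rw [h]; exact gB _ hb'
    · exact (hcl a i hi).1
    · exact (hcl a i hi).2.1
    · exact ((hcl a N le_rfl).2.2 i hi).1 x
    · exact ((hcl a N le_rfl).2.2 i hi).2.1
    · exact ((hcl a N le_rfl).2.2 i hi).2.2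
  have hΦψ : ∀ i < N, ∀ a, PowerSeries.map (e : T →+* K) (Φ i (F i a)) = ψ (σ i a) := by
    intro i hi a
    have h1 : PowerSeries.map (e : T →+* K) (Φ i (F i a)) =
      ((PowerSeries.map (e : T →+* K)).comp (Φ i)) (F i a) := rfl
    rw [h1, hpe i, hψ i hi]
    exact congrArg (fun Ξ : H⟦X⟧ →+* K⟦X⟧ => Ξ (F i a))
      (pt_congr (cD d) _ _ rfl (hyw i hi).symm)
  have hS1 : ∀ s ∈ S, ∃ a : A, inc a = constantCoeff s ∧
      PowerSeries.map (e : T →+* K) s = ψ a := by
    rintro s (⟨b, hb, rfl⟩ | ⟨i, hi, rfl⟩ | ⟨i, hi, rfl⟩ | ⟨i, hi, x, rfl⟩ | ⟨i, hi, rfl⟩ |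
      ⟨i, hi, rfl⟩)
    · exact ⟨b, by rw [constantCoeff_C], by rw [map_C, hψB b hb]; rfl⟩
    · exact ⟨mA i, hmA i hi, ((hmk i hi).1).symm⟩
    · exact ⟨kA i, hkA i hi, ((hmk i hi).2).symm⟩
    · exact ⟨σ i x, by rw [hσ i hi, hcc, hFc], hΦψ i hi x⟩
    · refine ⟨μA i, ?_, ?_⟩
      · have h1 := congrArg constantCoeff (hμ i hi)
        have h2 := congrArg inc (hμA i hi)
        rw [map_mul, map_one, ← hmA i hi.le] at h1
        rw [map_mul, map_one] at h2
        calc inc (μA i) = inc (μA i) * (constantCoeff (μ i) * inc (mA i)) := by rw [h1, mul_one]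
          _ = (inc (μA i) * inc (mA i)) * constantCoeff (μ i) := by ring
          _ = _ := by rw [h2, one_mul]
      · have h1 := congrArg (PowerSeries.map (e : T →+* K)) (hμ i hi)
        have h2 := congrArg ψ (hμA i hi)
        rw [map_mul, map_one, ← (hmk i hi.le).1] at h1
        rw [map_mul, map_one] at h2
        calc PowerSeries.map (e : T →+* K) (μ i)
            = PowerSeries.map (e : T →+* K) (μ i) * (ψ (μA i) * ψ (mA i)) := by rw [h2, mul_one]
          _ = (PowerSeries.map (e : T →+* K) (μ i) * ψ (mA i)) * ψ (μA i) := by ring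
          _ = _ := by rw [h1, one_mul]
    · refine ⟨τA i, ?_, ?_⟩
      · have h1 := congrArg constantCoeff (hτ i hi)
        have h2 := congrArg inc (hτA i hi)
        rw [map_mul, map_one, map_sub, hcc, hFc, ← hσ i hi, ← hmA i hi.le, ← map_sub] at h1
        rw [map_mul, map_one] at h2
        calc inc (τA i) = inc (τA i) * (constantCoeff (τ i) * inc (σ i (d0 g0) - mA i)) := by
              rw [h1, mul_one]
          _ = (inc (τA i) * inc (σ i (d0 g0) - mA i)) * constantCoeff (τ i) := by ring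
          _ = _ := by rw [h2, one_mul]
      · have h1 := congrArg (PowerSeries.map (e : T →+* K)) (hτ i hi)
        have h2 := congrArg ψ (hτA i hi)
        rw [map_mul, map_one, map_sub, hΦψ i hi, ← (hmk i hi.le).1, ← map_sub] at h1
        rw [map_mul, map_one] at h2
        calc PowerSeries.map (e : T →+* K) (τ i)
            = PowerSeries.map (e : T →+* K) (τ i) * (ψ (τA i) * ψ (σ i (d0 g0) - mA i)) := by
              rw [h2, mul_one]
          _ = (PowerSeries.map (e : T →+* K) (τ i) * ψ (σ i (d0 g0) - mA i)) * ψ (τA i) := by ring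
          _ = _ := by rw [h1, one_mul]
  have hfin := gam' D (e : T →+* K) hid (fun c => e.commutes c) inc hinc ψ S hS1 hS2
    (s := m N - C (inc (mA N))) (sub_mem (gm N le_rfl) (gB _ hBN))
    (by rw [map_sub, constantCoeff_C, hmA N le_rfl, sub_self])
  exact sub_eq_zero.1 hfin

end undef

end Crest.Agent.R102.H3
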