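import Crest.Agent.R102.Rat1C_389
import Crest.Agent.R102.Rat1A_389

/-!
Row 102, [H3], theorem (RAT), RAT-1, part D: normalisation of the deformed mirrors; a deformation
which does not move the mirrors is trivial.
-/

set_option linter.unusedSectionVars false
set_option autoImplicit false

namespace Crest.Agent.R102.H3

open PowerSeries Finset

section normalise

variable {K H A0 : Type*} [Field K] [CharZero K] [CommRing H] [Algebra K H] [CommRing A0]
  [Algebra K A0]

/-- the points as algebra homomorphisms -/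
theorem pt_algebraMap {S : Type*} [CommRing S] [Algebra K S] (d : Derivation K H H)
    (φ : H →+* S⟦X⟧) {y : S⟦X⟧} (hy : X ∣ y) (c : K) :
    pt d φ y hy (algebraMap K H c) = φ (algebraMap K H c) :=
  pt_const d φ hy (Derivation.map_algebraMap d c)

/-- **normalisation**: `z` undeformed -/
theorem normalise (d : Derivation K H H) {z : H} (hz : d z = 1) (ε : H →ₐ[K] K)
    (d0 : Derivation K A0 A0) (z0 : A0)
    (hz0 : d0 z0 = 1) (ρ : A0 →ₐ[K] H) (hρz : ρ z0 = z) (Φ : A0 →ₐ[K] H⟦X⟧)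
    (hΦd : ∀ a, Φ (d0 a) = cD d (Φ a)) (hΦc : ∀ a, constantCoeff (Φ a) = ρ a) :
    ∃ (F : A0 →ₐ[K] H⟦X⟧) (w : K⟦X⟧) (hw : X ∣ w), (∀ a, F (d0 a) = cD d (F a)) ∧
      F z0 = C z ∧ (∀ a, constantCoeff (F a) = ρ a) ∧
      ∀ a, PowerSeries.map (ε : H →+* K) (Φ a) =
        pt (cD d) (PowerSeries.map (ε : H →+* K)) w hw (F a) := by
  have hzz : cD d (C z) = (1 : H⟦X⟧) := by rw [cD_C, hz, map_one]
  set c : H⟦X⟧ := Φ z0 - C z with hc
  have hdc : cD d c = 0 := by
    rw [hc, map_sub, ← hΦd, hz0, map_one, hzz, sub_self]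
  have hcX : X ∣ c := by
    rw [X_dvd_iff, hc, map_sub, hΦc, constantCoeff_C, hρz, sub_self]
  have hcX' : X ∣ -c := (dvd_neg).2 hcX
  set w : K⟦X⟧ := PowerSeries.map (ε : H →+* K) c with hwd
  have hw : X ∣ w := by
    have h := map_dvd (PowerSeries.map (ε : H →+* K)) hcX
    rwa [map_X] at h
  -- the homomorphism
  set P : H⟦X⟧ →+* H⟦X⟧ := pt (cD d) (RingHom.id H⟦X⟧) (-c) hcX' with hP
  let F : A0 →ₐ[K] H⟦X⟧ :=
    { (P.comp (Φ : A0 →+* H⟦X⟧)) with
      commutes' := by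
        intro r
        change P (Φ (algebraMap K A0 r)) = _
        rw [AlgHom.commutes, hP, pt_algebraMap]
        rfl }
  have hF : ∀ a, F a = P (Φ a) := fun a => rfl
  have hPd : ∀ f, cD d (P f) = P (cD d f) := by
    intro f
    have h1 := cD_pt (cD d) d (RingHom.id H⟦X⟧) 1 (fun f => by simp) hcX' f
    rw [map_neg, hdc, neg_zero, add_zero, mul_one] at h1
    exact h1
  refine ⟨F, w, hw, fun a => ?_, ?_, fun a => ?_, fun a => ?_⟩
  · rw [hF, hF, hPd, hΦd]
  · have h1 : Φ z0 = C z + c := by rw [hc]; ring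
    rw [hF, h1, map_add, hP, pt_coord (cD d) _ hcX' hzz, pt_const (cD d) _ hcX' hdc]
    simp
  · rw [hF, hP, constantCoeff_pt]
    exact hΦc a
  · set χ : H⟦X⟧ →+* K⟦X⟧ := pt (cD d) (PowerSeries.map (ε : H →+* K)) w hw with hχ
    have h1 : χ (-c) = -w := by
      rw [map_neg, hχ, pt_const (cD d) _ hw hdc]
    have h2 : X ∣ χ (-c) := by rw [h1]; exact (dvd_neg).2 hw
    have h3 := map_pt_of_dvd (cD d) χ (RingHom.id H⟦X⟧) hcX' h2
    have h4 : χ (F a) = (χ.comp P) (Φ a) := rfl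
    rw [h4, hP, h3, RingHom.comp_id]
    have h5 : pt (cD d) χ (χ (-c)) h2 =
        pt (cD d) (PowerSeries.map (ε : H →+* K)) (w + (-w)) (dvd_add hw ((dvd_neg).2 hw)) := by
      rw [← pt_pt (cD d) (PowerSeries.map (ε : H →+* K)) hw ((dvd_neg).2 hw)]
      exact pt_congr (cD d) _ _ rfl h1
    rw [h5]
    have h6 : pt (cD d) (PowerSeries.map (ε : H →+* K)) (w + (-w)) (dvd_add hw ((dvd_neg).2 hw))
        = pt (cD d) (PowerSeries.map (ε : H →+* K)) 0 (dvd_zero _) :=
      pt_congr (cD d) _ _ rfl (add_neg_cancel w)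
    rw [h6, pt_zero]

end normalise

section kills

variable {K H A A0 : Type*} [Field K] [CharZero K] [CommRing H] [Algebra K H]
  [CommRing A] [Algebra K A] [CommRing A0] [Algebra K A0]

theorem coeff_one_mul' {R : Type*} [CommRing R] (f g : R⟦X⟧) :
    coeff 1 (f * g) = constantCoeff f * coeff 1 g + constantCoeff g * coeff 1 f := by
  rw [coeff_mul, Finset.Nat.antidiagonal_succ]
  simp
  ring

theorem coeff_one_pt (d : Derivation K H H) (φ : H →+* K) (w : K⟦X⟧) (hw : X ∣ w) (f : H⟦X⟧) :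
    coeff 1 (pt (cD d) (PowerSeries.map φ) w hw f) =
      φ (coeff 1 f) + φ (d (constantCoeff f)) * coeff 1 w := by
  obtain ⟨q, hq⟩ := pt_eq (cD d) (PowerSeries.map φ) hw f 2
  have hw0 : constantCoeff w = 0 := X_dvd_iff.1 hw
  rw [hq, Finset.sum_range_succ, Finset.sum_range_one, dn_zero, dn_one, pow_zero, mul_one,
    pow_one, map_add, map_add, coeff_one_mul', coeff_one_mul', pow_two, coeff_one_mul',
    map_mul, hw0, coeff_map, constantCoeff_map]
  have h : constantCoeff (cD d f) = d (constantCoeff f) := by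
    rw [← coeff_zero_eq_constantCoeff_apply, coeff_cD, coeff_zero_eq_constantCoeff_apply]
  rw [h]
  ring

/-- a deformation which does not move the mirrors is trivial on the chain -/
theorem kills (d : Derivation K H H) {z : H} (hz : d z = 1)
    (d0 : Derivation K A0 A0) (z0 g0 : A0)
    (F : ℕ → A0 →ₐ[K] H⟦X⟧) (hFd : ∀ i a, F i (d0 a) = cD d (F i a))
    (hFz : ∀ i, F i z0 = C z)
    (N : ℕ) (ε : ℕ → H →+* K) (ψ : A →ₐ[K] K⟦X⟧)
    (σ : ℕ → A0 →ₐ[K] A) (mA kA μA τA : ℕ → A)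
    (hAinc : ∀ i < N, σ i g0 = mA i * σ i z0 + kA i)
    (hAinc' : ∀ i < N, σ i g0 = mA (i + 1) * σ i z0 + kA (i + 1))
    (hArefl : ∀ i < N, mA (i + 1) * mA i = (σ i (d0 g0)) ^ 2)
    (hμA : ∀ i < N, μA i * mA i = 1) (hτA : ∀ i < N, τA i * (σ i (d0 g0) - mA i) = 1)
    (h0 : coeff 1 (ψ (mA 0)) = 0) (h0' : coeff 1 (ψ (kA 0)) = 0)
    (w : ℕ → K⟦X⟧) (hw : ∀ i, X ∣ w i)
    (hψ : ∀ i < N, ∀ a, ψ (σ i a) = pt (cD d) (PowerSeries.map (ε i)) (w i) (hw i) (F i a))
    (hν : ∀ i < N, coeff 1 (F i g0) = 0) :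
    (∀ i ≤ N, coeff 1 (ψ (mA i)) = 0 ∧ coeff 1 (ψ (kA i)) = 0) ∧
      ∀ i < N, coeff 1 (ψ (σ i z0)) = 0 ∧ ∀ r, coeff 1 (ψ (σ i (d0^[r] g0))) = 0 := by
  have hδ : ∀ a b, coeff 1 (ψ (a * b)) =
      constantCoeff (ψ a) * coeff 1 (ψ b) + constantCoeff (ψ b) * coeff 1 (ψ a) := by
    intro a b
    rw [map_mul, coeff_one_mul']
  have hF1 : ∀ i < N, ∀ r, coeff 1 (F i (d0^[r] g0)) = 0 := by
    intro i hi r
    induction r with
    | zero => exact hν i hi
    | succ r ih => rw [Function.iterate_succ_apply', hFd, coeff_cD, ih, map_zero]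
  have hδz : ∀ i < N, coeff 1 (ψ (σ i z0)) = coeff 1 (w i) := by
    intro i hi
    rw [hψ i hi, coeff_one_pt, hFz, constantCoeff_C, hz, map_one, one_mul, coeff_C]
    simp
  have hδg : ∀ i < N, ∀ r, coeff 1 (ψ (σ i (d0^[r] g0))) =
      constantCoeff (ψ (σ i (d0^[r + 1] g0))) * coeff 1 (w i) := by
    intro i hi r
    rw [hψ i hi, coeff_one_pt, hF1 i hi, map_zero, zero_add, hψ i hi, constantCoeff_pt,
      constantCoeff_map, Function.iterate_succ_apply', hFd, constantCoeff_cD]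
  have key : ∀ i ≤ N, (coeff 1 (ψ (mA i)) = 0 ∧ coeff 1 (ψ (kA i)) = 0) ∧
      ∀ j < i, coeff 1 (w j) = 0 := by
    intro i
    induction i with
    | zero => intro _; exact ⟨⟨h0, h0'⟩, fun j hj => absurd hj (by omega)⟩
    | succ i ih =>
      intro hi
      have hi' : i < N := hi
      obtain ⟨⟨h1, h2⟩, h3⟩ := ih hi'.le
      have e1 := congrArg (fun a => coeff 1 (ψ a)) (hAinc i hi')
      simp only [map_add] at e1
      rw [hδ, h1, h2, hδz i hi'] at e1
      have e2 := hδg i hi' 0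
      rw [Function.iterate_zero, id, zero_add, Function.iterate_one] at e2
      rw [e2] at e1
      have e3 := congrArg (fun a => constantCoeff (ψ a)) (hτA i hi')
      simp only [map_mul, map_sub, map_one] at e3
      have hwi : coeff 1 (w i) = 0 := by
        linear_combination constantCoeff (ψ (τA i)) * e1 - coeff 1 (w i) * e3
      have e4 := congrArg (fun a => coeff 1 (ψ a)) (hArefl i hi')
      simp only [pow_two] at e4
      have e5 := hδg i hi' 1
      rw [Function.iterate_one, hwi, mul_zero] at e5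
      rw [hδ, hδ, h1, e5] at e4
      have e6 := congrArg (fun a => constantCoeff (ψ a)) (hμA i hi')
      simp only [map_mul, map_one] at e6
      have hm' : coeff 1 (ψ (mA (i + 1))) = 0 := by
        linear_combination constantCoeff (ψ (μA i)) * e4 - coeff 1 (ψ (mA (i + 1))) * e6
      have e7 := congrArg (fun a => coeff 1 (ψ a)) (hAinc' i hi')
      simp only [map_add] at e7
      rw [hδ, hm', hδz i hi', hwi, e2, hwi] at e7
      have hk' : coeff 1 (ψ (kA (i + 1))) = 0 := by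
        linear_combination -e7
      refine ⟨⟨hm', hk'⟩, fun j hj => ?_⟩
      rcases Nat.lt_succ_iff_lt_or_eq.1 hj with h4 | h4
      · exact h3 j h4
      · rw [h4]; exact hwi
  refine ⟨fun i hi => (key i hi).1, fun i hi => ⟨?_, fun r => ?_⟩⟩
  · rw [hδz i hi]; exact (key N le_rfl).2 i hi
  · rw [hδg i hi, (key N le_rfl).2 i hi, mul_zero]

/-- the elements killed by `coeff 1 ∘ ψ` -/
theorem kills_adjoin (ψ : A →ₐ[K] K⟦X⟧) (s : Set A) (h : ∀ a ∈ s, coeff 1 (ψ a) = 0) {P Q y : A}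
    (hP : P ∈ Algebra.adjoin K s) (hQ : Q ∈ Algebra.adjoin K s) (hy : Q * y = P)
    (hQ0 : constantCoeff (ψ Q) ≠ 0) : coeff 1 (ψ y) = 0 := by
  have h1 : ∀ a ∈ Algebra.adjoin K s, coeff 1 (ψ a) = 0 := by
    intro a ha
    induction ha using Algebra.adjoin_induction with
    | mem x hx => exact h x hx
    | algebraMap r =>
      rw [AlgHom.commutes, PowerSeries.algebraMap_apply, coeff_C]
      simp
    | add x y _ _ hx hy => rw [map_add, map_add, hx, hy, add_zero]
    | mul x y _ _ hx hy => rw [map_mul, coeff_one_mul', hx, hy, mul_zero, mul_zero, add_zero]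
  have h2 := congrArg (fun a => coeff 1 (ψ a)) hy
  simp only [map_mul] at h2
  rw [coeff_one_mul', h1 P hP, h1 Q hQ, mul_zero, add_zero] at h2
  exact (mul_eq_zero.1 h2).resolve_left hQ0

end kills

end Crest.Agent.R102.H3
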