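import Crest.Agent.R102.FCTR_575
import Crest.Agent.R102.TayOm_781
import Crest.Agent.R102.RatGlueA_798
import Crest.Agent.R102.F7_389
import Crest.Agent.R102.F1d_201

/-!
Row 102, part (C), leaf H3, (T) TRANSFER, part A: the chain of `F7_389` and its Taylor expansion
at `ω = 0`.
-/

set_option linter.unusedSectionVars false
set_option autoImplicit false

namespace Crest.Agent.R102.CT575

open H3 Glue798 PowerSeries Finset Set Topology TopologicalSpace Metric Filter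

noncomputable section

section TOcomp

variable {D V : Opens ℂ} {W : Opens (ℂ × ℂ)}

/-- **composition**, `compH` form -/
theorem TO_compH (hD : D ≤ V) (h0 : ∀ c ∈ D, (c, (0 : ℂ)) ∈ W) (h1 : ∀ p ∈ W, p.1 ∈ D)
    (b : Hol W) (hb : ∀ p : W, (b : W → ℂ) p ∈ V)
    (hb0 : ∀ c (hc : c ∈ D), (b : W → ℂ) ⟨(c, 0), h0 c hc⟩ = c)
    (he : (X : (Hol D)⟦X⟧) ∣ TO h0 b - C (zH D)) (f : Hol V) :
    TO h0 (compH b hb f) = pt (DH D) C (TO h0 b - C (zH D)) he (Hol.res hD f) := by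
  have hG : AnalyticOnNhd ℂ (ext0 (f : V → ℂ)) D := (Hol.an f).mono hD
  have hGb : AnalyticOnNhd ℂ (fun p => ext0 (f : V → ℂ) (ext0 (b : W → ℂ) p)) W := by
    intro x hx
    refine AnalyticAt.fun_comp (g := ext0 (f : V → ℂ)) ?_ (Hol.an b x hx)
    rw [ext0_of_mem _ hx]
    exact Hol.an f _ (hb ⟨x, hx⟩)
  have e1 : compH b hb f = Hol.ofFun _ hGb := by
    ext p
    rw [compH_apply, Hol.ofFun_apply, ext0_apply, ext0_of_mem _ (hb p)]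
  have e2 : Hol.ofFun (ext0 (b : W → ℂ)) (Hol.an b) = b := Hol.ofFun_ext0 b
  have e3 : Hol.res hD f = Hol.ofFun (ext0 (f : V → ℂ)) hG := by
    ext x
    rw [Hol.res_apply, Hol.ofFun_apply, ext0_of_mem _ (hD x.2)]
  have he' : (X : (Hol D)⟦X⟧) ∣ TO h0 (Hol.ofFun (ext0 (b : W → ℂ)) (Hol.an b)) - C (zH D) := by
    rw [e2]; exact he
  have key := TO_comp h0 h1 hG (Hol.an b)
    (fun c hc => by rw [ext0_of_mem _ (h0 c hc)]; exact hb0 c hc) hGb he'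
  rw [e1, key, e3]
  exact congrArg (fun Φ : Hol D →+* (Hol D)⟦X⟧ => Φ _) (pt_congr (DH D) he' he rfl (by rw [e2]))

end TOcomp

/-- the polydisc -/
def UU (c₀ : ℂ) (ρ : ℝ) : Opens (ℂ × ℂ) :=
  ⟨ball c₀ ρ ×ˢ ball (0 : ℂ) ρ, IsOpen.prod isOpen_ball isOpen_ball⟩

theorem mem_UU {c₀ : ℂ} {ρ : ℝ} {p : ℂ × ℂ} : p ∈ UU c₀ ρ ↔ p ∈ ball c₀ ρ ×ˢ ball (0 : ℂ) ρ :=
  Iff.rfl

theorem UU_h0 {c₀ : ℂ} {ρ : ℝ} (hρ : 0 < ρ) : ∀ c ∈ bO c₀ ρ, (c, (0 : ℂ)) ∈ UU c₀ ρ :=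
  fun _ hc => ⟨hc, mem_ball_self hρ⟩

theorem UU_h1 {c₀ : ℂ} {ρ : ℝ} : ∀ p ∈ UU c₀ ρ, p.1 ∈ bO c₀ ρ := fun _ hp => hp.1

theorem UU_preconnected (c₀ : ℂ) (ρ : ℝ) : IsPreconnected ((UU c₀ ρ : Opens (ℂ × ℂ)) : Set (ℂ × ℂ)) :=
  (convex_ball c₀ ρ).isPreconnected.prod (convex_ball (0 : ℂ) ρ).isPreconnected

/-- the chain near another point -/
theorem chain_move {g : ℂ → ℂ} {c₀ : ℂ} {N : ℕ} {ρ : ℝ} {β m k q q' : ℕ → ℂ × ℂ → ℂ}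
    (h : F7389.Chain g c₀ N ρ β m k q q') {t : ℂ} {ρ' : ℝ} (hρ' : 0 < ρ')
    (ht : ball t ρ' ⊆ ball c₀ ρ) (hle : ρ' ≤ ρ) : F7389.Chain g t N ρ' β m k q q' := by
  have hs : ball t ρ' ×ˢ ball (0 : ℂ) ρ' ⊆ ball c₀ ρ ×ˢ ball (0 : ℂ) ρ :=
    Set.prod_mono ht (ball_subset_ball hle)
  exact
  { ρ_pos := hρ'
    an_β := fun i hi => (h.an_β i hi).mono hs
    an_m := fun i hi => (h.an_m i hi).mono hs
    an_k := fun i hi => (h.an_k i hi).mono hs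
    an_q := fun i hi => (h.an_q i hi).mono hs
    an_q' := fun i hi => (h.an_q' i hi).mono hs
    β_zero := h.β_zero
    β_c := fun i hi c hc => h.β_c i hi c (ht hc)
    m_c := fun i hi c hc => h.m_c i hi c (ht hc)
    q_c := fun i hi c hc => h.q_c i hi c (ht hc)
    q'_c := fun i hi c hc => h.q'_c i hi c (ht hc)
    an_g := fun i hi p hp => h.an_g i hi p (hs hp)
    an_g' := fun p hp => h.an_g' p (hs hp)
    inc := fun i hi p hp => h.inc i hi p (hs hp)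
    inc' := fun i hi p hp => h.inc' i hi p (hs hp)
    chord := fun p hp => h.chord p (hs hp)
    refl := fun i hi p hp => h.refl i hi p (hs hp)
    m_ne := fun i hi p hp => h.m_ne i hi p (hs hp)
    q_ne := fun i hi p hp => h.q_ne i hi p (hs hp)
    q'_ne := fun i hi p hp => h.q'_ne i hi p (hs hp)
    q_eq := fun i hi p hp => h.q_eq i hi p (hs hp)
    q'_eq := fun i hi p hp => h.q'_eq i hi p (hs hp)
    even_m := fun p hp => h.even_m p (hs hp)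
    even_k := fun p hp => h.even_k p (hs hp) }

/-- data: chain on the polydisc around `(c₀, 0)`, vertices in `V = ball e r`, `g` analytic there -/
structure Dat (g : ℂ → ℂ) (c₀ : ℂ) (N : ℕ) (ρ : ℝ) (e : ℂ) (r : ℝ)
    (β m k q q' : ℕ → ℂ × ℂ → ℂ) : Prop where
  ch : F7389.Chain g c₀ N ρ β m k q q'
  sub : ball c₀ ρ ⊆ ball e r
  vert : ∀ i ≤ N, ∀ p ∈ ball c₀ ρ ×ˢ ball (0 : ℂ) ρ, p.1 + p.2 * β i p ∈ ball e r
  ang : AnalyticOnNhd ℂ g (ball e r)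

section dat

variable {g : ℂ → ℂ} {c₀ e : ℂ} {N : ℕ} {ρ r : ℝ} {β m k q q' : ℕ → ℂ × ℂ → ℂ}
  (h : Dat g c₀ N ρ e r β m k q q')

/-- functions on the polydisc as elements of `Hol (UU c₀ ρ)` -/
abbrev hU (c₀ : ℂ) (ρ : ℝ) (F : ℂ × ℂ → ℂ) : Hol (UU c₀ ρ) := toH (UU c₀ ρ) F

abbrev omH (c₀ : ℂ) (ρ : ℝ) : Hol (UU c₀ ρ) := hU c₀ ρ (fun p => p.2)

theorem Dat.an_b (h : Dat g c₀ N ρ e r β m k q q') {i : ℕ} (hi : i ≤ N) :
    AnalyticOnNhd ℂ (fun p : ℂ × ℂ => p.1 + p.2 * β i p) (UU c₀ ρ) :=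
  analyticOnNhd_fst.add (analyticOnNhd_snd.mul (h.ch.an_β i hi))

/-- the vertex `b i` -/
def bH (c₀ : ℂ) (ρ : ℝ) (β : ℕ → ℂ × ℂ → ℂ) (i : ℕ) : Hol (UU c₀ ρ) :=
  hU c₀ ρ (fun p => p.1 + p.2 * β i p)

theorem Dat.bH_apply (h : Dat g c₀ N ρ e r β m k q q') {i : ℕ} (hi : i ≤ N) (p : UU c₀ ρ) :
    (bH c₀ ρ β i : UU c₀ ρ → ℂ) p = (p : ℂ × ℂ).1 + (p : ℂ × ℂ).2 * β i p :=
  toH_apply (h.an_b hi) p

theorem Dat.bH_mem (h : Dat g c₀ N ρ e r β m k q q') {i : ℕ} (hi : i ≤ N) (p : UU c₀ ρ) :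
    (bH c₀ ρ β i : UU c₀ ρ → ℂ) p ∈ bO e r := by
  rw [h.bH_apply hi]
  exact h.vert i hi p p.2

/-- the germ -/
def gV (g : ℂ → ℂ) (e : ℂ) (r : ℝ) : Hol (bO e r) := toH (bO e r) g

theorem Dat.gV_apply (h : Dat g c₀ N ρ e r β m k q q') (x : bO e r) :
    (gV g e r : bO e r → ℂ) x = g x := toH_apply h.ang x

theorem Dat.le' (h : Dat g c₀ N ρ e r β m k q q') : bO c₀ ρ ≤ bO e r := h.sub

/-- restriction `Hol V → Hol D` -/
def Dat.rs (h : Dat g c₀ N ρ e r β m k q q') : Hol (bO e r) →ₐ[ℂ] Hol (bO c₀ ρ) := Hol.res h.le'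

/-- Taylor expansion `Hol U → (Hol D)⟦X⟧` -/
def Dat.ta (h : Dat g c₀ N ρ e r β m k q q') : Hol (UU c₀ ρ) →ₐ[ℂ] (Hol (bO c₀ ρ))⟦X⟧ :=
  TO (UU_h0 h.ch.ρ_pos)

theorem Dat.ta_om (h : Dat g c₀ N ρ e r β m k q q') : h.ta (omH c₀ ρ) = X := by
  rw [Dat.ta, omH, hU, toH_eq analyticOnNhd_snd]
  exact TO_om _ analyticOnNhd_snd

theorem Dat.ta_c (h : Dat g c₀ N ρ e r β m k q q') :
    h.ta (hU c₀ ρ (fun p => p.1)) = C (zH (bO c₀ ρ)) := by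
  have e : hU c₀ ρ (fun p => p.1) =
      Hol.pull Prod.fst analyticOnNhd_fst UU_h1 (zH (bO c₀ ρ)) := by
    ext x
    rw [hU, toH_apply analyticOnNhd_fst, Hol.pull_apply]
    rfl
  rw [e, Dat.ta]
  exact TO_fst _ _ _

theorem Dat.bH_eq (h : Dat g c₀ N ρ e r β m k q q') {i : ℕ} (hi : i ≤ N) :
    bH c₀ ρ β i = hU c₀ ρ (fun p => p.1) + omH c₀ ρ * hU c₀ ρ (β i) := by
  ext x
  rw [h.bH_apply hi]
  simp only [Subalgebra.coe_add, Subalgebra.coe_mul, Pi.add_apply, Pi.mul_apply]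
  rw [toH_apply analyticOnNhd_fst, toH_apply analyticOnNhd_snd, toH_apply (h.ch.an_β i hi)]

/-- the scaled vertex -/
def Dat.be (h : Dat g c₀ N ρ e r β m k q q') (i : ℕ) : (Hol (bO c₀ ρ))⟦X⟧ := h.ta (hU c₀ ρ (β i))

theorem Dat.ta_b (h : Dat g c₀ N ρ e r β m k q q') {i : ℕ} (hi : i ≤ N) :
    h.ta (bH c₀ ρ β i) = C (zH (bO c₀ ρ)) + X * h.be i := by
  rw [h.bH_eq hi, map_add, map_mul, h.ta_om, h.ta_c, Dat.be]

/-- pull back by the vertex -/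
def Dat.bs (h : Dat g c₀ N ρ e r β m k q q') {i : ℕ} (hi : i ≤ N) :
    Hol (bO e r) →ₐ[ℂ] Hol (UU c₀ ρ) := compH (bH c₀ ρ β i) (h.bH_mem hi)

theorem Dat.ta_bs (h : Dat g c₀ N ρ e r β m k q q') {i : ℕ} (hi : i ≤ N) (f : Hol (bO e r)) :
    h.ta (h.bs hi f) = pt (DH (bO c₀ ρ)) C (X * h.be i) (X_dvd_X_mul _) (h.rs f) := by
  have he : (X : (Hol (bO c₀ ρ))⟦X⟧) ∣ TO (UU_h0 h.ch.ρ_pos) (bH c₀ ρ β i) - C (zH (bO c₀ ρ)) := by
    have := h.ta_b hi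
    rw [Dat.ta] at this
    rw [this]
    exact ⟨h.be i, by ring⟩
  have h1 := TO_compH h.le' (UU_h0 h.ch.ρ_pos) UU_h1 (bH c₀ ρ β i) (h.bH_mem hi)
    (fun c hc => by rw [h.bH_apply hi]; simp) he f
  have h2 : h.ta (h.bs hi f) = TO (UU_h0 h.ch.ρ_pos) (compH (bH c₀ ρ β i) (h.bH_mem hi) f) := rfl
  rw [h2, h1]
  refine congrArg (fun Φ : Hol (bO c₀ ρ) →+* (Hol (bO c₀ ρ))⟦X⟧ => Φ (h.rs f))
    (pt_congr (DH (bO c₀ ρ)) he _ rfl ?_)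
  have := h.ta_b hi
  rw [Dat.ta] at this
  rw [this]
  ring

theorem DH_res {V V' : Opens ℂ} (hV : V' ≤ V) (f : Hol V) :
    DH V' (Hol.res hV f) = Hol.res hV (DH V f) := by
  ext x
  rw [DH_apply, Hol.res_apply, DH_apply]
  have h1 : ext0 (Hol.res hV f : V' → ℂ) =ᶠ[𝓝 (x : ℂ)] ext0 (f : V → ℂ) :=
    eventually_ext0_eq (fun p => ext0_apply (U := V) (f : V → ℂ) ⟨p, hV p.2⟩) x.2
  exact h1.deriv_eq

theorem Dat.rs_DH (h : Dat g c₀ N ρ e r β m k q q') (f : Hol (bO e r)) :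
    h.rs (DH _ f) = DH _ (h.rs f) := (DH_res h.le' f).symm

theorem Dat.rs_z (h : Dat g c₀ N ρ e r β m k q q') : h.rs (zH _) = zH _ := rfl

theorem Dat.bs_z (h : Dat g c₀ N ρ e r β m k q q') {i : ℕ} (hi : i ≤ N) :
    h.bs hi (zH _) = bH c₀ ρ β i := compH_zH _ _

theorem Dat.DgV_apply (h : Dat g c₀ N ρ e r β m k q q') (x : bO e r) :
    (DH _ (gV g e r) : bO e r → ℂ) x = deriv g x := by
  rw [DH_apply]
  exact (eventually_ext0_eq (fun y => (h.gV_apply y).symm) x.2).deriv_eq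

/-! ### the chain in `Hol U` -/

theorem Dat.inc (h : Dat g c₀ N ρ e r β m k q q') {i : ℕ} (hi : i ≤ N) :
    h.bs hi (gV g e r) = hU c₀ ρ (m i) * bH c₀ ρ β i + hU c₀ ρ (k i) := by
  ext x
  simp only [Subalgebra.coe_add, Subalgebra.coe_mul, Pi.add_apply, Pi.mul_apply]
  rw [Dat.bs, compH_apply, h.gV_apply, toH_apply (h.ch.an_m i hi), toH_apply (h.ch.an_k i hi)]
  change g ((bH c₀ ρ β i : UU c₀ ρ → ℂ) x) = _
  rw [h.bH_apply hi]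
  exact h.ch.inc i hi x x.2

theorem Dat.inc' (h : Dat g c₀ N ρ e r β m k q q') {i : ℕ} (hi : i < N) :
    h.bs hi.le (gV g e r) = hU c₀ ρ (m (i + 1)) * bH c₀ ρ β i + hU c₀ ρ (k (i + 1)) := by
  ext x
  simp only [Subalgebra.coe_add, Subalgebra.coe_mul, Pi.add_apply, Pi.mul_apply]
  rw [Dat.bs, compH_apply, h.gV_apply, toH_apply (h.ch.an_m (i + 1) hi),
    toH_apply (h.ch.an_k (i + 1) hi)]
  change g ((bH c₀ ρ β i : UU c₀ ρ → ℂ) x) = _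
  rw [h.bH_apply hi.le]
  exact h.ch.inc' i hi x x.2

theorem Dat.refl (h : Dat g c₀ N ρ e r β m k q q') {i : ℕ} (hi : i < N) :
    hU c₀ ρ (m (i + 1)) * hU c₀ ρ (m i) = h.bs hi.le (DH _ (gV g e r)) ^ 2 := by
  ext x
  simp only [Subalgebra.coe_mul, Pi.mul_apply, Subalgebra.coe_pow, Pi.pow_apply]
  have e1 : (hU c₀ ρ (m i) : UU c₀ ρ → ℂ) x = m i x := toH_apply (h.ch.an_m i hi.le) x
  have e2 : (hU c₀ ρ (m (i + 1)) : UU c₀ ρ → ℂ) x = m (i + 1) x :=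
    toH_apply (h.ch.an_m (i + 1) hi) x
  rw [Dat.bs, compH_apply, h.DgV_apply, e1, e2]
  change _ = deriv g ((bH c₀ ρ β i : UU c₀ ρ → ℂ) x) ^ 2
  rw [h.bH_apply hi.le]
  exact h.ch.refl i hi x x.2

theorem Dat.isUnit_m (h : Dat g c₀ N ρ e r β m k q q') {i : ℕ} (hi : i ≤ N) :
    IsUnit (hU c₀ ρ (m i)) := by
  refine Hol.isUnit _ fun x => ?_
  rw [toH_apply (h.ch.an_m i hi)]
  exact h.ch.m_ne i hi x x.2

theorem Dat.slope (h : Dat g c₀ N ρ e r β m k q q') {i : ℕ} (hi : i ≤ N) :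
    h.bs hi (DH _ (gV g e r)) - hU c₀ ρ (m i) = omH c₀ ρ * hU c₀ ρ (q i) := by
  ext x
  simp only [Subalgebra.coe_sub, Pi.sub_apply, Subalgebra.coe_mul, Pi.mul_apply]
  have e1 : (hU c₀ ρ (m i) : UU c₀ ρ → ℂ) x = m i x := toH_apply (h.ch.an_m i hi) x
  have e2 : (hU c₀ ρ (q i) : UU c₀ ρ → ℂ) x = q i x := toH_apply (h.ch.an_q i hi) x
  have e3 : (omH c₀ ρ : UU c₀ ρ → ℂ) x = (x : ℂ × ℂ).2 := toH_apply analyticOnNhd_snd x
  rw [Dat.bs, compH_apply, h.DgV_apply, e1, e2, e3]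
  change deriv g ((bH c₀ ρ β i : UU c₀ ρ → ℂ) x) - _ = _
  rw [h.bH_apply hi]
  exact h.ch.q_eq i hi x x.2

theorem Dat.isUnit_q (h : Dat g c₀ N ρ e r β m k q q') {i : ℕ} (hi : i ≤ N) :
    IsUnit (hU c₀ ρ (q i)) := by
  refine Hol.isUnit _ fun x => ?_
  rw [toH_apply (h.ch.an_q i hi)]
  exact h.ch.q_ne i hi x x.2

/-! ### the base chain in `(Hol D)⟦X⟧` -/

/-- the germ on `D` -/
def Dat.gD (h : Dat g c₀ N ρ e r β m k q q') : Hol (bO c₀ ρ) := h.rs (gV g e r)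

theorem Dat.gD_apply (h : Dat g c₀ N ρ e r β m k q q') (x : bO c₀ ρ) :
    (h.gD : bO c₀ ρ → ℂ) x = g x := by
  rw [Dat.gD, Dat.rs, Hol.res_apply, h.gV_apply]

theorem Dat.pt_z (h : Dat g c₀ N ρ e r β m k q q') (Y : (Hol (bO c₀ ρ))⟦X⟧) :
    pt (DH (bO c₀ ρ)) C (X * Y) (X_dvd_X_mul Y) (zH _) = C (zH _) + X * Y :=
  pt_coord (DH (bO c₀ ρ)) C (X_dvd_X_mul Y) (DH_zH _)

theorem Dat.base (h : Dat g c₀ N ρ e r β m k q q') :
    H3.Chain (DH (bO c₀ ρ)) (zH (bO c₀ ρ)) (fun _ => h.gD) N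
      (fun i => pt (DH (bO c₀ ρ)) C (X * h.be i) (X_dvd_X_mul (h.be i)))
      (fun i => h.ta (hU c₀ ρ (m i))) (fun i => h.ta (hU c₀ ρ (k i))) := by
  refine ⟨fun i hi => ?_, fun i hi => ?_, fun i hi => ?_⟩
  · rw [Dat.gD, ← h.ta_bs hi.le, h.inc hi.le, map_add, map_mul, h.ta_b hi.le, h.pt_z]
  · rw [Dat.gD, ← h.ta_bs hi.le, h.inc' hi, map_add, map_mul, h.ta_b hi.le, h.pt_z]
  · rw [Dat.gD, ← h.rs_DH, ← h.ta_bs hi.le, ← map_mul, h.refl hi, map_pow]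

theorem Dat.be_const (h : Dat g c₀ N ρ e r β m k q q') {i : ℕ} (hi : i ≤ N) :
    constantCoeff (h.be i) = 2 * (i : Hol (bO c₀ ρ)) + 1 := by
  ext c
  rw [Dat.be, Dat.ta, constantCoeff_TO, toH_apply (h.ch.an_β i hi), h.ch.β_c i hi c c.2]
  have : (((2 * (i : Hol (bO c₀ ρ)) + 1 : Hol (bO c₀ ρ)) : bO c₀ ρ → ℂ) c) =
      evH c (2 * (i : Hol (bO c₀ ρ)) + 1) := rfl
  rw [this, map_add, map_mul, map_natCast, map_ofNat, map_one]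

theorem Dat.be_zero (h : Dat g c₀ N ρ e r β m k q q') : h.be 0 = 1 := by
  have : hU c₀ ρ (β 0) = 1 := by
    ext x
    rw [toH_apply (h.ch.an_β 0 (Nat.zero_le _)), h.ch.β_zero]
    rfl
  rw [Dat.be, this, map_one]

/-- the first line -/
theorem Dat.hline (h : Dat g c₀ N ρ e r β m k q q') {mh kh : (Hol (bO c₀ ρ))⟦X⟧}
    (hm : h.ta (hU c₀ ρ (m 0)) = evn mh) (hk : h.ta (hU c₀ ρ (k 0)) = evn kh) :
    Ty (DH (bO c₀ ρ)) h.gD = evn mh * (C (zH _) + X) + evn kh := by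
  have h1 := congrArg h.ta (h.inc (Nat.zero_le N))
  have hb : h.ta (bH c₀ ρ β 0) = C (zH _) + X := by
    rw [h.ta_b (Nat.zero_le N), h.be_zero, mul_one]
  rw [h.ta_bs, map_add, map_mul, hb, hm, hk] at h1
  rw [← h1]
  have h2 : pt (DH (bO c₀ ρ)) C (X * h.be 0) (X_dvd_X_mul _) = Ty (DH (bO c₀ ρ)) := by
    refine RingHom.ext fun f => ?_
    rw [pt_apply]
    have h3 := evS_unique (RingHom.id (Hol (bO c₀ ρ))⟦X⟧) (C : Hol (bO c₀ ρ) →+* _)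
      (y := X * h.be 0) (X_dvd_X_mul _) (fun a => rfl) (by rw [h.be_zero, mul_one]; rfl)
    rw [← h3]
    rfl
  exact (congrArg (fun Φ : Hol (bO c₀ ρ) →+* (Hol (bO c₀ ρ))⟦X⟧ => Φ h.gD) h2).symm

theorem Dat.isUnit_dg (h : Dat g c₀ N ρ e r β m k q q') : IsUnit (DH _ h.gD) := by
  refine Hol.isUnit _ fun x => ?_
  rw [Dat.gD, ← h.rs_DH, Dat.rs, Hol.res_apply, h.DgV_apply]
  rw [← h.ch.m_c 0 (Nat.zero_le _) x x.2]
  exact h.ch.m_ne 0 (Nat.zero_le _) _ ⟨x.2, mem_ball_self h.ch.ρ_pos⟩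

theorem Dat.D2gV_apply (h : Dat g c₀ N ρ e r β m k q q') (x : bO e r) :
    (DH _ (DH _ (gV g e r)) : bO e r → ℂ) x = deriv (deriv g) x := by
  rw [DH_apply]
  exact (eventually_ext0_eq (fun y => (h.DgV_apply y).symm) x.2).deriv_eq

theorem Dat.isUnit_d2g (h : Dat g c₀ N ρ e r β m k q q') : IsUnit (dn (DH _) 2 h.gD) := by
  have h2 : (2 : Hol (bO c₀ ρ)) * dn (DH _) 2 h.gD = DH _ (DH _ h.gD) := by rw [two_dn_two]
  have h3 : IsUnit (DH _ (DH _ h.gD)) := by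
    refine Hol.isUnit _ fun x => ?_
    rw [Dat.gD, ← h.rs_DH, ← h.rs_DH, Dat.rs, Hol.res_apply, h.D2gV_apply]
    rw [← h.ch.q_c 0 (Nat.zero_le _) x x.2]
    exact h.ch.q_ne 0 (Nat.zero_le _) _ ⟨x.2, mem_ball_self h.ch.ρ_pos⟩
  rw [← h2] at h3
  exact isUnit_of_mul_isUnit_right h3

end dat

end

end Crest.Agent.R102.CT575
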