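import Crest.Agent.R102.Rat1E_389
import Crest.Agent.R102.Rat1D_389
import Crest.Agent.R102.RATDefs3_926
import Crest.Agent.R102.TransA_575
import Crest.Agent.R102.HolXY_289
import Crest.Agent.R102.AlgC_985

/-!
Row 102, [H3], theorem (RAT), RAT-1, part F: transfer to `ω = 0`, holomorphic models.
-/

set_option linter.unusedSectionVars false
set_option autoImplicit false

open Set Filter Topology Metric TopologicalSpace

noncomputable section

namespace Crest.Agent.R102.Rat1389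

open PowerSeries Crest.Agent.R102.H3 Crest.Agent.R102.Glue798 Crest.Agent.R102.CT575

section pull

variable {K H H' Λ : Type*} [Field K] [CommRing H] [Algebra K H] [CommRing H'] [Algebra K H']
  [CommRing Λ]

/-- change of the mirror ring -/
theorem chain_pull {d : Derivation K H H} {d' : Derivation K H' H'} (τ : H →+* H')
    (hτ : ∀ f, τ (d f) = d' (τ f)) {z : H} {z' : H'} (hz : τ z = z') {G : ℕ → H} {N : ℕ}
    {Φ : ℕ → H' →+* Λ} {m k : ℕ → Λ} (h : H3.Chain d z G N (fun i => (Φ i).comp τ) m k) :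
    H3.Chain d' z' (fun i => τ (G i)) N Φ m k where
  inc i hi := by
    have := h.inc i hi
    simp only [RingHom.comp_apply, hz] at this
    exact this
  inc' i hi := by
    have := h.inc' i hi
    simp only [RingHom.comp_apply, hz] at this
    exact this
  refl i hi := by
    have := h.refl i hi
    simp only [RingHom.comp_apply, hτ] at this
    exact this

theorem map_cD (τ : H →+* H') {d : Derivation K H H} {d' : Derivation K H' H'}
    (hτ : ∀ f, τ (d f) = d' (τ f)) (F : H⟦X⟧) :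
    PowerSeries.map τ (cD d F) = cD d' (PowerSeries.map τ F) := by
  ext n
  rw [coeff_map, coeff_cD, coeff_cD, coeff_map, hτ]

end pull

/-- the two Taylor expansions agree -/
theorem TO_eq_Tay {V : Opens ℂ} {W : Opens (ℂ × ℂ)} (h0 : ∀ c ∈ V, (c, (0 : ℂ)) ∈ W) (F : Hol W) :
    TO h0 F = HolXY289.Tay h0 F := by
  have e1 : dirD W ((0, 1) : ℂ × ℂ) = HolXY289.Dw W := by
    ext f x
    rfl
  ext n c
  have h3 := iter_dirD F n c 0 (h0 c c.2)
  rw [e1] at h3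
  rw [coeff_TO, HolXY289.coeff_Tay, dn, ← h3]
  rfl

section rigidM

variable {g : ℂ → ℂ} {c₀ c₁ : ℂ} {N : ℕ} {ρ r : ℝ} {β m k q q' : ℕ → ℂ × ℂ → ℂ}

theorem UU_flip {c₀ : ℂ} {ρ : ℝ} : ∀ p ∈ UU c₀ ρ, ((p.1, -p.2) : ℂ × ℂ) ∈ UU c₀ ρ := by
  rintro p ⟨h1, h2⟩
  exact ⟨h1, by simpa using h2⟩

theorem ta_even (h : Dat g c₀ N ρ c₁ r β m k q q') {F : ℂ × ℂ → ℂ}
    (hF : AnalyticOnNhd ℂ F (UU c₀ ρ)) (he : ∀ p ∈ UU c₀ ρ, F (p.1, -p.2) = F p) :
    ∃ E, h.ta (hU c₀ ρ F) = evn E := by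
  have h1 : HolXY289.flip UU_flip (hU c₀ ρ F) = hU c₀ ρ F := by
    ext p
    rw [HolXY289.flip_apply, toH_apply hF, toH_apply hF]
    exact he p p.2
  obtain ⟨E, hE⟩ := HolXY289.Tay_even (UU_h0 h.ch.ρ_pos) UU_flip h1
  exact ⟨E, by rw [Dat.ta, TO_eq_Tay, hE]⟩

instance isDomain_bO (c : ℂ) (ρ : ℝ) [Nonempty (bO c ρ)] : IsDomain (Hol (bO c ρ)) :=
  Hol.isDomain (bO_preconnected c ρ)

set_option maxHeartbeats 2000000 in
/-- **rigidity at the grazing locus** -/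
theorem rigid_M (h : Dat g c₀ N ρ c₁ r β m k q q') [IsDomain (Hol (UU c₀ ρ))]
    (G : ℕ → (Hol (bO c₁ r))⟦X⟧) (hG : ∀ i, constantCoeff (G i) = gV g c₁ r)
    (φM : ℕ → Hol (bO c₁ r) →+* FractionRing (Hol (UU c₀ ρ)))
    (hφM : ∀ i (hi : i < N) f, φM i f = algebraMap _ _ (h.bs hi.le f))
    (y m' k' : ℕ → (FractionRing (Hol (UU c₀ ρ)))⟦X⟧) (hy : ∀ i, X ∣ y i)
    (hout : H3.Chain (cD (DH (bO c₁ r))) (C (zH (bO c₁ r))) G N
      (fun i => pt (cD (DH (bO c₁ r))) (PowerSeries.map (φM i)) (y i) (hy i)) m' k')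
    (hm0 : m' 0 = C (algebraMap _ _ (hU c₀ ρ (m 0))))
    (hk0 : k' 0 = C (algebraMap _ _ (hU c₀ ρ (k 0))))
    (hmN : m' N = C (algebraMap _ _ (hU c₀ ρ (m N)))) : ∀ i < N, coeff 1 (G i) = 0 := by
  classical
  have hneD : Nonempty (bO c₀ ρ) := ⟨⟨c₀, mem_ball_self h.ch.ρ_pos⟩⟩
  let R := FractionRing (Hol (bO c₀ ρ))⟦X⟧
  let j : (Hol (bO c₀ ρ))⟦X⟧ →+* R := algebraMap _ _
  have hj : Function.Injective j := IsFractionRing.injective _ _
  have hjX : IsUnit (j X) := by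
    refine IsUnit.mk0 _ fun h0 => ?_
    exact X_ne_zero (hj (h0.trans (map_zero j).symm))
  have htainj : Function.Injective h.ta := by
    have h1 := HolXY289.Tay_injective_of_preconnected (UU_h0 h.ch.ρ_pos)
      (UU_preconnected c₀ ρ) ⟨c₀, mem_ball_self h.ch.ρ_pos⟩
    intro a b hab
    refine h1 ?_
    rw [← TO_eq_Tay, ← TO_eq_Tay]
    exact hab
  have hinj : Function.Injective (j.comp (h.ta : Hol (UU c₀ ρ) →+* (Hol (bO c₀ ρ))⟦X⟧)) :=
    hj.comp htainj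
  let θ : FractionRing (Hol (UU c₀ ρ)) →+* R := IsFractionRing.lift hinj
  have hθ : ∀ f, θ (algebraMap _ _ f) = j (h.ta f) := fun f => IsFractionRing.lift_algebraMap hinj f
  obtain ⟨mh, hmh⟩ := ta_even h (h.ch.an_m 0 (Nat.zero_le _)) h.ch.even_m
  obtain ⟨kh, hkh⟩ := ta_even h (h.ch.an_k 0 (Nat.zero_le _)) h.ch.even_k
  -- the chain over `R`
  have hXθ : (X : R⟦X⟧) ∣ PowerSeries.map θ X := by rw [map_X]
  have hyθ : ∀ i, X ∣ PowerSeries.map θ (y i) := fun i => hXθ.trans (map_dvd _ (hy i))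
  set Φ : ℕ → Hol (bO c₀ ρ) →+* (Hol (bO c₀ ρ))⟦X⟧ := fun i =>
    pt (DH (bO c₀ ρ)) C (X * h.be i) (X_dvd_X_mul (h.be i)) with hΦ
  have hrs : ∀ f, (h.rs : Hol (bO c₁ r) →+* Hol (bO c₀ ρ)) (DH (bO c₁ r) f) = DH (bO c₀ ρ) ((h.rs : Hol (bO c₁ r) →+* Hol (bO c₀ ρ)) f) :=
    fun f => h.rs_DH f
  have hv : ∀ i < N, (PowerSeries.map θ).comp
      (pt (cD (DH (bO c₁ r))) (PowerSeries.map (φM i)) (y i) (hy i)) =
      (pt (cD (DH (bO c₀ ρ))) (PowerSeries.map (j.comp (Φ i))) (PowerSeries.map θ (y i)) (hyθ i)).comp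
        (PowerSeries.map (h.rs : Hol (bO c₁ r) →+* Hol (bO c₀ ρ))) := by
    intro i hi
    rw [comp_pt (cD (DH (bO c₁ r))) (PowerSeries.map θ) hXθ,
      pt_comp (cD (DH (bO c₁ r))) (cD (DH (bO c₀ ρ))) (PowerSeries.map (h.rs : Hol (bO c₁ r) →+* Hol (bO c₀ ρ)))
        (map_cD (h.rs : Hol (bO c₁ r) →+* Hol (bO c₀ ρ)) hrs)]
    refine pt_congr (cD (DH (bO c₁ r))) _ _ ?_ rfl
    rw [← PowerSeries.map_comp, ← PowerSeries.map_comp]
    congr 1
    refine RingHom.ext fun f => ?_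
    simp only [RingHom.comp_apply]
    rw [hφM i hi, hθ, h.ta_bs hi.le]
    rfl
  have hch := (hout.map (PowerSeries.map θ)).congr hv
  have hch' := chain_pull (PowerSeries.map (h.rs : Hol (bO c₁ r) →+* Hol (bO c₀ ρ)))
    (map_cD (h.rs : Hol (bO c₁ r) →+* Hol (bO c₀ ρ)) hrs) (z' := C (zH (bO c₀ ρ))) (by rw [map_C]; rfl) hch
  have e0 : PowerSeries.map θ (m' 0) = C (j (h.ta (hU c₀ ρ (m 0)))) := by
    rw [hm0, map_C, hθ]
  have e0' : PowerSeries.map θ (k' 0) = C (j (h.ta (hU c₀ ρ (k 0)))) := by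
    rw [hk0, map_C, hθ]
  have eN : PowerSeries.map θ (m' N) = C (j (h.ta (hU c₀ ρ (m N)))) := by
    rw [hmN, map_C, hθ]
  have key := rigid (DH (bO c₀ ρ)) (z := zH (bO c₀ ρ)) (g := h.gD) (DH_zH (bO c₀ ρ)) h.isUnit_dg h.isUnit_d2g N
    (fun i => PowerSeries.map (h.rs : Hol (bO c₁ r) →+* Hol (bO c₀ ρ)) (G i))
    (fun i => by rw [constantCoeff_map, hG]; rfl) (h.hline hmh hkh) j hj hjX h.be
    (fun i => h.ta (hU c₀ ρ (m i))) (fun i => h.ta (hU c₀ ρ (k i)))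
    (fun i hi => h.be_const hi.le) h.base hmh hkh (fun i => PowerSeries.map θ (y i)) hyθ
    (fun i => PowerSeries.map θ (m' i)) (fun i => PowerSeries.map θ (k' i)) hch'
    e0 e0' eN
  intro i hi
  have h1 := key i hi
  rw [coeff_map] at h1
  have hle : bO c₀ ρ ≤ bO c₁ r := h.le'
  have h2 : Function.Injective h.rs :=
    Alg985.res_injective (bO_preconnected c₁ r) hle ⟨c₀, mem_ball_self h.ch.ρ_pos⟩
  exact h2 (h1.trans (map_zero h.rs).symm)

end rigidM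

end Crest.Agent.R102.Rat1389
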