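import Crest.Agent.R102.Rat1F_389
import Crest.Agent.R102.RatGlueB_798

/-!
Row 102, [H3], theorem (RAT), RAT-1, part G: holomorphic models of finitely generated algebras of
meromorphic functions, chain rules.
-/

set_option linter.unusedSectionVars false
set_option autoImplicit false

open Set Filter Topology Metric TopologicalSpace

noncomputable section

namespace Crest.Agent.R102.Rat1389

open PowerSeries Crest.Agent.R102.H3 Crest.Agent.R102.Glue798 Crest.Agent.R102.CT575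
  Crest.Agent.R102.RAT

/-- chain rule for the derivation `dM` -/
theorem dM_compH {W : Opens (ℂ × ℂ)} (μ κ : Hol W) {V : Opens ℂ} (b : Hol W)
    (hb : ∀ p : W, (b : W → ℂ) p ∈ V) (f : Hol V) :
    dM (pdH W (1, 0)) (pdH W (0, 1)) μ κ (compH b hb f) =
      compH b hb (DH V f) * dM (pdH W (1, 0)) (pdH W (0, 1)) μ κ b := by
  rw [dM_apply, dM_apply, pdH_compH, pdH_compH]
  ring

theorem dK_compH {W : Opens (ℂ × ℂ)} (μ κ : Hol W) {V : Opens ℂ} (b : Hol W)
    (hb : ∀ p : W, (b : W → ℂ) p ∈ V) (f : Hol V) :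
    dK (pdH W (1, 0)) (pdH W (0, 1)) μ κ (compH b hb f) =
      compH b hb (DH V f) * dK (pdH W (1, 0)) (pdH W (0, 1)) μ κ b := by
  rw [dK_apply, dK_apply, pdH_compH, pdH_compH]
  ring

set_option maxHeartbeats 4000000 in
/-- **holomorphic models** -/
theorem exists_model {U : Opens (ℂ × ℂ)} (hU : IsPreconnected (U : Set (ℂ × ℂ)))
    (hne : (U : Set (ℂ × ℂ)).Nonempty) [IsDomain (Hol U)] {μ κ : Hol U}
    {D₁ D₂ : Derivation ℂ (FractionRing (Hol U)) (FractionRing (Hol U))}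
    (h : Rat7217.Dual μ κ D₁ D₂) (S : Set (FractionRing (Hol U))) (hS : S.Finite) :
    ∃ (W : Opens (ℂ × ℂ)) (hle : W ≤ U) (_ : IsDomain (Hol W)), (W : Set (ℂ × ℂ)).Nonempty ∧
      IsPreconnected (W : Set (ℂ × ℂ)) ∧
      ∃ (δ : Fin 2 → Derivation ℂ (Hol W) (Hol W))
        (φ : FractionRing (Hol U) →ₐ[ℂ] FractionRing (Hol W)),
        (∀ f : Hol U, φ (algebraMap _ _ f) = algebraMap _ _ (Hol.res hle f)) ∧
        (∀ t ∈ S, ∃ h : Hol W, φ t = algebraMap _ _ h) ∧
        (∀ a x t, φ x = algebraMap _ _ t → φ ((![D₁, D₂] : Fin 2 → _) a x) =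
          algebraMap _ _ (δ a t)) ∧
        (∀ (p : W) t, (∀ l, evH p (word δ l t) = 0) → t = 0) ∧
        ∀ (V : Opens ℂ) (b : Hol W) (hb : ∀ p : W, (b : W → ℂ) p ∈ V) (a : Fin 2) (f : Hol V),
          δ a (compH b hb f) = compH b hb (DH V f) * δ a b := by
  classical
  set J : Hol U := Rat7217.jcb μ κ with hJ
  obtain ⟨W, hle, hdom, -, hWne, hWp, ρ1, hρ1, hreg⟩ := Alg985.exists_W1 hU
    (insert (algebraMap (Hol U) (FractionRing (Hol U)) J)⁻¹ S) (hS.insert _) U hne le_rfl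
  have hneW : Nonempty W := hWne.to_subtype
  have hJres : Rat7217.jcb (Hol.res hle μ) (Hol.res hle κ) = Hol.res hle J := jcb_res hle μ κ
  obtain ⟨i, hi⟩ := hreg _ (mem_insert _ _)
  have hinjW := IsFractionRing.injective (Hol W) (FractionRing (Hol W))
  have hu0 : Hol.res hle J * i = 1 := by
    refine hinjW ?_
    rw [map_mul, map_one, ← hρ1, ← hi, ← map_mul, mul_inv_cancel₀ h.ne, map_one]
  have hu : IsUnit (Hol.res hle J) := IsUnit.of_mul_eq_one _ hu0
  have huJ : IsUnit (Glue798.jcb (pdH W (1, 0)) (pdH W (0, 1)) (Hol.res hle μ)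
      (Hol.res hle κ)) := by
    rw [← jcb217, hJres]; exact hu
  have hJne : algebraMap (Hol W) (FractionRing (Hol W))
      (Rat7217.jcb (Hol.res hle μ) (Hol.res hle κ)) ≠ 0 := by
    rw [hJres]
    exact (hu.map _).ne_zero
  have h' := dual_of_ne (M := FractionRing (Hol W)) hJne
  obtain ⟨φ, hφ, hφ1, hφ2⟩ := transferU hle hU h h'
  have hφρ : φ = ρ1 := by
    have h1 : (φ : FractionRing (Hol U) →+* FractionRing (Hol W)) = ρ1 := by
      refine IsLocalization.ringHom_ext (nonZeroDivisors (Hol U)) ?_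
      refine RingHom.ext fun f => ?_
      exact (hφ f).trans (hρ1 f).symm
    exact AlgHom.coe_ringHom_injective h1
  let δ : Fin 2 → Derivation ℂ (Hol W) (Hol W) :=
    ![dM (pdH W (1, 0)) (pdH W (0, 1)) (Hol.res hle μ) (Hol.res hle κ),
      dK (pdH W (1, 0)) (pdH W (0, 1)) (Hol.res hle μ) (Hol.res hle κ)]
  refine ⟨W, hle, hdom, hWne, hWp, δ, φ, hφ, fun t ht => ?_, ?_, ?_, ?_⟩
  · rw [hφρ]
    exact hreg t (mem_insert_of_mem _ ht)
  · intro a x t ht
    have hP : ∀ f : Hol W, (IsScalarTower.toAlgHom ℂ (Hol W) (FractionRing (Hol W)))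
        (pdH W (1, 0) f) = Pc W (FractionRing (Hol W))
          ((IsScalarTower.toAlgHom ℂ (Hol W) (FractionRing (Hol W))) f) := fun f =>
      (Pc_map f).symm
    have hQ : ∀ f : Hol W, (IsScalarTower.toAlgHom ℂ (Hol W) (FractionRing (Hol W)))
        (pdH W (0, 1) f) = Pw W (FractionRing (Hol W))
          ((IsScalarTower.toAlgHom ℂ (Hol W) (FractionRing (Hol W))) f) := fun f =>
      (Pw_map f).symm
    fin_cases a
    · change φ (D₁ x) = algebraMap _ _ (dM _ _ _ _ t)
      rw [← hφ1, ht]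
      exact (map_dM (IsScalarTower.toAlgHom ℂ (Hol W) (FractionRing (Hol W))) hP hQ huJ t).symm
    · change φ (D₂ x) = algebraMap _ _ (dK _ _ _ _ t)
      rw [← hφ2, ht]
      exact (map_dK (IsScalarTower.toAlgHom ℂ (Hol W) (FractionRing (Hol W))) hP hQ huJ t).symm
  · intro p t ht
    refine HolXY289.eq_zero_of_words' δ hWp
      ![pdH W (1, 0) (Hol.res hle μ), pdH W (1, 0) (Hol.res hle κ)]
      ![pdH W (0, 1) (Hol.res hle μ), pdH W (0, 1) (Hol.res hle κ)] (fun f => ?_) (fun f => ?_)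
      t p ht
    · rw [Fin.sum_univ_two]
      exact span_P huJ f
    · rw [Fin.sum_univ_two]
      exact span_Q huJ f
  · intro V b hb a f
    fin_cases a
    · exact dM_compH _ _ b hb f
    · exact dK_compH _ _ b hb f

set_option maxHeartbeats 4000000 in
/-- chain rule in the field of meromorphic functions -/
theorem dual_compH {U : Opens (ℂ × ℂ)} [IsDomain (Hol U)] {μ κ : Hol U}
    {D₁ D₂ : Derivation ℂ (FractionRing (Hol U)) (FractionRing (Hol U))}
    (h : Rat7217.Dual μ κ D₁ D₂) {V : Opens ℂ} (b : Hol U) (hb : ∀ p : U, (b : U → ℂ) p ∈ V)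
    (f : Hol V) :
    D₁ (algebraMap _ _ (compH b hb f)) = algebraMap _ _ (compH b hb (DH V f)) *
        D₁ (algebraMap _ _ b) ∧
      D₂ (algebraMap _ _ (compH b hb f)) = algebraMap _ _ (compH b hb (DH V f)) *
        D₂ (algebraMap _ _ b) := by
  constructor
  · refine mul_left_cancel₀ h.ne ?_
    rw [h.d₁, mul_left_comm, h.d₁, ← map_mul]
    congr 1
    rw [jcb217, jcb217, Glue798.jcb, Glue798.jcb, pdH_compH, pdH_compH]
    ring
  · refine mul_left_cancel₀ h.ne ?_
    rw [h.d₂, mul_left_comm, h.d₂, ← map_mul]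
    congr 1
    rw [jcb217, jcb217, Glue798.jcb, Glue798.jcb, pdH_compH, pdH_compH]
    ring

end Crest.Agent.R102.Rat1389
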