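import Crest.Agent.R102.Rat1G_389

/-!
Row 102, [H3], theorem (RAT), RAT-1 = R4: deformed mirrors, comparison of outer chains.
-/

set_option linter.unusedSectionVars false
set_option autoImplicit false

open Set Filter Topology Metric TopologicalSpace

noncomputable section

namespace Crest.Agent.R102.Rat1389

open PowerSeries Crest.Agent.R102.H3 Crest.Agent.R102.Glue798 Crest.Agent.R102.CT575
  Crest.Agent.R102.RAT

section deform

variable {c₁ : ℂ} {r : ℝ} {A0 : Type} [CommRing A0] [Algebra ℂ A0]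

/-- the deformed mirrors -/
theorem exists_F [Algebra.FiniteType ℂ A0] (δ : Derivation ℂ A0 A0)
    (ρ : A0 →ₐ[ℂ] Hol (bO c₁ r)) (hρ : ∀ a, ρ (δ a) = DH (bO c₁ r) (ρ a)) (z0 : A0)
    (hδz : δ z0 = 1) (hρz : ρ z0 = zH (bO c₁ r)) (χ : A0 →ₐ[ℂ] ℂ⟦X⟧) (p0 : bO c₁ r)
    (hχ : ∀ a, constantCoeff (χ a) = evH p0 (ρ a)) :
    ∃ (F : A0 →ₐ[ℂ] (Hol (bO c₁ r))⟦X⟧) (w : ℂ⟦X⟧) (hw : X ∣ w),
      (∀ a, F (δ a) = cD (DH (bO c₁ r)) (F a)) ∧ F z0 = C (zH (bO c₁ r)) ∧
      (∀ a, constantCoeff (F a) = ρ a) ∧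
      ∀ a, χ a = pt (cD (DH (bO c₁ r))) (PowerSeries.map (evH p0 : Hol (bO c₁ r) →+* ℂ)) w hw
        (F a) := by
  obtain ⟨Φ, h1, h2, h3⟩ := exists_Phi_H p0 hρ hχ
  obtain ⟨F, w, hw, f1, f2, f3, f4⟩ := normalise (DH (bO c₁ r)) (DH_zH _) (evH p0)
    δ z0 hδz ρ hρz Φ h1 h2
  exact ⟨F, w, hw, f1, f2, f3, fun a => (h3 a).symm.trans (f4 a)⟩

/-- the trivial deformation -/
theorem exists_F0 (δ : Derivation ℂ A0 A0)
    (ρ : A0 →ₐ[ℂ] Hol (bO c₁ r)) (hρ : ∀ a, ρ (δ a) = DH (bO c₁ r) (ρ a)) (z0 : A0)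
    (hρz : ρ z0 = zH (bO c₁ r)) :
    ∃ (F : A0 →ₐ[ℂ] (Hol (bO c₁ r))⟦X⟧),
      (∀ a, F (δ a) = cD (DH (bO c₁ r)) (F a)) ∧ F z0 = C (zH (bO c₁ r)) ∧
      (∀ a, constantCoeff (F a) = ρ a) := by
  have h0 : ∀ f : Hol (bO c₁ r),
      (IsScalarTower.toAlgHom ℂ (Hol (bO c₁ r)) (Hol (bO c₁ r))⟦X⟧) f = C f := fun f => rfl
  refine ⟨(IsScalarTower.toAlgHom ℂ (Hol (bO c₁ r)) (Hol (bO c₁ r))⟦X⟧).comp ρ,
    fun a => ?_, ?_, fun a => ?_⟩
  · rw [AlgHom.comp_apply, AlgHom.comp_apply, h0, h0, cD_C, hρ]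
  · rw [AlgHom.comp_apply, h0, hρz]
  · rw [AlgHom.comp_apply, h0, constantCoeff_C]

end deform

section compare

variable {K H T M1 M : Type*} [Field K] [CharZero K] [CommRing H] [Algebra K H] [CommRing T]
  [CommRing M1] [CommRing M]

/-- comparison of the outer chains over `T` and `M` in `M1` -/
theorem compare (d : Derivation K H H) {z : H} (hz : d z = 1) (N : ℕ) (G : ℕ → H⟦X⟧)
    (φT : ℕ → H →+* T) (φM : ℕ → H →+* M) (a : T →+* M1) (φ : M →+* M1)
    (hc : ∀ i < N, φ.comp (φM i) = a.comp (φT i))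
    (yT mT kT : ℕ → T⟦X⟧) (hyT : ∀ i, X ∣ yT i)
    (hT : Chain (cD d) (C z) G N (fun i => pt (cD d) (PowerSeries.map (φT i)) (yT i) (hyT i))
      mT kT)
    (yM mM kM : ℕ → M⟦X⟧) (hyM : ∀ i, X ∣ yM i)
    (hM : Chain (cD d) (C z) G N (fun i => pt (cD d) (PowerSeries.map (φM i)) (yM i) (hyM i))
      mM kM)
    (h0 : PowerSeries.map a (mT 0) = PowerSeries.map φ (mM 0))
    (h0' : PowerSeries.map a (kT 0) = PowerSeries.map φ (kM 0))
    (hum : ∀ i < N, IsUnit (mT i))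
    (hut : ∀ i < N, IsUnit (constantCoeff (PowerSeries.map (φT i) (cD d (G i)) - mT i))) :
    ∀ i ≤ N, PowerSeries.map a (mT i) = PowerSeries.map φ (mM i) ∧
      PowerSeries.map a (kT i) = PowerSeries.map φ (kM i) := by
  have hzz : cD d (C z) = (1 : H⟦X⟧) := by rw [cD_C, hz, map_one]
  have hXa : (X : M1⟦X⟧) ∣ PowerSeries.map a X := by rw [map_X]
  have hXφ : (X : M1⟦X⟧) ∣ PowerSeries.map φ X := by rw [map_X]
  have hyTa : ∀ i, X ∣ PowerSeries.map a (yT i) := fun i => hXa.trans (map_dvd _ (hyT i))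
  have hyMφ : ∀ i, X ∣ PowerSeries.map φ (yM i) := fun i => hXφ.trans (map_dvd _ (hyM i))
  have e1 : ∀ i < N, (PowerSeries.map a).comp
      (pt (cD d) (PowerSeries.map (φT i)) (yT i) (hyT i)) =
      pt (cD d) (PowerSeries.map (a.comp (φT i))) (PowerSeries.map a (yT i)) (hyTa i) := by
    intro i _
    rw [comp_pt (cD d) (PowerSeries.map a) hXa]
    exact pt_congr (cD d) _ _ (by rw [← PowerSeries.map_comp]) rfl
  have e2 : ∀ i < N, (PowerSeries.map φ).comp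
      (pt (cD d) (PowerSeries.map (φM i)) (yM i) (hyM i)) =
      pt (cD d) (PowerSeries.map (a.comp (φT i))) (PowerSeries.map φ (yM i)) (hyMφ i) := by
    intro i hi
    rw [comp_pt (cD d) (PowerSeries.map φ) hXφ]
    exact pt_congr (cD d) _ _ (by rw [← hc i hi, ← PowerSeries.map_comp]) rfl
  have c1 := (hT.map (PowerSeries.map a)).congr e1
  have c2 := (hM.map (PowerSeries.map φ)).congr e2
  exact (outer_chain_unique (cD d) hzz N G (fun i => PowerSeries.map (a.comp (φT i)))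
    (fun i => PowerSeries.map a (yT i)) (fun i => PowerSeries.map φ (yM i))
    (fun i => PowerSeries.map a (mT i)) (fun i => PowerSeries.map φ (mM i))
    (fun i => PowerSeries.map a (kT i)) (fun i => PowerSeries.map φ (kM i)) hyTa hyMφ c1 c2 h0 h0'
    (fun i hi => (hum i hi).map _) (fun i hi => by
      have h1 := (hut i hi).map a
      rw [← constantCoeff_map, map_sub, ← RingHom.comp_apply, ← PowerSeries.map_comp] at h1
      exact h1)).2

end compare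

section finite

variable {M : Type} [Field M] [Algebra ℂ M]

/-- a derivation maps `ℂ[S]` into `ℂ[S ∪ Δ S]` -/
theorem der_adjoin_mem (Δ : Derivation ℂ M M) (S : Set M) {y : M}
    (hy : y ∈ Algebra.adjoin ℂ S) : Δ y ∈ Algebra.adjoin ℂ (S ∪ Δ '' S) := by
  have h1 : Algebra.adjoin ℂ S ≤ Algebra.adjoin ℂ (S ∪ Δ '' S) :=
    Algebra.adjoin_mono subset_union_left
  induction hy using Algebra.adjoin_induction with
  | mem x hx => exact Algebra.subset_adjoin (Or.inr ⟨x, hx, rfl⟩)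
  | algebraMap r => rw [Derivation.map_algebraMap]; exact zero_mem _
  | add x y _ _ hx hy => rw [map_add]; exact add_mem hx hy
  | mul x y hx' hy' hx hy =>
    rw [Derivation.leibniz, smul_eq_mul, smul_eq_mul]
    exact add_mem (mul_mem (h1 hx') hy) (mul_mem (h1 hy') hx)

/-- generators of a subalgebra seen in a bigger one -/
theorem mem_adjoin_sub (A : Subalgebra ℂ M) (s : Set A) {y : M}
    (hy : y ∈ Algebra.adjoin ℂ ((fun a : A => (a : M)) '' s)) :
    ∃ a ∈ Algebra.adjoin ℂ s, (a : M) = y := by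
  have h1 : Algebra.adjoin ℂ ((fun a : A => (a : M)) '' s) = (Algebra.adjoin ℂ s).map A.val :=
    (AlgHom.map_adjoin A.val s).symm
  rw [h1] at hy
  obtain ⟨a, ha, rfl⟩ := hy
  exact ⟨a, ha, rfl⟩

end finite

end Crest.Agent.R102.Rat1389
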