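import Crest.Agent.R102.Rat1H_389

/-!
Row 102, [H3], theorem (RAT), RAT-1 = R4: choice of the deformation.
-/

set_option linter.unusedSectionVars false
set_option autoImplicit false

open Set Filter Topology Metric TopologicalSpace

noncomputable section

namespace Crest.Agent.R102.Rat1389

open PowerSeries Crest.Agent.R102.H3 Crest.Agent.R102.Glue798 Crest.Agent.R102.CT575
  Crest.Agent.R102.RAT

/-- **choice of the deformation** -/
theorem exists_psi {M M1 R1 Pt : Type} [Field M] [Algebra ℂ M] [Field M1] [Algebra ℂ M1]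
    [CommRing R1] [Algebra ℂ R1] [Algebra R1 M1] [IsScalarTower ℂ R1 M1]
    (hinj : Function.Injective (algebraMap R1 M1)) (φ : M →ₐ[ℂ] M1) (S : Finset M)
    (B : Subalgebra ℂ M) (hBfg : B.FG) (hBS : B ≤ Algebra.adjoin ℂ (S : Set M))
    (Δ : Derivation ℂ M M) (hΔB : ∀ b ∈ B, Δ b = 0)
    (hreg : ∀ t ∈ (S : Set M) ∪ Δ '' (S : Set M), ∃ h : R1, φ t = algebraMap _ _ h)
    (y : M) (hy : y ∈ Algebra.adjoin ℂ (S : Set M)) (hΔy : Δ y = 1)
    (Q : M) (hQ : Q ∈ Algebra.adjoin ℂ (S : Set M)) (hQ0 : Q ≠ 0)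
    (ev : Pt → R1 →ₐ[ℂ] ℂ) (hev : ∀ t : R1, t ≠ 0 → ∃ p, ev p t ≠ 0) :
    ∃ (p : Pt) (inc : Algebra.adjoin ℂ (S : Set M) →ₐ[ℂ] R1)
      (ψ : Algebra.adjoin ℂ (S : Set M) →ₐ[ℂ] ℂ⟦X⟧),
      Function.Injective inc ∧ (∀ a, algebraMap R1 M1 (inc a) = φ a) ∧
      (∀ a, constantCoeff (ψ a) = ev p (inc a)) ∧
      (∀ b (hb : b ∈ B), ψ ⟨b, hBS hb⟩ = C (ev p (inc ⟨b, hBS hb⟩))) ∧
      coeff 1 (ψ ⟨y, hy⟩) = 1 ∧ constantCoeff (ψ ⟨Q, hQ⟩) ≠ 0 := by
  classical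
  set A1 := Algebra.adjoin ℂ (S : Set M) with hA1
  set A2 := Algebra.adjoin ℂ ((S : Set M) ∪ Δ '' (S : Set M)) with hA2
  have hA12 : A1 ≤ A2 := Algebra.adjoin_mono subset_union_left
  have hΔA : ∀ a : A1, Δ a ∈ A2 := fun a => der_adjoin_mem Δ _ a.2
  obtain ⟨inc2, hinc2inj, hinc2⟩ := Alg985.exists_sigma' hinj φ A2
    (Alg985.reg_adjoin _ φ hreg)
  let inc : A1 →ₐ[ℂ] R1 := inc2.comp (Subalgebra.inclusion hA12)
  have hinc : ∀ a : A1, inc a = inc2 ⟨a, hA12 a.2⟩ := fun a => rfl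
  have hincinj : Function.Injective inc := hinc2inj.comp (Subalgebra.inclusion_injective hA12)
  have hA1ft : Algebra.FiniteType ℂ A1 := A1.fg_iff_finiteType.1 ⟨S, rfl⟩
  have hBft : Algebra.FiniteType ℂ B := B.fg_iff_finiteType.1 hBfg
  obtain ⟨f, hf0, hlift⟩ := F5.exists_lift_sub (Subalgebra.inclusion hBS)
    (Subalgebra.inclusion_injective hBS)
  set QA : A1 := ⟨Q, hQ⟩ with hQA
  have hQA0 : QA ≠ 0 := fun h => hQ0 (congrArg Subtype.val h)
  have hfQ : inc (f * QA) ≠ 0 := by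
    intro h
    exact mul_ne_zero hf0 hQA0 (hincinj (h.trans (map_zero inc).symm))
  obtain ⟨p, hp⟩ := hev _ hfQ
  rw [map_mul, map_mul] at hp
  have hpf : ((ev p).comp inc) f ≠ 0 := left_ne_zero_of_mul hp
  have hpQ : ev p (inc QA) ≠ 0 := right_ne_zero_of_mul hp
  let d : A1 →ₗ[ℂ] ℂ :=
    { toFun := fun a => ev p (inc2 ⟨Δ a, hΔA a⟩)
      map_add' := fun a b => by
        rw [← map_add, ← map_add]
        congr 2
        exact Subtype.ext (map_add Δ _ _)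
      map_smul' := fun c a => by
        rw [RingHom.id_apply, ← map_smul, ← map_smul]
        congr 2
        exact Subtype.ext (Δ.map_smul c _) }
  have hd : ∀ a, d a = ev p (inc2 ⟨Δ a, hΔA a⟩) := fun a => rfl
  have hTV : ∀ a b, d (a * b) = ((ev p).comp inc) a * d b + ((ev p).comp inc) b * d a := by
    intro a b
    have hevinc : ∀ a : A1, ((ev p).comp inc) a = ev p (inc2 ⟨a, hA12 a.2⟩) := fun a => rfl
    rw [hd, hd, hd, hevinc, hevinc, ← map_mul, ← map_mul,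
      ← map_mul, ← map_mul, ← map_add, ← map_add]
    congr 2
    exact Subtype.ext (Δ.leibniz _ _)
  have hdB : ∀ b : B, d (Subalgebra.inclusion hBS b) = 0 := by
    intro b
    rw [hd]
    have h1 : (⟨Δ (Subalgebra.inclusion hBS b : A1), hΔA _⟩ : A2) = 0 :=
      Subtype.ext (hΔB b b.2)
    rw [h1, map_zero, map_zero]
  obtain ⟨ψ, hψ1, hψB⟩ := hlift ((ev p).comp inc) hpf d hTV hdB
  refine ⟨p, inc, ψ, hincinj, fun a => hinc2 _, fun a => (hψ1 a).1, fun b hb => hψB ⟨b, hb⟩, ?_, ?_⟩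
  · rw [(hψ1 _).2, hd]
    have h1 : (⟨Δ (⟨y, hy⟩ : A1), hΔA _⟩ : A2) = 1 := Subtype.ext hΔy
    rw [h1, map_one, map_one]
  · rw [(hψ1 _).1]
    exact hpQ

end Crest.Agent.R102.Rat1389
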