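import Crest.Agent.R102.Rat1J_389

/-!
Row 102, [H3], theorem (RAT), RAT-1 = R4: the theorem.
-/

set_option linter.unusedSectionVars false
set_option autoImplicit false

open Set Filter Topology Metric TopologicalSpace

noncomputable section

namespace Crest.Agent.R102.Rat1389

open PowerSeries Crest.Agent.R102.H3 Crest.Agent.R102.Glue798 Crest.Agent.R102.CT575
  Crest.Agent.R102.RAT

section last

variable {g : ℂ → ℂ} {c₀ c₁ : ℂ} {N : ℕ} {ρ' r : ℝ} {β m k q q' : ℕ → ℂ × ℂ → ℂ}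

/-- the index `i`, or `0` -/
def ix (N i : ℕ) : ℕ := if i < N then i else 0

theorem ix_le (N i : ℕ) : ix N i ≤ N := by
  rw [ix]; split_ifs with h
  · exact h.le
  · exact Nat.zero_le _

theorem ix_eq {N i : ℕ} (h : i < N) : ix N i = i := if_pos h

theorem bs_ix (h : Dat g c₀ N ρ' c₁ r β m k q q') {i : ℕ} (hi : i < N) :
    h.bs (ix_le N i) = h.bs hi.le := by
  have key : ∀ (j : ℕ) (hj : j ≤ N), j = i → h.bs hj = h.bs hi.le := by
    rintro j hj rfl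
    rfl
  exact key _ _ (ix_eq hi)

set_option maxHeartbeats 4000000 in
/-- **the deformation does not move the mirrors** -/
theorem nu_zero (h : Dat g c₀ N ρ' c₁ r β m k q q') [IsDomain (Hol (UU c₀ ρ'))]
    {A0 : Type} [CommRing A0] [Algebra ℂ A0] (d0 : Derivation ℂ A0 A0)
    (ρ : A0 →ₐ[ℂ] Hol (bO c₁ r)) (hρ : ∀ a, ρ (d0 a) = DH (bO c₁ r) (ρ a)) (z0 g0 : A0)
    (hρg : ρ g0 = gV g c₁ r)
    (D₁ D₂ : Derivation ℂ (FractionRing (Hol (UU c₀ ρ'))) (FractionRing (Hol (UU c₀ ρ'))))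
    (E k' : ℕ → FractionRing (Hol (UU c₀ ρ')))
    (hE : ∀ i ≤ N, E i ^ 2 = algebraMap _ _ (hU c₀ ρ' (m i)))
    (hk : ∀ i ≤ N, k' i = algebraMap _ _ (hU c₀ ρ' (k i)))
    (A1 : Subalgebra ℂ (FractionRing (Hol (UU c₀ ρ'))))
    (mE : ∀ i ≤ N, E i ∈ A1) (mk : ∀ i ≤ N, k' i ∈ A1) (mEi : ∀ i < N, (E i ^ 2)⁻¹ ∈ A1)
    (hEne : ∀ i ≤ N, E i ≠ 0)
    (mτ : ∀ i (hi : i < N), (algebraMap _ (FractionRing (Hol (UU c₀ ρ')))
      (h.bs hi.le (ρ (d0 g0))) - E i ^ 2)⁻¹ ∈ A1)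
    (hτne : ∀ i (hi : i < N), algebraMap _ (FractionRing (Hol (UU c₀ ρ')))
      (h.bs hi.le (ρ (d0 g0))) ≠ E i ^ 2)
    (W : Opens (ℂ × ℂ)) (hle : W ≤ UU c₀ ρ') [IsDomain (Hol W)]
    (δ : Fin 2 → Derivation ℂ (Hol W) (Hol W))
    (φ : FractionRing (Hol (UU c₀ ρ')) →ₐ[ℂ] FractionRing (Hol W))
    (hφ : ∀ f : Hol (UU c₀ ρ'), φ (algebraMap _ _ f) = algebraMap _ _ (Hol.res hle f))
    (hφD : ∀ a x t, φ x = algebraMap _ _ t → φ ((![D₁, D₂] : Fin 2 → _) a x) =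
          algebraMap _ _ (δ a t))
    (p : W) (hid : ∀ t, (∀ l, evH p (word δ l t) = 0) → t = 0)
    (hchain : ∀ (V : Opens ℂ) (b : Hol W) (hb : ∀ p : W, (b : W → ℂ) p ∈ V) (a : Fin 2)
      (f : Hol V), δ a (compH b hb f) = compH b hb (DH V f) * δ a b)
    (inc : A1 →ₐ[ℂ] Hol W) (hinc : ∀ a, algebraMap _ (FractionRing (Hol W)) (inc a) = φ a)
    (hincinj : Function.Injective inc) (ψ : A1 →ₐ[ℂ] ℂ⟦X⟧)
    (B : Subalgebra ℂ (FractionRing (Hol (UU c₀ ρ')))) (hBS : B ≤ A1)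
    (hB1 : ∀ b ∈ B, D₁ b ∈ B) (hB2 : ∀ b ∈ B, D₂ b ∈ B)
    (hBE0 : E 0 ∈ B) (hBk0 : k' 0 ∈ B) (hBEN : E N ∈ B)
    (hψB : ∀ b (hb : b ∈ B), ψ ⟨b, hBS hb⟩ = C (evH p (inc ⟨b, hBS hb⟩)))
    (σ : ℕ → A0 →ₐ[ℂ] A1)
    (hσ : ∀ i (hi : i < N) a, ((σ i a : A1) : FractionRing (Hol (UU c₀ ρ'))) =
      algebraMap _ _ (h.bs hi.le (ρ a)))
    (F : ℕ → A0 →ₐ[ℂ] (Hol (bO c₁ r))⟦X⟧) (w : ℕ → ℂ⟦X⟧) (hw : ∀ i, X ∣ w i)
    (hFd : ∀ i a, F i (d0 a) = cD (DH (bO c₁ r)) (F i a))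
    (hFz : ∀ i, F i z0 = C (zH (bO c₁ r))) (hFc : ∀ i a, constantCoeff (F i a) = ρ a)
    (hψ : ∀ i < N, ∀ a, ψ (σ i a) = pt (cD (DH (bO c₁ r)))
      (PowerSeries.map ((evH p : Hol W →+* ℂ).comp
        (((Hol.res hle).comp (h.bs (ix_le N i)) : Hol (bO c₁ r) →ₐ[ℂ] Hol W) :
          Hol (bO c₁ r) →+* Hol W))) (w i) (hw i) (F i a)) :
    ∀ i < N, coeff 1 (F i g0) = 0 := by
  classical
  have hinjW := IsFractionRing.injective (Hol W) (FractionRing (Hol W))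
  have hρd : ρ (d0 g0) = DH (bO c₁ r) (gV g c₁ r) := by rw [hρ, hρg]
  let bs' : ℕ → Hol (bO c₁ r) →ₐ[ℂ] Hol (UU c₀ ρ') := fun i => h.bs (ix_le N i)
  have hbs' : ∀ i (hi : i < N), bs' i = h.bs hi.le := fun i hi => bs_ix h hi
  let φT : ℕ → Hol (bO c₁ r) →ₐ[ℂ] Hol W := fun i => (Hol.res hle).comp (bs' i)
  let φM : ℕ → Hol (bO c₁ r) →+* FractionRing (Hol (UU c₀ ρ')) := fun i =>
    (algebraMap (Hol (UU c₀ ρ')) (FractionRing (Hol (UU c₀ ρ')))).comp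
      (bs' i : Hol (bO c₁ r) →+* Hol (UU c₀ ρ'))
  have eT : ∀ i f, φT i f = Hol.res hle (bs' i f) := fun i f => rfl
  have eM : ∀ i f, φM i f = algebraMap _ _ (bs' i f) := fun i f => rfl
  have hG : ∀ i, constantCoeff (F i g0) = gV g c₁ r := fun i => by rw [hFc, hρg]
  -- the chain in `Hol U`
  have c_inc : ∀ i < N, bs' i (gV g c₁ r) =
      hU c₀ ρ' (m i) * bs' i (zH _) + hU c₀ ρ' (k i) := by
    intro i hi
    rw [hbs' i hi, h.bs_z hi.le]; exact h.inc hi.le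
  have c_inc' : ∀ i < N, bs' i (gV g c₁ r) =
      hU c₀ ρ' (m (i + 1)) * bs' i (zH _) + hU c₀ ρ' (k (i + 1)) := by
    intro i hi
    rw [hbs' i hi, h.bs_z hi.le]; exact h.inc' hi
  have c_refl : ∀ i < N, hU c₀ ρ' (m (i + 1)) * hU c₀ ρ' (m i) =
      (bs' i (DH _ (gV g c₁ r))) ^ 2 := by
    intro i hi
    rw [hbs' i hi]; exact h.refl hi
  have hx1 : ∀ i (hi : i < N), h.bs hi.le (ρ (d0 g0)) = bs' i (DH _ (gV g c₁ r)) := by
    intro i hi
    rw [hρd, hbs' i hi]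
  have hres : ∀ f : Hol (UU c₀ ρ'), algebraMap (Hol W) (FractionRing (Hol W)) (Hol.res hle f) =
      φ (algebraMap _ _ f) := fun f => (hφ f).symm
  have hψ' : ∀ i < N, ∀ a, ψ (σ i a) = pt (cD (DH (bO c₁ r)))
      (PowerSeries.map ((evH p : Hol W →+* ℂ).comp (φT i : Hol (bO c₁ r) →+* Hol W))) (w i) (hw i)
      (F i a) := hψ
  have hφT : ∀ (a : Fin 2) i f, δ a (φT i f) = φT i (DH (bO c₁ r) f) *
      δ a (φT i (zH (bO c₁ r))) := by
    intro a i f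
    have h1 := hchain (bO c₁ r) (Hol.res hle (bH c₀ ρ' β (ix N i)))
      (fun p => h.bH_mem (ix_le N i) ⟨p, hle p.2⟩) a
    have h2 := h1 f
    have h3 : ∀ f, φT i f = compH (Hol.res hle (bH c₀ ρ' β (ix N i)))
      (fun p => h.bH_mem (ix_le N i) ⟨p, hle p.2⟩) f := fun f => rfl
    have h4 : φT i (zH (bO c₁ r)) = Hol.res hle (bH c₀ ρ' β (ix N i)) := by
      rw [h3]
      exact compH_zH _ _
    rw [h4, h3, h3]
    exact h2
  clear_value bs'
  -- the chain over `Hol W`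
  have hbaseT : H3.Chain (DH (bO c₁ r)) (zH (bO c₁ r)) (fun _ => gV g c₁ r) N
      (fun i => (φT i : Hol (bO c₁ r) →+* Hol W)) (fun i => Hol.res hle (hU c₀ ρ' (m i)))
      (fun i => Hol.res hle (hU c₀ ρ' (k i))) := by
    refine ⟨fun i hi => ?_, fun i hi => ?_, fun i hi => ?_⟩
    · change Hol.res hle (bs' i _) = Hol.res hle _ * Hol.res hle (bs' i _) + Hol.res hle _
      rw [c_inc i hi, map_add, map_mul]
    · change Hol.res hle (bs' i _) = Hol.res hle _ * Hol.res hle (bs' i _) + Hol.res hle _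
      rw [c_inc' i hi, map_add, map_mul]
    · change Hol.res hle _ * Hol.res hle _ = (Hol.res hle (bs' i _)) ^ 2
      rw [← map_mul, c_refl i hi, map_pow]
  have hmW : ∀ i < N, IsUnit (Hol.res hle (hU c₀ ρ' (m i))) := fun i hi =>
    (h.isUnit_m hi.le).map _
  have hτW : ∀ i < N, IsUnit (Hol.res hle (bs' i (DH _ (gV g c₁ r))) -
      Hol.res hle (hU c₀ ρ' (m i))) := by
    intro i hi
    refine IsUnit.of_mul_eq_one (inc ⟨_, mτ i hi⟩) (hinjW ?_)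
    rw [map_mul, map_sub, hres, hres, ← hE i hi.le, hinc, map_one, ← map_sub, ← map_mul]
    have h1 := sub_ne_zero.2 (hτne i hi)
    rw [← hx1 i hi]
    change φ ((_ - _) * (_ - _)⁻¹) = 1
    rw [mul_inv_cancel₀ h1, map_one]
  obtain ⟨yT, mT, kT, hyT, hmT0, hkT0, hchT, hccT⟩ := outer_exists (DH (bO c₁ r)) (DH_zH _) N
    (fun i => F i g0) hG (fun i => (φT i : Hol (bO c₁ r) →+* Hol W)) _ _ hbaseT hmW hτW
  -- the chain over `M`
  have hbaseM : H3.Chain (DH (bO c₁ r)) (zH (bO c₁ r)) (fun _ => gV g c₁ r) N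
      φM (fun i => algebraMap _ _ (hU c₀ ρ' (m i))) (fun i => algebraMap _ _ (hU c₀ ρ' (k i))) := by
    refine ⟨fun i hi => ?_, fun i hi => ?_, fun i hi => ?_⟩
    · rw [eM, eM, c_inc i hi, map_add, map_mul]
    · rw [eM, eM, c_inc' i hi, map_add, map_mul]
    · rw [eM, ← map_mul, c_refl i hi, map_pow]
  obtain ⟨yM, mM, kM, hyM, hmM0, hkM0, hchM, hccM⟩ := outer_exists (DH (bO c₁ r)) (DH_zH _) N
    (fun i => F i g0) hG φM _ _ hbaseM
    (fun i hi => by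
      rw [← hE i hi.le]
      exact (pow_ne_zero 2 (hEne i hi.le)).isUnit)
    (fun i hi => by
      rw [eM, ← hx1 i hi, ← hE i hi.le]
      exact (sub_ne_zero.2 (hτne i hi)).isUnit)
  have hccm : ∀ i ≤ N, constantCoeff (mT i) = Hol.res hle (hU c₀ ρ' (m i)) := fun i hi =>
    (hccT i hi).1
  have hcck : ∀ i ≤ N, constantCoeff (kT i) = Hol.res hle (hU c₀ ρ' (k i)) := fun i hi =>
    (hccT i hi).2
  have hcmp := compare (DH (bO c₁ r)) (DH_zH _) N (fun i => F i g0)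
    (fun i => (φT i : Hol (bO c₁ r) →+* Hol W)) φM (algebraMap (Hol W) (FractionRing (Hol W)))
    (φ : FractionRing (Hol (UU c₀ ρ')) →+* FractionRing (Hol W))
    (fun i hi => RingHom.ext fun f => hφ _) yT mT kT hyT hchT yM mM kM hyM hchM
    (by rw [hmT0, hmM0, map_C, map_C]; exact congrArg C (hφ _).symm)
    (by rw [hkT0, hkM0, map_C, map_C]; exact congrArg C (hφ _).symm)
    (fun i hi => by
      rw [PowerSeries.isUnit_iff_constantCoeff, hccm i hi.le]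
      exact hmW i hi)
    (fun i hi => by
      rw [map_sub, constantCoeff_map, constantCoeff_cD, hG, hccm i hi.le]
      exact hτW i hi)
  -- elements of `A1`
  have exm : ∀ i, ∃ a : A1, i ≤ N → ((a : A1) : FractionRing (Hol (UU c₀ ρ'))) = E i ^ 2 := by
    intro i
    by_cases hi : i ≤ N
    · exact ⟨⟨E i ^ 2, pow_mem (mE i hi) 2⟩, fun _ => rfl⟩
    · exact ⟨0, fun h => absurd h hi⟩
  have exk : ∀ i, ∃ a : A1, i ≤ N → ((a : A1) : FractionRing (Hol (UU c₀ ρ'))) = k' i := by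
    intro i
    by_cases hi : i ≤ N
    · exact ⟨⟨k' i, mk i hi⟩, fun _ => rfl⟩
    · exact ⟨0, fun h => absurd h hi⟩
  have exμ : ∀ i, ∃ a : A1, i < N → ((a : A1) : FractionRing (Hol (UU c₀ ρ'))) = (E i ^ 2)⁻¹ := by
    intro i
    by_cases hi : i < N
    · exact ⟨⟨(E i ^ 2)⁻¹, mEi i hi⟩, fun _ => rfl⟩
    · exact ⟨0, fun h => absurd h hi⟩
  have exτ : ∀ i, ∃ a : A1, ∀ hi : i < N, ((a : A1) : FractionRing (Hol (UU c₀ ρ'))) =
      (algebraMap _ (FractionRing (Hol (UU c₀ ρ'))) (h.bs hi.le (ρ (d0 g0))) - E i ^ 2)⁻¹ := by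
    intro i
    by_cases hi : i < N
    · exact ⟨⟨_, mτ i hi⟩, fun _ => rfl⟩
    · exact ⟨0, fun h => absurd h hi⟩
  choose mA hmA using exm
  choose kA hkA using exk
  choose μA hμA using exμ
  choose τA hτA using exτ
  have hmAinc : ∀ i ≤ N, inc (mA i) = constantCoeff (mT i) := by
    intro i hi
    refine hinjW ?_
    rw [hinc, hmA i hi, hE i hi, hccm i hi, hφ]
  have hkAinc : ∀ i ≤ N, inc (kA i) = constantCoeff (kT i) := by
    intro i hi
    refine hinjW ?_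
    rw [hinc, hkA i hi, hk i hi, hcck i hi, hφ]
  have hmTN : mT N = C (inc (mA N)) := by
    have g1 : ∀ a, ∀ b ∈ B.comap A1.val, ∃ b' ∈ B.comap A1.val, δ a (inc b) = inc b' := by
      intro a b hb
      have hb' : (b : FractionRing (Hol (UU c₀ ρ'))) ∈ B := hb
      have hb2 : (![D₁, D₂] : Fin 2 → _) a (b : FractionRing (Hol (UU c₀ ρ'))) ∈ B := by
        fin_cases a
        · exact hB1 _ hb'
        · exact hB2 _ hb'
      refine ⟨⟨_, hBS hb2⟩, hb2, hinjW ?_⟩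
      rw [hinc, ← hφD a b (inc b) (hinc b).symm]
    have g2 : ∀ b ∈ B.comap A1.val, ψ b = C (evH p (inc b)) := by
      intro b hb
      exact hψB b hb
    have g3 : ∀ i < N, ∀ a, inc (σ i a) = φT i (ρ a) := by
      intro i hi a
      refine hinjW ?_
      rw [hinc, hσ i hi, eT, hbs' i hi, hφ]
    have g4 : ∀ i < N, μA i * mA i = 1 := by
      intro i hi
      refine Subtype.ext ?_
      rw [Subalgebra.coe_mul, hμA i hi, hmA i hi.le]
      exact inv_mul_cancel₀ (pow_ne_zero 2 (hEne i hi.le))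
    have g5 : ∀ i < N, τA i * (σ i (d0 g0) - mA i) = 1 := by
      intro i hi
      refine Subtype.ext ?_
      rw [Subalgebra.coe_mul, Subalgebra.coe_sub, hτA i hi, hmA i hi.le, hσ i hi]
      exact inv_mul_cancel₀ (sub_ne_zero.2 (hτne i hi))
    have g6 : mA 0 ∈ B.comap A1.val := by
      change ((mA 0 : A1) : FractionRing (Hol (UU c₀ ρ'))) ∈ B
      rw [hmA 0 (Nat.zero_le _)]
      exact pow_mem hBE0 2
    have g7 : kA 0 ∈ B.comap A1.val := by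
      change ((kA 0 : A1) : FractionRing (Hol (UU c₀ ρ'))) ∈ B
      rw [hkA 0 (Nat.zero_le _)]
      exact hBk0
    have g8 : mA N ∈ B.comap A1.val := by
      change ((mA N : A1) : FractionRing (Hol (UU c₀ ρ'))) ∈ B
      rw [hmA N le_rfl]
      exact pow_mem hBEN 2
    have g9 : mT 0 = C (inc (mA 0)) := by
      rw [hmT0, hmAinc 0 (Nat.zero_le _), hccm 0 (Nat.zero_le _)]
    have g10 : kT 0 = C (inc (kA 0)) := by
      rw [hkT0, hkAinc 0 (Nat.zero_le _), hcck 0 (Nat.zero_le _)]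
    exact undeformed δ (evH p) hid (DH (bO c₁ r)) (DH_zH _) φT hφT d0 z0 g0 ρ F hFd hFz hFc N
      yT mT kT hyT hchT inc hincinj ψ (B.comap A1.val) g1 g2 σ g3 mA kA μA τA hmAinc hkAinc g4 g5
      g6 g7 g8 g9 g10 w hw hψ'
  have hmMN : mM N = C (algebraMap _ _ (hU c₀ ρ' (m N))) := by
    refine PowerSeries.map_injective (φ : FractionRing (Hol (UU c₀ ρ')) →+* FractionRing (Hol W))
      (RingHom.injective _) ?_
    rw [← (hcmp N le_rfl).1, hmTN, map_C, map_C]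
    refine congrArg C ?_
    rw [hmAinc N le_rfl, hccm N le_rfl]
    exact (hφ _).symm
  exact rigid_M h (fun i => F i g0) hG φM (fun i hi f => by rw [eM, hbs' i hi]) yM mM kM hyM hchM
    hmM0 hkM0 hmMN

end last

end Crest.Agent.R102.Rat1389
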