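import Crest.Agent.R102.Rat1K_389

/-!
Row 102, [H3], theorem (RAT), **RAT-1 = R4** (`RAT.R4Stmt`): for a germ of finite differential type
the field `L` of the chain is algebraic over the differential field `K` of the two end lines.
-/

set_option linter.unusedSectionVars false
set_option autoImplicit false

open Set Filter Topology Metric TopologicalSpace

noncomputable section

namespace Crest.Agent.R102.Rat1389

open PowerSeries Crest.Agent.R102.H3 Crest.Agent.R102.Glue798 Crest.Agent.R102.CT575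
  Crest.Agent.R102.RAT

section last

variable {g : ℂ → ℂ} {c₀ c₁ : ℂ} {N : ℕ} {ρ' r : ℝ} {β m k q q' : ℕ → ℂ × ℂ → ℂ}

/-- the elements of the finite model -/
theorem mem_of_gen {M : Type} [Field M] [Algebra ℂ M] {A0 : Type} [CommRing A0] [Algebra ℂ A0]
    (A1 : Subalgebra ℂ M) (s : A0 →ₐ[ℂ] M) (sA : Finset A0)
    (hsA : Algebra.adjoin ℂ (sA : Set A0) = ⊤) (h : ∀ a ∈ sA, s a ∈ A1) (a : A0) : s a ∈ A1 := by
  have ha : a ∈ Algebra.adjoin ℂ (sA : Set A0) := by rw [hsA]; exact Algebra.mem_top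
  induction ha using Algebra.adjoin_induction with
  | mem x hx => exact h x hx
  | algebraMap r => rw [AlgHom.commutes]; exact A1.algebraMap_mem r
  | add x y _ _ hx hy => rw [map_add]; exact add_mem hx hy
  | mul x y _ _ hx hy => rw [map_mul]; exact mul_mem hx hy

set_option maxHeartbeats 4000000 in
/-- **RAT-1** -/
theorem r4_main (h : Dat g c₀ N ρ' c₁ r β m k q q') (hN : 0 < N) [IsDomain (Hol (UU c₀ ρ'))]
    {A0 : Type} [CommRing A0] [Algebra ℂ A0] [hft : Algebra.FiniteType ℂ A0]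
    (d0 : Derivation ℂ A0 A0)
    (ρ : A0 →ₐ[ℂ] Hol (bO c₁ r)) (hρ : ∀ a, ρ (d0 a) = DH (bO c₁ r) (ρ a)) (z0 g0 : A0)
    (hz0 : d0 z0 = 1) (hρz : ρ z0 = zH (bO c₁ r)) (hρg : ρ g0 = gV g c₁ r)
    {D₁ D₂ : Derivation ℂ (FractionRing (Hol (UU c₀ ρ'))) (FractionRing (Hol (UU c₀ ρ')))}
    (hD : Rat7217.Dual (hU c₀ ρ' (m 0)) (hU c₀ ρ' (k 0)) D₁ D₂)
    {b : ℕ → FractionRing (Hol (UU c₀ ρ'))} {x : ℕ → ℕ → FractionRing (Hol (UU c₀ ρ'))}
    {E k' : ℕ → FractionRing (Hol (UU c₀ ρ'))} (hF : FChain D₁ D₂ N b x E k')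
    (hb : ∀ i < N, b i = algebraMap _ _ (bH c₀ ρ' β i))
    (hx : ∀ i (hi : i < N) n, x i n = algebraMap _ _ (h.bs hi.le (ρ (d0^[n] g0))))
    (hE : ∀ i ≤ N, E i ^ 2 = algebraMap _ _ (hU c₀ ρ' (m i)))
    (hk : ∀ i ≤ N, k' i = algebraMap _ _ (hU c₀ ρ' (k i))) :
    ∀ y ∈ LL N b x E k', IsAlgebraic (KK D₁ D₂ N E k') y := by
  classical
  intro y hy
  by_contra hna
  let s : ℕ → A0 →ₐ[ℂ] FractionRing (Hol (UU c₀ ρ')) := fun i =>
    ((IsScalarTower.toAlgHom ℂ (Hol (UU c₀ ρ')) (FractionRing (Hol (UU c₀ ρ')))).comp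
      (h.bs (ix_le N i))).comp ρ
  have hs : ∀ i (hi : i < N) a, s i a = algebraMap _ _ (h.bs hi.le (ρ a)) := by
    intro i hi a
    have h1 : s i a = algebraMap _ _ (h.bs (ix_le N i) (ρ a)) := rfl
    rw [h1, bs_ix h hi]
  clear_value s
  have hsz : ∀ i < N, s i z0 = b i := by
    intro i hi
    rw [hs i hi, hρz, h.bs_z hi.le, hb i hi]
  have hsx : ∀ i < N, ∀ n, s i (d0^[n] g0) = x i n := fun i hi n => by rw [hs i hi, hx i hi]
  have hs12 : ∀ i (hi : i < N) f, D₁ (s i f) = s i (d0 f) * D₁ (b i) ∧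
      D₂ (s i f) = s i (d0 f) * D₂ (b i) := by
    intro i hi f
    rw [hs i hi, hs i hi, hρ, hb i hi]
    exact dual_compH hD (bH c₀ ρ' β i) (h.bH_mem hi.le) (ρ f)
  obtain ⟨sA, hsA⟩ := hft.out
  obtain ⟨B, hBfg, hBE0, hBk0, hBEN, hBkN, hBK, hB1, hB2⟩ := exists_B d0 z0 g0 s hF hsz hsx
    (fun i hi f => (hs12 i hi f).1) (fun i hi f => (hs12 i hi f).2) sA hsA
  obtain ⟨Δ, hΔK, hΔy⟩ := exists_Delta (KK D₁ D₂ N E k') y hna
  obtain ⟨P, hP, Q, hQ, hQ0, hQy⟩ := LL_div hy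
  obtain ⟨sB, hsB⟩ := hBfg
  -- the algebra
  let S : Finset (FractionRing (Hol (UU c₀ ρ'))) :=
    sB ∪ ((Finset.range (N + 1)).image E ∪ ((Finset.range (N + 1)).image k' ∪
      ((Finset.range N).image (fun i => (E i ^ 2)⁻¹) ∪
        ((Finset.range N).image (fun i => (x i 1 - E i ^ 2)⁻¹) ∪
          (((Finset.range N).biUnion fun i => sA.image (s i)) ∪ {y})))))
  have hS : S = sB ∪ ((Finset.range (N + 1)).image E ∪ ((Finset.range (N + 1)).image k' ∪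
      ((Finset.range N).image (fun i => (E i ^ 2)⁻¹) ∪
        ((Finset.range N).image (fun i => (x i 1 - E i ^ 2)⁻¹) ∪
          (((Finset.range N).biUnion fun i => sA.image (s i)) ∪ {y}))))) := rfl
  clear_value S
  have sub : ∀ t ∈ S, t ∈ Algebra.adjoin ℂ (S : Set (FractionRing (Hol (UU c₀ ρ')))) :=
    fun t ht => Algebra.subset_adjoin ht
  have mE : ∀ i ≤ N, E i ∈ Algebra.adjoin ℂ (S : Set (FractionRing (Hol (UU c₀ ρ')))) := by
    intro i hi
    refine sub _ ?_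
    rw [hS]
    exact Finset.mem_union_right _ (Finset.mem_union_left _ (Finset.mem_image_of_mem _
      (Finset.mem_range.2 (Nat.lt_succ_of_le hi))))
  have mk : ∀ i ≤ N, k' i ∈ Algebra.adjoin ℂ (S : Set (FractionRing (Hol (UU c₀ ρ')))) := by
    intro i hi
    refine sub _ ?_
    rw [hS]
    exact Finset.mem_union_right _ (Finset.mem_union_right _ (Finset.mem_union_left _
      (Finset.mem_image_of_mem _ (Finset.mem_range.2 (Nat.lt_succ_of_le hi)))))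
  have mEi : ∀ i < N, (E i ^ 2)⁻¹ ∈
      Algebra.adjoin ℂ (S : Set (FractionRing (Hol (UU c₀ ρ')))) := by
    intro i hi
    refine sub _ ?_
    rw [hS]
    exact Finset.mem_union_right _ (Finset.mem_union_right _ (Finset.mem_union_right _
      (Finset.mem_union_left _ (Finset.mem_image.2 ⟨i, Finset.mem_range.2 hi, rfl⟩))))
  have mτ0 : ∀ i < N, (x i 1 - E i ^ 2)⁻¹ ∈
      Algebra.adjoin ℂ (S : Set (FractionRing (Hol (UU c₀ ρ')))) := by
    intro i hi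
    refine sub _ ?_
    rw [hS]
    exact Finset.mem_union_right _ (Finset.mem_union_right _ (Finset.mem_union_right _
      (Finset.mem_union_right _ (Finset.mem_union_left _
        (Finset.mem_image.2 ⟨i, Finset.mem_range.2 hi, rfl⟩)))))
  have ms : ∀ i < N, ∀ a, s i a ∈
      Algebra.adjoin ℂ (S : Set (FractionRing (Hol (UU c₀ ρ')))) := by
    intro i hi
    refine mem_of_gen _ (s i) sA hsA fun a ha => sub _ ?_
    rw [hS]
    exact Finset.mem_union_right _ (Finset.mem_union_right _ (Finset.mem_union_right _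
      (Finset.mem_union_right _ (Finset.mem_union_right _ (Finset.mem_union_left _
        (Finset.mem_biUnion.2 ⟨i, Finset.mem_range.2 hi, Finset.mem_image_of_mem _ ha⟩))))))
  have my : y ∈ Algebra.adjoin ℂ (S : Set (FractionRing (Hol (UU c₀ ρ')))) := by
    refine sub _ ?_
    rw [hS]
    exact Finset.mem_union_right _ (Finset.mem_union_right _ (Finset.mem_union_right _
      (Finset.mem_union_right _ (Finset.mem_union_right _ (Finset.mem_union_right _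
        (Finset.mem_singleton_self y))))))
  have hBS : B ≤ Algebra.adjoin ℂ (S : Set (FractionRing (Hol (UU c₀ ρ')))) := by
    rw [← hsB, hS]
    refine Algebra.adjoin_mono ?_
    intro t ht
    exact Finset.mem_coe.2 (Finset.mem_union_left _ (Finset.mem_coe.1 ht))
  have hgen : ∀ t ∈ (({E 0, k' 0} : Set (FractionRing (Hol (UU c₀ ρ')))) ∪
      {y | ∃ j < N, y = b j ∨ ∃ r, y = x j r}),
      t ∈ Algebra.adjoin ℂ (S : Set (FractionRing (Hol (UU c₀ ρ')))) := by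
    rintro t ((rfl | rfl) | ⟨j, hj, rfl | ⟨n, rfl⟩⟩)
    · exact mE 0 (Nat.zero_le _)
    · exact mk 0 (Nat.zero_le _)
    · rw [← hsz j hj]; exact ms j hj _
    · rw [← hsx j hj]; exact ms j hj _
  have mQ : Q ∈ Algebra.adjoin ℂ (S : Set (FractionRing (Hol (UU c₀ ρ')))) :=
    Algebra.adjoin_le hgen hQ
  have hx1 : ∀ i (hi : i < N), x i 1 = algebraMap _ _ (h.bs hi.le (ρ (d0 g0))) := fun i hi =>
    hx i hi 1
  -- the model
  have hUne : ((UU c₀ ρ' : Opens (ℂ × ℂ)) : Set (ℂ × ℂ)).Nonempty :=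
    ⟨(c₀, 0), mem_ball_self h.ch.ρ_pos, mem_ball_self h.ch.ρ_pos⟩
  obtain ⟨W, hle, hdomW, hWne, hWp, δ, φ, hφ, hreg, hφD, hid, hchain⟩ :=
    exists_model (UU_preconnected c₀ ρ') hUne hD
      ((S : Set (FractionRing (Hol (UU c₀ ρ')))) ∪ Δ '' (S : Set (FractionRing (Hol (UU c₀ ρ')))))
      (S.finite_toSet.union (S.finite_toSet.image _))
  have hinjW := IsFractionRing.injective (Hol W) (FractionRing (Hol W))
  obtain ⟨p, inc, ψ, hincinj, hinc, hψ0, hψB, hψy, hψQ⟩ := exists_psi hinjW φ S B ⟨sB, hsB⟩ hBS Δ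
    (fun b hb => hΔK b (hBK b hb)) hreg y my hΔy Q mQ hQ0 (fun p : W => evH p) (by
      intro t ht
      by_contra hcon
      push Not at hcon
      exact ht (Hol.ext_ev fun x => by rw [hcon x, map_zero]))
  -- the vertices in `A1`
  have exσ : ∀ i, ∃ σ : A0 →ₐ[ℂ] Algebra.adjoin ℂ (S : Set (FractionRing (Hol (UU c₀ ρ')))),
      i < N → ∀ a, ((σ a : Algebra.adjoin ℂ (S : Set (FractionRing (Hol (UU c₀ ρ'))))) :
        FractionRing (Hol (UU c₀ ρ'))) = s i a := by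
    intro i
    by_cases hi : i < N
    · exact ⟨(s i).codRestrict _ (ms i hi), fun _ a => rfl⟩
    · exact ⟨(s 0).codRestrict _ (ms 0 hN), fun h => absurd h hi⟩
  choose σ hσ using exσ
  have hσ' : ∀ i (hi : i < N) a,
      ((σ i a : Algebra.adjoin ℂ (S : Set (FractionRing (Hol (UU c₀ ρ'))))) :
        FractionRing (Hol (UU c₀ ρ'))) = algebraMap _ _ (h.bs hi.le (ρ a)) := by
    intro i hi a
    rw [hσ i hi, hs i hi]
  -- the deformed mirrors
  have exF : ∀ i, ∃ (F : A0 →ₐ[ℂ] (Hol (bO c₁ r))⟦X⟧) (w : ℂ⟦X⟧) (hw : X ∣ w),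
      (∀ a, F (d0 a) = cD (DH (bO c₁ r)) (F a)) ∧ F z0 = C (zH (bO c₁ r)) ∧
      (∀ a, constantCoeff (F a) = ρ a) ∧
      (i < N → ∀ a, ψ (σ i a) = pt (cD (DH (bO c₁ r)))
        (PowerSeries.map ((evH p : Hol W →+* ℂ).comp
          (((Hol.res hle).comp (h.bs (ix_le N i)) : Hol (bO c₁ r) →ₐ[ℂ] Hol W) :
            Hol (bO c₁ r) →+* Hol W))) w hw (F a)) := by
    intro i
    by_cases hi : i < N
    · let pi : bO c₁ r := ⟨(bH c₀ ρ' β (ix N i) : UU c₀ ρ' → ℂ) ⟨p, hle p.2⟩,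
        h.bH_mem (ix_le N i) _⟩
      have e1 : (evH pi : Hol (bO c₁ r) →+* ℂ) = (evH p : Hol W →+* ℂ).comp
          (((Hol.res hle).comp (h.bs (ix_le N i)) : Hol (bO c₁ r) →ₐ[ℂ] Hol W) :
            Hol (bO c₁ r) →+* Hol W) := RingHom.ext fun f => rfl
      have e2 : ∀ a, inc (σ i a) = Hol.res hle (h.bs (ix_le N i) (ρ a)) := by
        intro a
        refine hinjW ?_
        rw [hinc, hσ' i hi, bs_ix h hi, hφ]
      have e3 : ∀ a, constantCoeff ((ψ.comp (σ i)) a) = evH pi (ρ a) := by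
        intro a
        rw [AlgHom.comp_apply, hψ0, e2]
        rfl
      obtain ⟨F, w, hw, f1, f2, f3, f4⟩ := exists_F d0 ρ hρ z0 hz0 hρz (ψ.comp (σ i)) pi e3
      refine ⟨F, w, hw, f1, f2, f3, fun _ a => ?_⟩
      rw [← e1]
      exact f4 a
    · obtain ⟨F, f1, f2, f3⟩ := exists_F0 d0 ρ hρ z0 hρz
      exact ⟨F, 0, dvd_zero _, f1, f2, f3, fun h => absurd h hi⟩
  choose F w hw hF1 hF2 hF3 hF4 using exF
  -- rigidity
  have hν := nu_zero h d0 ρ hρ z0 g0 hρg D₁ D₂ E k' hE hk _ mE mk mEi hF.E_ne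
    (fun i hi => by rw [← hx1 i hi]; exact mτ0 i hi)
    (fun i hi => by rw [← hx1 i hi]; exact hF.tr i hi) W hle δ φ hφ hφD p (hid p) hchain inc hinc
    hincinj ψ B hBS hB1 hB2 hBE0 hBk0 hBEN hψB σ hσ' F w hw hF1 hF2 hF3 hF4
  -- elements of `A1`
  have exm : ∀ i, ∃ a : Algebra.adjoin ℂ (S : Set (FractionRing (Hol (UU c₀ ρ')))),
      i ≤ N → (a : FractionRing (Hol (UU c₀ ρ'))) = E i ^ 2 := by
    intro i
    by_cases hi : i ≤ N
    · exact ⟨⟨E i ^ 2, pow_mem (mE i hi) 2⟩, fun _ => rfl⟩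
    · exact ⟨0, fun h => absurd h hi⟩
  have exk : ∀ i, ∃ a : Algebra.adjoin ℂ (S : Set (FractionRing (Hol (UU c₀ ρ')))),
      i ≤ N → (a : FractionRing (Hol (UU c₀ ρ'))) = k' i := by
    intro i
    by_cases hi : i ≤ N
    · exact ⟨⟨k' i, mk i hi⟩, fun _ => rfl⟩
    · exact ⟨0, fun h => absurd h hi⟩
  have exμ : ∀ i, ∃ a : Algebra.adjoin ℂ (S : Set (FractionRing (Hol (UU c₀ ρ')))),
      i < N → (a : FractionRing (Hol (UU c₀ ρ'))) = (E i ^ 2)⁻¹ := by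
    intro i
    by_cases hi : i < N
    · exact ⟨⟨(E i ^ 2)⁻¹, mEi i hi⟩, fun _ => rfl⟩
    · exact ⟨0, fun h => absurd h hi⟩
  have exτ : ∀ i, ∃ a : Algebra.adjoin ℂ (S : Set (FractionRing (Hol (UU c₀ ρ')))),
      i < N → (a : FractionRing (Hol (UU c₀ ρ'))) = (x i 1 - E i ^ 2)⁻¹ := by
    intro i
    by_cases hi : i < N
    · exact ⟨⟨_, mτ0 i hi⟩, fun _ => rfl⟩
    · exact ⟨0, fun h => absurd h hi⟩
  choose mA hmA using exm
  choose kA hkA using exk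
  choose μA hμA using exμ
  choose τA hτA using exτ
  have q1 : ∀ i < N, σ i g0 = mA i * σ i z0 + kA i := by
    intro i hi
    refine Subtype.ext ?_
    rw [Subalgebra.coe_add, Subalgebra.coe_mul, hσ i hi, hσ i hi, hmA i hi.le, hkA i hi.le,
      hsz i hi, ← hF.inc i hi]
    exact hsx i hi 0
  have q2 : ∀ i < N, σ i g0 = mA (i + 1) * σ i z0 + kA (i + 1) := by
    intro i hi
    refine Subtype.ext ?_
    rw [Subalgebra.coe_add, Subalgebra.coe_mul, hσ i hi, hσ i hi, hmA (i + 1) hi, hkA (i + 1) hi,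
      hsz i hi, ← hF.inc' i hi]
    exact hsx i hi 0
  have q3 : ∀ i < N, mA (i + 1) * mA i = (σ i (d0 g0)) ^ 2 := by
    intro i hi
    refine Subtype.ext ?_
    have h1 : s i (d0 g0) = x i 1 := hsx i hi 1
    rw [Subalgebra.coe_mul, Subalgebra.coe_pow, hσ i hi, hmA (i + 1) hi, hmA i hi.le, h1,
      ← hF.refl i hi]
    ring
  have q4 : ∀ i < N, μA i * mA i = 1 := by
    intro i hi
    refine Subtype.ext ?_
    rw [Subalgebra.coe_mul, hμA i hi, hmA i hi.le]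
    exact inv_mul_cancel₀ (pow_ne_zero 2 (hF.E_ne i hi.le))
  have q5 : ∀ i < N, τA i * (σ i (d0 g0) - mA i) = 1 := by
    intro i hi
    refine Subtype.ext ?_
    have h1 : s i (d0 g0) = x i 1 := hsx i hi 1
    rw [Subalgebra.coe_mul, Subalgebra.coe_sub, hτA i hi, hmA i hi.le, hσ i hi, h1]
    exact inv_mul_cancel₀ (sub_ne_zero.2 (hF.tr i hi))
  have qB : ∀ (a : Algebra.adjoin ℂ (S : Set (FractionRing (Hol (UU c₀ ρ'))))),
      (a : FractionRing (Hol (UU c₀ ρ'))) ∈ B → coeff 1 (ψ a) = 0 := by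
    intro a ha
    have h1 : ψ a = C (evH p (inc a)) := hψB a ha
    rw [h1, coeff_C]
    simp
  have q6 : coeff 1 (ψ (mA 0)) = 0 := qB _ (by rw [hmA 0 (Nat.zero_le _)]; exact pow_mem hBE0 2)
  have q7 : coeff 1 (ψ (kA 0)) = 0 := qB _ (by rw [hkA 0 (Nat.zero_le _)]; exact hBk0)
  obtain ⟨-, hz⟩ := kills (DH (bO c₁ r)) (DH_zH _) d0 z0 g0 F hF1 hF2 N
    (fun i => (evH p : Hol W →+* ℂ).comp
          (((Hol.res hle).comp (h.bs (ix_le N i)) : Hol (bO c₁ r) →ₐ[ℂ] Hol W) :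
            Hol (bO c₁ r) →+* Hol W)) ψ σ mA kA μA τA q1 q2 q3 q4 q5 q6 q7 w hw hF4 hν
  -- the killed generators
  let s' : Set (Algebra.adjoin ℂ (S : Set (FractionRing (Hol (UU c₀ ρ'))))) :=
    {⟨E 0, mE 0 (Nat.zero_le _)⟩, ⟨k' 0, mk 0 (Nat.zero_le _)⟩} ∪
      {a | ∃ j < N, a = σ j z0 ∨ ∃ n, a = σ j (d0^[n] g0)}
  have hs' : ∀ a ∈ s', coeff 1 (ψ a) = 0 := by
    rintro a ((rfl | rfl) | ⟨j, hj, rfl | ⟨n, rfl⟩⟩)
    · exact qB _ hBE0
    · exact qB _ hBk0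
    · exact (hz j hj).1
    · exact (hz j hj).2 n
  have himg : ({E 0, k' 0} ∪ {y | ∃ j < N, y = b j ∨ ∃ r, y = x j r} :
      Set (FractionRing (Hol (UU c₀ ρ')))) ⊆ (fun a : Algebra.adjoin ℂ
        (S : Set (FractionRing (Hol (UU c₀ ρ')))) => (a : FractionRing (Hol (UU c₀ ρ')))) '' s' := by
    rintro t ((rfl | rfl) | ⟨j, hj, rfl | ⟨n, rfl⟩⟩)
    · exact ⟨_, Or.inl (Or.inl rfl), rfl⟩
    · exact ⟨_, Or.inl (Or.inr rfl), rfl⟩
    · exact ⟨σ j z0, Or.inr ⟨j, hj, Or.inl rfl⟩, (hσ j hj z0).trans (hsz j hj)⟩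
    · exact ⟨σ j (d0^[n] g0), Or.inr ⟨j, hj, Or.inr ⟨n, rfl⟩⟩, (hσ j hj _).trans (hsx j hj n)⟩
  obtain ⟨PA, hPA, hPA'⟩ := mem_adjoin_sub _ s' (Algebra.adjoin_mono himg hP)
  obtain ⟨QA, hQA, hQA'⟩ := mem_adjoin_sub _ s' (Algebra.adjoin_mono himg hQ)
  have hQA'' : QA = ⟨Q, mQ⟩ := Subtype.ext hQA'
  have hfin := kills_adjoin ψ s' hs' hPA hQA (y := ⟨y, my⟩)
    (Subtype.ext (by rw [Subalgebra.coe_mul, hQA', hPA']; exact hQy)) (by rw [hQA'']; exact hψQ)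
  rw [hψy] at hfin
  exact one_ne_zero hfin

end last

end Crest.Agent.R102.Rat1389
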