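import Crest.Agent.R102.Rat1L_389

/-!
Row 102, [H3], theorem (RAT), **R4 = RAT-1**: `RAT.R4Stmt`.
-/

set_option linter.unusedSectionVars false
set_option autoImplicit false

open Set Filter Topology Metric TopologicalSpace

noncomputable section

namespace Crest.Agent.R102.Rat1389

open PowerSeries Crest.Agent.R102.H3 Crest.Agent.R102.Glue798 Crest.Agent.R102.CT575
  Crest.Agent.R102.RAT

/-- the derivation of a stable subalgebra -/
def dA {H : Type} [CommRing H] [Algebra ℂ H] (d : Derivation ℂ H H) (A : Subalgebra ℂ H)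
    (hA : ∀ f ∈ A, d f ∈ A) : Derivation ℂ A A where
  toFun a := ⟨d a, hA a a.2⟩
  map_add' a b := Subtype.ext (by simp)
  map_smul' c a := Subtype.ext (by simp)
  map_one_eq_zero' := Subtype.ext (by simp)
  leibniz' a b := Subtype.ext (by simp)

@[simp] theorem dA_coe {H : Type} [CommRing H] [Algebra ℂ H] (d : Derivation ℂ H H)
    (A : Subalgebra ℂ H) (hA : ∀ f ∈ A, d f ∈ A) (a : A) : ((dA d A hA a : A) : H) = d a := rfl

theorem dA_iter {H : Type} [CommRing H] [Algebra ℂ H] (d : Derivation ℂ H H)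
    (A : Subalgebra ℂ H) (hA : ∀ f ∈ A, d f ∈ A) (a : A) (n : ℕ) :
    (((dA d A hA)^[n] a : A) : H) = d^[n] a := by
  induction n with
  | zero => rfl
  | succ n ih => rw [Function.iterate_succ_apply', Function.iterate_succ_apply', dA_coe, ih]

/-- the data of `CT575.Dat` -/
theorem dat_of {g : ℂ → ℂ} {c₀ : ℂ} {r : ℝ} {A : Subalgebra ℂ (Hol (bO c₀ r))}
    {G : Hol (bO c₀ r)} (hFT : FT g c₀ r A G) {N : ℕ} {ρ : ℝ} {β m k q q' : ℕ → ℂ × ℂ → ℂ}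
    (hC : F7389.Chain g c₀ N ρ β m k q q') (hIn : InD c₀ r N ρ β) :
    Dat g c₀ N ρ c₀ r β m k q q' where
  ch := hC
  sub := by
    intro c hc
    have h1 := (hIn (c, 0) ⟨hc, mem_ball_self hC.ρ_pos⟩).1
    simpa using h1
  vert i hi p hp := (hIn p hp).2 i hi
  ang := by
    intro x hx
    exact (Hol.an G x hx).congr (eventually_ext0_eq (F := g) (f := (G : bO c₀ r → ℂ))
      (fun x => (hFT.G_eq x).symm) hx)

set_option maxHeartbeats 2000000 in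
/-- **RAT-1**, with `UU c₀ ρ` -/
theorem r4_UU {g : ℂ → ℂ} {c₀ : ℂ} {r : ℝ} {A : Subalgebra ℂ (Hol (bO c₀ r))}
    {G : Hol (bO c₀ r)} (hFT : FT g c₀ r A G) {N : ℕ} {ρ : ℝ} {β m k q q' e : ℕ → ℂ × ℂ → ℂ}
    (hN : 0 < N) (hC : F7389.Chain g c₀ N ρ β m k q q') (hSq : Sq g c₀ N ρ β m e)
    (hIn : InD c₀ r N ρ β) (hdom : IsDomain (Hol (UU c₀ ρ)))
    (D₁ D₂ : Derivation ℂ (FractionRing (Hol (UU c₀ ρ))) (FractionRing (Hol (UU c₀ ρ))))
    (hD : Rat7217.Dual (hU c₀ ρ (m 0)) (hU c₀ ρ (k 0)) D₁ D₂)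
    (hF : FChain D₁ D₂ N (bM (UU c₀ ρ) β) (xM (UU c₀ ρ) g β) (lM (UU c₀ ρ) e)
      (lM (UU c₀ ρ) k)) :
    ∀ f ∈ LL N (bM (UU c₀ ρ) β) (xM (UU c₀ ρ) g β) (lM (UU c₀ ρ) e) (lM (UU c₀ ρ) k),
        IsAlgebraic (KK D₁ D₂ N (lM (UU c₀ ρ) e) (lM (UU c₀ ρ) k)) f := by
  have h := dat_of hFT hC hIn
  have hft : Algebra.FiniteType ℂ A := A.fg_iff_finiteType.1 hFT.fg
  have hG : G = gV g c₀ r := by
    ext x
    rw [h.gV_apply, hFT.G_eq]
  have hE : ∀ i ≤ N, lM (UU c₀ ρ) e i ^ 2 = algebraMap _ _ (hU c₀ ρ (m i)) := by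
    intro i hi
    change (algebraMap (Hol (UU c₀ ρ)) (FractionRing (Hol (UU c₀ ρ))) (toH (UU c₀ ρ) (e i))) ^ 2 = _
    rw [← map_pow]
    congr 1
    ext x
    have ha : AnalyticOnNhd ℂ (e i) (UU c₀ ρ) := hSq.an i hi
    have hb : AnalyticOnNhd ℂ (m i) (UU c₀ ρ) := hC.an_m i hi
    change ((toH (UU c₀ ρ) (e i) : UU c₀ ρ → ℂ) x) ^ 2 = _
    rw [toH_apply ha, toH_apply hb]
    exact hSq.sq i hi x x.2
  have hx : ∀ i (hi : i < N) n, xM (UU c₀ ρ) g β i n = algebraMap _ _ (h.bs hi.le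
      (A.val ((dA (DH _) A hFT.stable)^[n] ⟨G, hFT.G_mem⟩))) := by
    intro i hi n
    have h1 : A.val ((dA (DH _) A hFT.stable)^[n] ⟨G, hFT.G_mem⟩) = (DH _)^[n] (gV g c₀ r) := by
      rw [← hG]
      exact dA_iter _ _ _ _ _
    rw [h1]
    exact x_eq (M := FractionRing (Hol (UU c₀ ρ))) h.ang (h.an_b hi.le) (h.bH_mem hi.le) n
  have hρ : ∀ a : A, A.val (dA (DH (bO c₀ r)) A hFT.stable a) = DH (bO c₀ r) (A.val a) :=
    fun a => rfl
  let z0 : A := ⟨zH _, hFT.z_mem⟩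
  let g0 : A := ⟨G, hFT.G_mem⟩
  have hz1 : dA (DH (bO c₀ r)) A hFT.stable z0 = 1 := Subtype.ext (DH_zH _)
  have hz2 : A.val z0 = zH (bO c₀ r) := rfl
  have hg2 : A.val g0 = gV g c₀ r := hG
  have hb : ∀ i < N, bM (UU c₀ ρ) β i = algebraMap _ _ (bH c₀ ρ β i) := fun i _ => rfl
  have hk : ∀ i ≤ N, lM (UU c₀ ρ) k i = algebraMap _ _ (hU c₀ ρ (k i)) := fun i _ => rfl
  exact r4_main h hN (dA (DH (bO c₀ r)) A hFT.stable) A.val hρ z0 g0 hz1 hz2 hg2 hD hF hb hx hE hk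

set_option maxHeartbeats 2000000 in
/-- **R4 = RAT-1** -/
theorem r4Stmt : R4Stmt := by
  intro g c₀ r A G hFT _ N ρ β m k q q' e hN hC hSq hIn hdom D₁ D₂ hD hF
  exact r4_UU hFT hN hC hSq hIn hdom D₁ D₂ hD hF

end Crest.Agent.R102.Rat1389
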