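import Crest.Agent.R102.RatT_201
import Crest.Agent.R102.L1g_201
import Crest.Agent.R102.Form_575

/-!
# Row 102, [H3], RAT toolkit 3 (helper201): restriction to a leaf
-/

set_option autoImplicit false

open MvPowerSeries

noncomputable section

namespace Crest.Agent.R102.RatT

open Crest.Agent.R102.H3 (Ty)

variable {k M : Type*} [Field k] [Field M] [Algebra k M] [CharZero M]

local notation "RR" => MvPowerSeries (Fin 2) M

/-! ## Algebra homomorphisms `M⟦x₀, x₁⟧ → M⟦X⟧` -/

omit [CharZero M] in
theorem split2 (F : RR) : ∃ F0 F1 : RR, F = MvPowerSeries.C (MvPowerSeries.constantCoeff F) +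
    (MvPowerSeries.X 0 * F0 + MvPowerSeries.X 1 * F1) := by
  obtain ⟨F0, F1, h1, _, _⟩ := L1g201.exists_split
    (f := F - MvPowerSeries.C (MvPowerSeries.constantCoeff F)) (q := 0) (by
      apply L1g201.one_le_order
      rw [map_sub, MvPowerSeries.constantCoeff_C, sub_self])
  exact ⟨F0, F1, by rw [← h1]; ring⟩

omit [CharZero M] in
theorem lam_C (lam : RR →ₐ[M] PowerSeries M) (c : M) :
    lam (MvPowerSeries.C c) = PowerSeries.C c := by
  have := lam.commutes c
  rw [MvPowerSeries.algebraMap_apply, PowerSeries.algebraMap_apply] at this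
  simpa using this

omit [CharZero M] in
/-- chain rule. -/
theorem lam_deriv (lam : RR →ₐ[M] PowerSeries M)
    (h0 : ∀ i, (PowerSeries.X : PowerSeries M) ∣ lam (MvPowerSeries.X i)) (F : RR) :
    PowerSeries.derivative M (lam F) =
      lam (pderiv M 0 F) * PowerSeries.derivative M (lam (MvPowerSeries.X 0)) +
      lam (pderiv M 1 F) * PowerSeries.derivative M (lam (MvPowerSeries.X 1)) := by
  set a0 := lam (MvPowerSeries.X 0) with ha0
  set a1 := lam (MvPowerSeries.X 1) with ha1
  have h01 : pderiv M (0 : Fin 2) (MvPowerSeries.X 1 : RR) = 0 := pderiv_X_of_ne (by decide)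
  have h10 : pderiv M (1 : Fin 2) (MvPowerSeries.X 0 : RR) = 0 := pderiv_X_of_ne (by decide)
  have key : ∀ n : ℕ, ∀ F : RR, (PowerSeries.X : PowerSeries M) ^ n ∣
      PowerSeries.derivative M (lam F) -
      (lam (pderiv M 0 F) * PowerSeries.derivative M a0 +
      lam (pderiv M 1 F) * PowerSeries.derivative M a1) := by
    intro n
    induction n with
    | zero => intro F; rw [pow_zero]; exact one_dvd _
    | succ n ih =>
      intro F
      obtain ⟨F0, F1, hF⟩ := split2 F
      have e : PowerSeries.derivative M (lam F) -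
          (lam (pderiv M 0 F) * PowerSeries.derivative M a0 +
            lam (pderiv M 1 F) * PowerSeries.derivative M a1) =
          (PowerSeries.derivative M (lam F0) -
            (lam (pderiv M 0 F0) * PowerSeries.derivative M a0 +
            lam (pderiv M 1 F0) * PowerSeries.derivative M a1)) * a0 +
          (PowerSeries.derivative M (lam F1) -
            (lam (pderiv M 0 F1) * PowerSeries.derivative M a0 +
            lam (pderiv M 1 F1) * PowerSeries.derivative M a1)) * a1 := by
        rw [hF]
        simp only [map_add, map_mul, lam_C, Derivation.leibniz, smul_eq_mul, pderiv_C,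
          pderiv_X_self, h01, h10, PowerSeries.derivative_C, ← ha0, ← ha1, map_zero, map_one]
        ring
      rw [e, pow_succ]
      exact dvd_add (mul_dvd_mul (ih F0) (h0 0)) (mul_dvd_mul (ih F1) (h0 1))
  exact H3.eq_of_forall_X_pow_dvd fun n => key n F

section Leaf

variable [CharZero k] {D₁ D₂ : Derivation k M M} (h : ∀ f, D₁ (D₂ f) = D₂ (D₁ f))

/-- **restriction of Taylor series to the orbit of a vector field** `V = α D₁ + β D₂`. -/
theorem exists_lam {p q : M} (h1p : D₁ p = 1) (h2p : D₂ p = 0) (h1q : D₁ q = 0) (h2q : D₂ q = 1)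
    (α β : M) : ∃ lam : RR →ₐ[M] PowerSeries M,
      ∀ a, lam (TT D₁ D₂ h a) = Ty (α • D₁ + β • D₂ : Derivation k M M) a := by
  set V : Derivation k M M := α • D₁ + β • D₂ with hV
  have hVa : ∀ a, V a = α * D₁ a + β * D₂ a := fun a => rfl
  set u : Fin 2 → PowerSeries M :=
    ![Ty V p - PowerSeries.C p, Ty V q - PowerSeries.C q] with hu
  have hu0 : ∀ i, PowerSeries.constantCoeff (u i) = 0 := by
    intro i
    fin_cases i
    · show PowerSeries.constantCoeff (Ty V p - PowerSeries.C p) = 0
      rw [map_sub, H3.constantCoeff_Ty, PowerSeries.constantCoeff_C, sub_self]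
    · show PowerSeries.constantCoeff (Ty V q - PowerSeries.C q) = 0
      rw [map_sub, H3.constantCoeff_Ty, PowerSeries.constantCoeff_C, sub_self]
  have hs : MvPowerSeries.HasSubst u := MvPowerSeries.hasSubst_of_constantCoeff_zero hu0
  set lam : RR →ₐ[M] PowerSeries M := MvPowerSeries.substAlgHom (R := M) (S := M) hs with hlam
  have hX : ∀ i, lam (MvPowerSeries.X i) = u i := fun i => MvPowerSeries.substAlgHom_X hs i
  have hX' : ∀ i, (PowerSeries.X : PowerSeries M) ∣ lam (MvPowerSeries.X i) := fun i => by
    rw [hX, PowerSeries.X_dvd_iff]; exact hu0 i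
  refine ⟨lam, fun a => ?_⟩
  have hc : ∀ F : RR, PowerSeries.constantCoeff (lam F) = MvPowerSeries.constantCoeff F := by
    intro F
    obtain ⟨F0, F1, hF⟩ := split2 F
    conv_lhs => rw [hF]
    simp only [map_add, map_mul, lam_C, hX, hu0, PowerSeries.constantCoeff_C, zero_mul, add_zero]
  have hd0 : PowerSeries.derivative M (lam (MvPowerSeries.X 0)) = Ty V α := by
    rw [hX]
    show PowerSeries.derivative M (Ty V p - PowerSeries.C p) = _
    rw [map_sub, PowerSeries.derivative_C, sub_zero, H3.derivative_Ty, hVa, h1p, h2p]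
    congr 1; ring
  have hd1 : PowerSeries.derivative M (lam (MvPowerSeries.X 1)) = Ty V β := by
    rw [hX]
    show PowerSeries.derivative M (Ty V q - PowerSeries.C q) = _
    rw [map_sub, PowerSeries.derivative_C, sub_zero, H3.derivative_Ty, hVa, h1q, h2q]
    congr 1; ring
  have key : ∀ n : ℕ, ∀ a, (PowerSeries.X : PowerSeries M) ^ n ∣ lam (TT D₁ D₂ h a) - Ty V a := by
    intro n
    induction n with
    | zero => intro a; rw [pow_zero]; exact one_dvd _
    | succ n ih =>
      intro a
      have e : PowerSeries.derivative M (lam (TT D₁ D₂ h a) - Ty V a) =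
          (lam (TT D₁ D₂ h (D₁ a)) - Ty V (D₁ a)) * Ty V α +
          (lam (TT D₁ D₂ h (D₂ a)) - Ty V (D₂ a)) * Ty V β := by
        rw [map_sub, lam_deriv lam hX', pd0_TT, pd1_TT, hd0, hd1, H3.derivative_Ty, hVa, map_add,
          map_mul, map_mul]
        ring
      have hdvd : (PowerSeries.X : PowerSeries M) ^ n ∣
          PowerSeries.derivative M (lam (TT D₁ D₂ h a) - Ty V a) := by
        rw [e]
        exact dvd_add ((ih _).mul_right _) ((ih _).mul_right _)
      rw [PowerSeries.X_pow_dvd_iff] at hdvd ⊢
      intro m hm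
      rcases Nat.eq_zero_or_pos m with rfl | hm0
      · rw [PowerSeries.coeff_zero_eq_constantCoeff_apply, map_sub, hc, constantCoeff_TT,
          H3.constantCoeff_Ty, sub_self]
      · obtain ⟨m', rfl⟩ : ∃ m', m = m' + 1 := ⟨m - 1, by omega⟩
        have := hdvd m' (by omega)
        rw [PowerSeries.coeff_derivative] at this
        exact (mul_eq_zero.mp this).resolve_right (Nat.cast_add_one_ne_zero _)
  exact H3.eq_of_forall_X_pow_dvd fun n => key n a

omit [CharZero M] in
/-- constants of the vector field. -/
theorem Ty_const (V : Derivation k M M) {a : M} (ha : V a = 0) : Ty V a = PowerSeries.C a := by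
  have : PowerSeries.C a = Ty V (PowerSeries.constantCoeff (PowerSeries.C a)) := by
    apply H3.eq_Ty
    rw [H3.cD_C, ha, map_zero]
    ext n
    simp
  rw [this, PowerSeries.constantCoeff_C]

/-- **independence of the weights on a leaf.** -/
theorem weights (V : Derivation k M M) {E x1 : M} (hE : E ≠ 0) (hx : x1 ≠ 0) (hxE : x1 ≠ E ^ 2)
    (hVE : V E ≠ 0) (hVx : V x1 = 0) :
    LinearIndependent M fun i : Fin 3 => Ty V ((![E⁻¹, E, E / (x1 - E ^ 2)] : Fin 3 → M) i) := by
  have hxE' : x1 - E ^ 2 ≠ 0 := sub_ne_zero.mpr hxE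
  rw [Fintype.linearIndependent_iff]
  intro g hg
  rw [Fin.sum_univ_three] at hg
  have hg' : g 0 • Ty V E⁻¹ + g 1 • Ty V E + g 2 • Ty V (E / (x1 - E ^ 2)) = 0 := hg
  simp only [PowerSeries.smul_eq_C_mul] at hg'
  set w : PowerSeries M := Ty V (E ^ 2) with hw
  -- multiply by `E (x1 - E^2)`
  have h1 : Ty V E⁻¹ * Ty V (E * (x1 - E ^ 2)) = PowerSeries.C x1 - w := by
    rw [← map_mul, show E⁻¹ * (E * (x1 - E ^ 2)) = x1 - E ^ 2 by field_simp, map_sub,
      Ty_const V hVx]
  have h2 : Ty V E * Ty V (E * (x1 - E ^ 2)) = w * (PowerSeries.C x1 - w) := by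
    rw [← map_mul, show E * (E * (x1 - E ^ 2)) = E ^ 2 * (x1 - E ^ 2) by ring, map_mul, map_sub,
      Ty_const V hVx]
  have h3 : Ty V (E / (x1 - E ^ 2)) * Ty V (E * (x1 - E ^ 2)) = w := by
    rw [← map_mul, show E / (x1 - E ^ 2) * (E * (x1 - E ^ 2)) = E ^ 2 by field_simp]
  have h4 : PowerSeries.C (g 0 * x1) + PowerSeries.C (g 1 * x1 + g 2 - g 0) * w -
      PowerSeries.C (g 1) * w ^ 2 = 0 := by
    have h5 := congrArg (· * Ty V (E * (x1 - E ^ 2))) hg'
    simp only [zero_mul, add_mul, mul_assoc, h1, h2, h3] at h5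
    rw [map_mul, map_sub, map_add, map_mul]
    linear_combination h5
  -- `w' ≠ 0`
  have hw' : PowerSeries.derivative M w ≠ 0 := by
    intro h0
    rw [hw, H3.derivative_Ty] at h0
    have h6 := congrArg PowerSeries.constantCoeff h0
    rw [H3.constantCoeff_Ty, map_zero, sq, Derivation.leibniz, smul_eq_mul, ← two_mul] at h6
    rcases mul_eq_zero.mp h6 with h7 | h7
    · exact two_ne_zero h7
    · rcases mul_eq_zero.mp h7 with h8 | h8
      · exact hE h8
      · exact hVE h8
  have h5 : PowerSeries.C (g 1 * x1 + g 2 - g 0) - PowerSeries.C (g 1) * (2 * w) = 0 := by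
    have h6 := congrArg (PowerSeries.derivative M) h4
    simp only [map_add, map_sub, Derivation.leibniz, PowerSeries.derivative_C, smul_eq_mul,
      mul_zero, add_zero, zero_add, map_zero, Derivation.leibniz_pow] at h6
    have h7 : (PowerSeries.C (g 1 * x1 + g 2 - g 0) - PowerSeries.C (g 1) * (2 * w)) *
        PowerSeries.derivative M w = 0 := by
      rw [map_sub, map_add]
      rw [← h6]
      simp only [nsmul_eq_mul]
      push_cast
      ring
    exact (mul_eq_zero.mp h7).resolve_right hw'
  have h6 : g 1 = 0 := by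
    have h7 := congrArg (PowerSeries.derivative M) h5
    simp only [map_sub, Derivation.leibniz, PowerSeries.derivative_C, smul_eq_mul,
      mul_zero, add_zero, zero_sub, map_zero] at h7
    have h8 : PowerSeries.C (g 1) * 2 * PowerSeries.derivative M w = 0 := by
      have h9 : PowerSeries.derivative M (2 : PowerSeries M) = 0 := by
        have := (PowerSeries.derivative M).map_natCast 2
        exact_mod_cast this
      rw [h9, mul_zero, add_zero] at h7
      linear_combination -h7
    rcases mul_eq_zero.mp h8 with h9 | h9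
    · rcases mul_eq_zero.mp h9 with h10 | h10
      · simpa using congrArg PowerSeries.constantCoeff h10
      · exact absurd h10 (by
          intro h11
          have := congrArg PowerSeries.constantCoeff h11
          rw [map_ofNat, map_zero] at this
          exact two_ne_zero this)
    · exact absurd h9 hw'
  have h7 : g 2 = g 0 := by
    rw [h6, map_zero, zero_mul, zero_mul, sub_zero, zero_add] at h5
    have := congrArg PowerSeries.constantCoeff h5
    rw [PowerSeries.constantCoeff_C, map_zero] at this
    linear_combination this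
  have h8 : g 0 = 0 := by
    rw [h6, h7] at h4
    have := congrArg PowerSeries.constantCoeff h4
    simp only [map_add, map_sub, map_mul, PowerSeries.constantCoeff_C, map_zero] at this
    have h9 : g 0 * x1 = 0 := by linear_combination this
    exact (mul_eq_zero.mp h9).resolve_right hx
  intro i
  fin_cases i
  · exact h8
  · exact h6
  · show g 2 = 0
    rw [h7, h8]

end Leaf

end Crest.Agent.R102.RatT
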