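import Crest.Agent.R102.RatV_201
import Crest.Agent.R102.RatL_201
import Crest.Agent.R102.Free_781

/-!
# Row 102, [H3], (RAT), leaf R2d (helper201): `D = ∞` implies `L` algebraic over `K`
-/

set_option autoImplicit false
set_option linter.unusedSectionVars false

open MvPowerSeries

noncomputable section

namespace Crest.Agent.R102.RAT

open RatT

variable {M : Type} [Field M] [Algebra ℂ M] [CharZero M] {D₁ D₂ : Derivation ℂ M M} {N : ℕ}
  {b : ℕ → M} {x : ℕ → ℕ → M} {E k : ℕ → M}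

local notation "RR" => MvPowerSeries (Fin 2) M

/-! ## single mirrors -/

section single

variable (h : ∀ f, D₁ (D₂ f) = D₂ (D₁ f))

theorem TT_ne {a : M} (ha : a ≠ 0) : TT D₁ D₂ h a ≠ 0 := by
  intro h0
  apply ha
  have := congrArg MvPowerSeries.constantCoeff h0
  rwa [constantCoeff_TT, map_zero] at this

theorem del_inv {δ : Derivation ℂ M M} {a : M} (ha : a ≠ 0) :
    del h δ a⁻¹ = -(TT D₁ D₂ h a⁻¹ ^ 2 * del h δ a) := by
  have h1 : del h δ (a * a⁻¹) = 0 := by
    rw [mul_inv_cancel₀ ha, del_def, map_one, Derivation.map_one_eq_zero]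
  rw [del_mul] at h1
  have h2 : TT D₁ D₂ h a * TT D₁ D₂ h a⁻¹ = 1 := by rw [← map_mul, mul_inv_cancel₀ ha, map_one]
  linear_combination TT D₁ D₂ h a⁻¹ * h1 - del h δ a⁻¹ * h2

/-- `z = T(b) - b` -/
def zz (β : M) : RR := TT D₁ D₂ h β - MvPowerSeries.C β

theorem hzz (β : M) : MvPowerSeries.constantCoeff (zz h β) = 0 := by
  rw [zz, map_sub, constantCoeff_TT, MvPowerSeries.constantCoeff_C, sub_self]

theorem pd_zz (β : M) (i : Fin 2) :
    pderiv M i (zz h β) = TT D₁ D₂ h (DD D₁ D₂ i β) := by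
  rw [zz, map_sub, pd_TT, pderiv_C, sub_zero]

/-- the displacement series -/
def nu (δ : Derivation ℂ M M) (β : M) (y : ℕ → M) : PowerSeries M :=
  PowerSeries.mk fun r => (δ (y r) - y (r + 1) * δ β) / (r.factorial : M)

/-- the Taylor series of the jet -/
def tx (y : ℕ → M) : PowerSeries M := PowerSeries.mk fun r => y r / (r.factorial : M)

theorem disp_fun (δ : Derivation ℂ M M) {β : M} {y : ℕ → M}
    (hy : ∀ r i, DD D₁ D₂ i (y r) = y (r + 1) * DD D₁ D₂ i β) (r : ℕ) :
    del h δ (y r) - TT D₁ D₂ h (y (r + 1)) * del h δ β =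
      sg (zz h β) (hzz h β) ((PowerSeries.derivative M)^[r] (nu δ β y)) := by
  have := fun_of (hzz h β) (fun r => del h δ (y r) - TT D₁ D₂ h (y (r + 1)) * del h δ β)
    (fun r i => by
      rw [pd_zz]
      exact pd_disp h δ i (hy r i) (hy (r + 1) i)) r
  rw [this]
  congr 2
  ext n
  rw [PowerSeries.coeff_mk, nu, PowerSeries.coeff_mk, map_sub, map_mul, constantCoeff_del,
    constantCoeff_del, constantCoeff_TT]

theorem tay_fun {β : M} {y : ℕ → M}
    (hy : ∀ r i, DD D₁ D₂ i (y r) = y (r + 1) * DD D₁ D₂ i β) (r : ℕ) :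
    TT D₁ D₂ h (y r) =
      sg (zz h β) (hzz h β) ((PowerSeries.derivative M)^[r] (tx y)) := by
  have := fun_of (hzz h β) (fun r => TT D₁ D₂ h (y r))
    (fun r i => by rw [pd_zz, pd_TT, hy, map_mul]) r
  rw [this]
  congr 2
  ext n
  rw [PowerSeries.coeff_mk, tx, PowerSeries.coeff_mk, constantCoeff_TT]

theorem const_tx (y : ℕ → M) (r : ℕ) :
    PowerSeries.constantCoeff ((PowerSeries.derivative M)^[r] (tx y)) = y r := by
  have hcoef : ∀ r n, PowerSeries.coeff n ((PowerSeries.derivative M)^[r] (tx y)) =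
      y (n + r) / (n.factorial : M) := by
    intro r
    induction r with
    | zero => intro n; rw [Function.iterate_zero_apply, tx, PowerSeries.coeff_mk]; rfl
    | succ r ih =>
      intro n
      rw [Function.iterate_succ_apply', PowerSeries.coeff_derivative, ih, Nat.factorial_succ]
      have h1 : ((n : M) + 1) ≠ 0 := Nat.cast_add_one_ne_zero _
      have h2 : (n.factorial : M) ≠ 0 := by exact_mod_cast Nat.factorial_ne_zero _
      have e : n + 1 + r = n + (r + 1) := by ring
      rw [e]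
      push_cast
      field_simp
  rw [← PowerSeries.coeff_zero_eq_constantCoeff_apply, hcoef]
  simp

/-- the new coefficient functions -/
def nn (δ : Derivation ℂ M M) (β : M) (y : ℕ → M) (ν : PowerSeries M) : Fin 3 → PowerSeries M :=
  ![c1 δ ν - PowerSeries.C (δ β) * PowerSeries.derivative M ν -
      PowerSeries.derivative M ν * nu δ β y * (PowerSeries.derivative M (tx y))⁻¹,
    -((c1 δ ν - PowerSeries.C (δ β) * PowerSeries.derivative M ν) *
      (PowerSeries.derivative M (tx y))⁻¹) +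
      ν * PowerSeries.derivative M (nu δ β y) * (PowerSeries.derivative M (tx y))⁻¹ ^ 2,
    -(ν * PowerSeries.derivative M (PowerSeries.derivative M (tx y)) *
      (PowerSeries.derivative M (tx y))⁻¹ ^ 2) * nu δ β y]

/-- **second variation of one term**. -/
theorem second (δ : Derivation ℂ M M) {β kk e e' : M} {y : ℕ → M}
    (hy : ∀ r i, DD D₁ D₂ i (y r) = y (r + 1) * DD D₁ D₂ i β)
    (he : e ≠ 0) (hy1 : y 1 ≠ 0) (hye : y 1 ≠ e ^ 2) (hinc : y 0 = e ^ 2 * β + kk)
    (hrefl : e * e' = y 1) (hde : del h δ e = 0) (hdk : del h δ kk = 0) (ν : PowerSeries M) :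
    cM δ (sg (zz h β) (hzz h β) ν * TT D₁ D₂ h (e⁻¹ - e'⁻¹)) =
      sg (zz h β) (hzz h β) (nn δ β y ν 0) * TT D₁ D₂ h e⁻¹ +
      sg (zz h β) (hzz h β) (nn δ β y ν 1) * TT D₁ D₂ h e +
      sg (zz h β) (hzz h β) (nn δ β y ν 2) * TT D₁ D₂ h (e / (y 1 - e ^ 2)) := by
  set σ := sg (zz h β) (hzz h β) with hσ
  have hye' : y 1 - e ^ 2 ≠ 0 := sub_ne_zero.mpr hye
  have he' : e'⁻¹ = e * (y 1)⁻¹ := by
    have : e' = y 1 / e := by rw [← hrefl]; field_simp
    rw [this]
    field_simp
  -- jets as functions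
  have t1 : TT D₁ D₂ h (y 1) = σ (PowerSeries.derivative M (tx y)) := tay_fun h hy 1
  have t2 : TT D₁ D₂ h (y 2) = σ (PowerSeries.derivative M (PowerSeries.derivative M (tx y))) :=
    tay_fun h hy 2
  have m0 : del h δ (y 0) - TT D₁ D₂ h (y 1) * del h δ β = σ (nu δ β y) := disp_fun h δ hy 0
  have m1 : del h δ (y 1) - TT D₁ D₂ h (y 2) * del h δ β =
      σ (PowerSeries.derivative M (nu δ β y)) := disp_fun h δ hy 1
  have hinv : TT D₁ D₂ h (y 1)⁻¹ = σ (PowerSeries.derivative M (tx y))⁻¹ := by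
    have hc : PowerSeries.constantCoeff (PowerSeries.derivative M (tx y)) ≠ 0 := by
      have := const_tx y 1
      rw [Function.iterate_one] at this
      rwa [this]
    have h1 : σ (PowerSeries.derivative M (tx y)) * σ (PowerSeries.derivative M (tx y))⁻¹ = 1 := by
      rw [← map_mul, PowerSeries.mul_inv_cancel _ hc, map_one]
    have h2 : TT D₁ D₂ h (y 1) * TT D₁ D₂ h (y 1)⁻¹ = 1 := by
      rw [← map_mul, mul_inv_cancel₀ hy1, map_one]
    rw [← t1] at h1
    exact mul_left_cancel₀ (TT_ne h hy1) (by rw [h1, h2])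
  -- the variation of `b`
  have hdz : cM δ (zz h β) = del h δ β - MvPowerSeries.C (δ β) := by
    rw [zz, map_sub, cM_C]; rfl
  have hde2 : del h δ (e ^ 2) = 0 := by rw [sq, del_mul, hde]; ring
  have hd0 : del h δ (y 0) = TT D₁ D₂ h e ^ 2 * del h δ β := by
    rw [hinc, del_add, del_mul, hde2, hdk, map_pow]; ring
  have hw : TT D₁ D₂ h (y 1 - e ^ 2)⁻¹ * (TT D₁ D₂ h (y 1) - TT D₁ D₂ h e ^ 2) = 1 := by
    rw [← map_pow, ← map_sub, ← map_mul, inv_mul_cancel₀ hye', map_one]
  have hdb : del h δ β = -(σ (nu δ β y) * TT D₁ D₂ h (y 1 - e ^ 2)⁻¹) := by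
    rw [← m0, hd0]
    linear_combination -(del h δ β) * hw
  have hW : TT D₁ D₂ h (e / (y 1 - e ^ 2)) = TT D₁ D₂ h e * TT D₁ D₂ h (y 1 - e ^ 2)⁻¹ := by
    rw [div_eq_mul_inv, map_mul]
  have hwa : TT D₁ D₂ h (y 1 - e ^ 2)⁻¹ *
      (TT D₁ D₂ h e⁻¹ - TT D₁ D₂ h e * TT D₁ D₂ h (y 1)⁻¹) =
      TT D₁ D₂ h e⁻¹ * TT D₁ D₂ h (y 1)⁻¹ := by
    rw [← map_mul, ← map_sub, ← map_mul, ← map_mul]
    congr 1
    field_simp
  have hS : cM δ (TT D₁ D₂ h (e⁻¹ - e'⁻¹)) =
      TT D₁ D₂ h e * TT D₁ D₂ h (y 1)⁻¹ ^ 2 * del h δ (y 1) := by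
    rw [he', ← del_def, del_sub, del_mul, del_inv h he, del_inv h hy1, hde]
    ring
  have hST : TT D₁ D₂ h (e⁻¹ - e'⁻¹) =
      TT D₁ D₂ h e⁻¹ - TT D₁ D₂ h e * TT D₁ D₂ h (y 1)⁻¹ := by
    rw [he', map_sub, map_mul]
  have hd1 : del h δ (y 1) = σ (PowerSeries.derivative M (nu δ β y)) +
      TT D₁ D₂ h (y 2) * del h δ β := by rw [← m1]; ring
  have hCσ : ∀ c : M, σ (PowerSeries.C c) = MvPowerSeries.C c := fun c => sg_C _ c
  rw [cM_mul, hS, hST, cM_sg, ← hσ, hdz, hd1, hW]
  simp only [nn, Matrix.cons_val_zero, Matrix.cons_val_one, Matrix.cons_val_two, Matrix.head_cons,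
    Matrix.tail_cons, map_sub, map_add, map_mul, map_neg, map_pow, hCσ]
  rw [← hinv, ← t2, hdb]
  linear_combination -(σ (PowerSeries.derivative M ν) * σ (nu δ β y)) * hwa

end single

/-! ## the chain -/

section chain

variable (hc : FChain D₁ D₂ N b x E k)

include hc

theorem jets {j : ℕ} (hj : j < N) (r : ℕ) (i : Fin 2) :
    DD D₁ D₂ i (x j r) = x j (r + 1) * DD D₁ D₂ i (b j) := by
  fin_cases i
  · exact hc.jet₁ j hj r
  · exact hc.jet₂ j hj r

theorem x1_ne {j : ℕ} (hj : j < N) : x j 1 ≠ 0 := by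
  rw [← hc.refl j hj]
  exact mul_ne_zero (hc.E_ne j hj.le) (hc.E_ne (j + 1) hj)

theorem delE0 {δ : Derivation ℂ M M} (h0 : δ (E 0) = 0) : del hc.comm δ (E 0) = 0 := by
  have h1 : del hc.comm δ (E 0 ^ 2) = 0 := by
    have h2 : ∀ i, pderiv M i (del hc.comm δ (E 0 ^ 2)) = 0 := by
      intro i
      rw [pd_del]
      fin_cases i
      · show del hc.comm δ (D₁ (E 0 ^ 2)) = 0
        rw [hc.D₁E, del_def, map_one, Derivation.map_one_eq_zero]
      · show del hc.comm δ (D₂ (E 0 ^ 2)) = 0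
        rw [hc.D₂E, del_zero]
    rw [eq_C_of_pd h2, constantCoeff_del, Derivation.leibniz_pow, h0, smul_zero, smul_zero,
      map_zero]
  rw [sq, del_mul, ← two_mul] at h1
  rcases mul_eq_zero.mp h1 with h2 | h2
  · exfalso
    have := congrArg MvPowerSeries.constantCoeff h2
    rw [map_ofNat, map_zero] at this
    exact two_ne_zero this
  · exact (mul_eq_zero.mp h2).resolve_left (TT_ne hc.comm (hc.E_ne 0 (Nat.zero_le _)))

theorem delk0 {δ : Derivation ℂ M M} (h0 : δ (k 0) = 0) : del hc.comm δ (k 0) = 0 := by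
  have h2 : ∀ i, pderiv M i (del hc.comm δ (k 0)) = 0 := by
    intro i
    rw [pd_del]
    fin_cases i
    · show del hc.comm δ (D₁ (k 0)) = 0
      rw [hc.D₁k, del_zero]
    · show del hc.comm δ (D₂ (k 0)) = 0
      rw [hc.D₂k, del_def, map_one, Derivation.map_one_eq_zero]
  rw [eq_C_of_pd h2, constantCoeff_del, h0, map_zero]

/-- one step: no displacement. -/
theorem step {δ : Derivation ℂ M M} {j : ℕ} (hj : j < N) (hE : del hc.comm δ (E j) = 0)
    (hk : del hc.comm δ (k j) = 0) (hν : nu δ (b j) (x j) = 0) :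
    del hc.comm δ (b j) = 0 ∧ (∀ r, del hc.comm δ (x j r) = 0) ∧
      del hc.comm δ (E (j + 1)) = 0 ∧ del hc.comm δ (k (j + 1)) = 0 := by
  have h0 : ∀ r : ℕ, (PowerSeries.derivative M)^[r] (0 : PowerSeries M) = 0 := by
    intro r
    induction r with
    | zero => rfl
    | succ r ih => rw [Function.iterate_succ_apply, map_zero, ih]
  have hR : ∀ r, del hc.comm δ (x j r) = TT D₁ D₂ hc.comm (x j (r + 1)) * del hc.comm δ (b j) := by
    intro r
    have := disp_fun hc.comm δ (jets hc hj) r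
    rw [hν, h0, map_zero] at this
    exact sub_eq_zero.mp this
  have hE2 : del hc.comm δ (E j ^ 2) = 0 := by rw [sq, del_mul, hE]; ring
  have hb : del hc.comm δ (b j) = 0 := by
    have h1 := hR 0
    rw [hc.inc j hj, del_add, del_mul, hE2, hk] at h1
    have h2 : TT D₁ D₂ hc.comm (x j 1 - E j ^ 2) * del hc.comm δ (b j) = 0 := by
      rw [map_sub]
      linear_combination -h1
    exact (mul_eq_zero.mp h2).resolve_left (TT_ne hc.comm (sub_ne_zero.mpr (hc.tr j hj)))
  have hx : ∀ r, del hc.comm δ (x j r) = 0 := fun r => by rw [hR, hb, mul_zero]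
  have hE' : del hc.comm δ (E (j + 1)) = 0 := by
    have h1 := hx 1
    rw [← hc.refl j hj, del_mul, hE, mul_zero, add_zero] at h1
    exact (mul_eq_zero.mp h1).resolve_left (TT_ne hc.comm (hc.E_ne j hj.le))
  refine ⟨hb, hx, hE', ?_⟩
  have h1 : k (j + 1) = x j 0 - E (j + 1) ^ 2 * b j := by rw [hc.inc' j hj]; ring
  rw [h1, del_sub, del_mul, sq, del_mul, hx, hE', hb]
  ring

theorem run {δ : Derivation ℂ M M} (hE : del hc.comm δ (E 0) = 0)
    (hk : del hc.comm δ (k 0) = 0) {s : ℕ} (hs : s ≤ N)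
    (hν : ∀ j < s, nu δ (b j) (x j) = 0) (j : ℕ) (hj : j ≤ s) :
    del hc.comm δ (E j) = 0 ∧ del hc.comm δ (k j) = 0 := by
  induction j with
  | zero => exact ⟨hE, hk⟩
  | succ j ih =>
    obtain ⟨h1, h2⟩ := ih (by omega)
    obtain ⟨_, _, h3, h4⟩ := step hc (by omega) h1 h2 (hν j (by omega))
    exact ⟨h3, h4⟩

/-- **the relation**. -/
theorem relation {δ : Derivation ℂ M M} (hδ : ∀ f ∈ KK D₁ D₂ N E k, δ f = 0) :
    ∃ c : M, ∑ j ∈ Finset.range N, sg (zz hc.comm (b j)) (hzz hc.comm (b j)) (nu δ (b j) (x j)) *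
      TT D₁ D₂ hc.comm ((E j)⁻¹ - (E (j + 1))⁻¹) = MvPowerSeries.C c := by
  have hS1 : ∀ f ∈ KK D₁ D₂ N E k, D₁ f ∈ KK D₁ D₂ N E k := fun f hf =>
    DF389.dfield_stable ![D₁, D₂] _ 0 f hf
  have hS2 : ∀ f ∈ KK D₁ D₂ N E k, D₂ f ∈ KK D₁ D₂ N E k := fun f hf =>
    DF389.dfield_stable ![D₁, D₂] _ 1 f hf
  have hmem : ∀ f ∈ ({E 0, k 0, E N, k N} : Set M), f ∈ KK D₁ D₂ N E k := fun f hf =>
    DF389.subset_dfield _ _ hf
  have hz : ∀ f ∈ ({E 0, k 0, E N, k N} : Set M), del hc.comm δ f = 0 := fun f hf =>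
    del_eq_zero hc.comm (S := (KK D₁ D₂ N E k : Set M)) hS1 hS2 hδ (hmem f hf)
  have hE0 := hz (E 0) (by simp)
  have hk0 := hz (k 0) (by simp)
  have hEN := hz (E N) (by simp)
  have hkN := hz (k N) (by simp)
  refine ⟨_, eq_C_of_pd fun i => ?_⟩
  have h1 : ∀ j ∈ Finset.range N, 2 * pderiv M i (sg (zz hc.comm (b j)) (hzz hc.comm (b j))
      (nu δ (b j) (x j)) * TT D₁ D₂ hc.comm ((E j)⁻¹ - (E (j + 1))⁻¹)) =
      om hc.comm δ (E j) (k j) i - om hc.comm δ (E (j + 1)) (k (j + 1)) i := by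
    intro j hj
    have hj' := Finset.mem_range.mp hj
    rw [vf_one hc.comm δ (hc.E_ne j hj'.le) (hc.E_ne (j + 1) hj') (hc.inc j hj') (hc.inc' j hj')
      (hc.refl j hj') i (jets hc hj' 0 i) (jets hc hj' 1 i), disp_fun hc.comm δ (jets hc hj') 0]
    rfl
  have h2 : 2 * pderiv M i (∑ j ∈ Finset.range N, sg (zz hc.comm (b j)) (hzz hc.comm (b j))
      (nu δ (b j) (x j)) * TT D₁ D₂ hc.comm ((E j)⁻¹ - (E (j + 1))⁻¹)) = 0 := by
    rw [map_sum, Finset.mul_sum, Finset.sum_congr rfl h1,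
      Finset.sum_range_sub' (fun j => om hc.comm δ (E j) (k j) i), om, om, hk0, hkN]
    have hsq : ∀ e : M, del hc.comm δ e = 0 → del hc.comm δ (e ^ 2) = 0 := by
      intro e he
      rw [sq, del_mul, he]; ring
    rw [hsq _ hE0, hsq _ hEN]
    ring
  rcases mul_eq_zero.mp h2 with h3 | h3
  · exfalso
    have := congrArg MvPowerSeries.constantCoeff h3
    rw [map_ofNat, map_zero] at this
    exact two_ne_zero this
  · exact h3

/-- invariance of the area form along the chain. -/
theorem area {j : ℕ} (hj : j ≤ N) : jac D₁ D₂ (E j ^ 2) (k j) * (E j ^ 3)⁻¹ = (E 0 ^ 3)⁻¹ := by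
  induction j with
  | zero => rw [jac, hc.D₁E, hc.D₂E, hc.D₂k]; ring
  | succ j ih =>
    have hj' : j < N := hj
    rw [← ih (by omega)]
    have h1 := vf_field (F := M) (E := E j) (E' := E (j + 1)) (b := b j) (dE := D₂ (E j))
      (dE' := D₂ (E (j + 1))) (db := D₂ (b j)) (pE := D₁ (E j)) (pE' := D₁ (E (j + 1)))
      (pb := D₁ (b j)) (n0 := 0) (n1 := 0) (x2 := x j 2) (hc.E_ne j hj'.le) (hc.E_ne (j + 1) hj')
      (by rw [← hc.jet₂ j hj' 1, ← hc.refl j hj', Derivation.leibniz, smul_eq_mul, smul_eq_mul])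
      (by rw [← hc.jet₁ j hj' 1, ← hc.refl j hj', Derivation.leibniz, smul_eq_mul, smul_eq_mul,
        zero_add])
    have dsq : ∀ (D : Derivation ℂ M M) (e : M), D (e ^ 2) = 2 * e * D e := by
      intro D e
      rw [sq, Derivation.leibniz, smul_eq_mul]
      ring
    have hk1 : k j = x j 0 - E j ^ 2 * b j := by rw [hc.inc j hj']; ring
    have hk2 : k (j + 1) = x j 0 - E (j + 1) ^ 2 * b j := by rw [hc.inc' j hj']; ring
    rw [jac, jac, hk1, hk2]
    simp only [map_sub, Derivation.leibniz, dsq, smul_eq_mul, hc.jet₁ j hj' 0, hc.jet₂ j hj' 0,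
      ← hc.refl j hj']
    linear_combination -h1

theorem jacE_ne {j : ℕ} (hj : j < N) : jac D₁ D₂ (E j) (b j) ≠ 0 := by
  intro h0
  have h1 := area hc hj.le
  have dsq : ∀ (D : Derivation ℂ M M) (e : M), D (e ^ 2) = 2 * e * D e := by
    intro D e
    rw [sq, Derivation.leibniz, smul_eq_mul]
    ring
  have hk1 : k j = x j 0 - E j ^ 2 * b j := by rw [hc.inc j hj]; ring
  have h2 : jac D₁ D₂ (E j ^ 2) (k j) = 2 * E j * (x j 1 - E j ^ 2) * jac D₁ D₂ (E j) (b j) := by
    rw [jac, jac, hk1]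
    simp only [map_sub, Derivation.leibniz, dsq, smul_eq_mul, hc.jet₁ j hj 0, hc.jet₂ j hj 0]
    ring
  rw [h2, h0, mul_zero, zero_mul] at h1
  exact inv_ne_zero (pow_ne_zero 3 (hc.E_ne 0 (Nat.zero_le _))) h1.symm

end chain

/-! ## the web -/

section web

variable (hc : FChain D₁ D₂ N b x E k)

/-- weights -/
def wt (x : ℕ → ℕ → M) (E : ℕ → M) (j : ℕ) : Fin 3 → M :=
  ![(E j)⁻¹, E j, E j / (x j 1 - E j ^ 2)]

/-- the total map -/
def Tot (h : ∀ f, D₁ (D₂ f) = D₂ (D₁ f)) (N : ℕ) (b : ℕ → M) (x : ℕ → ℕ → M) (E : ℕ → M) :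
    ((j : Fin N) → Fin 3 → PowerSeries M) →ₗ[M] RR where
  toFun n := ∑ j : Fin N, ∑ i : Fin 3, sg (zz h (b j)) (hzz h (b j)) (n j i) * TT D₁ D₂ h (wt x E j i)
  map_add' n m := by
    rw [← Finset.sum_add_distrib]
    refine Finset.sum_congr rfl fun j _ => ?_
    rw [← Finset.sum_add_distrib]
    refine Finset.sum_congr rfl fun i _ => ?_
    rw [Pi.add_apply, Pi.add_apply, map_add, add_mul]
  map_smul' c n := by
    rw [RingHom.id_apply, Finset.smul_sum]
    refine Finset.sum_congr rfl fun j _ => ?_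
    rw [Finset.smul_sum]
    refine Finset.sum_congr rfl fun i _ => ?_
    rw [Pi.smul_apply, Pi.smul_apply, map_smul, smul_mul_assoc]

include hc

theorem sol_finite : Module.Finite M
    (LinearMap.ker (Tot hc.comm N b x E)) := by
  classical
  -- the leaves
  have hlam : ∀ j : Fin N, ∃ lam : RR →ₐ[M] PowerSeries M, ∀ a,
      lam (TT D₁ D₂ hc.comm a) =
        H3.Ty (D₂ (b j) • D₁ + (-D₁ (b j)) • D₂ : Derivation ℂ M M) a := fun j =>
    exists_lam hc.comm hc.D₁E hc.D₂E hc.D₁k hc.D₂k _ _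
  choose lam hlam using hlam
  have hV : ∀ (j : ℕ) (a : M), (D₂ (b j) • D₁ + (-D₁ (b j)) • D₂ : Derivation ℂ M M) a =
      jac D₁ D₂ a (b j) := by
    intro j a
    show D₂ (b j) • D₁ a + (-D₁ (b j)) • D₂ a = _
    rw [jac, smul_eq_mul, smul_eq_mul]
    ring
  have hfin := L1g201.web_finite (k := M) (z := fun j : Fin N => zz hc.comm (b j))
    (fun j => hzz hc.comm (b j)) (fun i j hij => by
      have e : ∀ j : Fin N, ∀ e : Fin 2, L1g201.lin e (zz hc.comm (b j)) = DD D₁ D₂ e (b j) := by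
        intro j e
        have h1 := congrArg MvPowerSeries.constantCoeff (pd_zz hc.comm (b j) e)
        rw [constantCoeff_TT, ← MvPowerSeries.coeff_zero_eq_constantCoeff_apply, coeff_pderiv] at h1
        rw [L1g201.lin, ← h1]
        simp
      rw [e, e, e, e]
      show D₂ (b i) * D₁ (b j) - D₁ (b i) * D₂ (b j) ≠ 0
      have hij' : (i : ℕ) ≠ j := fun h => hij (Fin.ext h)
      rcases Nat.lt_or_gt_of_ne hij' with h1 | h1
      · intro h2
        apply hc.ind i j h1 j.2
        rw [jac]; linear_combination -h2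
      · intro h2
        apply hc.ind j i h1 i.2
        rw [jac]; linear_combination h2)
    (fun j => by
      have e : ∀ e : Fin 2, L1g201.lin e (zz hc.comm (b j)) = DD D₁ D₂ e (b j) := by
        intro e
        have h1 := congrArg MvPowerSeries.constantCoeff (pd_zz hc.comm (b j) e)
        rw [constantCoeff_TT, ← MvPowerSeries.coeff_zero_eq_constantCoeff_apply, coeff_pderiv] at h1
        rw [L1g201.lin, ← h1]
        simp
      rw [e, e]
      show D₁ (b j) ≠ 0 ∨ D₂ (b j) ≠ 0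
      by_contra hcon
      push Not at hcon
      apply jacE_ne hc j.2
      rw [jac, hcon.1, hcon.2]; ring)
    (σ := fun j => sg (zz hc.comm (b j)) (hzz hc.comm (b j))) (fun j => sg_X _)
    (lam := lam) (fun j => by
      rw [zz, map_sub, hlam, lam_C, Ty_const _ (by rw [hV, jac]; ring), sub_self])
    (G := fun _ => Fin 3) (g := fun j i => TT D₁ D₂ hc.comm (wt x E j i))
    (fun j => by
      have := weights (k := ℂ) (D₂ (b j) • D₁ + (-D₁ (b j)) • D₂ : Derivation ℂ M M)
        (hc.E_ne j j.2.le) (x1_ne hc j.2) (hc.tr j j.2) (by rw [hV]; exact jacE_ne hc j.2)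
        (by rw [hV, jac, hc.jet₁ j j.2, hc.jet₂ j j.2]; ring)
      convert this using 1
      funext i
      rw [hlam]
      rfl)
  have e : LinearMap.ker (Tot hc.comm N b x E) = L1g201.Sol
      (fun j : Fin N => sg (zz hc.comm (b j)) (hzz hc.comm (b j)))
      (fun j i => TT D₁ D₂ hc.comm (wt x E j i)) := by
    ext n
    rw [LinearMap.mem_ker]
    rfl
  rw [e]
  exact hfin

/-- solutions with constant right hand side. -/
def Sol' (h : ∀ f, D₁ (D₂ f) = D₂ (D₁ f)) (N : ℕ) (b : ℕ → M) (x : ℕ → ℕ → M) (E : ℕ → M) :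
    Submodule M ((j : Fin N) → Fin 3 → PowerSeries M) :=
  Submodule.comap (Tot h N b x E) (Submodule.span M {1})

theorem sol'_fg : (Sol' hc.comm N b x E).FG := by
  apply Submodule.fg_of_fg_map_of_fg_inf_ker (Tot hc.comm N b x E)
  · have h1 : (Sol' hc.comm N b x E).map (Tot hc.comm N b x E) ≤ Submodule.span M {1} :=
      Submodule.map_comap_le _ _
    have : FiniteDimensional M (Submodule.span M ({1} : Set RR)) :=
      FiniteDimensional.span_of_finite M (Set.finite_singleton _)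
    have h2 := Submodule.finiteDimensional_of_le h1
    exact Module.Finite.iff_fg.mp h2
  · have h1 : Sol' hc.comm N b x E ⊓ LinearMap.ker (Tot hc.comm N b x E) =
        LinearMap.ker (Tot hc.comm N b x E) := by
      apply inf_eq_right.mpr
      intro n hn
      rw [LinearMap.mem_ker] at hn
      rw [Sol', Submodule.mem_comap, hn]
      exact Submodule.zero_mem _
    rw [h1]
    exact Module.Finite.iff_fg.mp (sol_finite hc)

end web

theorem ps_not_finite : ¬ Module.Finite M (PowerSeries M) := by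
  intro h
  have h1 : Function.Injective (Polynomial.coeToPowerSeries.algHom (R := M) M).toLinearMap := by
    intro p q hpq
    have h2 : (Polynomial.coeToPowerSeries.algHom (R := M) M) p =
      (Polynomial.coeToPowerSeries.algHom (R := M) M) q := hpq
    rw [Polynomial.coeToPowerSeries.algHom_apply, Polynomial.coeToPowerSeries.algHom_apply] at h2
    apply Polynomial.coe_injective
    ext n
    have := congrArg (PowerSeries.coeff n) h2
    simpa using this
  have := Module.Finite.of_injective (Polynomial.coeToPowerSeries.algHom (R := M) M).toLinearMap h1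
  exact Polynomial.not_finite this

/-- **main step**: no derivation over `K` displaces a mirror. -/
theorem main (hc : FChain D₁ D₂ N b x E k) (hd : Disp N b x E k) {δ₀ : Derivation ℂ M M}
    (hδ₀ : ∀ f ∈ KK D₁ D₂ N E k, δ₀ f = 0) : ∀ j < N, nu δ₀ (b j) (x j) = 0 := by
  classical
  by_contra hcon
  push Not at hcon
  -- the last displaced mirror
  set S := (Finset.range N).filter (fun j => nu δ₀ (b j) (x j) ≠ 0) with hS
  have hSne : S.Nonempty := by
    obtain ⟨j, hj, hj'⟩ := hcon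
    exact ⟨j, by rw [hS, Finset.mem_filter]; exact ⟨Finset.mem_range.mpr hj, hj'⟩⟩
  set s := S.max' hSne with hs
  have hsS : s ∈ S := S.max'_mem hSne
  rw [hS, Finset.mem_filter, Finset.mem_range] at hsS
  obtain ⟨hsN, hsν⟩ := hsS
  have hgt : ∀ j < N, s < j → nu δ₀ (b j) (x j) = 0 := by
    intro j hj hsj
    by_contra hne
    have : j ∈ S := by rw [hS, Finset.mem_filter]; exact ⟨Finset.mem_range.mpr hj, hne⟩
    exact absurd (S.le_max' j this) (not_le.mpr hsj)
  obtain ⟨c, hcrel⟩ := relation hc hδ₀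
  set ν : ℕ → PowerSeries M := fun j => nu δ₀ (b j) (x j) with hν
  -- arbitrary displacement of the mirror `s`
  have hkey : ∀ m : PowerSeries M, ∃ n ∈ Sol' hc.comm N b x E,
      n ⟨s, hsN⟩ 2 = -(ν s * PowerSeries.derivative M (PowerSeries.derivative M (tx (x s))) *
        (PowerSeries.derivative M (tx (x s)))⁻¹ ^ 2) * m := by
    intro m
    obtain ⟨δ, hδE, hδk, hδx⟩ := hd fun j r =>
      if j = s then (r.factorial : M) * PowerSeries.coeff r m else 0
    have hνs : nu δ (b s) (x s) = m := by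
      ext r
      rw [nu, PowerSeries.coeff_mk, hδx s hsN r, if_pos rfl]
      have : (r.factorial : M) ≠ 0 := by exact_mod_cast Nat.factorial_ne_zero _
      field_simp
      ring
    have hνj : ∀ j < s, nu δ (b j) (x j) = 0 := by
      intro j hj
      ext r
      rw [nu, PowerSeries.coeff_mk, hδx j (by omega) r, if_neg (by omega)]
      simp
    have hrun := run hc (delE0 hc hδE) (delk0 hc hδk) hsN.le hνj
    refine ⟨fun j => if (j : ℕ) ≤ s then nn δ (b j) (x j) (ν j) else 0, ?_, ?_⟩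
    · rw [Sol', Submodule.mem_comap, Submodule.mem_span_singleton]
      refine ⟨δ c, ?_⟩
      have h1 := congrArg (cM δ) hcrel
      rw [cM_C, map_sum] at h1
      rw [MvPowerSeries.smul_eq_C_mul, mul_one, ← h1]
      show _ = ∑ j : Fin N, ∑ i : Fin 3, _
      rw [Finset.sum_range]
      refine Finset.sum_congr rfl fun j _ => ?_
      by_cases hjs : (j : ℕ) ≤ s
      · obtain ⟨h2, h3⟩ := hrun j hjs
        rw [second hc.comm δ (jets hc j.2) (hc.E_ne j j.2.le) (x1_ne hc j.2) (hc.tr j j.2)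
          (hc.inc j j.2) (hc.refl j j.2) h2 h3 (nu δ₀ (b j) (x j)), Fin.sum_univ_three]
        simp only [if_pos hjs]
        rfl
      · have h2 : nu δ₀ (b j) (x j) = 0 := hgt j j.2 (by omega)
        rw [h2, map_zero, zero_mul, map_zero]
        symm
        refine Finset.sum_eq_zero fun i _ => ?_
        simp only [if_neg hjs, Pi.zero_apply, map_zero, zero_mul]
    · simp only [le_refl, if_true]
      rw [← hνs]
      rfl
  -- contradiction with finiteness
  set a : PowerSeries M := -(ν s * PowerSeries.derivative M (PowerSeries.derivative M (tx (x s))) *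
        (PowerSeries.derivative M (tx (x s)))⁻¹ ^ 2) with ha
  have hane : a ≠ 0 := by
    rw [ha, neg_ne_zero]
    refine mul_ne_zero (mul_ne_zero hsν ?_) (pow_ne_zero 2 ?_)
    · intro h0
      have := const_tx (x s) 2
      have e : (PowerSeries.derivative M)^[2] (tx (x s)) =
        PowerSeries.derivative M (PowerSeries.derivative M (tx (x s))) := rfl
      rw [e, h0, map_zero] at this
      exact hc.x2_ne s hsN this.symm
    · intro h0
      have h1 : PowerSeries.constantCoeff (PowerSeries.derivative M (tx (x s))) = x s 1 := by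
        have := const_tx (x s) 1
        rwa [Function.iterate_one] at this
      have h2 := PowerSeries.mul_inv_cancel (PowerSeries.derivative M (tx (x s)))
        (by rw [h1]; exact x1_ne hc hsN)
      rw [h0, mul_zero] at h2
      exact zero_ne_one h2
  apply ps_not_finite (M := M)
  have hfg := sol'_fg hc
  have : Module.Finite M (Sol' hc.comm N b x E) := Module.Finite.iff_fg.mpr hfg
  -- projection
  let pr : ((j : Fin N) → Fin 3 → PowerSeries M) →ₗ[M] PowerSeries M :=
    { toFun := fun n => n ⟨s, hsN⟩ 2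
      map_add' := fun _ _ => rfl
      map_smul' := fun _ _ => rfl }
  have h2 : LinearMap.range (LinearMap.mulLeft M a) ≤ (Sol' hc.comm N b x E).map pr := by
    rintro _ ⟨m, rfl⟩
    obtain ⟨n, hn, hn'⟩ := hkey m
    exact ⟨n, hn, hn'⟩
  have h3 : Module.Finite M ((Sol' hc.comm N b x E).map pr) :=
    Module.Finite.iff_fg.mpr (hfg.map pr)
  have h4 : FiniteDimensional M (LinearMap.range (LinearMap.mulLeft M a)) :=
    Submodule.finiteDimensional_of_le h2
  have hinj : Function.Injective (LinearMap.mulLeft M a) := by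
    intro p q hpq
    exact mul_left_cancel₀ hane hpq
  exact Module.Finite.equiv (LinearEquiv.ofInjective _ hinj).symm

/-- a derivation over `K` kills `L`. -/
theorem kills (hc : FChain D₁ D₂ N b x E k) (hd : Disp N b x E k) {δ₀ : Derivation ℂ M M}
    (hδ₀ : ∀ f ∈ KK D₁ D₂ N E k, δ₀ f = 0) : ∀ f ∈ LL N b x E k, δ₀ f = 0 := by
  have hν := main hc hd hδ₀
  have h0 : δ₀ (E 0) = 0 := hδ₀ _ (DF389.subset_dfield _ _ (by simp))
  have hk0 : δ₀ (k 0) = 0 := hδ₀ _ (DF389.subset_dfield _ _ (by simp))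
  have hrun := run hc (delE0 hc h0) (delk0 hc hk0) le_rfl hν
  intro f hf
  rw [LL] at hf
  induction hf using IntermediateField.adjoin_induction with
  | mem y hy =>
    rcases hy with hy | ⟨j, hj, hy⟩
    · rcases hy with rfl | hy
      · exact h0
      · rw [Set.mem_singleton_iff] at hy
        rw [hy]; exact hk0
    · obtain ⟨h1, h2⟩ := hrun j hj.le
      obtain ⟨h3, h4, _, _⟩ := step hc hj h1 h2 (hν j hj)
      rcases hy with rfl | ⟨r, rfl⟩
      · have := congrArg MvPowerSeries.constantCoeff h3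
        rwa [constantCoeff_del, map_zero] at this
      · have := congrArg MvPowerSeries.constantCoeff (h4 r)
        rwa [constantCoeff_del, map_zero] at this
  | algebraMap c => exact Derivation.map_algebraMap _ _
  | add y z _ _ hy hz => rw [map_add, hy, hz, add_zero]
  | inv y _ hy => rw [Derivation.leibniz_inv, hy, smul_zero]
  | mul y z _ _ hy hz => rw [Derivation.leibniz, hy, hz, smul_zero, smul_zero, add_zero]

/-- **(R2d)** `D = ∞` implies that `L` is algebraic over `K`. -/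
theorem rat2a : Rat2aStmt := by
  intro M _ _ D₁ D₂ N b x E k hc hd f hf
  have : CharZero M := charZero_of_injective_algebraMap (algebraMap ℂ M).injective
  by_contra htr
  have hai : AlgebraicIndependent (KK D₁ D₂ N E k) (fun _ : Unit => f) :=
    algebraicIndependent_unique_type_iff.mpr htr
  obtain ⟨δ, hδ⟩ := Free781.exists_derivation (k := KK D₁ D₂ N E k) (S := M)
    (fun _ : Unit => f) hai (fun _ => 1)
  have h1 : ∀ g ∈ KK D₁ D₂ N E k, (δ.restrictScalars ℂ) g = 0 := by
    intro g hg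
    exact δ.map_algebraMap ⟨g, hg⟩
  have h2 := kills hc hd h1 f hf
  have h3 : δ f = 1 := hδ ()
  have h4 : (δ.restrictScalars ℂ) f = δ f := rfl
  rw [h4, h3] at h2
  exact one_ne_zero h2

end Crest.Agent.R102.RAT
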