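import Mathlib
import Crest.Agent.R102.RAT2b_554
import Crest.Agent.R102.RATDefs_926

/-!
# Row 102, [H3], THEOREM (RAT), leaf R2e: `RAT.Rat2bStmt` (helper554)
-/

set_option autoImplicit false

noncomputable section

namespace Crest.Agent.R102.RAT554

open Crest.Agent.R102.RAT

theorem rat2bStmt : Rat2bStmt := by
  intro M _ _ D₁ D₂ N b x E k hN h hD hF hal
  have : CharZero M := charZero_of_injective_algebraMap (algebraMap ℂ M).injective
  let D : Fin 2 → Derivation ℂ M M := ![D₁, D₂]
  let K : IntermediateField ℂ M := KK D₁ D₂ N E k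
  have hsub : ({E 0, k 0, E N, k N} : Set M) ⊆ (K : Set M) := DF389.subset_dfield _ _
  have hx : ∀ j < N, ∀ r, x j r ∈ LL N b x E k := fun j hj r =>
    IntermediateField.subset_adjoin _ _ (Or.inr ⟨j, hj, Or.inr ⟨r, rfl⟩⟩)
  have hb : ∀ j < N, b j ∈ LL N b x E k := fun j hj =>
    IntermediateField.subset_adjoin _ _ (Or.inr ⟨j, hj, Or.inl rfl⟩)
  have h0E : E 0 ∈ LL N b x E k := IntermediateField.subset_adjoin _ _ (Or.inl (by simp))
  have h0k : k 0 ∈ LL N b x E k := IntermediateField.subset_adjoin _ _ (Or.inl (by simp))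
  have hEk : ∀ j ≤ N, E j ∈ LL N b x E k ∧ k j ∈ LL N b x E k := by
    intro j
    induction j with
    | zero => intro _; exact ⟨h0E, h0k⟩
    | succ j ih =>
      intro hj
      have h1 := ih (by omega)
      have h2 : E (j + 1) = x j 1 / E j := by
        rw [eq_div_iff (h.E_ne j (by omega)), mul_comm]
        exact h.refl j hj
      have h3 : E (j + 1) ∈ LL N b x E k := by
        rw [h2]
        exact div_mem (hx j hj 1) h1.1
      refine ⟨h3, ?_⟩
      have h4 : k (j + 1) = x j 0 - E (j + 1) ^ 2 * b j := by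
        rw [h.inc' j hj]
        ring
      rw [h4]
      exact sub_mem (hx j hj 0) (mul_mem (pow_mem h3 2) (hb j hj))
  have hch : Chain D N b x E k :=
    { dx := fun j hj r i => by
        fin_cases i
        · exact h.jet₁ j hj r
        · exact h.jet₂ j hj r
      l0 := h.inc
      l1 := h.inc'
      re := h.refl
      ne := h.E_ne }
  have hjac : ∀ i < N, ∀ j < N, i ≠ j → RAT554.jac D (b i) (b j) ≠ 0 := by
    intro i hi j hj hij
    rcases lt_or_gt_of_ne hij with hlt | hlt
    · exact h.ind i j hlt hj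
    · rw [jac_swap]
      exact neg_ne_zero.mpr (h.ind j i hlt hi)
  exact rat2b D h.comm hch hN
    (fun j hj he => h.tr j hj (by rw [← h.refl j hj, ← he, sq]))
    hjac h.D₁E h.D₂E h.D₁k h.D₂k
    (by
      intro j hj p
      obtain ⟨δ, _, _, hδ⟩ := hD fun i r => if i = j ∧ r = p then 1 else 0
      refine ⟨δ, fun i hi r => ?_⟩
      rw [hδ i hi r]
      ring)
    (by
      intro j h0 hj h1
      exact hF j h0 hj (D 0 (b j) / D 1 (b j)) (div_mul_cancel₀ _ h1))
    K (fun i a ha => DF389.dfield_stable _ _ i a ha) (hsub (by simp)) (hsub (by simp))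
    (hsub (by simp)) (hsub (by simp))
    (fun j hj => hal _ (hb j hj)) (fun j hj r => hal _ (hx j hj r))
    (fun j hj => hal _ (hEk j hj).1) (fun j hj => hal _ (hEk j hj).2)

end Crest.Agent.R102.RAT554
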