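import Mathlib
import Crest.Agent.R102.RatDefs7_217
import Crest.Agent.R102.RatGlueA_798

/-!
Row 102, (RAT), R7 (helper217): transport of `b₀ ∈ dfield ![D₁, D₂] {E₀, k₀, E_N, k_N}` along a
local biholomorphism and along restriction.
-/

set_option autoImplicit false
set_option linter.unusedSectionVars false

open Set Filter Topology Metric TopologicalSpace

noncomputable section

namespace Crest.Agent.R102.Rat7217

open Crest.Agent.R102.Mer88 Crest.Agent.R102.H3 Crest.Agent.R102.MerF217 Crest.Agent.R102.DF389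
open Crest.Agent.R102.Glue798 (pdH frD frMap toH frD_algebraMap frMap_algebraMap fr_ext frD_ext
  pdH_apply toH_apply ext0_toH)

variable {W W' : Opens (ℂ × ℂ)}

theorem dV_eq (v : ℂ × ℂ) (f : Hol W) : dV v f = pdH W v f := by
  ext x; rfl

/-! ### composition with a holomorphic map -/

/-- composition with `Φ` -/
def cH (Φ : ℂ × ℂ → ℂ × ℂ) (hΦ : AnalyticOnNhd ℂ Φ W') (hm : ∀ x ∈ W', Φ x ∈ W) :
    Hol W →ₐ[ℂ] Hol W' where
  toFun f := ⟨fun x => (f : W → ℂ) ⟨Φ x, hm x x.2⟩, by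
    refine analyticOnNhd_ext0 (F := fun x => ext0 (f : W → ℂ) (Φ x)) (fun x => ?_)
      (fun x hx => ?_)
    · exact ext0_of_mem _ _
    · exact (Hol.an f (Φ x) (hm x hx)).comp' (hΦ x hx)⟩
  map_one' := rfl
  map_mul' _ _ := rfl
  map_zero' := rfl
  map_add' _ _ := rfl
  commutes' _ := rfl

variable {Φ : ℂ × ℂ → ℂ × ℂ} {hΦ : AnalyticOnNhd ℂ Φ W'} {hm : ∀ x ∈ W', Φ x ∈ W}

theorem cH_apply (f : Hol W) (x : W') :
    (cH Φ hΦ hm f : W' → ℂ) x = (f : W → ℂ) ⟨Φ x, hm x x.2⟩ := rfl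

theorem ext0_cH (f : Hol W) {x : ℂ × ℂ} (hx : x ∈ W') :
    ext0 (cH Φ hΦ hm f : W' → ℂ) =ᶠ[𝓝 x] fun y => ext0 (f : W → ℂ) (Φ y) :=
  eventually_ext0_eq (fun y => by rw [cH_apply]; exact ext0_of_mem _ _) hx

/-- the components of `Φ` -/
def c1 (Φ : ℂ × ℂ → ℂ × ℂ) (W' : Opens (ℂ × ℂ)) : Hol W' := toH W' (fun x => (Φ x).1)
def c2 (Φ : ℂ × ℂ → ℂ × ℂ) (W' : Opens (ℂ × ℂ)) : Hol W' := toH W' (fun x => (Φ x).2)

include hΦ in
theorem pdH_cH (v : ℂ × ℂ) (f : Hol W) :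
    pdH W' v (cH Φ hΦ hm f) = cH Φ hΦ hm (pdH W (1, 0) f) * pdH W' v (c1 Φ W') +
      cH Φ hΦ hm (pdH W (0, 1) f) * pdH W' v (c2 Φ W') := by
  have a1 : AnalyticOnNhd ℂ (fun x => (Φ x).1) W' := fun x hx =>
    analyticAt_fst.comp' (hΦ x hx)
  have a2 : AnalyticOnNhd ℂ (fun x => (Φ x).2) W' := fun x hx =>
    analyticAt_snd.comp' (hΦ x hx)
  ext x
  have hx : (x : ℂ × ℂ) ∈ W' := x.2
  have hd : DifferentiableAt ℂ Φ x := (hΦ x hx).differentiableAt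
  show fderiv ℂ (ext0 (cH Φ hΦ hm f : W' → ℂ)) x v = _
  rw [(ext0_cH f hx).fderiv_eq]
  have hf : DifferentiableAt ℂ (ext0 (f : W → ℂ)) (Φ x) :=
    (Hol.an f _ (hm x hx)).differentiableAt
  have h1 : fderiv ℂ (fun y => ext0 (f : W → ℂ) (Φ y)) x v =
      fderiv ℂ (ext0 (f : W → ℂ)) (Φ x) (fderiv ℂ Φ x v) := by
    have := fderiv_comp (x : ℂ × ℂ) (g := ext0 (f : W → ℂ)) (f := Φ) hf hd
    have h2 := congrArg (fun L => L v) this
    simpa [Function.comp_def] using h2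
  rw [h1]
  have e1 : (fderiv ℂ Φ x v).1 = fderiv ℂ (fun y => (Φ y).1) x v := by
    rw [fderiv.fst hd]; rfl
  have e2 : (fderiv ℂ Φ x v).2 = fderiv ℂ (fun y => (Φ y).2) x v := by
    rw [fderiv.snd hd]; rfl
  have e3 : fderiv ℂ Φ x v = (fderiv ℂ (fun y => (Φ y).1) x v) • ((1, 0) : ℂ × ℂ) +
      (fderiv ℂ (fun y => (Φ y).2) x v) • ((0, 1) : ℂ × ℂ) := by
    rw [← e1, ← e2]
    ext <;> simp
  rw [e3, map_add, map_smul, map_smul]
  have e4 : (pdH W' v (c1 Φ W') : W' → ℂ) x = fderiv ℂ (fun y => (Φ y).1) x v := by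
    show fderiv ℂ (ext0 (toH W' (fun x => (Φ x).1) : W' → ℂ)) x v = _
    rw [(ext0_toH a1 hx).fderiv_eq]
  have e5 : (pdH W' v (c2 Φ W') : W' → ℂ) x = fderiv ℂ (fun y => (Φ y).2) x v := by
    show fderiv ℂ (ext0 (toH W' (fun x => (Φ x).2) : W' → ℂ)) x v = _
    rw [(ext0_toH a2 hx).fderiv_eq]
  simp only [smul_eq_mul, Subalgebra.coe_add, Subalgebra.coe_mul, Pi.add_apply, Pi.mul_apply]
  rw [e4, e5]
  show _ = fderiv ℂ (ext0 (f : W → ℂ)) (Φ x) (1, 0) * _ +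
    fderiv ℂ (ext0 (f : W → ℂ)) (Φ x) (0, 1) * _
  ring

include hΦ in
theorem jcb_cH (f h : Hol W) :
    jcb (cH Φ hΦ hm f) (cH Φ hΦ hm h) = cH Φ hΦ hm (jcb f h) * jcb (c1 Φ W') (c2 Φ W') := by
  simp only [jcb, dV_eq, pdH_cH (hΦ := hΦ), map_sub, map_mul]
  ring

/-! ### dual derivations -/

section dual

variable [IsDomain (Hol W)] [IsDomain (Hol W')]

/-- the field of fractions -/
abbrev FR (W : Opens (ℂ × ℂ)) := FractionRing (Hol W)

/-- partial derivatives on the field of fractions -/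
def dt (W : Opens (ℂ × ℂ)) [IsDomain (Hol W)] : Derivation ℂ (FR W) (FR W) := frD (pdH W (1, 0))
def dw (W : Opens (ℂ × ℂ)) [IsDomain (Hol W)] : Derivation ℂ (FR W) (FR W) := frD (pdH W (0, 1))

theorem dt_alg (f : Hol W) : dt W (algebraMap (Hol W) (FR W) f) =
    algebraMap (Hol W) (FR W) (pdH W (1, 0) f) := frD_algebraMap _ _
theorem dw_alg (f : Hol W) : dw W (algebraMap (Hol W) (FR W) f) =
    algebraMap (Hol W) (FR W) (pdH W (0, 1) f) := frD_algebraMap _ _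

theorem alg_jcb (f h : Hol W) : algebraMap (Hol W) (FR W) (jcb f h) =
    dt W (algebraMap _ _ f) * dw W (algebraMap _ _ h) -
      dw W (algebraMap _ _ f) * dt W (algebraMap _ _ h) := by
  rw [dt_alg, dt_alg, dw_alg, dw_alg, jcb, dV_eq, dV_eq, dV_eq, dV_eq, map_sub, map_mul, map_mul]

theorem alg_ne {f : Hol W} (hf : f ≠ 0) : algebraMap (Hol W) (FR W) f ≠ 0 := by
  intro h
  exact hf (IsFractionRing.injective (Hol W) (FR W) (by rw [h, map_zero]))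

/-- existence of the dual derivations, as combinations of `dt`, `dw` -/
theorem exists_dual {μ κ : Hol W} (h : jcb μ κ ≠ 0) :
    ∃ D₁ D₂ : Derivation ℂ (FR W) (FR W), Dual μ κ D₁ D₂ ∧ ∃ A₁ B₁ A₂ B₂ : FR W,
      (∀ f, D₁ f = A₁ * dt W f + B₁ * dw W f) ∧ ∀ f, D₂ f = A₂ * dt W f + B₂ * dw W f := by
  set J : FR W := algebraMap (Hol W) (FR W) (jcb μ κ) with hJ
  have hJ0 : J ≠ 0 := alg_ne h
  set m : FR W := algebraMap (Hol W) (FR W) μ with hm
  set k : FR W := algebraMap (Hol W) (FR W) κ with hk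
  refine ⟨(dw W k / J) • dt W + (- dt W k / J) • dw W,
    (- dw W m / J) • dt W + (dt W m / J) • dw W, ⟨hJ0, fun f => ?_, fun f => ?_⟩,
    dw W k / J, - dt W k / J, - dw W m / J, dt W m / J, fun f => rfl, fun f => rfl⟩
  · show J * (dw W k / J * dt W _ + - dt W k / J * dw W _) = _
    rw [alg_jcb, ← hk]
    field_simp
    ring
  · show J * (- dw W m / J * dt W _ + dt W m / J * dw W _) = _
    rw [alg_jcb]
    field_simp
    ring

theorem Dual.vals {μ κ : Hol W} {D₁ D₂ : Derivation ℂ (FR W) (FR W)} (h : Dual μ κ D₁ D₂) :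
    D₁ (algebraMap _ _ μ) = 1 ∧ D₁ (algebraMap _ _ κ) = 0 ∧ D₂ (algebraMap _ _ μ) = 0 ∧
      D₂ (algebraMap _ _ κ) = 1 := by
  have hJ := h.ne
  have e1 : jcb κ κ = 0 := by simp only [jcb]; ring
  have e2 : jcb μ μ = 0 := by simp only [jcb]; ring
  refine ⟨?_, ?_, ?_, ?_⟩
  · exact mul_left_cancel₀ hJ (by rw [h.d₁, mul_one])
  · exact mul_left_cancel₀ hJ (by rw [h.d₁, mul_zero, e1, map_zero])
  · exact mul_left_cancel₀ hJ (by rw [h.d₂, mul_zero, e2, map_zero])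
  · exact mul_left_cancel₀ hJ (by rw [h.d₂, mul_one])

/-- **dual derivations commute with composition** -/
theorem Dual.comm (hinj : Function.Injective (cH Φ hΦ hm)) {μ κ : Hol W} {μ' κ' : Hol W'}
    (e1 : cH Φ hΦ hm μ = μ') (e2 : cH Φ hΦ hm κ = κ') {D₁ D₂ : Derivation ℂ (FR W) (FR W)}
    {D₁' D₂' : Derivation ℂ (FR W') (FR W')} (h : Dual μ κ D₁ D₂) (h' : Dual μ' κ' D₁' D₂') :
    (∀ x, D₁' (frMap (cH Φ hΦ hm) hinj x) = frMap (cH Φ hΦ hm) hinj (D₁ x)) ∧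
      ∀ x, D₂' (frMap (cH Φ hΦ hm) hinj x) = frMap (cH Φ hΦ hm) hinj (D₂ x) := by
  set F := frMap (cH Φ hΦ hm) hinj with hF
  have hJ' := h'.ne
  have eJ : algebraMap (Hol W') (FR W') (jcb μ' κ') =
      F (algebraMap _ _ (jcb μ κ)) * algebraMap _ _ (jcb (c1 Φ W') (c2 Φ W')) := by
    rw [← e1, ← e2, jcb_cH, map_mul, hF, frMap_algebraMap]
  constructor
  · refine fr_ext (A := Hol W) F (D := fun x => D₁' (F x)) (D' := fun x => F (D₁ x)) (fun a b => ?_)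
      (fun a b => ?_) (fun f => ?_)
    · simp only [map_mul, Derivation.leibniz, smul_eq_mul]
    · simp only [Derivation.leibniz, map_add, smul_eq_mul, map_mul]
    · refine mul_left_cancel₀ hJ' ?_
      show _ * D₁' (F _) = _ * F (D₁ _)
      have h1 := congrArg F (h.d₁ f)
      rw [map_mul] at h1
      rw [hF, frMap_algebraMap, h'.d₁, ← e2, jcb_cH, map_mul, e2, eJ, ← hF]
      rw [hF, frMap_algebraMap, frMap_algebraMap, ← hF] at h1
      rw [hF, frMap_algebraMap, ← hF]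
      linear_combination - algebraMap _ _ (jcb (c1 Φ W') (c2 Φ W')) * h1
  · refine fr_ext (A := Hol W) F (D := fun x => D₂' (F x)) (D' := fun x => F (D₂ x)) (fun a b => ?_)
      (fun a b => ?_) (fun f => ?_)
    · simp only [map_mul, Derivation.leibniz, smul_eq_mul]
    · simp only [Derivation.leibniz, map_add, smul_eq_mul, map_mul]
    · refine mul_left_cancel₀ hJ' ?_
      show _ * D₂' (F _) = _ * F (D₂ _)
      have h1 := congrArg F (h.d₂ f)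
      rw [map_mul] at h1
      rw [hF, frMap_algebraMap, h'.d₂, ← e1, jcb_cH, map_mul, e1, eJ, ← hF]
      rw [hF, frMap_algebraMap, frMap_algebraMap, ← hF] at h1
      rw [hF, frMap_algebraMap, ← hF]
      linear_combination - algebraMap _ _ (jcb (c1 Φ W') (c2 Φ W')) * h1

end dual

/-! ### injectivity of the composition -/

theorem cH_injective (hW : IsPreconnected (W : Set (ℂ × ℂ))) {x0 : ℂ × ℂ} (hx0 : x0 ∈ W')
    (hopen : ∀ s ∈ 𝓝 x0, Φ '' s ∈ 𝓝 (Φ x0)) : Function.Injective (cH Φ hΦ hm) := by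
  rw [injective_iff_map_eq_zero]
  intro f hf
  refine Hol.eq_zero_of_eventually hW f ⟨Φ x0, hm x0 hx0⟩ ?_
  filter_upwards [hopen _ (W'.isOpen.mem_nhds hx0)] with y hy
  obtain ⟨x, hx, rfl⟩ := hy
  rw [ext0_of_mem _ (hm x hx)]
  have := congrArg (fun F : Hol W' => (F : W' → ℂ) ⟨x, hx⟩) hf
  exact this

/-- the open ball -/
def bO (x : ℂ × ℂ) (r : ℝ) : Opens (ℂ × ℂ) := ⟨ball x r, isOpen_ball⟩

theorem bO_pre (x : ℂ × ℂ) (r : ℝ) : IsPreconnected ((bO x r : Opens (ℂ × ℂ)) : Set (ℂ × ℂ)) :=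
  (convex_ball x r).isPreconnected

theorem isDomain_of_mem {U : Opens (ℂ × ℂ)} (hU : IsPreconnected (U : Set (ℂ × ℂ))) {x : ℂ × ℂ}
    (hx : x ∈ U) : IsDomain (Hol U) := by
  have : Nonempty U := ⟨⟨x, hx⟩⟩
  exact Hol.isDomain hU

/-- **transport of the rationality statement** -/
theorem transport {U : Opens (ℂ × ℂ)} (hU : IsPreconnected (U : Set (ℂ × ℂ)))
    (hW : IsPreconnected (W : Set (ℂ × ℂ))) {Φ : ℂ × ℂ → ℂ × ℂ} {x0 : ℂ × ℂ} (hx0 : x0 ∈ U)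
    (hx0W : Φ x0 ∈ W) (hΦ0 : AnalyticAt ℂ Φ x0) (hopen : ∀ s ∈ 𝓝 x0, Φ '' s ∈ 𝓝 (Φ x0))
    {E0 k0 EN kN b0 : Hol W} {e0 κ0 eN κN β0 : Hol U}
    (h : ∀ᶠ x in 𝓝 x0, ext0 (E0 : W → ℂ) (Φ x) ^ 2 = ext0 (e0 : U → ℂ) x ^ 2 ∧
      ext0 (EN : W → ℂ) (Φ x) ^ 2 = ext0 (eN : U → ℂ) x ^ 2 ∧
      ext0 (k0 : W → ℂ) (Φ x) = ext0 (κ0 : U → ℂ) x ∧
      ext0 (kN : W → ℂ) (Φ x) = ext0 (κN : U → ℂ) x ∧
      ext0 (b0 : W → ℂ) (Φ x) = ext0 (β0 : U → ℂ) x)
    [IsDomain (Hol U)] [IsDomain (Hol W)] (hj : jcb (e0 ^ 2) κ0 ≠ 0)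
    (hRat : ∀ D₁ D₂ : Derivation ℂ (FR W) (FR W), Dual (E0 ^ 2) k0 D₁ D₂ →
      algebraMap (Hol W) (FR W) b0 ∈ dfield ![D₁, D₂]
        {algebraMap (Hol W) (FR W) E0, algebraMap (Hol W) (FR W) k0,
          algebraMap (Hol W) (FR W) EN, algebraMap (Hol W) (FR W) kN})
    {D₁ D₂ : Derivation ℂ (FR U) (FR U)} (hD : Dual (e0 ^ 2) κ0 D₁ D₂) :
    algebraMap (Hol U) (FR U) β0 ∈ dfield ![D₁, D₂]
      {algebraMap (Hol U) (FR U) e0, algebraMap (Hol U) (FR U) κ0,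
        algebraMap (Hol U) (FR U) eN, algebraMap (Hol U) (FR U) κN} := by
  -- the ball
  obtain ⟨δ, hδ, hball⟩ := Metric.eventually_nhds_iff_ball.1
    ((h.and hΦ0.eventually_analyticAt).and
      ((hΦ0.continuousAt.eventually (W.isOpen.mem_nhds hx0W)).and (U.isOpen.mem_nhds hx0)))
  set V : Opens (ℂ × ℂ) := bO x0 δ with hV
  have hx0V : x0 ∈ V := mem_ball_self hδ
  have hVp : IsPreconnected (V : Set (ℂ × ℂ)) := bO_pre _ _
  have hdV : IsDomain (Hol V) := isDomain_of_mem hVp hx0V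
  have hmW : ∀ x ∈ V, Φ x ∈ W := fun x hx => (hball x hx).2.1
  have hmU : ∀ x ∈ V, id x ∈ U := fun x hx => (hball x hx).2.2
  have aΦ : AnalyticOnNhd ℂ Φ V := fun x hx => (hball x hx).1.2
  have aI : AnalyticOnNhd ℂ (id : ℂ × ℂ → ℂ × ℂ) V := fun x _ => analyticAt_id
  set F₁ : Hol W →ₐ[ℂ] Hol V := cH Φ aΦ hmW with hF₁
  set F₂ : Hol U →ₐ[ℂ] Hol V := cH id aI hmU with hF₂
  have i₁ : Function.Injective F₁ := cH_injective hW hx0V hopen
  have i₂ : Function.Injective F₂ := cH_injective hU hx0V (fun s hs => by simpa using hs)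
  -- identities
  have q1 : F₁ E0 ^ 2 = F₂ e0 ^ 2 := by
    ext x
    have := (hball x x.2).1.1.1
    rw [ext0_of_mem _ (hmW x x.2), ext0_of_mem _ (show (x : ℂ × ℂ) ∈ U from hmU x x.2)] at this
    exact this
  have q2 : F₁ EN ^ 2 = F₂ eN ^ 2 := by
    ext x
    have := (hball x x.2).1.1.2.1
    rw [ext0_of_mem _ (hmW x x.2), ext0_of_mem _ (show (x : ℂ × ℂ) ∈ U from hmU x x.2)] at this
    exact this
  have q3 : F₁ k0 = F₂ κ0 := by
    ext x
    have := (hball x x.2).1.1.2.2.1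
    rw [ext0_of_mem _ (hmW x x.2), ext0_of_mem _ (show (x : ℂ × ℂ) ∈ U from hmU x x.2)] at this
    exact this
  have q4 : F₁ kN = F₂ κN := by
    ext x
    have := (hball x x.2).1.1.2.2.2.1
    rw [ext0_of_mem _ (hmW x x.2), ext0_of_mem _ (show (x : ℂ × ℂ) ∈ U from hmU x x.2)] at this
    exact this
  have q5 : F₁ b0 = F₂ β0 := by
    ext x
    have := (hball x x.2).1.1.2.2.2.2
    rw [ext0_of_mem _ (hmW x x.2), ext0_of_mem _ (show (x : ℂ × ℂ) ∈ U from hmU x x.2)] at this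
    exact this
  -- the Jacobians
  have hjV : jcb (F₂ e0 ^ 2) (F₂ κ0) ≠ 0 := by
    intro h0
    rw [← map_pow, hF₂, jcb_cH] at h0
    have h1 : jcb (c1 id V) (c2 id V) = 1 := by
      ext x
      have a1 : AnalyticOnNhd ℂ (fun x : ℂ × ℂ => (id x).1) V := fun x _ => analyticAt_fst
      have a2 : AnalyticOnNhd ℂ (fun x : ℂ × ℂ => (id x).2) V := fun x _ => analyticAt_snd
      have e1 : ∀ v : ℂ × ℂ, (pdH V v (c1 id V) : V → ℂ) x = v.1 := by
        intro v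
        show fderiv ℂ (ext0 (toH V (fun x : ℂ × ℂ => (id x).1) : V → ℂ)) x v = _
        rw [(ext0_toH a1 x.2).fderiv_eq]
        show fderiv ℂ (Prod.fst) (x : ℂ × ℂ) v = _
        rw [fderiv_fst]; rfl
      have e2 : ∀ v : ℂ × ℂ, (pdH V v (c2 id V) : V → ℂ) x = v.2 := by
        intro v
        show fderiv ℂ (ext0 (toH V (fun x : ℂ × ℂ => (id x).2) : V → ℂ)) x v = _
        rw [(ext0_toH a2 x.2).fderiv_eq]
        show fderiv ℂ (Prod.snd) (x : ℂ × ℂ) v = _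
        rw [fderiv_snd]; rfl
      simp only [jcb, dV_eq]
      show (pdH V (1, 0) (c1 id V) : V → ℂ) x * (pdH V (0, 1) (c2 id V) : V → ℂ) x -
        (pdH V (0, 1) (c1 id V) : V → ℂ) x * (pdH V (1, 0) (c2 id V) : V → ℂ) x = 1
      rw [e1, e2, e1, e2]; ring
    rw [h1, mul_one] at h0
    exact hj (i₂ (by rw [map_zero]; exact h0))
  have hjW : jcb (E0 ^ 2) k0 ≠ 0 := by
    intro h0
    apply hjV
    rw [← q1, ← q3, ← map_pow, hF₁, jcb_cH, h0, map_zero, zero_mul]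
  obtain ⟨P₁, P₂, hP, -⟩ := exists_dual hjW
  obtain ⟨Q₁, Q₂, hQ, -⟩ := exists_dual hjV
  set G₁ := frMap F₁ i₁ with hG₁
  set G₂ := frMap F₂ i₂ with hG₂
  have g1 : ∀ f, G₁ (algebraMap _ _ f) = algebraMap _ _ (F₁ f) := frMap_algebraMap _ _
  have g2 : ∀ f, G₂ (algebraMap _ _ f) = algebraMap _ _ (F₂ f) := frMap_algebraMap _ _
  have C1 := Dual.comm (hΦ := aΦ) (hm := hmW) i₁ (by rw [map_pow]; exact q1) q3 hP hQ
  have C2 := Dual.comm (hΦ := aI) (hm := hmU) i₂ (μ' := F₂ e0 ^ 2) (κ' := F₂ κ0)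
    (by rw [map_pow]) rfl hD hQ
  have r1 := dfield_map_le ![P₁, P₂] ![Q₁, Q₂] G₁ (by
    intro i x
    fin_cases i
    · exact C1.1 x
    · exact C1.2 x) _ (hRat P₁ P₂ hP)
  rw [g1, q5, ← g2] at r1
  refine (dfield_map ![D₁, D₂] ![Q₁, Q₂] G₂ (by
    intro i x
    fin_cases i
    · exact C2.1 x
    · exact C2.2 x) _).1 ?_
  refine (dfield_le _ _ _ ?_ (fun i x hx => dfield_stable _ _ i x hx)) r1
  -- the generators
  set T := dfield ![Q₁, Q₂] (G₂ '' {algebraMap (Hol U) (FR U) e0, algebraMap (Hol U) (FR U) κ0,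
        algebraMap (Hol U) (FR U) eN, algebraMap (Hol U) (FR U) κN}) with hT
  have t0 : ∀ f ∈ ({algebraMap (Hol U) (FR U) e0, algebraMap (Hol U) (FR U) κ0,
        algebraMap (Hol U) (FR U) eN, algebraMap (Hol U) (FR U) κN} : Set (FR U)), G₂ f ∈ T :=
    fun f hf => subset_dfield _ _ ⟨f, hf, rfl⟩
  rintro _ ⟨f, hf, rfl⟩
  simp only [mem_insert_iff, mem_singleton_iff] at hf
  have sgn : ∀ {a b : Hol V}, a ^ 2 = b ^ 2 → algebraMap (Hol V) (FR V) b ∈ T →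
      algebraMap (Hol V) (FR V) a ∈ T := by
    intro a b hab hb
    rcases sq_eq_sq_iff_eq_or_eq_neg.1 hab with h1 | h1
    · rwa [h1]
    · rw [h1, map_neg]
      exact T.neg_mem hb
  rcases hf with rfl | rfl | rfl | rfl
  · show G₁ _ ∈ T
    rw [g1]
    exact sgn q1 (by rw [← g2]; exact t0 _ (by simp))
  · show G₁ _ ∈ T
    rw [g1, q3, ← g2]
    exact t0 _ (by simp)
  · show G₁ _ ∈ T
    rw [g1]
    exact sgn q2 (by rw [← g2]; exact t0 _ (by simp))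
  · show G₁ _ ∈ T
    rw [g1, q4, ← g2]
    exact t0 _ (by simp)

end Crest.Agent.R102.Rat7217
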