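import Mathlib
import Crest.Agent.R102.RatFam_217

/-!
Row 102, (RAT), R7 (helper217): induction on the number of mirrors.
-/

set_option autoImplicit false
set_option linter.unusedSectionVars false

open Set Filter Topology Metric TopologicalSpace

noncomputable section

namespace Crest.Agent.R102.Rat7217

open Crest.Agent.R102.Mer88 Crest.Agent.R102.H3 Crest.Agent.R102.MerF217 Crest.Agent.R102.DF389
open Crest.Agent.R102.C0 Crest.Agent.R102.B821 Crest.Agent.R102.T5 Crest.Agent.R102.G576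
open Crest.Agent.R102.A929
open Crest.Agent.R102.Glue798 (pdH frD frMap toH frD_algebraMap frMap_algebraMap fr_ext frD_ext
  pdH_apply toH_apply ext0_toH)

section generic

variable {A A' : Type} [CommRing A] [IsDomain A] [Algebra ℂ A] [CommRing A'] [IsDomain A']
  [Algebra ℂ A']

theorem comm_of_hol (φ : A →ₐ[ℂ] A') (hφ : Function.Injective φ)
    (D : Derivation ℂ (FractionRing A) (FractionRing A))
    (D' : Derivation ℂ (FractionRing A') (FractionRing A'))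
    (h : ∀ a, D' (algebraMap A' (FractionRing A') (φ a)) =
      frMap φ hφ (D (algebraMap A (FractionRing A) a))) (x : FractionRing A) :
    D' (frMap φ hφ x) = frMap φ hφ (D x) := by
  refine fr_ext (A := A) (frMap φ hφ) (D := fun x => D' (frMap φ hφ x)) (D' := fun x => frMap φ hφ (D x))
    (fun a b => ?_) (fun a b => ?_) (fun f => ?_) x
  · simp only [map_mul, Derivation.leibniz, smul_eq_mul]
  · simp only [Derivation.leibniz, map_add, smul_eq_mul, map_mul]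
  · show D' (frMap φ hφ _) = _
    rw [frMap_algebraMap, h]

theorem comm_of_hol' (φ : A →ₐ[ℂ] A') (hφ : Function.Injective φ)
    (D : Derivation ℂ (FractionRing A) (FractionRing A))
    (D' D'' : Derivation ℂ (FractionRing A') (FractionRing A'))
    (h : ∀ a, D' (algebraMap A' (FractionRing A') (φ a)) -
      D'' (algebraMap A' (FractionRing A') (φ a)) =
      frMap φ hφ (D (algebraMap A (FractionRing A) a))) (x : FractionRing A) :
    D' (frMap φ hφ x) - D'' (frMap φ hφ x) = frMap φ hφ (D x) := by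
  have := comm_of_hol φ hφ D (D' - D'') (fun a => by rw [Derivation.sub_apply]; exact h a) x
  rwa [Derivation.sub_apply] at this

end generic

theorem map2 {k L L' : Type*} [Field k] [Field L] [Algebra k L] [Field L'] [Algebra k L']
    (D₁ D₂ : Derivation k L L) (D₁' D₂' : Derivation k L' L') (f : L →ₐ[k] L')
    (h1 : ∀ x, f (D₁ x) = D₁' (f x)) (h2 : ∀ x, f (D₂ x) = D₂' (f x) - D₁' (f x)) (S : Set L)
    (F' : IntermediateField k L') (hS : ∀ s ∈ S, f s ∈ F') (h1' : ∀ x ∈ F', D₁' x ∈ F')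
    (h2' : ∀ x ∈ F', D₂' x ∈ F') {x : L} (hx : x ∈ dfield ![D₁, D₂] S) : f x ∈ F' := by
  have h3 : dfield ![D₁, D₂] S ≤ F'.comap f := by
    refine dfield_le _ _ _ (fun s hs => hS s hs) ?_
    intro i y hy
    have hy' : f y ∈ F' := hy
    fin_cases i
    · show f (D₁ y) ∈ F'
      rw [h1]; exact h1' _ hy'
    · show f (D₂ y) ∈ F'
      rw [h2]; exact F'.sub_mem (h2' _ hy') (h1' _ hy')
  exact h3 hx

theorem stable2 {k L : Type*} [Field k] [Field L] [Algebra k L] (D₁ D₂ : Derivation k L L)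
    (S : Set L) : (∀ x ∈ dfield ![D₁, D₂] S, D₁ x ∈ dfield ![D₁, D₂] S) ∧
      ∀ x ∈ dfield ![D₁, D₂] S, D₂ x ∈ dfield ![D₁, D₂] S :=
  ⟨fun x hx => dfield_stable ![D₁, D₂] S 0 x hx, fun x hx => dfield_stable ![D₁, D₂] S 1 x hx⟩

variable {q : C(ℂ, ℂ)} {η ρ r B : ℝ} {b φ p : ℂ × ℂ → ℂ} {m₀ : ℂ → ℂ}

theorem isDom (hρ : 0 < ρ) (hr : 0 < r) (N : ℕ) : IsDomain (Hol (UN ρ r N)) :=
  isDomain_of_mem (UN_pre ρ r N) (zero_mem_UN hρ hr N)

/-- the map to the field of fractions -/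
abbrev al {W : Opens (ℂ × ℂ)} (f : Hol W) : FR W := algebraMap (Hol W) (FR W) f

theorem sh_zero (x : ℂ × ℂ) : sh 0 x = x := by simp [sh]

/-- `Zs q 1` of the first vertex -/
theorem zH_eq (hF : LineFam q η ρ r B b φ p m₀) {N : ℕ} (hN : 0 < N) :
    eH ρ r φ N 0 ^ 2 * bH ρ r q b N + kH ρ r φ p N 0 =
      toH (UN ρ r N) (fun x => Zs q 1 (b (sh (1 / 2) x))) := by
  ext x
  have h0 : AnalyticOnNhd ℂ (fun x => Zs q 1 (b (sh (1 / 2) x))) (UN ρ r N) := by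
    intro x hx
    have h2 : AnalyticAt ℂ (Zs q 1) (b (sh (1 / 2) x)) :=
      (hF.dat.Zs_diff 1).analyticAt ((isOpen_Str η).mem_nhds (b_mem_Str hF (sh_half_mem hx hN)))
    exact AnalyticAt.comp' (g := Zs q 1) (f := fun x => b (sh (1 / 2) x)) h2
      ((an_b hF _ (sh_half_mem hx hN)).comp' (analyticAt_sh _ x))
  show (eH ρ r φ N 0 : UN ρ r N → ℂ) x ^ 2 * (bH ρ r q b N : UN ρ r N → ℂ) x +
    (kH ρ r φ p N 0 : UN ρ r N → ℂ) x = _
  rw [toH_apply h0, eH_apply hF (Nat.zero_le N), bH_apply hF hN, kH_apply hF (Nat.zero_le N),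
    Nat.cast_zero, sh_zero, inc0 hF hN x.2]

theorem zH_eq' (hF : LineFam q η ρ r B b φ p m₀) {N : ℕ} (hN : 0 < N) :
    eH ρ r φ N 1 ^ 2 * bH ρ r q b N + kH ρ r φ p N 1 =
      eH ρ r φ N 0 ^ 2 * bH ρ r q b N + kH ρ r φ p N 0 := by
  rw [zH_eq hF hN]
  ext x
  have h0 : AnalyticOnNhd ℂ (fun x => Zs q 1 (b (sh (1 / 2) x))) (UN ρ r N) := by
    intro x hx
    have h2 : AnalyticAt ℂ (Zs q 1) (b (sh (1 / 2) x)) :=
      (hF.dat.Zs_diff 1).analyticAt ((isOpen_Str η).mem_nhds (b_mem_Str hF (sh_half_mem hx hN)))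
    exact AnalyticAt.comp' (g := Zs q 1) (f := fun x => b (sh (1 / 2) x)) h2
      ((an_b hF _ (sh_half_mem hx hN)).comp' (analyticAt_sh _ x))
  show (eH ρ r φ N 1 : UN ρ r N → ℂ) x ^ 2 * (bH ρ r q b N : UN ρ r N → ℂ) x +
    (kH ρ r φ p N 1 : UN ρ r N → ℂ) x = _
  rw [toH_apply h0, eH_apply hF hN, bH_apply hF hN, kH_apply hF hN,
    Nat.cast_one, inc1 hF hN x.2]

theorem pd_toH_apply {N : ℕ} {F : ℂ × ℂ → ℂ} (hFa : AnalyticOnNhd ℂ F (UN ρ r N)) (v : ℂ × ℂ)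
    (x : UN ρ r N) : (pdH (UN ρ r N) v (toH (UN ρ r N) F) : UN ρ r N → ℂ) x = fderiv ℂ F x v := by
  rw [pdH_apply, (ext0_toH hFa x.2).fderiv_eq]

theorem pd_b (hF : LineFam q η ρ r B b φ p m₀) {N : ℕ} (hN : 0 < N) (x : UN ρ r N) :
    (pdH (UN ρ r N) (1, 0) (bH ρ r q b N) : UN ρ r N → ℂ) x =
      vel q (-1) (b (sh (1 / 2) x)) * q1 b (sh (1 / 2) x) := by
  rw [bH, pd_toH_apply (an_fb hF hN)]
  exact hasD hF hN x.2 (-1)

theorem pd_b_ne (hF : LineFam q η ρ r B b φ p m₀) {N : ℕ} (hN : 0 < N) :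
    pdH (UN ρ r N) (1, 0) (bH ρ r q b N) ≠ 0 := by
  intro h
  have h1 := congrArg (fun F : Hol (UN ρ r N) => (F : UN ρ r N → ℂ)
    ⟨(0, 0), zero_mem_UN hF.ρ_pos hF.r_pos N⟩) h
  rw [pd_b hF hN] at h1
  have h2 : (0, 0) ∈ UN ρ r N := zero_mem_UN hF.ρ_pos hF.r_pos N
  exact mul_ne_zero (Complex.exp_ne_zero _) (q1b_ne hF (sh_half_mem h2 hN)) h1

/-- law of reflection, differentiated incidence -/
theorem refl_eq (hF : LineFam q η ρ r B b φ p m₀) {N : ℕ} (hN : 0 < N) :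
    eH ρ r φ N 1 * eH ρ r φ N 0 * pdH (UN ρ r N) (1, 0) (bH ρ r q b N) =
      pdH (UN ρ r N) (1, 0) (eH ρ r φ N 0 ^ 2 * bH ρ r q b N + kH ρ r φ p N 0) := by
  rw [zH_eq hF hN]
  have h0 : AnalyticOnNhd ℂ (fun x => Zs q 1 (b (sh (1 / 2) x))) (UN ρ r N) := by
    intro x hx
    have h2 : AnalyticAt ℂ (Zs q 1) (b (sh (1 / 2) x)) :=
      (hF.dat.Zs_diff 1).analyticAt ((isOpen_Str η).mem_nhds (b_mem_Str hF (sh_half_mem hx hN)))
    exact AnalyticAt.comp' (g := Zs q 1) (f := fun x => b (sh (1 / 2) x)) h2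
      ((an_b hF _ (sh_half_mem hx hN)).comp' (analyticAt_sh _ x))
  ext x
  rw [pd_toH_apply h0, hasD hF hN x.2 1]
  show (eH ρ r φ N 1 : UN ρ r N → ℂ) x * (eH ρ r φ N 0 : UN ρ r N → ℂ) x *
    (pdH (UN ρ r N) (1, 0) (bH ρ r q b N) : UN ρ r N → ℂ) x = _
  rw [pd_b hF hN, eH_apply hF hN, eH_apply hF (Nat.zero_le N), Nat.cast_zero, Nat.cast_one,
    sh_zero, ← mul_assoc]
  congr 1
  unfold C0.vel
  rw [← Complex.exp_add, ← Complex.exp_add]
  congr 1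
  have h1 := refl1 hF hN x.2
  linear_combination Complex.I * h1

section field

variable (ρ r φ p)

/-- the generators: the two end lines -/
def SN (N : ℕ) : Set (FR (UN ρ r N)) :=
  {al (eH ρ r φ N 0), al (pH ρ r p N 0), al (eH ρ r φ N N), al (pH ρ r p N N)}

theorem SN_e0 (N : ℕ) : al (eH ρ r φ N 0) ∈ SN ρ r φ p N := Or.inl rfl
theorem SN_p0 (N : ℕ) : al (pH ρ r p N 0) ∈ SN ρ r φ p N := Or.inr (Or.inl rfl)
theorem SN_eN (N : ℕ) : al (eH ρ r φ N N) ∈ SN ρ r φ p N := Or.inr (Or.inr (Or.inl rfl))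
theorem SN_pN (N : ℕ) : al (pH ρ r p N N) ∈ SN ρ r φ p N := Or.inr (Or.inr (Or.inr rfl))

variable [hdom : ∀ N, IsDomain (Hol (UN ρ r N))]

/-- the differential field generated by the two end lines -/
def FN (N : ℕ) : IntermediateField ℂ (FR (UN ρ r N)) :=
  dfield ![dt (UN ρ r N), dw (UN ρ r N)] (SN ρ r φ p N)

variable {ρ r φ p}

theorem FN_gen {N : ℕ} {f : FR (UN ρ r N)} (h : f ∈ SN ρ r φ p N) : f ∈ FN ρ r φ p N :=
  subset_dfield _ _ h

theorem FN_dt {N : ℕ} {f : FR (UN ρ r N)} (h : f ∈ FN ρ r φ p N) :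
    dt (UN ρ r N) f ∈ FN ρ r φ p N := (stable2 _ _ _).1 f h

theorem FN_dw {N : ℕ} {f : FR (UN ρ r N)} (h : f ∈ FN ρ r φ p N) :
    dw (UN ρ r N) f ∈ FN ρ r φ p N := (stable2 _ _ _).2 f h

theorem al_k (N j : ℕ) : al (kH ρ r φ p N j) =
    algebraMap ℂ (FR (UN ρ r N)) (2 * Complex.I) * al (pH ρ r p N j) * al (eH ρ r φ N j) := by
  show algebraMap _ _ (cI ρ r N * pH ρ r p N j * eH ρ r φ N j) = _
  rw [map_mul, map_mul]
  congr 2

theorem k_mem {N j : ℕ} (he : al (eH ρ r φ N j) ∈ FN ρ r φ p N)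
    (hp : al (pH ρ r p N j) ∈ FN ρ r φ p N) : al (kH ρ r φ p N j) ∈ FN ρ r φ p N := by
  rw [al_k]
  exact mul_mem (mul_mem ((FN ρ r φ p N).algebraMap_mem _) hp) he

theorem eH_ne (hF : LineFam q η ρ r B b φ p m₀) {N j : ℕ} (hj : j ≤ N) : al (eH ρ r φ N j) ≠ 0 := by
  refine alg_ne fun h => ?_
  have h1 := congrArg (fun F : Hol (UN ρ r N) => (F : UN ρ r N → ℂ)
    ⟨(0, 0), zero_mem_UN hF.ρ_pos hF.r_pos N⟩) h
  rw [eH_apply hF hj] at h1
  exact Complex.exp_ne_zero _ h1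

/-- **the next line** -/
theorem line1 (hF : LineFam q η ρ r B b φ p m₀) {N : ℕ} (hN : 0 < N)
    (hb : al (bH ρ r q b N) ∈ FN ρ r φ p N) :
    al (eH ρ r φ N 1) ∈ FN ρ r φ p N ∧ al (pH ρ r p N 1) ∈ FN ρ r φ p N := by
  set F := FN ρ r φ p N with hFdef
  have he0 : al (eH ρ r φ N 0) ∈ F := FN_gen (SN_e0 _ _ _ _ N)
  have hp0 : al (pH ρ r p N 0) ∈ F := FN_gen (SN_p0 _ _ _ _ N)
  have hk0 : al (kH ρ r φ p N 0) ∈ F := k_mem he0 hp0
  have hz : al (eH ρ r φ N 0 ^ 2 * bH ρ r q b N + kH ρ r φ p N 0) ∈ F := by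
    show algebraMap _ _ _ ∈ F
    rw [map_add, map_mul, map_pow]
    exact add_mem (mul_mem (pow_mem he0 2) hb) hk0
  have h1 := congrArg (algebraMap (Hol (UN ρ r N)) (FR (UN ρ r N))) (refl_eq hF hN)
  rw [map_mul, map_mul, ← dt_alg, ← dt_alg] at h1
  have hdb : dt (UN ρ r N) (al (bH ρ r q b N)) ≠ 0 := by
    rw [dt_alg]
    exact alg_ne (pd_b_ne hF hN)
  have he0' := eH_ne hF (Nat.zero_le N)
  have he1 : al (eH ρ r φ N 1) ∈ F := by
    have : al (eH ρ r φ N 1) = dt (UN ρ r N) (al (eH ρ r φ N 0 ^ 2 * bH ρ r q b N +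
        kH ρ r φ p N 0)) / (al (eH ρ r φ N 0) * dt (UN ρ r N) (al (bH ρ r q b N))) := by
      rw [eq_div_iff (mul_ne_zero he0' hdb), ← h1]; ring
    rw [this]
    exact F.div_mem (FN_dt hz) (mul_mem he0 (FN_dt hb))
  have hk1 : al (kH ρ r φ p N 1) ∈ F := by
    have h2 : al (eH ρ r φ N 1 ^ 2 * bH ρ r q b N + kH ρ r φ p N 1) =
        al (eH ρ r φ N 0 ^ 2 * bH ρ r q b N + kH ρ r φ p N 0) := by rw [zH_eq' hF hN]
    have h2' : al (eH ρ r φ N 1 ^ 2 * bH ρ r q b N + kH ρ r φ p N 1) =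
        al (eH ρ r φ N 1) ^ 2 * al (bH ρ r q b N) + al (kH ρ r φ p N 1) := by
      simp only [al, map_add, map_mul, map_pow]
    have : al (kH ρ r φ p N 1) = al (eH ρ r φ N 0 ^ 2 * bH ρ r q b N + kH ρ r φ p N 0) -
        al (eH ρ r φ N 1) ^ 2 * al (bH ρ r q b N) := by
      rw [← h2, h2', add_sub_cancel_left]
    rw [this]
    exact sub_mem hz (mul_mem (pow_mem he1 2) hb)
  refine ⟨he1, ?_⟩
  have he1' := eH_ne hF hN
  have h3 : algebraMap ℂ (FR (UN ρ r N)) (2 * Complex.I) ≠ 0 := by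
    rw [Ne, map_eq_zero_iff _ (algebraMap ℂ (FR (UN ρ r N))).injective]
    simp
  have : al (pH ρ r p N 1) = al (kH ρ r φ p N 1) /
      (algebraMap ℂ (FR (UN ρ r N)) (2 * Complex.I) * al (eH ρ r φ N 1)) := by
    rw [eq_div_iff (mul_ne_zero h3 he1'), al_k]; ring
  rw [this]
  exact F.div_mem hk1 (mul_mem (F.algebraMap_mem _) he1)

/-! ### the shift -/

theorem an_sh (N : ℕ) : AnalyticOnNhd ℂ (sh 1) (UN ρ r (N + 1)) := fun x _ => analyticAt_sh 1 x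

/-- composition with the shear -/
def shH (ρ r : ℝ) (N : ℕ) : Hol (UN ρ r N) →ₐ[ℂ] Hol (UN ρ r (N + 1)) :=
  cH (sh 1) (fun x _ => analyticAt_sh 1 x) (fun _ hx => sh_one_mem hx)

theorem shH_inj (hρ : 0 < ρ) (hr : 0 < r) (N : ℕ) : Function.Injective (shH ρ r N) := by
  refine cH_injective (UN_pre ρ r N) (zero_mem_UN hρ hr (N + 1)) fun s hs => ?_
  have h1 : Tendsto (sh (-1)) (𝓝 (sh 1 ((0, 0) : ℂ × ℂ))) (𝓝 ((0, 0) : ℂ × ℂ)) := by
    have := (continuous_sh (-1)).tendsto (sh 1 ((0, 0) : ℂ × ℂ))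
    simpa [sh] using this
  filter_upwards [h1.eventually hs] with y hy
  exact ⟨sh (-1) y, hy, by simp [sh]⟩

theorem sh_comp (j : ℕ) (x : ℂ × ℂ) : sh (j : ℂ) (sh 1 x) = sh ((j + 1 : ℕ) : ℂ) x := by
  simp only [sh, Nat.cast_add, Nat.cast_one]
  ext
  · simp only; ring
  · rfl

theorem shH_e (hF : LineFam q η ρ r B b φ p m₀) {N j : ℕ} (hj : j ≤ N) :
    shH ρ r N (eH ρ r φ N j) = eH ρ r φ (N + 1) (j + 1) := by
  ext x
  show (eH ρ r φ N j : UN ρ r N → ℂ) ⟨sh 1 x, _⟩ = _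
  rw [eH_apply hF hj, eH_apply hF (by omega)]
  show Complex.exp (Complex.I * φ (sh j (sh 1 x))) = _
  rw [sh_comp]

theorem shH_p (hF : LineFam q η ρ r B b φ p m₀) {N j : ℕ} (hj : j ≤ N) :
    shH ρ r N (pH ρ r p N j) = pH ρ r p (N + 1) (j + 1) := by
  ext x
  show (pH ρ r p N j : UN ρ r N → ℂ) ⟨sh 1 x, _⟩ = _
  rw [pH_apply hF hj, pH_apply hF (by omega)]
  show p (sh j (sh 1 x)) = _
  rw [sh_comp]

theorem pd_shH (N : ℕ) (f : Hol (UN ρ r N)) :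
    pdH (UN ρ r (N + 1)) (1, 0) (shH ρ r N f) = shH ρ r N (pdH (UN ρ r N) (1, 0) f) ∧
    pdH (UN ρ r (N + 1)) (0, 1) (shH ρ r N f) = shH ρ r N (pdH (UN ρ r N) (1, 0) f) +
      shH ρ r N (pdH (UN ρ r N) (0, 1) f) := by
  have a1 : AnalyticOnNhd ℂ (fun x => (sh 1 x).1) (UN ρ r (N + 1)) := fun x _ =>
    analyticAt_fst.comp' (analyticAt_sh 1 x)
  have a2 : AnalyticOnNhd ℂ (fun x => (sh 1 x).2) (UN ρ r (N + 1)) := fun x _ =>
    analyticAt_snd.comp' (analyticAt_sh 1 x)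
  have d1 : ∀ v : ℂ × ℂ, pdH (UN ρ r (N + 1)) v (c1 (sh 1) (UN ρ r (N + 1))) =
      algebraMap ℂ _ (v.1 + v.2) := by
    intro v
    ext x
    rw [c1, pd_toH_apply a1]
    have h6 : HasFDerivAt (fun y : ℂ × ℂ => y.1 + 1 * y.2)
        ((ContinuousLinearMap.fst ℂ ℂ ℂ) + (1 : ℂ) • (ContinuousLinearMap.snd ℂ ℂ ℂ))
          (x : ℂ × ℂ) := hasFDerivAt_fst.add (hasFDerivAt_snd.const_mul (1 : ℂ))
    show fderiv ℂ (fun y : ℂ × ℂ => y.1 + 1 * y.2) (x : ℂ × ℂ) v = v.1 + v.2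
    rw [h6.fderiv]
    simp
  have d2 : ∀ v : ℂ × ℂ, pdH (UN ρ r (N + 1)) v (c2 (sh 1) (UN ρ r (N + 1))) =
      algebraMap ℂ _ v.2 := by
    intro v
    ext x
    rw [c2, pd_toH_apply a2]
    show fderiv ℂ (Prod.snd) (x : ℂ × ℂ) v = v.2
    rw [fderiv_snd]; rfl
  constructor
  · rw [shH, pdH_cH (hΦ := fun x _ => analyticAt_sh 1 x), d1, d2]
    simp
  · rw [shH, pdH_cH (hΦ := fun x _ => analyticAt_sh 1 x), d1, d2]
    simp

theorem exists_G (hρ : 0 < ρ) (hr : 0 < r) (N : ℕ) :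
    ∃ G : FR (UN ρ r N) →ₐ[ℂ] FR (UN ρ r (N + 1)), (∀ f, G (al f) = al (shH ρ r N f)) ∧
      (∀ x, G (dt (UN ρ r N) x) = dt (UN ρ r (N + 1)) (G x)) ∧
      ∀ x, G (dw (UN ρ r N) x) = dw (UN ρ r (N + 1)) (G x) - dt (UN ρ r (N + 1)) (G x) := by
  refine ⟨frMap (shH ρ r N) (shH_inj hρ hr N), frMap_algebraMap _ _, fun x => ?_, fun x => ?_⟩
  · refine (comm_of_hol (shH ρ r N) (shH_inj hρ hr N) (dt (UN ρ r N)) (dt (UN ρ r (N + 1)))
      (fun f => ?_) x).symm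
    rw [dt_alg, dt_alg, frMap_algebraMap, (pd_shH N f).1]
  · have h := comm_of_hol' (shH ρ r N) (shH_inj hρ hr N) (dw (UN ρ r N))
      (dw (UN ρ r (N + 1))) (dt (UN ρ r (N + 1))) (fun f => by
        rw [dw_alg, dt_alg, dw_alg, frMap_algebraMap, (pd_shH N f).1, (pd_shH N f).2, map_add,
          add_sub_cancel_left]) x
    exact h.symm

/-- **induction on the number of mirrors** -/
theorem all_lines (hF : LineFam q η ρ r B b φ p m₀)
    (h : ∀ N, 0 < N → al (bH ρ r q b N) ∈ FN ρ r φ p N) (N : ℕ) : ∀ j ≤ N,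
    al (eH ρ r φ N j) ∈ FN ρ r φ p N ∧ al (pH ρ r p N j) ∈ FN ρ r φ p N := by
  induction N with
  | zero =>
    intro j hj
    obtain rfl : j = 0 := by omega
    exact ⟨FN_gen (SN_e0 _ _ _ _ _), FN_gen (SN_p0 _ _ _ _ _)⟩
  | succ N ih =>
    intro j hj
    rcases Nat.eq_zero_or_pos j with rfl | hj0
    · exact ⟨FN_gen (SN_e0 _ _ _ _ _), FN_gen (SN_p0 _ _ _ _ _)⟩
    obtain ⟨i, rfl⟩ : ∃ i, j = i + 1 := ⟨j - 1, by omega⟩
    have hi : i ≤ N := by omega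
    obtain ⟨h1, h2⟩ := line1 hF (Nat.succ_pos N) (h (N + 1) (Nat.succ_pos N))
    obtain ⟨G, g1, g2, g3⟩ := exists_G hF.ρ_pos hF.r_pos N
    have key : ∀ f ∈ FN ρ r φ p N, G f ∈ FN ρ r φ p (N + 1) := by
      intro f hf
      refine map2 (dt (UN ρ r N)) (dw (UN ρ r N)) (dt (UN ρ r (N + 1))) (dw (UN ρ r (N + 1)))
        G g2 g3 (SN ρ r φ p N) (FN ρ r φ p (N + 1)) ?_ (fun x hx => FN_dt hx)
        (fun x hx => FN_dw hx) hf
      intro f hf
      rcases hf with rfl | rfl | rfl | rfl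
      · rw [g1, shH_e hF (Nat.zero_le N)]; exact h1
      · rw [g1, shH_p hF (Nat.zero_le N)]; exact h2
      · rw [g1, shH_e hF le_rfl]; exact FN_gen (SN_eN _ _ _ _ _)
      · rw [g1, shH_p hF le_rfl]; exact FN_gen (SN_pN _ _ _ _ _)
    obtain ⟨h4, h5⟩ := ih i hi
    have h6 := key _ h4
    have h7 := key _ h5
    rw [g1, shH_e hF hi] at h6
    rw [g1, shH_p hF hi] at h7
    exact ⟨h6, h7⟩

end field

end Crest.Agent.R102.Rat7217
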