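import Crest.Agent.R102.RunH_58
import Crest.Agent.R102.RatGlueB_798

/-!
# Row 102, [H3], THEOREM (RAT), leaf R5 = RUN (helper58): `SecondStmt → RunStmt`
-/

set_option autoImplicit false
set_option linter.unusedSectionVars false

open Set Filter Topology Metric TopologicalSpace

noncomputable section

namespace Crest.Agent.R102.RunE58

open Crest.Agent.R102 Crest.Agent.R102.F7389 Crest.Agent.R102.Run58 Crest.Agent.R102.RunD58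
  Crest.Agent.R102.RunAlg58 Crest.Agent.R102.RAT Crest.Agent.R102.Glue798 Crest.Agent.R102.H3
  Crest.Agent.R102.Rat7217 Crest.Agent.R102.Free781

/-- lines of negative index -/
theorem Lz_lm {g : ℂ → ℂ} {c₀ : ℂ} {P : ℕ} {ρ : ℝ} {β m k q q' : ℕ → ℂ × ℂ → ℂ}
    (C : Chain g c₀ P ρ β m k q q') (a : ℕ) {p : ℂ × ℂ}
    (hp : p ∈ ball c₀ ρ ×ˢ ball (0 : ℂ) ρ) :
    Lz m (-(a : ℤ)) p = lm m a p ∧ Lz k (-(a : ℤ)) p = lm k a p := by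
  rcases Nat.eq_zero_or_pos a with rfl | ha
  · exact ⟨(C.even_m p hp).symm, (C.even_k p hp).symm⟩
  · rw [Lz_neg m a ha, Lz_neg k a ha]
    exact ⟨rfl, rfl⟩

/-- injectivity of `f ↦ f ∘ b_j` over the polydisc -/
theorem x_inj {g : ℂ → ℂ} {c₀ : ℂ} {P : ℕ} {ρ : ℝ} {β m k q q' : ℕ → ℂ × ℂ → ℂ} {r ρ₀ : ℝ}
    {r₁ : ℝ} (S : Setup g c₀ P ρ β m k q q' r ρ₀ (bO c₀ r₁) (WO c₀ ρ₀)) (hr₁ : 0 < r₁) {j : ℕ}
    (hj : j ≤ P) (f : Hol (bO c₀ r₁)) (h : xH β (WO c₀ ρ₀) (j : ℤ) f = 0) : f = 0 := by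
  have hρ₀ := S.G.ρ_pos
  refine Hol.eq_zero_of_eventually (convex_ball c₀ r₁).isPreconnected f
    ⟨c₀, mem_ball_self hr₁⟩ ?_
  filter_upwards [ball_mem_nhds c₀ hρ₀] with c hc
  have hcW : ((c, 0) : ℂ × ℂ) ∈ WO c₀ ρ₀ := ⟨hc, mem_ball_self hρ₀⟩
  have h1 := congrArg (fun F : Hol (WO c₀ ρ₀) => (F : WO c₀ ρ₀ → ℂ) ⟨_, hcW⟩) h
  rw [S.xH_apply (by omega) (by omega)] at h1
  have h2 : Bz β (j : ℤ) ((c, 0) : ℂ × ℂ) = c := by
    change bp β j (c, 0) = c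
    simp [bp]
  rw [h2] at h1
  exact h1

set_option maxHeartbeats 1000000 in
/-- `LLA ≤ LL` over the polydisc, when `A` consists of rational functions of the jets -/
theorem LLA_le {g : ℂ → ℂ} {c₀ : ℂ} {P : ℕ} {ρ : ℝ} {β m k q q' e : ℕ → ℂ × ℂ → ℂ} {r ρ₀ : ℝ}
    {r₁ : ℝ} [IsDomain (Hol (WO c₀ ρ₀))]
    (S : Setup g c₀ P ρ β m k q q' r ρ₀ (bO c₀ r₁) (WO c₀ ρ₀)) (hr₁ : 0 < r₁) {N : ℕ}
    (hNP : N ≤ P) {A : Subalgebra ℂ (Hol (bO c₀ r₁))} {G : Hol (bO c₀ r₁)}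
    (hG : G = toH (bO c₀ r₁) g) (hGen : Gen A G) :
    LLA N β k (WO c₀ ρ₀) A (lM (WO c₀ ρ₀) e 0) ≤
      LL N (bM (WO c₀ ρ₀) β) (xM (WO c₀ ρ₀) g β) (lM (WO c₀ ρ₀) e) (lM (WO c₀ ρ₀) k) := by
  have hjet : ∀ j : ℕ, j < N → ∀ u ∈ Algebra.adjoin ℂ
      (insert (zH (bO c₀ r₁)) (range fun n => (DH (bO c₀ r₁))^[n] G)),
      al (WO c₀ ρ₀) (xH β (WO c₀ ρ₀) (j : ℤ) u) ∈
        LL N (bM (WO c₀ ρ₀) β) (xM (WO c₀ ρ₀) g β) (lM (WO c₀ ρ₀) e) (lM (WO c₀ ρ₀) k) := by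
    intro j hj u hu
    have hx : ∀ f, xH β (WO c₀ ρ₀) (j : ℤ) f =
        compH (bH β (WO c₀ ρ₀) (j : ℤ)) (S.bH_mem (by omega) (by omega)) f :=
      S.xH_eq (by omega) (by omega)
    induction hu using Algebra.adjoin_induction with
    | mem u hu =>
      rcases hu with rfl | ⟨n, rfl⟩
      · rw [xH_z S (by omega) (by omega)]
        exact IntermediateField.subset_adjoin ℂ _ (Or.inr ⟨j, hj, Or.inl rfl⟩)
      · have h1 := x_eq (W := WO c₀ ρ₀) (M := FractionRing (Hol (WO c₀ ρ₀))) S.an_g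
          (S.an_b (j := (j : ℤ)) (by omega) (by omega)) (S.bH_mem (by omega) (by omega)) n
        simp only
        rw [hG, hx]
        have h2 : al (WO c₀ ρ₀) (compH (bH β (WO c₀ ρ₀) (j : ℤ))
            (S.bH_mem (by omega) (by omega)) ((DH (bO c₀ r₁))^[n] (toH (bO c₀ r₁) g))) =
            xM (WO c₀ ρ₀) g β j n := h1.symm
        rw [h2]
        exact IntermediateField.subset_adjoin ℂ _ (Or.inr ⟨j, hj, Or.inr ⟨n, rfl⟩⟩)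
    | algebraMap c =>
      rw [hx, AlgHom.commutes, ← IsScalarTower.algebraMap_apply]
      exact IntermediateField.algebraMap_mem _ c
    | add f h _ _ h1 h2 => rw [hx, map_add, map_add, ← hx, ← hx]; exact add_mem h1 h2
    | mul f h _ _ h1 h2 => rw [hx, map_mul, map_mul, ← hx, ← hx]; exact mul_mem h1 h2
  refine IntermediateField.adjoin_le_iff.2 ?_
  rintro y (hy | ⟨j, hj, f, hf, rfl⟩)
  · rcases hy with rfl | hy
    · exact IntermediateField.subset_adjoin ℂ _ (Or.inl (Or.inl rfl))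
    · rw [Set.mem_singleton_iff] at hy
      subst hy
      exact IntermediateField.subset_adjoin ℂ _ (Or.inl (Or.inr rfl))
  · obtain ⟨u, hu, v, hv, hv0, hvf⟩ := hGen f hf
    have hx : ∀ f, xH β (WO c₀ ρ₀) (j : ℤ) f =
        compH (bH β (WO c₀ ρ₀) (j : ℤ)) (S.bH_mem (by omega) (by omega)) f :=
      S.xH_eq (by omega) (by omega)
    have h1 : al (WO c₀ ρ₀) (xH β (WO c₀ ρ₀) (j : ℤ) v) * al (WO c₀ ρ₀) (xH β (WO c₀ ρ₀) (j : ℤ) f)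
        = al (WO c₀ ρ₀) (xH β (WO c₀ ρ₀) (j : ℤ) u) := by
      rw [← map_mul, hx, hx, hx, ← map_mul, hvf]
    have h2 : al (WO c₀ ρ₀) (xH β (WO c₀ ρ₀) (j : ℤ) v) ≠ 0 := by
      intro h
      exact hv0 (x_inj S hr₁ (by omega) v (al_inj (WO c₀ ρ₀) (h.trans (map_zero _).symm)))
    have h3 : al (WO c₀ ρ₀) (xH β (WO c₀ ρ₀) (j : ℤ) f) =
        al (WO c₀ ρ₀) (xH β (WO c₀ ρ₀) (j : ℤ) u) / al (WO c₀ ρ₀) (xH β (WO c₀ ρ₀) (j : ℤ) v) := by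
      rw [eq_div_iff h2, mul_comm]; exact h1
    have h4 := div_mem (hjet j hj u hu) (hjet j hj v hv)
    rw [← h3] at h4
    exact h4

set_option maxHeartbeats 1000000 in
/-- **the analytic end**: from the second chain to `RunOut` -/
theorem run_end {g : ℂ → ℂ} {c₀ : ℂ} {r : ℝ} {A : Subalgebra ℂ (Hol (bO c₀ r))}
    {G : Hol (bO c₀ r)} (hFT : FT g c₀ r A G) {N : ℕ} (hN : 0 < N) {ρ₀ ρ rg ρt : ℝ}
    {β m k q q' : ℕ → ℂ × ℂ → ℂ}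
    (htan : ∀ ρ' : ℝ, 0 < ρ' → ρ' ≤ ρt → ∀ O : Set ℂ, IsOpen O → O.Nonempty →
      ∀ gh : ℂ → ℂ, AnalyticOnNhd ℂ gh O → (∀ y ∈ O, deriv (deriv gh) y ≠ 0) →
      (∀ y ∈ O, y ∈ closedBall c₀ ρ' → g y ≠ gh y) →
      ∃ y ∈ O, ∀ t ∈ closedBall c₀ ρ', deriv g t = deriv gh y →
        g t + deriv g t * (y - t) ≠ gh y)
    {W' : Opens (ℂ × ℂ)} (S : Setup g c₀ (2 * N) ρ₀ β m k q q' rg ρ (bO c₀ r) W')
    (hρρt : ρ ≤ ρt) (hρrg : ρ ≤ rg) {δ R' : ℝ}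
    (hsm : ∀ a ≤ 2 * N, ∀ p ∈ ball c₀ R' ×ˢ ball (0 : ℂ) R',
      Th β a p ∈ ball c₀ (min δ ρ) ×ˢ ball (0 : ℂ) (min δ ρ))
    (hW'1 : (W' : Set (ℂ × ℂ)) ⊆ ball c₀ R' ×ˢ ball (0 : ℂ) R') (hW'2 : ∀ p ∈ W', p.2 ≠ 0)
    {z₀ G₀ G₁ : A} (hz₀ : (z₀ : Hol (bO c₀ r)) = zH _) (hG₀ : (G₀ : Hol (bO c₀ r)) = G)
    (hG₁ : (G₁ : Hol (bO c₀ r)) = DH _ (G₀ : Hol (bO c₀ r)))
    {θ : ℕ → A →ₐ[ℂ] Hol W'} {m' k' : ℕ → Hol W'}
    (H : Second β m k N A z₀ G₀ G₁ W' θ m' k') {ρ' : ℝ} (hρ' : 0 < ρ') (hρ'ρ : ρ' < ρ) :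
    ∃ N', 0 < N' ∧ N' ≤ 2 * N ∧ RunOut g c₀ A G N' ρ β m k δ ρ' := by
  have hdom : IsDomain (Hol W') := by
    have := S.nonempty
    exact Hol.isDomain S.pre
  have hSec := sec_of S (by omega : N ≤ 2 * N) hG₁ H
  obtain ⟨a, haN, p₀, hp₀, ε, hε, hball, hRan, hγ⟩ := run (chain_mono S.C (by omega : N ≤ 2 * N))
    S.hρ (good_mono S.G (by omega)) hN W'.isOpen S.ne S.pre S.sub hW'2 hSec
  -- a generic point
  set G₂ : A := ⟨DH _ (G₁ : Hol (bO c₀ r)), hFT.stable _ G₁.2⟩ with hG₂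
  obtain ⟨v, hv⟩ := H.db a haN
  have hF2 : θ a G₂ ≠ 0 := by
    intro h0
    have h1 : G₂ = 0 := H.inj a haN (h0.trans (map_zero _).symm)
    obtain ⟨f, -, hf⟩ := hFT.inv₂
    have h2 : (G₂ : Hol (bO c₀ r)) = DH _ (DH _ G) := by
      rw [hG₂]; simp only; rw [hG₁, hG₀]
    rw [← h2, h1] at hf
    have : Nonempty (bO c₀ r) := ⟨⟨c₀, mem_ball_self hFT.r_pos⟩⟩
    simp at hf
  have hF3 : θ a G₁ - m' a ≠ 0 := sub_ne_zero.2 (H.tr a haN)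
  set F : Hol W' := pdH W' v (θ a z₀) * (θ a G₂ * (θ a G₁ - m' a)) with hF
  have hFne : F ≠ 0 := mul_ne_zero hv (mul_ne_zero hF2 hF3)
  obtain ⟨p₁, hp₁b, hp₁F⟩ : ∃ p₁ ∈ ball p₀ ε, ext0 (F : W' → ℂ) p₁ ≠ 0 := by
    by_contra hcon
    push Not at hcon
    refine hFne (Hol.eq_zero_of_eventually S.pre F ⟨p₀, hp₀⟩ ?_)
    filter_upwards [ball_mem_nhds p₀ hε] with p hp using hcon p hp
  set O₁ : Set (ℂ × ℂ) := ball p₀ ε ∩ {p | ext0 (F : W' → ℂ) p ≠ 0} with hO₁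
  have hO₁o : IsOpen O₁ := by
    have hc : ContinuousOn (ext0 (F : W' → ℂ)) (ball p₀ ε) := fun p hp =>
      (Hol.an F p (hball hp)).continuousAt.continuousWithinAt
    exact hc.isOpen_inter_preimage isOpen_ball isOpen_ne
  have hO₁W : O₁ ⊆ W' := fun p hp => hball hp.1
  have hFx : ∀ x (hx : x ∈ O₁), fderiv ℂ (ext0 (θ a z₀ : W' → ℂ)) x v ≠ 0 ∧
      ext0 (θ a G₂ : W' → ℂ) x ≠ 0 ∧
      ext0 (θ a G₁ : W' → ℂ) x ≠ ext0 (m' a : W' → ℂ) x := by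
    intro x hx
    have hxW := hO₁W hx
    have h1 : ext0 (F : W' → ℂ) x ≠ 0 := hx.2
    rw [ext0_of_mem _ hxW] at h1
    have h2 : (F : W' → ℂ) ⟨x, hxW⟩ = fderiv ℂ (ext0 (θ a z₀ : W' → ℂ)) x v *
        ((θ a G₂ : W' → ℂ) ⟨x, hxW⟩ * ((θ a G₁ : W' → ℂ) ⟨x, hxW⟩ - (m' a : W' → ℂ) ⟨x, hxW⟩)) :=
      rfl
    rw [h2] at h1
    refine ⟨left_ne_zero_of_mul h1, ?_, ?_⟩
    · rw [ext0_of_mem _ hxW]
      exact left_ne_zero_of_mul (right_ne_zero_of_mul h1)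
    · rw [ext0_of_mem _ hxW, ext0_of_mem _ hxW]
      exact sub_ne_zero.1 (right_ne_zero_of_mul (right_ne_zero_of_mul h1))
  have hγ' : ∀ x ∈ O₁, ext0 (θ a z₀ : W' → ℂ) x ∈ ball c₀ ρ →
      g (ext0 (θ a z₀ : W' → ℂ) x) ≠ ext0 (θ a G₀ : W' → ℂ) x := by
    intro x hx hxb heq
    refine hγ x hx.1 ⟨ball_subset_ball hρrg hxb, ?_⟩
    simp only [if_true]
    exact heq.symm
  obtain ⟨x₁, hx₁, y, r', ι, gh, hFar, hx₁y, hgh, hdgh, hgen⟩ := local_far hFT htan hρ'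
    (hρ'ρ.le.trans hρρt) S.pre (H.inj a haN) hz₀ hG₀ hG₁ (G₂ := G₂) rfl (H.dx a haN) hO₁o hO₁W
    (p₁ := p₁) ⟨hp₁b, hp₁F⟩ (fun h0 => (hFx p₁ ⟨hp₁b, hp₁F⟩).1 (by rw [h0]; rfl))
    (fun x hx => (hFx x hx).2.1)
    (fun x hx hxc => hγ' x hx (closedBall_subset_ball hρ'ρ hxc))
  -- the point in its own chord coordinates
  have hx₁W : x₁ ∈ W' := hO₁W hx₁
  have ha2 : a ≤ 2 * N := by omega
  have hTmem : ∀ x ∈ W', Th β a x ∈ ball c₀ ρ ×ˢ ball (0 : ℂ) ρ := by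
    intro x hx
    have h1 := hsm a ha2 x (hW'1 hx)
    exact ⟨ball_subset_ball (min_le_right _ _) h1.1, ball_subset_ball (min_le_right _ _) h1.2⟩
  obtain ⟨hp'0, -⟩ := shift S.C S.hρ S.G ha2 (S.sub hx₁W) (hW'2 x₁ hx₁W) (hTmem x₁ hx₁W)
  obtain ⟨ψ, hψa, hψp, hψ⟩ := exists_inv S.C S.hρ S.G ha2 (S.sub hx₁W) (hW'2 x₁ hx₁W)
    (hTmem x₁ hx₁W)
  have hline : ∀ w ∈ W', m 0 (Th β a w) = lm m a w ∧ k 0 (Th β a w) = lm k a w := by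
    intro w hw
    obtain ⟨-, hs⟩ := shift S.C S.hρ S.G ha2 (S.sub hw) (hW'2 w hw) (hTmem w hw)
    have e0 := hs 0 (Nat.zero_le _)
    simp only [Nat.cast_zero, zero_sub] at e0
    have e1 := Lz_lm S.C a (S.mem hw)
    exact ⟨e0.2.1.trans e1.1, e0.2.2.trans e1.2⟩
  have hψO : ∀ᶠ x in 𝓝 (Th β a x₁), ψ x ∈ O₁ := by
    refine hψa.continuousAt.eventually (hO₁o.mem_nhds ?_)
    rw [hψp]; exact hx₁
  refine ⟨N + a, by omega, by omega, Th β a x₁, ?_, hp'0, y, r', ι, gh, hFar,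
    fun x => ext0 (θ a z₀ : W' → ℂ) (ψ x), ?_, ?_, ?_, ?_, ?_, hgen, ?_⟩
  · have h1 := hsm a ha2 x₁ (hW'1 hx₁W)
    exact ⟨ball_subset_ball (min_le_left _ _) h1.1, ball_subset_ball (min_le_left _ _) h1.2⟩
  · refine AnalyticAt.fun_comp (g := ext0 (θ a z₀ : W' → ℂ)) (f := ψ) ?_ hψa
    rw [hψp]
    exact Hol.an _ x₁ hx₁W
  · simp only [hψp]
    exact hx₁y
  · have h1 : ∀ᶠ x in 𝓝 (Th β a x₁), gh (ext0 (θ a z₀ : W' → ℂ) (ψ x)) =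
        ext0 (θ a G₀ : W' → ℂ) (ψ x) := by
      have h2 : Tendsto ψ (𝓝 (Th β a x₁)) (𝓝 x₁) := by
        have := hψa.continuousAt.tendsto
        rwa [hψp] at this
      exact h2.eventually hgh
    filter_upwards [h1, hψO, hψ] with x hx1 hx2 hx3
    rw [hx1]
    have hxW := hO₁W hx2
    have h3 := hSec.inc a haN (ψ x) hxW
    simp only [if_true] at h3
    have h4 : ext0 (m' a : W' → ℂ) (ψ x) = lm m a (ψ x) := (hRan.2 (ψ x) hx2.1).1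
    have h5 : ext0 (k' a : W' → ℂ) (ψ x) = lm k a (ψ x) := (hRan.2 (ψ x) hx2.1).2
    rw [h3, h4, h5, ← (hline (ψ x) hxW).1, ← (hline (ψ x) hxW).2, hx3]
  · have h4 : ext0 (m' a : W' → ℂ) x₁ = lm m a x₁ := (hRan.2 x₁ hx₁.1).1
    rw [hdgh, (hline x₁ hx₁W).1, ← h4]
    exact (hFx x₁ hx₁).2.2
  · intro hyb heq
    rw [← hx₁y] at hyb heq
    refine hγ' x₁ hx₁ hyb (heq.trans ?_)
    exact hgh.self_of_nhds
  · -- the relation
    obtain ⟨Q, hQ, i, hi⟩ := H.rel a haN a haN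
    refine ⟨Q, ?_, i, ?_⟩
    · filter_upwards [hψO, hψ] with x hx2 hx3
      have hxW := hO₁W hx2
      have h1 := congrArg (evH ⟨ψ x, hxW⟩) hQ
      rw [map_zero] at h1
      have h2 := Polynomial.hom_eval₂ Q (MvPolynomial.aeval (obsH β m k A N a W') :
        MvPolynomial (Fin 2 ⊕ (Fin (N + a) × A)) ℂ →ₐ[ℂ] Hol W').toRingHom
        (evH (⟨ψ x, hxW⟩ : W')).toRingHom (θ a z₀)
      have h3 : ((evH (⟨ψ x, hxW⟩ : W')).toRingHom.comp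
          (MvPolynomial.aeval (obsH β m k A N a W') :
          MvPolynomial (Fin 2 ⊕ (Fin (N + a) × A)) ℂ →ₐ[ℂ] Hol W').toRingHom) =
          MvPolynomial.eval (obs A (N + a) β m k x) := by
        refine RingHom.ext fun F => ?_
        have h4 := obs_eq S (by omega : N + a ≤ 2 * N) A ⟨ψ x, hxW⟩ (hW'2 _ hxW)
          (hTmem _ hxW) F
        simp only [hx3] at h4
        exact h4
      rw [h3] at h2
      have h5 : (evH (⟨ψ x, hxW⟩ : W')).toRingHom (θ a z₀) = ext0 (θ a z₀ : W' → ℂ) (ψ x) := by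
        rw [ext0_of_mem _ hxW]; rfl
      rw [h5] at h2
      exact h2.symm.trans h1
    · intro hall
      refine hi (Hol.eq_zero_of_eventually S.pre _ ⟨x₁, hx₁W⟩ ?_)
      have h1 : Tendsto (Th β a) (𝓝 x₁) (𝓝 (Th β a x₁)) :=
        (an_Th S.C ha2 (S.mem hx₁W)).continuousAt.tendsto
      filter_upwards [h1.eventually hall, W'.isOpen.mem_nhds hx₁W] with w hw hwW
      have h4 := obs_eq S (by omega : N + a ≤ 2 * N) A ⟨w, hwW⟩ (hW'2 _ hwW) (hTmem _ hwW)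
        (Q.coeff i)
      rw [ext0_of_mem _ hwW]
      exact h4.trans hw

set_option maxHeartbeats 1000000 in
/-- **RUN**, from the existence of the second chain -/
theorem runStmt_of (hS : SecondStmt) : RunStmt := by
  intro g c₀ r A G hFT hGen N ρ₀ β m k q q' e hN hC hSq hIn
  have hanV : AnalyticOnNhd ℂ g (bO c₀ r) := by
    intro z hz
    refine (Hol.an G z hz).congr ?_
    exact eventually_ext0_eq (F := g) (fun z => (hFT.G_eq z).symm) hz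
  have hGe : G = toH (bO c₀ r) g := by
    ext z
    rw [toH_apply hanV]
    exact hFT.G_eq z
  have hg : AnalyticAt ℂ g c₀ := hanV c₀ (mem_ball_self hFT.r_pos)
  have hg2 : deriv (deriv g) c₀ ≠ 0 := by
    intro h0
    refine hC.q_ne 0 (Nat.zero_le _) (c₀, 0) ⟨mem_ball_self hC.ρ_pos, mem_ball_self hC.ρ_pos⟩ ?_
    rw [hC.q_c 0 (Nat.zero_le _) c₀ (mem_ball_self hC.ρ_pos), h0]
  obtain ⟨rg, hrg, Rg, hRg, hRgle, hGood⟩ := exists_good hg hg2 hC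
  obtain ⟨ρt, hρt, htan⟩ := RunTan262.gentan hg hg2
  refine ⟨min Rg (min ρt rg), lt_min hRg (lt_min hρt hrg), (min_le_left _ _).trans hRgle,
    fun ρ hρ hρR => ?_⟩
  have hρRg : ρ ≤ Rg := hρR.trans (min_le_left _ _)
  have hρρt : ρ ≤ ρt := hρR.trans ((min_le_right _ _).trans (min_le_left _ _))
  have hρrg : ρ ≤ rg := hρR.trans ((min_le_right _ _).trans (min_le_right _ _))
  have hρρ₀ : ρ ≤ ρ₀ := hρRg.trans hRgle
  intro hdom D₁ D₂ hDual hFC halg hb δ hδ ρ' hρ' hρ'ρ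
  have hGd : Good g c₀ (2 * N) β m k rg ρ := hGood ρ hρ hρRg
  have hin : ∀ {p : ℂ × ℂ}, p ∈ ball c₀ ρ ×ˢ ball (0 : ℂ) ρ →
      p ∈ ball c₀ ρ₀ ×ˢ ball (0 : ℂ) ρ₀ := fun hp =>
    ⟨ball_subset_ball hρρ₀ hp.1, ball_subset_ball hρρ₀ hp.2⟩
  have S : Setup g c₀ (2 * N) ρ₀ β m k q q' rg ρ (bO c₀ r) (WO c₀ ρ) :=
    ⟨hC, hGd, hρρ₀, hanV, fun j hj p hp => (hIn p (hin hp)).2 j hj,
      ⟨(c₀, 0), mem_ball_self hρ, mem_ball_self hρ⟩, WO_preconnected c₀ ρ, fun p hp => hp⟩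
  -- the elements
  set z₀ : A := ⟨zH _, hFT.z_mem⟩ with hz₀
  set G₀ : A := ⟨G, hFT.G_mem⟩ with hG₀
  set G₁ : A := ⟨DH _ G, hFT.stable _ hFT.G_mem⟩ with hG₁
  -- the open set
  obtain ⟨R', hR', hR'le, hsm⟩ := small hC (δ := min δ ρ) (lt_min hδ hρ)
  let U : Opens (ℂ × ℂ) := ⟨(ball c₀ R' ×ˢ ball (0 : ℂ) R') ∩ {p | p.2 ≠ 0},
    (isOpen_ball.prod isOpen_ball).inter (isOpen_ne_fun continuous_snd continuous_const)⟩
  have hR'ρ : R' ≤ ρ := hR'le.trans (min_le_right _ _)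
  have hUW : U ≤ WO c₀ ρ := fun p hp =>
    ⟨ball_subset_ball hR'ρ hp.1.1, ball_subset_ball hR'ρ hp.1.2⟩
  have hUne : (U : Set (ℂ × ℂ)).Nonempty := by
    refine ⟨(c₀, ((R' / 2 : ℝ) : ℂ)), ⟨mem_ball_self hR', ?_⟩, ?_⟩
    · rw [mem_ball_zero_iff, Complex.norm_real, Real.norm_eq_abs, abs_of_pos (half_pos hR')]
      linarith
    · change ((R' / 2 : ℝ) : ℂ) ≠ 0
      exact_mod_cast (half_pos hR').ne'
  have hsq : ∀ j : ℕ, j ≤ N → lM (WO c₀ ρ) e j ^ 2 = al (WO c₀ ρ) (mH m (WO c₀ ρ) (j : ℤ)) := by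
    intro j hj
    have han : AnalyticOnNhd ℂ (e j) (WO c₀ ρ) := fun p hp => hSq.an j (by omega) p (hin hp)
    have h1 : toH (WO c₀ ρ) (e j) ^ 2 = mH m (WO c₀ ρ) (j : ℤ) := by
      ext p
      rw [S.mH_apply (by omega) (by omega)]
      simp only [SubmonoidClass.coe_pow, Pi.pow_apply]
      rw [toH_apply han]
      exact hSq.sq j (by omega) p (hin p.2)
    rw [← h1, map_pow]
    rfl
  have hrefl : ∀ j : ℕ, j < N → lM (WO c₀ ρ) e j * lM (WO c₀ ρ) e (j + 1) =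
      al (WO c₀ ρ) (xH β (WO c₀ ρ) (j : ℤ) (DH (bO c₀ r) (toH (bO c₀ r) g))) := by
    intro j hj
    have han : ∀ i ≤ 2 * N, AnalyticOnNhd ℂ (e i) (WO c₀ ρ) := fun i hi p hp =>
      hSq.an i hi p (hin hp)
    have h1 : toH (WO c₀ ρ) (e j) * toH (WO c₀ ρ) (e (j + 1)) =
        xH β (WO c₀ ρ) (j : ℤ) (DH (bO c₀ r) (toH (bO c₀ r) g)) := by
      ext p
      rw [S.xH_apply (by omega) (by omega), S.ext0_dg (S.b_mem (by omega) (by omega) (S.sub p.2))]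
      simp only [Subalgebra.coe_mul, Pi.mul_apply]
      rw [toH_apply (han j (by omega)), toH_apply (han (j + 1) (by omega))]
      exact hSq.refl j (by omega) p (hin p.2)
    rw [← h1, map_mul]
    rfl
  obtain ⟨W', θ, m', k', hW'U, hW'ne, hW'pre, hSec⟩ := hS g c₀ (2 * N) ρ₀ β m k q q' rg ρ
    (bO c₀ r) (WO c₀ ρ) S N hN le_rfl A z₀ G₀ G₁ rfl hGe
    (congrArg (fun f => DH (bO c₀ r) f) hGe) hFT.fg hFT.stable (lM (WO c₀ ρ) e) hsq hrefl D₁ D₂ hDual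
    (fun j hj f _ h => x_inj S hFT.r_pos (by omega) f h)
    (fun f hf => halg f (LLA_le S hFT.r_pos (by omega) hGe hGen hf)) hb U hUne hUW
  have S' := S.res (hW'U.trans hUW) hW'ne hW'pre
  exact run_end hFT hN htan S' hρρt hρrg hsm (fun p hp => (hW'U hp).1) (fun p hp => (hW'U hp).2)
    (z₀ := z₀) (G₀ := G₀) (G₁ := G₁) rfl rfl rfl hSec hρ' hρ'ρ

end Crest.Agent.R102.RunE58
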