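import Crest.Agent.R102.RatAsm_926
import Crest.Agent.R102.CT_575
import Crest.Agent.R102.Rat1_389
import Crest.Agent.R102.RunI_58
import Crest.Agent.R102.RatCont_217

/-!
# Row 102, [H3], THEOREM (RAT): everything except `SecondStmt` (helper926)
-/

set_option autoImplicit false

noncomputable section

namespace Crest.Agent.R102.RAT

theorem ratGerm2_of_run (hRun : RunStmt) : RatGerm2 :=
  ratGerm2_of_leaves CT575.ct Rat1389.r4Stmt hRun

theorem ratGerm2_of_second (hS : RunE58.SecondStmt) : RatGerm2 :=
  ratGerm2_of_run (RunE58.runStmt_of hS)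

theorem ratCont_of_second (hS : RunE58.SecondStmt) : Spine.RatCont :=
  Rat7217.ratCont (ratGerm2_of_second hS)

end Crest.Agent.R102.RAT
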