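import Mathlib
import Crest.Agent.R102.RatGlueB_798
import Crest.Agent.R102.Foc_554
import Crest.Agent.R102.Disp_781
import Crest.Agent.R102.FreeAn_781
import Crest.Agent.R102.Rat2a_201
import Crest.Agent.R102.Rat2bStmt_554
import Crest.Agent.R102.RatDefs7_217

/-!
# Row 102, [H3], THEOREM (RAT), case `D = ∞` (helper201)

`ratInf` : the literal conclusion of `Rat7217.RatGerm` for a germ all of whose derivatives are
algebraically independent (`Free781.DiffTr g c₀`).
-/

set_option autoImplicit false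

open Set Filter Topology Metric TopologicalSpace

noncomputable section

namespace Crest.Agent.R102.RATINF

open Crest.Agent.R102.H3 Crest.Agent.R102.Glue798

variable {g : ℂ → ℂ} {c₀ : ℂ} {N : ℕ} {ρ : ℝ} {β m k q q' e : ℕ → ℂ × ℂ → ℂ}

/-- the generators are algebraically independent in the field of fractions -/
theorem free_M {W : Opens (ℂ × ℂ)} {M : Type} [Field M] [Algebra ℂ M] [Algebra (Hol W) M]
    [IsScalarTower ℂ (Hol W) M] [IsFractionRing (Hol W) M] [Nonempty W]
    (hC : SChain g c₀ N ρ β m k q q' e) (hinf : Free781.DiffTr g c₀)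
    (hW : (W : Set (ℂ × ℂ)) ⊆ ball c₀ ρ ×ˢ ball (0 : ℂ) ρ) :
    RAT.Free N (fun j => sM W M (fun p => p.1 + p.2 * β j p))
      (fun j r => sM W M (fun p => iteratedDeriv r g (p.1 + p.2 * β j p)))
      (fun j => sM W M (e j)) (fun j => sM W M (k j)) := by
  classical
  -- the functions
  set F : Fin 2 ⊕ (Fin (N + 1) × ℕ) → ℂ × ℂ → ℂ := Sum.elim ![m 0, k 0]
    (fun i : Fin (N + 1) × ℕ => if i.2 = 0 then (fun p => p.1 + p.2 * β i.1 p)
      else (fun p => iteratedDeriv i.2 g (p.1 + p.2 * β i.1 p))) with hF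
  have am : AnalyticOnNhd ℂ (m 0) W := (hC.an_m 0 (Nat.zero_le _)).mono hW
  have ae : AnalyticOnNhd ℂ (e 0) W := (hC.an_e 0 (Nat.zero_le _)).mono hW
  have ak : AnalyticOnNhd ℂ (k 0) W := (hC.an_k 0 (Nat.zero_le _)).mono hW
  have aF : ∀ i, AnalyticOnNhd ℂ (F i) W := by
    rintro (i | i)
    · fin_cases i
      · exact am
      · exact ak
    · rw [hF]
      simp only [Sum.elim_inr]
      split_ifs with h
      · exact (an_b hC.toChain i.1 (Nat.lt_succ_iff.1 i.1.2)).mono hW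
      · exact (an_gb hC.toChain i.1 (Nat.lt_succ_iff.1 i.1.2) i.2).mono hW
  have hinj : Function.Injective (algebraMap (Hol W) M) := IsFractionRing.injective (Hol W) M
  have key : AlgebraicIndependent ℂ (fun i => sM W M (F i)) := by
    rw [algebraicIndependent_iff]
    intro P hP
    -- the polynomial vanishes in `Hol W`
    have h1 : MvPolynomial.aeval (fun i => toH W (F i)) P = 0 := by
      apply hinj
      rw [map_zero, ← hP]
      have : (IsScalarTower.toAlgHom ℂ (Hol W) M) (MvPolynomial.aeval (fun i => toH W (F i)) P) =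
          MvPolynomial.aeval (fun i => sM W M (F i)) P := by
        rw [MvPolynomial.comp_aeval_apply]
        rfl
      exact this
    refine Free781.free_fun hC.toChain hinf P (W : Set (ℂ × ℂ)) W.isOpen ?_ hW ?_
    · obtain ⟨x⟩ := ‹Nonempty W›
      exact ⟨x, x.2⟩
    intro p hp
    have h2 := congrArg (evH (⟨p, hp⟩ : W)) h1
    rw [map_zero, MvPolynomial.comp_aeval_apply] at h2
    have e1 : (fun i => evH (⟨p, hp⟩ : W) (toH W (F i))) = Sum.elim ![m 0 p, k 0 p]
      (fun i : Fin (N + 1) × ℕ => if i.2 = 0 then p.1 + p.2 * β i.1 p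
        else iteratedDeriv i.2 g (p.1 + p.2 * β i.1 p)) := by
      funext i
      have e2 : evH (⟨p, hp⟩ : W) (toH W (F i)) = F i p := toH_apply (aF i) _
      rw [e2]
      rcases i with i | i
      · fin_cases i <;> rfl
      · simp only [hF, Sum.elim_inr]
        split_ifs <;> rfl
    rw [e1] at h2
    exact h2
  -- restriction of the index
  have h3 := key.comp (Sum.map id (fun i : Fin N × ℕ => ((⟨i.1, by omega⟩ : Fin (N + 1)), i.2)))
    (by
      rintro (i | ⟨i, i'⟩) (j | ⟨j, j'⟩) h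
      · simpa using h
      · simp at h
      · simp at h
      · simp only [Sum.map_inr, Sum.inr.injEq, Prod.mk.injEq, Fin.mk.injEq] at h
        rw [Fin.ext h.1, h.2])
  have h4 : ((fun i => sM W M (F i)) ∘ (Sum.map id (fun i : Fin N × ℕ =>
      ((⟨i.1, by omega⟩ : Fin (N + 1)), i.2)))) =
      Sum.elim (![sM W M (e 0) ^ 2, sM W M (k 0)] : Fin 2 → M)
        (fun i : Fin N × ℕ => if i.2 = 0 then sM W M (fun p => p.1 + p.2 * β i.1 p)
          else sM W M (fun p => iteratedDeriv i.2 g (p.1 + p.2 * β i.1 p))) := by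
    funext i
    rcases i with i | i
    · fin_cases i
      · show sM W M (m 0) = sM W M (e 0) ^ 2
        rw [sq, ← sM_mul ae ae]
        refine sM_congr am (an_mul ae ae) fun p hp => ?_
        rw [← sq]; exact (hC.e_sq 0 (Nat.zero_le _) p (hW hp)).symm
      · rfl
    · simp only [Function.comp, hF, Sum.map_inr, Sum.elim_inr]
      split_ifs <;> rfl
  rw [h4] at h3
  exact h3

/-- **case `D = ∞` of (RAT)** -/
theorem ratInf (hN : 0 < N) (hC0 : F7389.Chain g c₀ N ρ β m k q q') (hinf : Free781.DiffTr g c₀) :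
    ∃ W : Opens (ℂ × ℂ), (W : Set (ℂ × ℂ)).Nonempty ∧ IsPreconnected (W : Set (ℂ × ℂ)) ∧
      (W : Set (ℂ × ℂ)) ⊆ ball c₀ ρ ×ˢ ball 0 ρ ∧ (∀ x ∈ W, x.2 ≠ 0) ∧
      ∃ E0 k0 EN kN b0 : Hol W,
        (∀ x : W, (E0 : W → ℂ) x ^ 2 = m 0 x ∧ (EN : W → ℂ) x ^ 2 = m N x ∧
          (k0 : W → ℂ) x = k 0 x ∧ (kN : W → ℂ) x = k N x ∧
          (b0 : W → ℂ) x = (x : ℂ × ℂ).1 + (x : ℂ × ℂ).2) ∧
        ∀ (M : Type) [Field M] [Algebra ℂ M] [Algebra (Hol W) M] [IsScalarTower ℂ (Hol W) M]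
          [IsFractionRing (Hol W) M] (D₁ D₂ : Derivation ℂ M M),
          Rat7217.Dual (E0 ^ 2) k0 D₁ D₂ →
          algebraMap (Hol W) M b0 ∈ DF389.dfield ![D₁, D₂]
            {algebraMap (Hol W) M E0, algebraMap (Hol W) M k0, algebraMap (Hol W) M EN,
              algebraMap (Hol W) M kN} := by
  obtain ⟨e, R, hR, hRρ, hS⟩ := exists_sqrt hC0
  have hC := hS R hR le_rfl
  -- the open set
  set W : Opens (ℂ × ℂ) := ⟨ball c₀ R ×ˢ ball ((R / 2 : ℝ) : ℂ) (R / 4),
    isOpen_ball.prod isOpen_ball⟩ with hWdef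
  have hWR : (W : Set (ℂ × ℂ)) ⊆ ball c₀ R ×ˢ ball (0 : ℂ) R := by
    refine Set.prod_mono le_rfl ?_
    refine ball_subset_ball' ?_
    rw [dist_zero_right, Complex.norm_real, Real.norm_of_nonneg (by positivity)]
    linarith
  have hc : ((c₀, ((R / 2 : ℝ) : ℂ)) : ℂ × ℂ) ∈ W :=
    ⟨mem_ball_self hR, mem_ball_self (by positivity)⟩
  have hne : Nonempty W := ⟨⟨_, hc⟩⟩
  have h0 : ∀ x ∈ W, x.2 ≠ 0 := by
    intro x hx h
    have h1 : x.2 ∈ ball ((R / 2 : ℝ) : ℂ) (R / 4) := hx.2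
    rw [h, mem_ball, dist_comm, dist_zero_right, Complex.norm_real,
      Real.norm_of_nonneg (by positivity)] at h1
    linarith
  have am : ∀ i ≤ N, AnalyticOnNhd ℂ (m i) W := fun i hi => (hC.an_m i hi).mono hWR
  have ak : ∀ i ≤ N, AnalyticOnNhd ℂ (k i) W := fun i hi => (hC.an_k i hi).mono hWR
  have ae : ∀ i ≤ N, AnalyticOnNhd ℂ (e i) W := fun i hi => (hC.an_e i hi).mono hWR
  have ab : ∀ i ≤ N, AnalyticOnNhd ℂ (fun p : ℂ × ℂ => p.1 + p.2 * β i p) W := fun i hi =>
    (an_b hC.toChain i hi).mono hWR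
  refine ⟨W, ⟨_, hc⟩, (convex_ball c₀ R).isPreconnected.prod (convex_ball _ _).isPreconnected,
    hWR.trans (sub_polydisc hRρ), h0, toH W (e 0), toH W (k 0), toH W (e N), toH W (k N),
    toH W (fun p => p.1 + p.2 * β 0 p), ?_, ?_⟩
  · intro x
    rw [toH_apply (ae 0 (Nat.zero_le _)), toH_apply (ae N le_rfl), toH_apply (ak 0 (Nat.zero_le _)),
      toH_apply (ak N le_rfl), toH_apply (ab 0 (Nat.zero_le _)),
      hC.e_sq 0 (Nat.zero_le _) x (hWR x.2), hC.e_sq N le_rfl x (hWR x.2), hC.β_zero, mul_one]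
    exact ⟨rfl, rfl, rfl, rfl, rfl⟩
  · intro M _ _ _ _ _ D₁ D₂ hD
    have hsq : toH W (e 0) ^ 2 = toH W (m 0) := by
      ext x
      rw [toH_apply (am 0 (Nat.zero_le _)), ← hC.e_sq 0 (Nat.zero_le _) x (hWR x.2)]
      show (toH W (e 0) : W → ℂ) x ^ 2 = _
      rw [toH_apply (ae 0 (Nat.zero_le _))]
    rw [hsq] at hD
    have hFC := fchain hC hWR hD
    have hfree := free_M (M := M) hC hinf hWR
    have hdisp : RAT.Disp N (fun j => sM W M (fun p => p.1 + p.2 * β j p))
        (fun j r => sM W M (fun p => iteratedDeriv r g (p.1 + p.2 * β j p)))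
        (fun j => sM W M (e j)) (fun j => sM W M (k j)) := RAT.disp M D₁ D₂ N _ _ _ _ hFC hfree
    have hinj : Function.Injective (algebraMap (Hol W) M) := IsFractionRing.injective (Hol W) M
    have hfoc : RAT.Foc D₁ D₂ N (fun j => sM W M (fun p => p.1 + p.2 * β j p)) := by
      have hj1 : algebraMap (Hol W) M (Foc554.jH (toH W (m 0)) (toH W (k 0))) ≠ 0 := by
        have := hD.ne
        rw [jcb217] at this
        exact this
      have hj2 : ∀ f : Hol W, algebraMap (Hol W) M (Foc554.jH (toH W (m 0)) (toH W (k 0))) *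
          D₁ (algebraMap (Hol W) M f) = algebraMap (Hol W) M (Foc554.jH f (toH W (k 0))) := by
        intro f
        have := hD.d₁ f
        rw [jcb217, jcb217] at this
        exact this
      have hj3 : ∀ f : Hol W, algebraMap (Hol W) M (Foc554.jH (toH W (m 0)) (toH W (k 0))) *
          D₂ (algebraMap (Hol W) M f) = algebraMap (Hol W) M (Foc554.jH (toH W (m 0)) f) := by
        intro f
        have := hD.d₂ f
        rw [jcb217, jcb217] at this
        exact this
      intro j hj0 hjN Q hQ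
      exact Foc554.foc hC.toChain hWR (algebraMap (Hol W) M) hinj D₁ D₂ hj1 hj2 hj3 hjN.le hj0 Q hQ
    have hmem := RAT554.rat2bStmt M D₁ D₂ N _ _ _ _ hN hFC hdisp hfoc
      (RAT.rat2a M D₁ D₂ N _ _ _ _ hFC hdisp)
    exact hmem

end Crest.Agent.R102.RATINF
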