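import Crest.Agent.R102.RatFin_926
import Crest.Agent.R102.RatInf_201

/-!
# Row 102, [H3], THEOREM (RAT): assembly (helper926)
-/

set_option autoImplicit false

open Set Filter Topology Metric TopologicalSpace

noncomputable section

namespace Crest.Agent.R102.RAT

open Crest.Agent.R102.H3

theorem ratInfStmt : RatInfStmt := by
  intro g c₀ N ρ β m k q q' hN hC hD
  exact RATINF.ratInf hN (chain_mono hC (by omega) hC.ρ_pos (le_refl _) le_rfl) hD

theorem ratGerm2_of_leaves (hCT : CTStmt) (hR4 : R4Stmt) (hRun : RunStmt) : RatGerm2 :=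
  ratGerm2_of ratInfStmt (ratFin hCT hR4 hRun)

end Crest.Agent.R102.RAT
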