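import Crest.Agent.R102.RatInf_201
import Crest.Agent.R102.RATDefs4_926
import Crest.Agent.R102.Rat3_926

/-!
# Row 102, [H3], THEOREM (RAT), case `D = ∞`, literal form `RAT.RatInfStmt` (helper201)
-/

set_option autoImplicit false

namespace Crest.Agent.R102.RATINF

theorem ratInfStmt : RAT.RatInfStmt := by
  intro g c₀ N ρ β m k q q' hN hC hinf
  exact ratInf hN (RAT.chain_mono hC (by omega) hC.ρ_pos subset_rfl le_rfl) hinf

end Crest.Agent.R102.RATINF
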