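import Mathlib

/-!
# Row 102, [H3], RAT toolkit 1 (helper201): the two-variable Taylor morphism, displacements

`M` a field of characteristic `0` with two commuting derivations `D₁ D₂`;
`TT : M →ₐ M⟦x₀, x₁⟧`, `f ↦ ∑ D₁^i D₂^j f / (i! j!) x₀^i x₁^j`; `cM δ` the coefficientwise
derivation; `sg z : M⟦X⟧ →ₐ M⟦x₀, x₁⟧` the substitution `X ↦ z`.
-/

set_option autoImplicit false

open MvPowerSeries Finset

noncomputable section

namespace Crest.Agent.R102.RatT

variable {k M : Type*} [Field k] [Field M] [Algebra k M]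

local notation "RR" => MvPowerSeries (Fin 2) M

/-! ## Coefficientwise derivations -/

/-- the coefficientwise derivation. -/
def cM (δ : Derivation k M M) : Derivation k RR RR :=
  Derivation.mk'
    { toFun := fun F n => δ (MvPowerSeries.coeff n F)
      map_add' := fun F G => by
        ext n
        show δ (MvPowerSeries.coeff n (F + G)) = δ (MvPowerSeries.coeff n F) +
          δ (MvPowerSeries.coeff n G)
        rw [map_add, map_add]
      map_smul' := fun c F => by
        ext n
        show δ (MvPowerSeries.coeff n (c • F)) = c • δ (MvPowerSeries.coeff n F)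
        rw [← δ.map_smul]
        rfl }
    (fun F G => by
      classical
      ext n
      show δ (MvPowerSeries.coeff n (F * G)) = MvPowerSeries.coeff n (F • (_ : RR) + G • (_ : RR))
      rw [map_add, smul_eq_mul, smul_eq_mul, mul_comm G, MvPowerSeries.coeff_mul,
        MvPowerSeries.coeff_mul, MvPowerSeries.coeff_mul, map_sum, ← Finset.sum_add_distrib]
      refine Finset.sum_congr rfl fun p _ => ?_
      rw [Derivation.leibniz, smul_eq_mul, smul_eq_mul]
      show _ = MvPowerSeries.coeff p.1 F * δ (MvPowerSeries.coeff p.2 G) +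
        δ (MvPowerSeries.coeff p.1 F) * MvPowerSeries.coeff p.2 G
      ring)

theorem coeff_cM (δ : Derivation k M M) (F : RR) (n : Fin 2 →₀ ℕ) :
    MvPowerSeries.coeff n (cM δ F) = δ (MvPowerSeries.coeff n F) := rfl

theorem constantCoeff_cM (δ : Derivation k M M) (F : RR) :
    MvPowerSeries.constantCoeff (cM δ F) = δ (MvPowerSeries.constantCoeff F) := rfl

theorem cM_mul (δ : Derivation k M M) (F G : RR) : cM δ (F * G) = F * cM δ G + G * cM δ F := by
  rw [Derivation.leibniz, smul_eq_mul, smul_eq_mul]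

theorem cM_C (δ : Derivation k M M) (c : M) :
    cM δ (MvPowerSeries.C c : RR) = MvPowerSeries.C (δ c) := by
  classical
  ext n
  rw [coeff_cM, MvPowerSeries.coeff_C, MvPowerSeries.coeff_C]
  split_ifs <;> simp

theorem pd_cM (δ : Derivation k M M) (i : Fin 2) (F : RR) :
    pderiv M i (cM δ F) = cM δ (pderiv M i F) := by
  ext n
  rw [coeff_pderiv, coeff_cM, coeff_cM, coeff_pderiv, Derivation.leibniz]
  have h : δ ((n i : M) + 1) = 0 := by
    have := δ.map_natCast (n i + 1)
    push_cast at this
    exact this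
  rw [h, smul_zero, zero_add, smul_eq_mul, mul_comm]

/-! ## Uniqueness principle -/

/-- a family of series, closed under partial derivatives up to multiplication. -/
theorem fam_zero [CharZero M] {ι : Type*} (R : ι → RR)
    (h0 : ∀ a, MvPowerSeries.constantCoeff (R a) = 0)
    (h : ∀ d : ℕ, (∀ b, ∀ n : Fin 2 →₀ ℕ, n.degree ≤ d → MvPowerSeries.coeff n (R b) = 0) →
      ∀ a i, ∀ n : Fin 2 →₀ ℕ, n.degree ≤ d → MvPowerSeries.coeff n (pderiv M i (R a)) = 0) (a : ι) :
    R a = 0 := by
  have key : ∀ d : ℕ, ∀ b, ∀ n : Fin 2 →₀ ℕ, n.degree ≤ d → MvPowerSeries.coeff n (R b) = 0 := by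
    intro d
    induction d with
    | zero =>
      intro b n hn
      have : n = 0 := by
        rw [← Finsupp.degree_eq_zero_iff]
        omega
      rw [this, MvPowerSeries.coeff_zero_eq_constantCoeff]
      exact h0 b
    | succ d ih =>
      intro b n hn
      by_cases hn0 : n = 0
      · rw [hn0, MvPowerSeries.coeff_zero_eq_constantCoeff]
        exact h0 b
      obtain ⟨i, hi⟩ := Finsupp.ne_iff.mp hn0
      have hi' : n i ≠ 0 := hi
      have hle : Finsupp.single i 1 ≤ n := by
        rw [Finsupp.single_le_iff]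
        omega
      have hdeg : (n - Finsupp.single i 1).degree + 1 = n.degree := by
        have := congrArg Finsupp.degree (tsub_add_cancel_of_le hle)
        rw [map_add, Finsupp.degree_single] at this
        exact this
      have h1 := h d ih b i (n - Finsupp.single i 1) (by omega)
      rw [coeff_pderiv, tsub_add_cancel_of_le hle] at h1
      rcases mul_eq_zero.mp h1 with h2 | h2
      · exact h2
      · exact absurd h2 (Nat.cast_add_one_ne_zero _)
  ext n
  rw [key n.degree a n le_rfl, map_zero]

/-- if all partial derivatives vanish then the series is constant. -/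
theorem eq_C_of_pd [CharZero M] {F : RR} (h : ∀ i, pderiv M i F = 0) :
    F = MvPowerSeries.C (MvPowerSeries.constantCoeff F) := by
  have : IsAddTorsionFree M := inferInstance
  apply pderiv.ext
  · intro i
    rw [h i, pderiv_C]
  · rw [MvPowerSeries.constantCoeff_C]

theorem coeff_mul_zero {F G : RR} {d : ℕ}
    (hF : ∀ n : Fin 2 →₀ ℕ, n.degree ≤ d → MvPowerSeries.coeff n F = 0) (n : Fin 2 →₀ ℕ)
    (hn : n.degree ≤ d) : MvPowerSeries.coeff n (F * G) = 0 := by
  classical
  rw [MvPowerSeries.coeff_mul]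
  refine Finset.sum_eq_zero fun p hp => ?_
  have h1 : p.1.degree ≤ d := by
    have := congrArg Finsupp.degree (Finset.HasAntidiagonal.mem_antidiagonal.mp hp)
    rw [map_add] at this
    omega
  rw [hF _ h1, zero_mul]

/-- uniqueness for `∂ᵢ F = δᵢ F`. -/
theorem ext_pde [CharZero M] {D : Fin 2 → Derivation k M M} {F G : RR}
    (hF : ∀ i, pderiv M i F = cM (D i) F) (hG : ∀ i, pderiv M i G = cM (D i) G)
    (h0 : MvPowerSeries.constantCoeff F = MvPowerSeries.constantCoeff G) : F = G := by
  rw [← sub_eq_zero]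
  refine fam_zero (ι := Unit) (fun _ => F - G) (fun _ => by rw [map_sub, h0, sub_self])
    (fun d hd a i n hn => ?_) ()
  rw [map_sub, hF, hG, ← map_sub, coeff_cM, hd () n hn, map_zero]

/-! ## The Taylor morphism -/

section Taylor

variable (D₁ D₂ : Derivation k M M)

/-- the raw Taylor series. -/
def tt (f : M) : RR := fun n =>
  (D₁^[n 0] (D₂^[n 1] f)) / (((n 0).factorial : M) * ((n 1).factorial : M))

theorem coeff_tt (f : M) (n : Fin 2 →₀ ℕ) : MvPowerSeries.coeff n (tt D₁ D₂ f) =
    (D₁^[n 0] (D₂^[n 1] f)) / (((n 0).factorial : M) * ((n 1).factorial : M)) := rfl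

theorem it_add (D : Derivation k M M) (n : ℕ) (f g : M) : D^[n] (f + g) = D^[n] f + D^[n] g := by
  induction n generalizing f g with
  | zero => rfl
  | succ n ih => rw [Function.iterate_succ_apply, map_add, ih]; rfl

theorem it_smul (D : Derivation k M M) (n : ℕ) (c : k) (f : M) : D^[n] (c • f) = c • D^[n] f := by
  induction n generalizing f with
  | zero => rfl
  | succ n ih => rw [Function.iterate_succ_apply, D.map_smul, ih]; rfl

theorem D_div_nat (D : Derivation k M M) (f : M) (a b : ℕ) :
    D (f / ((a : M) * (b : M))) = D f / ((a : M) * (b : M)) := by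
  rw [div_eq_mul_inv, Derivation.leibniz, Derivation.leibniz_inv, Derivation.leibniz,
    D.map_natCast, D.map_natCast]
  simp only [smul_eq_mul, mul_zero, add_zero]
  rw [div_eq_mul_inv]
  ring

variable {D₁ D₂}

theorem constantCoeff_tt (f : M) : MvPowerSeries.constantCoeff (tt D₁ D₂ f) = f := by
  rw [← MvPowerSeries.coeff_zero_eq_constantCoeff_apply, coeff_tt]
  simp

theorem pd0_tt [CharZero M] (h : ∀ f, D₁ (D₂ f) = D₂ (D₁ f)) (f : M) :
    pderiv M 0 (tt D₁ D₂ f) = tt D₁ D₂ (D₁ f) := by
  ext n
  rw [coeff_pderiv, coeff_tt, coeff_tt]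
  have e0 : (n + Finsupp.single (0 : Fin 2) 1 : Fin 2 →₀ ℕ) 0 = n 0 + 1 := by simp
  have e1 : (n + Finsupp.single (0 : Fin 2) 1 : Fin 2 →₀ ℕ) 1 = n 1 := by simp
  rw [e0, e1]
  have hc : D₂^[n 1] (D₁ f) = D₁ (D₂^[n 1] f) := by
    have : Function.Commute (D₂ : M → M) (D₁ : M → M) := fun f => (h f).symm
    exact this.iterate_left (n 1) f
  rw [hc, ← Function.iterate_succ_apply D₁, Nat.factorial_succ]
  have h1 : ((n 0 : M) + 1) ≠ 0 := Nat.cast_add_one_ne_zero _
  have h2 : ((n 0).factorial : M) ≠ 0 := by exact_mod_cast Nat.factorial_ne_zero _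
  have h3 : ((n 1).factorial : M) ≠ 0 := by exact_mod_cast Nat.factorial_ne_zero _
  push_cast
  field_simp

theorem pd1_tt [CharZero M] (f : M) :
    pderiv M 1 (tt D₁ D₂ f) = tt D₁ D₂ (D₂ f) := by
  ext n
  rw [coeff_pderiv, coeff_tt, coeff_tt]
  have e0 : (n + Finsupp.single (1 : Fin 2) 1 : Fin 2 →₀ ℕ) 0 = n 0 := by simp
  have e1 : (n + Finsupp.single (1 : Fin 2) 1 : Fin 2 →₀ ℕ) 1 = n 1 + 1 := by simp
  rw [e0, e1, ← Function.iterate_succ_apply D₂, Nat.factorial_succ]
  have h1 : ((n 1 : M) + 1) ≠ 0 := Nat.cast_add_one_ne_zero _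
  have h2 : ((n 0).factorial : M) ≠ 0 := by exact_mod_cast Nat.factorial_ne_zero _
  have h3 : ((n 1).factorial : M) ≠ 0 := by exact_mod_cast Nat.factorial_ne_zero _
  push_cast
  field_simp

theorem cM0_tt [CharZero M] (h : ∀ f, D₁ (D₂ f) = D₂ (D₁ f)) (f : M) :
    cM D₁ (tt D₁ D₂ f) = tt D₁ D₂ (D₁ f) := by
  ext n
  rw [coeff_cM, coeff_tt, coeff_tt, D_div_nat]
  have hc : D₂^[n 1] (D₁ f) = D₁ (D₂^[n 1] f) := by
    have : Function.Commute (D₂ : M → M) (D₁ : M → M) := fun f => (h f).symm
    exact this.iterate_left (n 1) f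
  rw [hc, ← Function.iterate_succ_apply D₁, ← Function.iterate_succ_apply' D₁]

theorem cM1_tt [CharZero M] (h : ∀ f, D₁ (D₂ f) = D₂ (D₁ f)) (f : M) :
    cM D₂ (tt D₁ D₂ f) = tt D₁ D₂ (D₂ f) := by
  ext n
  rw [coeff_cM, coeff_tt, coeff_tt, D_div_nat]
  have hc : D₂ (D₁^[n 0] (D₂^[n 1] f)) = D₁^[n 0] (D₂ (D₂^[n 1] f)) := by
    have : Function.Commute (D₁ : M → M) (D₂ : M → M) := fun f => h f
    exact (this.iterate_left (n 0) _).symm
  rw [hc, ← Function.iterate_succ_apply' D₂, ← Function.iterate_succ_apply D₂]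

variable (D₁ D₂)

/-- the two derivations as a family. -/
def DD : Fin 2 → Derivation k M M := ![D₁, D₂]

/-- **the two-variable Taylor morphism**. -/
def TT [CharZero M] (h : ∀ f, D₁ (D₂ f) = D₂ (D₁ f)) : M →ₐ[k] RR :=
  have hpd : ∀ i f, pderiv M i (tt D₁ D₂ f) = tt D₁ D₂ (DD D₁ D₂ i f) := by
    intro i f
    fin_cases i
    · exact pd0_tt h f
    · exact pd1_tt f
  have hcM : ∀ i f, cM (DD D₁ D₂ i) (tt D₁ D₂ f) = tt D₁ D₂ (DD D₁ D₂ i f) := by
    intro i f
    fin_cases i
    · exact cM0_tt h f
    · exact cM1_tt h f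
  have hode : ∀ i f, pderiv M i (tt D₁ D₂ f) = cM (DD D₁ D₂ i) (tt D₁ D₂ f) := fun i f => by
    rw [hpd, hcM]
  have hC : ∀ c : k, tt D₁ D₂ (algebraMap k M c) = algebraMap k RR c := by
    intro c
    refine ext_pde (D := DD D₁ D₂) (fun i => hode i _) (fun i => ?_) ?_
    · have e : algebraMap k RR c = MvPowerSeries.C (algebraMap k M c) := by
        rw [MvPowerSeries.algebraMap_apply]
      rw [e, pderiv_C, cM_C, Derivation.map_algebraMap, map_zero]
    · have e : algebraMap k RR c = MvPowerSeries.C (algebraMap k M c) := by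
        rw [MvPowerSeries.algebraMap_apply]
      rw [constantCoeff_tt, e, MvPowerSeries.constantCoeff_C]
  { toFun := tt D₁ D₂
    map_one' := by
      have := hC 1
      rwa [map_one, map_one] at this
    map_zero' := by
      have := hC 0
      rwa [map_zero, map_zero] at this
    map_add' := fun f g => by
      refine ext_pde (D := DD D₁ D₂) (fun i => hode i _) (fun i => ?_) ?_
      · rw [map_add, map_add, hode, hode]
      · rw [constantCoeff_tt, map_add, constantCoeff_tt, constantCoeff_tt]
    map_mul' := fun f g => by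
      refine ext_pde (D := DD D₁ D₂) (fun i => hode i _) (fun i => ?_) ?_
      · rw [Derivation.leibniz, Derivation.leibniz, hode, hode]
      · rw [constantCoeff_tt, map_mul, constantCoeff_tt, constantCoeff_tt]
    commutes' := hC }

variable {D₁ D₂}

variable [CharZero M] (h : ∀ f, D₁ (D₂ f) = D₂ (D₁ f))

theorem constantCoeff_TT (f : M) : MvPowerSeries.constantCoeff (TT D₁ D₂ h f) = f :=
  constantCoeff_tt f

theorem pd0_TT (f : M) : pderiv M 0 (TT D₁ D₂ h f) = TT D₁ D₂ h (D₁ f) := pd0_tt h f

theorem pd1_TT (f : M) : pderiv M 1 (TT D₁ D₂ h f) = TT D₁ D₂ h (D₂ f) := pd1_tt f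

theorem pd_TT (i : Fin 2) (f : M) :
    pderiv M i (TT D₁ D₂ h f) = TT D₁ D₂ h (DD D₁ D₂ i f) := by
  fin_cases i
  · exact pd0_tt h f
  · exact pd1_tt f

theorem lin0_TT (f : M) :
    MvPowerSeries.coeff (Finsupp.single 0 1) (TT D₁ D₂ h f) = D₁ f := by
  have h1 := congrArg MvPowerSeries.constantCoeff (pd0_TT h f)
  rw [constantCoeff_TT, ← MvPowerSeries.coeff_zero_eq_constantCoeff_apply, coeff_pderiv] at h1
  simpa using h1

theorem lin1_TT (f : M) :
    MvPowerSeries.coeff (Finsupp.single 1 1) (TT D₁ D₂ h f) = D₂ f := by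
  have h1 := congrArg MvPowerSeries.constantCoeff (pd1_TT h f)
  rw [constantCoeff_TT, ← MvPowerSeries.coeff_zero_eq_constantCoeff_apply, coeff_pderiv] at h1
  simpa using h1

/-- the coefficientwise variation of the Taylor series. -/
def del (δ : Derivation k M M) (f : M) : RR := cM δ (TT D₁ D₂ h f)

theorem del_def (δ : Derivation k M M) (f : M) : del h δ f = cM δ (TT D₁ D₂ h f) := rfl

theorem constantCoeff_del (δ : Derivation k M M) (f : M) :
    MvPowerSeries.constantCoeff (del h δ f) = δ f := by
  rw [del, constantCoeff_cM, constantCoeff_TT]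

theorem del_add (δ : Derivation k M M) (f g : M) : del h δ (f + g) = del h δ f + del h δ g := by
  rw [del, map_add, map_add]; rfl

theorem del_sub (δ : Derivation k M M) (f g : M) : del h δ (f - g) = del h δ f - del h δ g := by
  rw [del, map_sub, map_sub]; rfl

theorem del_mul (δ : Derivation k M M) (f g : M) :
    del h δ (f * g) = TT D₁ D₂ h f * del h δ g + TT D₁ D₂ h g * del h δ f := by
  rw [del, map_mul, cM_mul]; rfl

theorem del_zero (δ : Derivation k M M) : del h δ 0 = 0 := by
  rw [del, map_zero, map_zero]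

theorem pd_del (δ : Derivation k M M) (i : Fin 2) (f : M) :
    pderiv M i (del h δ f) = del h δ (DD D₁ D₂ i f) := by
  rw [del, pd_cM, pd_TT, del]

/-- if `δ` kills a subset closed under `D₁, D₂`, then so does `del`. -/
theorem del_eq_zero {δ : Derivation k M M} {S : Set M} (hS1 : ∀ f ∈ S, D₁ f ∈ S)
    (hS2 : ∀ f ∈ S, D₂ f ∈ S) (hδ : ∀ f ∈ S, δ f = 0) {f : M} (hf : f ∈ S) : del h δ f = 0 := by
  refine fam_zero (ι := S) (fun f => del h δ f) (fun f => ?_) (fun d hd f i n hn => ?_) ⟨f, hf⟩
  · rw [constantCoeff_del]; exact hδ f f.2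
  · rw [pd_del]
    fin_cases i
    · exact hd ⟨D₁ f, hS1 f f.2⟩ n hn
    · exact hd ⟨D₂ f, hS2 f f.2⟩ n hn

end Taylor

/-! ## Substitution of a series without constant term -/

section Subst

theorem hasSubst {z : RR} (hz : MvPowerSeries.constantCoeff z = 0) : PowerSeries.HasSubst z :=
  PowerSeries.HasSubst.of_constantCoeff_zero hz

/-- the substitution `X ↦ z`. -/
def sg (z : RR) (hz : MvPowerSeries.constantCoeff z = 0) : PowerSeries M →ₐ[M] RR :=
  PowerSeries.substAlgHom (hasSubst hz)

theorem sg_X {z : RR} (hz : MvPowerSeries.constantCoeff z = 0) : sg z hz PowerSeries.X = z :=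
  PowerSeries.substAlgHom_X _

theorem sg_C {z : RR} (hz : MvPowerSeries.constantCoeff z = 0) (c : M) :
    sg z hz (PowerSeries.C c) = MvPowerSeries.C c := by
  have := (sg z hz).commutes c
  exact this

theorem constantCoeff_sg {z : RR} (hz : MvPowerSeries.constantCoeff z = 0) (n : PowerSeries M) :
    MvPowerSeries.constantCoeff (sg z hz n) = PowerSeries.constantCoeff n := by
  obtain ⟨m, hm⟩ : ∃ m, n = PowerSeries.C (PowerSeries.constantCoeff n) + PowerSeries.X * m := by
    have : (PowerSeries.X : PowerSeries M) ∣ n - PowerSeries.C (PowerSeries.constantCoeff n) := by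
      rw [PowerSeries.X_dvd_iff, map_sub, PowerSeries.constantCoeff_C, sub_self]
    obtain ⟨m, hm⟩ := this
    exact ⟨m, by rw [← hm]; ring⟩
  conv_lhs => rw [hm]
  rw [map_add, map_add, map_mul, map_mul, sg_X, hz, zero_mul, sg_C,
    MvPowerSeries.constantCoeff_C, add_zero]

theorem coeff_pow_mul {z : RR} (hz : MvPowerSeries.constantCoeff z = 0) (p : ℕ) (G : RR)
    {n : Fin 2 →₀ ℕ} (hn : n.degree < p) : MvPowerSeries.coeff n (z ^ p * G) = 0 := by
  apply MvPowerSeries.coeff_of_lt_order
  refine lt_of_lt_of_le ?_ (le_trans (MvPowerSeries.le_order_pow_of_constantCoeff_eq_zero p hz)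
    (le_trans ?_ (MvPowerSeries.le_order_mul)))
  · exact_mod_cast hn
  · exact le_add_of_nonneg_right bot_le

theorem pd_sg {z : RR} (hz : MvPowerSeries.constantCoeff z = 0) (i : Fin 2) (n : PowerSeries M) :
    pderiv M i (sg z hz n) = sg z hz (PowerSeries.derivative M n) * pderiv M i z := by
  -- polynomials
  have hpol : ∀ P : Polynomial M, pderiv M i (sg z hz (P : PowerSeries M)) =
      sg z hz (PowerSeries.derivative M (P : PowerSeries M)) * pderiv M i z := by
    intro P
    have e : ∀ Q : Polynomial M, sg z hz (Q : PowerSeries M) = Polynomial.aeval z Q := by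
      intro Q
      exact PowerSeries.substAlgHom_coe (hasSubst hz) Q
    rw [PowerSeries.derivative_coe, e, e, Derivation.map_aeval, smul_eq_mul]
  ext d
  obtain ⟨p, hp⟩ : ∃ p : ℕ, p = d.degree + 2 := ⟨_, rfl⟩
  obtain ⟨m, hm⟩ : ∃ m, n = (PowerSeries.trunc p n : PowerSeries M) + PowerSeries.X ^ p * m := by
    have : (PowerSeries.X : PowerSeries M) ^ p ∣ n - (PowerSeries.trunc p n : PowerSeries M) := by
      rw [PowerSeries.X_pow_dvd_iff]
      intro j hj
      rw [map_sub, Polynomial.coeff_coe, PowerSeries.coeff_trunc, if_pos hj, sub_self]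
    obtain ⟨m, hm⟩ := this
    exact ⟨m, by rw [← hm]; ring⟩
  have h1 : MvPowerSeries.coeff d (pderiv M i (sg z hz (PowerSeries.X ^ p * m))) = 0 := by
    rw [coeff_pderiv, map_mul, map_pow, sg_X, coeff_pow_mul hz p, zero_mul]
    rw [map_add, Finsupp.degree_single]
    omega
  have h2 : MvPowerSeries.coeff d
      (sg z hz (PowerSeries.derivative M (PowerSeries.X ^ p * m)) * pderiv M i z) = 0 := by
    obtain ⟨q, hq⟩ : ∃ q, PowerSeries.derivative M (PowerSeries.X ^ p * m) =
        PowerSeries.X ^ (d.degree + 1) * q := by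
      rw [Derivation.leibniz, Derivation.leibniz_pow, smul_eq_mul, smul_eq_mul, smul_eq_mul,
        nsmul_eq_mul]
      refine ⟨PowerSeries.X * PowerSeries.derivative M m + m * ((p : PowerSeries M) *
        PowerSeries.derivative M PowerSeries.X), ?_⟩
      have e1 : p - 1 = d.degree + 1 := by omega
      rw [e1, hp]
      ring
    rw [hq, map_mul (sg z hz), map_pow (sg z hz), sg_X, mul_assoc,
      coeff_pow_mul hz _ _ (Nat.lt_succ_self _)]
  rw [hm, map_add, map_add, map_add, map_add, map_add, add_mul, map_add, h1, h2, hpol]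

/-- **(FUN)** a sequence of series with `∂ᵢ R_r = R_{r+1} ∂ᵢ z` is a function of `z`. -/
theorem fun_of [CharZero M] {z : RR} (hz : MvPowerSeries.constantCoeff z = 0) (R : ℕ → RR)
    (hR : ∀ r i, pderiv M i (R r) = R (r + 1) * pderiv M i z) (r : ℕ) :
    R r = sg z hz ((PowerSeries.derivative M)^[r]
      (PowerSeries.mk fun r => MvPowerSeries.constantCoeff (R r) / (r.factorial : M))) := by
  set ν : PowerSeries M :=
    PowerSeries.mk fun r => MvPowerSeries.constantCoeff (R r) / (r.factorial : M) with hν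
  have hcoef : ∀ r n, PowerSeries.coeff n ((PowerSeries.derivative M)^[r] ν) =
      MvPowerSeries.constantCoeff (R (n + r)) / (n.factorial : M) := by
    intro r
    induction r with
    | zero => intro n; rw [Function.iterate_zero_apply, hν, PowerSeries.coeff_mk]; rfl
    | succ r ih =>
      intro n
      rw [Function.iterate_succ_apply', PowerSeries.coeff_derivative, ih, Nat.factorial_succ]
      have h1 : ((n : M) + 1) ≠ 0 := Nat.cast_add_one_ne_zero _
      have h2 : (n.factorial : M) ≠ 0 := by exact_mod_cast Nat.factorial_ne_zero _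
      have e : n + 1 + r = n + (r + 1) := by ring
      rw [e]
      push_cast
      field_simp
  rw [← sub_eq_zero]
  refine fam_zero (fun r => R r - sg z hz ((PowerSeries.derivative M)^[r] ν)) (fun r => ?_)
    (fun d hd r i n hn => ?_) r
  · rw [map_sub, constantCoeff_sg, ← PowerSeries.coeff_zero_eq_constantCoeff_apply, hcoef]
    simp
  · rw [map_sub, hR, pd_sg, ← Function.iterate_succ_apply' (PowerSeries.derivative M), ← sub_mul]
    exact coeff_mul_zero (hd (r + 1)) n hn

/-- the coefficientwise derivation of `M⟦X⟧`. -/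
def c1 (δ : Derivation k M M) (n : PowerSeries M) : PowerSeries M :=
  PowerSeries.mk fun r => δ (PowerSeries.coeff r n)

theorem coeff_c1 (δ : Derivation k M M) (n : PowerSeries M) (r : ℕ) :
    PowerSeries.coeff r (c1 δ n) = δ (PowerSeries.coeff r n) := by
  rw [c1, PowerSeries.coeff_mk]

theorem c1_add (δ : Derivation k M M) (n m : PowerSeries M) :
    c1 δ (n + m) = c1 δ n + c1 δ m := by
  ext r; rw [coeff_c1, map_add, map_add, map_add, coeff_c1, coeff_c1]

/-- coefficientwise derivation of a function of `z`. -/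
theorem cM_sg {z : RR} (hz : MvPowerSeries.constantCoeff z = 0) (δ : Derivation k M M)
    (n : PowerSeries M) : cM δ (sg z hz n) =
      sg z hz (c1 δ n) + sg z hz (PowerSeries.derivative M n) * cM δ z := by
  have e : ∀ Q : Polynomial M, sg z hz (Q : PowerSeries M) = Polynomial.aeval z Q := by
    intro Q
    exact PowerSeries.substAlgHom_coe (hasSubst hz) Q
  -- polynomials
  have hpol : ∀ P : Polynomial M, cM δ (sg z hz (P : PowerSeries M)) =
      sg z hz (c1 δ (P : PowerSeries M)) +
        sg z hz (PowerSeries.derivative M (P : PowerSeries M)) * cM δ z := by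
    intro P
    induction P using Polynomial.induction_on' with
    | add P Q hP hQ =>
      rw [Polynomial.coe_add, map_add, map_add, hP, hQ, c1_add, map_add, map_add, map_add]
      ring
    | monomial r a =>
      have h1 : ((Polynomial.monomial r a : Polynomial M) : PowerSeries M) =
          PowerSeries.C a * PowerSeries.X ^ r := by
        ext j
        rw [Polynomial.coeff_coe, Polynomial.coeff_monomial, PowerSeries.coeff_C_mul,
          PowerSeries.coeff_X_pow]
        by_cases hj : j = r
        · rw [if_pos hj.symm, if_pos hj, mul_one]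
        · rw [if_neg (fun h => hj h.symm), if_neg hj, mul_zero]
      have h2 : c1 δ (PowerSeries.C a * PowerSeries.X ^ r) =
          PowerSeries.C (δ a) * PowerSeries.X ^ r := by
        ext j
        rw [coeff_c1, PowerSeries.coeff_C_mul, PowerSeries.coeff_C_mul, PowerSeries.coeff_X_pow]
        split_ifs
        · rw [mul_one, mul_one]
        · rw [mul_zero, mul_zero, map_zero]
      rw [h1, h2, map_mul, map_pow, sg_X, sg_C, cM_mul, cM_C, Derivation.leibniz_pow, map_mul,
        map_pow, sg_X, sg_C, Derivation.leibniz, Derivation.leibniz_pow, PowerSeries.derivative_C,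
        PowerSeries.derivative_X]
      simp only [smul_eq_mul, nsmul_eq_mul, mul_one, mul_zero, add_zero, map_mul, map_pow, sg_X,
        sg_C, map_natCast]
      ring
  ext d
  obtain ⟨p, hp⟩ : ∃ p : ℕ, p = d.degree + 2 := ⟨_, rfl⟩
  obtain ⟨m, hm⟩ : ∃ m, n = (PowerSeries.trunc p n : PowerSeries M) + PowerSeries.X ^ p * m := by
    have : (PowerSeries.X : PowerSeries M) ^ p ∣ n - (PowerSeries.trunc p n : PowerSeries M) := by
      rw [PowerSeries.X_pow_dvd_iff]
      intro j hj
      rw [map_sub, Polynomial.coeff_coe, PowerSeries.coeff_trunc, if_pos hj, sub_self]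
    obtain ⟨m, hm⟩ := this
    exact ⟨m, by rw [← hm]; ring⟩
  have h1 : MvPowerSeries.coeff d (cM δ (sg z hz (PowerSeries.X ^ p * m))) = 0 := by
    rw [coeff_cM, map_mul, map_pow, sg_X, coeff_pow_mul hz p _ (by omega), map_zero]
  have h2 : MvPowerSeries.coeff d
      (sg z hz (PowerSeries.derivative M (PowerSeries.X ^ p * m)) * cM δ z) = 0 := by
    obtain ⟨q, hq⟩ : ∃ q, PowerSeries.derivative M (PowerSeries.X ^ p * m) =
        PowerSeries.X ^ (d.degree + 1) * q := by
      rw [Derivation.leibniz, Derivation.leibniz_pow, smul_eq_mul, smul_eq_mul, smul_eq_mul,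
        nsmul_eq_mul]
      refine ⟨PowerSeries.X * PowerSeries.derivative M m + m * ((p : PowerSeries M) *
        PowerSeries.derivative M PowerSeries.X), ?_⟩
      have e1 : p - 1 = d.degree + 1 := by omega
      rw [e1, hp]
      ring
    rw [hq, map_mul (sg z hz), map_pow (sg z hz), sg_X, mul_assoc,
      coeff_pow_mul hz _ _ (Nat.lt_succ_self _)]
  have h3 : MvPowerSeries.coeff d (sg z hz (c1 δ (PowerSeries.X ^ p * m))) = 0 := by
    have : c1 δ (PowerSeries.X ^ p * m) = PowerSeries.X ^ p * c1 δ m := by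
      ext j
      rw [coeff_c1, PowerSeries.coeff_X_pow_mul', PowerSeries.coeff_X_pow_mul', coeff_c1]
      split_ifs
      · rfl
      · rw [map_zero]
    rw [this, map_mul, map_pow, sg_X, coeff_pow_mul hz p _ (by omega)]
  rw [hm, c1_add]
  simp only [map_add, add_mul]
  rw [h1, h2, h3, hpol, map_add]
  ring

end Subst

end Crest.Agent.R102.RatT
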