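import Crest.Agent.R102.RatT_201
import Crest.Agent.R102.RATDefs_926

/-!
# Row 102, [H3], RAT toolkit 2 (helper201): the variation formula
-/

set_option autoImplicit false

open MvPowerSeries

noncomputable section

namespace Crest.Agent.R102.RatT

/-- the one-mirror identity, in a field. -/
theorem vf_field {F : Type*} [Field F] {E E' b dE dE' db pE pE' pb n0 n1 x2 : F}
    (hE : E ≠ 0) (hE' : E' ≠ 0) (h1 : x2 * db = E * dE' + E' * dE)
    (h2 : n1 + x2 * pb = E * pE' + E' * pE) :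
    (2 * E * pE * (E * E' * db - E ^ 2 * db - 2 * E * dE * b) -
        (n0 + E * E' * pb - E ^ 2 * pb - 2 * E * pE * b) * (2 * E * dE)) * (E ^ 3)⁻¹ -
      (2 * E' * pE' * (E * E' * db - E' ^ 2 * db - 2 * E' * dE' * b) -
        (n0 + E * E' * pb - E' ^ 2 * pb - 2 * E' * pE' * b) * (2 * E' * dE')) * (E' ^ 3)⁻¹ =
    2 * (db * n1 * (E⁻¹ - E'⁻¹) + n0 * (-(dE * (E ^ 2)⁻¹) + dE' * (E' ^ 2)⁻¹)) := by
  have e : (2 * E * pE * (E * E' * db - E ^ 2 * db - 2 * E * dE * b) -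
        (n0 + E * E' * pb - E ^ 2 * pb - 2 * E * pE * b) * (2 * E * dE)) * (E ^ 3)⁻¹ -
      (2 * E' * pE' * (E * E' * db - E' ^ 2 * db - 2 * E' * dE' * b) -
        (n0 + E * E' * pb - E' ^ 2 * pb - 2 * E' * pE' * b) * (2 * E' * dE')) * (E' ^ 3)⁻¹ -
    2 * (db * n1 * (E⁻¹ - E'⁻¹) + n0 * (-(dE * (E ^ 2)⁻¹) + dE' * (E' ^ 2)⁻¹)) =
    2 * (E' - E) * (E * E')⁻¹ * (-db * (n1 + x2 * pb - (E * pE' + E' * pE)) +
      pb * (x2 * db - (E * dE' + E' * dE))) := by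
    field_simp
    ring
  rw [← sub_eq_zero, e, h1, h2]
  ring

section VF

variable {k M : Type*} [Field k] [Field M] [Algebra k M] [CharZero M]

local notation "RR" => MvPowerSeries (Fin 2) M

variable {D₁ D₂ : Derivation k M M} (h : ∀ f, D₁ (D₂ f) = D₂ (D₁ f))

/-- the 1-form `(δm dk - δk dm) / E³` of the line `(E, k)`. -/
def om (δ : Derivation k M M) (E kk : M) (i : Fin 2) : RR :=
  (del h δ (E ^ 2) * TT D₁ D₂ h (DD D₁ D₂ i kk) -
    del h δ kk * TT D₁ D₂ h (DD D₁ D₂ i (E ^ 2))) * TT D₁ D₂ h ((E ^ 3)⁻¹)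

theorem pd_disp (δ : Derivation k M M) {y y' y'' b : M} (i : Fin 2)
    (hy : DD D₁ D₂ i y = y' * DD D₁ D₂ i b) (hy' : DD D₁ D₂ i y' = y'' * DD D₁ D₂ i b) :
    pderiv M i (del h δ y - TT D₁ D₂ h y' * del h δ b) =
      (del h δ y' - TT D₁ D₂ h y'' * del h δ b) * TT D₁ D₂ h (DD D₁ D₂ i b) := by
  rw [map_sub, pd_del, hy, del_mul, Derivation.leibniz, pd_TT, hy', pd_del, map_mul, smul_eq_mul,
    smul_eq_mul]
  ring

/-- **one-mirror variation formula**. -/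
theorem vf_one (δ : Derivation k M M) {E E' x0 x1 x2 b kk kk' : M} (hE : E ≠ 0) (hE' : E' ≠ 0)
    (inc : x0 = E ^ 2 * b + kk) (inc' : x0 = E' ^ 2 * b + kk') (hrefl : E * E' = x1) (i : Fin 2)
    (jet0 : DD D₁ D₂ i x0 = x1 * DD D₁ D₂ i b) (jet1 : DD D₁ D₂ i x1 = x2 * DD D₁ D₂ i b) :
    om h δ E kk i - om h δ E' kk' i =
      2 * pderiv M i ((del h δ x0 - TT D₁ D₂ h x1 * del h δ b) *
        TT D₁ D₂ h (E⁻¹ - E'⁻¹)) := by
  set Fr := FractionRing RR with hFr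
  set τ : RR →+* Fr := algebraMap RR Fr with hτ
  have hinj : Function.Injective τ := IsFractionRing.injective RR Fr
  set T : M →+* Fr := τ.comp (TT D₁ D₂ h : M →+* RR) with hT
  have hTa : ∀ a, τ (TT D₁ D₂ h a) = T a := fun a => rfl
  apply hinj
  set d : M → M := fun a => DD D₁ D₂ i a with hd
  set n0 : RR := del h δ x0 - TT D₁ D₂ h x1 * del h δ b with hn0
  set n1 : RR := del h δ x1 - TT D₁ D₂ h x2 * del h δ b with hn1
  -- expansions
  have hkk : kk = x0 - E ^ 2 * b := by rw [inc]; ring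
  have hkk' : kk' = x0 - E' ^ 2 * b := by rw [inc']; ring
  have dsq : ∀ e : M, DD D₁ D₂ i (e ^ 2) = 2 * e * DD D₁ D₂ i e := by
    intro e
    rw [sq, Derivation.leibniz, smul_eq_mul]
    ring
  have psq : ∀ e : M, del h δ (e ^ 2) = 2 * TT D₁ D₂ h e * del h δ e := by
    intro e
    rw [sq, del_mul]
    ring
  have hdk : ∀ e : M, DD D₁ D₂ i (x0 - e ^ 2 * b) =
      x1 * DD D₁ D₂ i b - e ^ 2 * DD D₁ D₂ i b - 2 * e * DD D₁ D₂ i e * b := by
    intro e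
    rw [map_sub, jet0, Derivation.leibniz, dsq, smul_eq_mul, smul_eq_mul]
    ring
  have hpk : ∀ e : M, del h δ (x0 - e ^ 2 * b) =
      n0 + TT D₁ D₂ h x1 * del h δ b - TT D₁ D₂ h e ^ 2 * del h δ b -
        2 * TT D₁ D₂ h e * del h δ e * TT D₁ D₂ h b := by
    intro e
    rw [del_sub, del_mul, psq, hn0, map_pow]
    ring
  have hpn : pderiv M i n0 = n1 * TT D₁ D₂ h (DD D₁ D₂ i b) := pd_disp h δ i jet0 jet1
  have dinv : DD D₁ D₂ i (E⁻¹ - E'⁻¹) =
      -(DD D₁ D₂ i E * (E ^ 2)⁻¹) + DD D₁ D₂ i E' * (E' ^ 2)⁻¹ := by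
    rw [map_sub, Derivation.leibniz_inv, Derivation.leibniz_inv, smul_eq_mul, smul_eq_mul,
      inv_pow, inv_pow]
    ring
  have r1 : x2 * DD D₁ D₂ i b = E * DD D₁ D₂ i E' + E' * DD D₁ D₂ i E := by
    rw [← jet1, ← hrefl, Derivation.leibniz, smul_eq_mul, smul_eq_mul]
  have r2 : n1 + TT D₁ D₂ h x2 * del h δ b =
      TT D₁ D₂ h E * del h δ E' + TT D₁ D₂ h E' * del h δ E := by
    rw [hn1, ← hrefl, del_mul]
    ring
  have key := vf_field (F := Fr) (E := T E) (E' := T E') (b := T b)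
    (dE := T (DD D₁ D₂ i E)) (dE' := T (DD D₁ D₂ i E')) (db := T (DD D₁ D₂ i b))
    (pE := τ (del h δ E)) (pE' := τ (del h δ E')) (pb := τ (del h δ b)) (n0 := τ n0)
    (n1 := τ n1) (x2 := T x2)
    ((map_ne_zero T).mpr hE) ((map_ne_zero T).mpr hE')
    (by rw [← map_mul, r1, map_add, map_mul, map_mul])
    (by
      have := congrArg τ r2
      simpa only [map_add, map_mul, hTa] using this)
  rw [om, om, hkk, hkk', dsq, dsq, psq, psq, hdk, hdk, hpk, hpk, Derivation.leibniz, hpn, pd_TT,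
    dinv, ← hrefl]
  simp only [map_add, map_sub, map_mul, map_pow, smul_eq_mul, hTa, map_inv₀, map_neg, map_ofNat]
  rw [← hrefl] at hn0
  linear_combination key

end VF

end Crest.Agent.R102.RatT
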