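import Mathlib

/-! Record starts (R1_523, step 2), pure real analysis: Baire category + lower semicontinuity.
`lam` = base slopes of the lines, `a` = base slopes of the vertices, RULE = none of the three
numbers `lam (s - u/2) + 1/2`, `a s`, `lam (s + u/2) - 1/2` is the unique smallest one. -/

set_option autoImplicit false

namespace Crest.Agent.R102.Rec359

open Set Filter Topology

/-- bad points of a lower semicontinuous function: frontiers of the rational superlevel sets -/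
def bad (f : ℝ → EReal) : Set ℝ := ⋃ q : ℚ, frontier {x | (((q : ℝ)) : EReal) < f x}

theorem bad_meagre {f : ℝ → EReal} (hf : LowerSemicontinuous f) : IsMeagre (bad f) := by
  refine isMeagre_iUnion fun q => ?_
  have ho : IsOpen {x | (((q : ℝ)) : EReal) < f x} := hf.isOpen_preimage _
  refine IsNowhereDense.isMeagre ?_
  rw [isClosed_frontier.isNowhereDense_iff, ← frontier_compl]
  exact interior_frontier ho.isClosed_compl

/-- off the bad set a lower semicontinuous function is upper semicontinuous -/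
theorem upper_of_not_bad {f : ℝ → EReal} {x : ℝ} (hx : x ∉ bad f) {y : EReal} (hy : f x < y) :
    ∀ᶠ z in 𝓝 x, f z < y := by
  obtain ⟨q, hq1, hq2⟩ := EReal.lt_iff_exists_rat_btwn.1 hy
  have h1 : x ∉ frontier {x | (((q : ℝ)) : EReal) < f x} := fun h => hx (mem_iUnion.2 ⟨q, h⟩)
  have h2 : x ∉ {x | (((q : ℝ)) : EReal) < f x} := fun h => absurd h (not_lt.2 hq1.le)
  have h3 : x ∉ closure {x | (((q : ℝ)) : EReal) < f x} := by
    intro h
    refine h1 ⟨h, fun hi => h2 (interior_subset hi)⟩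
  have h4 : {x | (((q : ℝ)) : EReal) < f x}ᶜ ∈ 𝓝 x := by
    refine mem_of_superset (isClosed_closure.isOpen_compl.mem_nhds h3) ?_
    exact compl_subset_compl.2 subset_closure
  filter_upwards [h4] with z hz
  have : f z ≤ (((q : ℝ)) : EReal) := not_lt.1 hz
  exact lt_of_le_of_lt this hq2

/-- translates of meagre sets are meagre -/
theorem meagre_translate {N : Set ℝ} (hN : IsMeagre N) (c : ℝ) : IsMeagre {x | x - c ∈ N} := by
  have : {x | x - c ∈ N} = (fun x => x - c) ⁻¹' N := rfl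
  rw [this]
  exact hN.preimage_of_isOpenMap (by fun_prop) (Homeomorph.subRight c).isOpenMap

/-- the RULE at one point: none of `x`, `y`, `z` is the unique smallest one -/
def NoUniqueMin (x y z : EReal) : Prop :=
  ¬ (x < y ∧ x < z) ∧ ¬ (y < x ∧ y < z) ∧ ¬ (z < x ∧ z < y)

/-- **Record start (pointwise).** -/
theorem record_point {lam : ℝ → ℝ} {a : ℝ → EReal} {u : ℝ} {c₁ c₂ : ℝ}
    (h1 : ∀ s, c₁ ≤ lam s) (h2 : ∀ s, lam s ≤ c₂)
    (rule : ∀ s, NoUniqueMin ((lam (s - u/2) + 1/2 : ℝ) : EReal) (a s)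
      ((lam (s + u/2) - 1/2 : ℝ) : EReal)) (s' : ℝ) :
    ∃ j : ℕ, (j : ℝ) ≤ c₂ - c₁ ∧
      a (s' - (j + 1/2) * u) = ((lam (s' - j * u) - 1/2 : ℝ) : EReal) ∧
      ∀ i : ℕ, lam (s' - j * u) - 1/2 <
        lam (s' - (j + 1/2) * u - (i + 1/2) * u) + (i + 1/2) := by
  classical
  -- the set of indices of the minimum
  set M : ℕ → ℝ := fun i => lam (s' - i * u) + i with hM
  have hM1 : ∀ i : ℕ, c₁ + i ≤ M i := fun i => by
    have := h1 (s' - i * u); simp only [hM]; linarith
  have hM0 : M 0 ≤ c₂ := by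
    have := h2 (s' - (0:ℕ) * u); simp only [hM]; push_cast at *; linarith
  obtain ⟨n, hn⟩ := exists_nat_gt (c₂ - c₁)
  have hbig : ∀ i : ℕ, n ≤ i → M 0 < M i := fun i hi => by
    have h3 := hM1 i
    have h4 : (n : ℝ) ≤ i := by exact_mod_cast hi
    linarith
  -- a minimum over range (n+1)
  obtain ⟨k, hk, hkmin⟩ := Finset.exists_min_image (Finset.range (n+1)) M ⟨0, by simp⟩
  have hkall : ∀ i, M k ≤ M i := fun i => by
    by_cases hi : i < n + 1
    · exact hkmin i (Finset.mem_range.2 hi)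
    · exact (hkmin 0 (by simp)).trans (hbig i (by omega)).le
  -- the largest index of the minimum
  let P : Finset ℕ := (Finset.range (n+1)).filter fun i => M i = M k
  have hPne : P.Nonempty := ⟨k, Finset.mem_filter.2 ⟨hk, rfl⟩⟩
  set j := P.max' hPne with hj
  have hjP : j ∈ P := P.max'_mem hPne
  have hjM : M j = M k := (Finset.mem_filter.1 hjP).2
  have hjlt : ∀ i : ℕ, j < i → M j < M i := fun i hi => by
    rcases lt_or_eq_of_le (hjM ▸ hkall i : M j ≤ M i) with h | h
    · exact h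
    · exfalso
      have hin : i < n + 1 := by
        by_contra hcon
        have h5 := hbig i (by omega)
        have h6 : M j ≤ M 0 := hjM ▸ hkall 0
        linarith
      have : i ∈ P := by
        simp only [P, Finset.mem_filter, Finset.mem_range]
        exact ⟨hin, by rw [← h, hjM]⟩
      exact absurd (P.le_max' i this) (by rw [← hj]; omega)
  refine ⟨j, ?_, ?_, ?_⟩
  · have h6 : M j ≤ M 0 := hjM ▸ hkall 0
    have h7 := hM1 j
    linarith
  · have hr := rule (s' - (j + 1/2) * u)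
    have e1 : s' - (j + 1/2) * u - u/2 = s' - ((j + 1 : ℕ) : ℝ) * u := by push_cast; ring
    have e2 : s' - (j + 1/2) * u + u/2 = s' - j * u := by ring
    rw [e1, e2] at hr
    have hlt : lam (s' - j * u) - 1/2 < lam (s' - ((j + 1 : ℕ) : ℝ) * u) + 1/2 := by
      have := hjlt (j+1) (by omega)
      simp only [hM] at this
      push_cast at this ⊢
      linarith
    have hlt' : ((lam (s' - j * u) - 1/2 : ℝ) : EReal) <
        ((lam (s' - ((j + 1 : ℕ) : ℝ) * u) + 1/2 : ℝ) : EReal) := by exact_mod_cast hlt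
    obtain ⟨-, r2, r3⟩ := hr
    have hle : a (s' - (j + 1/2) * u) ≤ ((lam (s' - j * u) - 1/2 : ℝ) : EReal) := by
      by_contra hcon
      exact r3 ⟨hlt', not_le.1 hcon⟩
    refine le_antisymm hle ?_
    by_contra hcon
    exact r2 ⟨(not_le.1 hcon).trans hlt', not_le.1 hcon⟩
  · intro i
    have h8 := hjlt (j + 1 + i) (by omega)
    have e3 : s' - (j + 1/2) * u - (i + 1/2) * u = s' - ((j + 1 + i : ℕ) : ℝ) * u := by
      push_cast; ring
    rw [e3]
    simp only [hM] at h8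
    push_cast at h8 ⊢
    linarith

/-- **Record starts (R1_523, step 2).**  `s₀`, `a⋆`, `c` first, then `ε`. -/
theorem record_start {lam : ℝ → ℝ} {a : ℝ → EReal} {u : ℝ} {c₁ c₂ : ℝ}
    (hlam : LowerSemicontinuous lam) (ha : LowerSemicontinuous a)
    (h1 : ∀ s, c₁ ≤ lam s) (h2 : ∀ s, lam s ≤ c₂)
    (rule : ∀ s, NoUniqueMin ((lam (s - u/2) + 1/2 : ℝ) : EReal) (a s)
      ((lam (s + u/2) - 1/2 : ℝ) : EReal)) :
    ∃ s₀ a₀ c : ℝ, 0 < c ∧ a s₀ = (a₀ : EReal) ∧ ∀ ε > (0 : ℝ), ∃ δ > (0 : ℝ), ∀ s, |s - s₀| < δ →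
      (∃ r : ℝ, a s = (r : EReal) ∧ |r - a₀| < ε) ∧
      (∀ i : ℕ, a₀ + c < lam (s - (i + 1/2) * u) + (i + 1/2)) ∧
      (∀ i : ℕ, 1 ≤ i → ((a₀ + c - i : ℝ) : EReal) < a (s - i * u)) := by
  obtain ⟨n, hn⟩ := exists_nat_gt (c₂ - c₁)
  -- a point off all translates of the bad set
  have hmeag : IsMeagre (⋃ j : ℕ, {x : ℝ | x - ((j : ℝ) + 1/2) * u ∈ bad a}) :=
    isMeagre_iUnion fun j => meagre_translate (bad_meagre ha) _
  have hres : (⋃ j : ℕ, {x : ℝ | x - ((j : ℝ) + 1/2) * u ∈ bad a})ᶜ ∈ residual ℝ := hmeag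
  obtain ⟨s', hs'⟩ := (dense_of_mem_residual hres).nonempty
  obtain ⟨j, hj1, hj2, hj3⟩ := record_point h1 h2 rule s'
  set s₀ := s' - ((j : ℝ) + 1/2) * u with hs₀
  set a₀ := lam (s' - j * u) - 1/2 with ha₀
  have hs₀bad : s₀ ∉ bad a := fun h => hs' (mem_iUnion.2 ⟨j, h⟩)
  -- large indices
  obtain ⟨m, hm⟩ := exists_nat_gt (a₀ + 1 - c₁)
  -- the constant c
  obtain ⟨c, hc0, hc1, hc⟩ : ∃ c : ℝ, 0 < c ∧ c ≤ 1 ∧
      ∀ i : ℕ, i < m → a₀ + c < lam (s₀ - (i + 1/2) * u) + (i + 1/2) := by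
    have : ∀ k : ℕ, ∃ c : ℝ, 0 < c ∧ c ≤ 1 ∧
        ∀ i : ℕ, i < k → a₀ + c < lam (s₀ - (i + 1/2) * u) + (i + 1/2) := by
      intro k
      induction k with
      | zero => exact ⟨1, one_pos, le_rfl, fun i hi => absurd hi (by omega)⟩
      | succ k ih =>
        obtain ⟨c, c0, c1, hc⟩ := ih
        have h9 := hj3 k
        set gap := lam (s₀ - (k + 1/2) * u) + (k + 1/2) - a₀ with hgap
        have hgap0 : 0 < gap := by rw [hgap]; linarith
        refine ⟨min c (gap/2), lt_min c0 (half_pos hgap0), (min_le_left _ _).trans c1, ?_⟩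
        intro i hi
        rcases Nat.lt_succ_iff_lt_or_eq.1 hi with h | h
        · have := hc i h
          have := min_le_left c (gap/2)
          linarith
        · subst h
          have := min_le_right c (gap/2)
          have h10 : a₀ + gap = lam (s₀ - (i + 1/2) * u) + (i + 1/2) := by rw [hgap]; ring
          linarith
    exact this m
  refine ⟨s₀, a₀, c, hc0, hj2, fun ε hε => ?_⟩
  -- the eventual conditions
  have ev1 : ∀ᶠ s in 𝓝 s₀, a s < ((a₀ + ε : ℝ) : EReal) := by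
    refine upper_of_not_bad hs₀bad ?_
    rw [hj2]; exact_mod_cast (by linarith : a₀ < a₀ + ε)
  have ev2 : ∀ᶠ s in 𝓝 s₀, ((a₀ - ε : ℝ) : EReal) < a s := by
    refine ha s₀ _ ?_
    show ((a₀ - ε : ℝ) : EReal) < a s₀
    rw [hj2]; exact_mod_cast (by linarith : a₀ - ε < a₀)
  have ev3 : ∀ᶠ s in 𝓝 s₀, ∀ i ∈ Finset.range m, a₀ + c < lam (s - (i + 1/2) * u) + (i + 1/2) := by
    rw [Filter.eventually_all_finset]
    intro i hi
    have h11 := hc i (Finset.mem_range.1 hi)
    have h12 := hlam (s₀ - (i + 1/2) * u) (a₀ + c - (i + 1/2)) (by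
      show a₀ + c - (i + 1/2) < lam (s₀ - (i + 1/2) * u)
      linarith)
    have h13 : Tendsto (fun s : ℝ => s - ((i : ℝ) + 1/2) * u) (𝓝 s₀)
        (𝓝 (s₀ - ((i : ℝ) + 1/2) * u)) := by
      exact Continuous.tendsto (by fun_prop) s₀
    filter_upwards [h13.eventually h12] with s hs
    have : a₀ + c - (i + 1/2) < lam (s - (i + 1/2) * u) := hs
    linarith
  obtain ⟨δ, hδ, hball⟩ := Metric.eventually_nhds_iff.1 (ev1.and (ev2.and ev3))
  refine ⟨δ, hδ, fun s hs => ?_⟩
  obtain ⟨g1, g2, g3⟩ := hball (by rwa [Real.dist_eq] : dist s s₀ < δ)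
  have g4 : ∀ i : ℕ, a₀ + c < lam (s - (i + 1/2) * u) + (i + 1/2) := by
    intro i
    by_cases hi : i < m
    · exact g3 i (Finset.mem_range.2 hi)
    · have h14 : (m : ℝ) ≤ i := by exact_mod_cast (not_lt.1 hi)
      have h15 := h1 (s - (i + 1/2) * u)
      linarith
  refine ⟨?_, g4, ?_⟩
  · have hne1 : a s ≠ ⊤ := ne_top_of_lt g1
    have hne2 : a s ≠ ⊥ := ne_bot_of_gt g2
    refine ⟨(a s).toReal, (EReal.coe_toReal hne1 hne2).symm, ?_⟩
    rw [← EReal.coe_toReal hne1 hne2] at g1 g2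
    have g1' : (a s).toReal < a₀ + ε := by exact_mod_cast g1
    have g2' : a₀ - ε < (a s).toReal := by exact_mod_cast g2
    rw [abs_lt]; constructor <;> linarith
  · intro i hi
    obtain ⟨-, r2, -⟩ := rule (s - i * u)
    have e1 : s - i * u - u/2 = s - (i + 1/2) * u := by ring
    have e2 : s - i * u + u/2 = s - (((i - 1 : ℕ) : ℝ) + 1/2) * u := by
      rw [Nat.cast_sub hi]; push_cast; ring
    rw [e1, e2] at r2
    by_contra hcon
    have hcon' := not_lt.1 hcon
    refine r2 ⟨lt_of_le_of_lt hcon' ?_, lt_of_le_of_lt hcon' ?_⟩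
    · have := g4 i
      exact_mod_cast (by linarith : a₀ + c - i < lam (s - (i + 1/2) * u) + 1/2)
    · have := g4 (i - 1)
      rw [Nat.cast_sub hi] at this ⊢
      push_cast at this ⊢
      have h16 : a₀ + c - i < lam (s - ((i : ℝ) - 1 + 1/2) * u) - 1/2 := by linarith
      exact_mod_cast h16

end Crest.Agent.R102.Rec359
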