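import Crest.Agent.R102.LagB_821

/-!
Row 102, part (B) (helper821): from the action estimate `ResonanceB4` to the resonant Fourier
coefficients of `P = X_t E`.
-/

set_option autoImplicit false

open Set Filter Topology Metric Complex MeasureTheory
open scoped Real ContDiff ComplexConjugate

noncomputable section

namespace Crest.Agent.R102.B821

open Crest.Agent.R266.SCV

variable {ρ₀ ε₀ k ρ r d : ℝ} {L Ψ U V f g : ℂ × ℂ → ℂ}

/-- the constants of B4 for a fixed Lagrangian -/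
def B4Const (ρ₀ : ℝ) (L : ℂ × ℂ → ℂ) (C c r₁ : ℝ) : Prop :=
  ∀ (ρ d w ε : ℝ) (n j : ℕ) (X : ℂ → ℂ), 0 < d → d < ρ → d ≤ 1 → ρ ≤ ρ₀ / 2 → 0 < n → 0 < j →
        w = j / n → w < r₁ → 0 ≤ ε → (n : ℝ) ^ 6 * ε ≤ c * d →
        DifferentiableOn ℂ X {t | |t.im| < ρ} →
        (∀ t : ℂ, |t.im| < ρ → X (t + 1) = X t + 1) →
        (∀ t : ℝ, (X t).im = 0) →
        (∀ t : ℂ, |t.im| < ρ → ‖X t - t‖ ≤ ρ₀ / 8) →
        (∀ t : ℂ, |t.im| < ρ → ‖deriv X t - 1‖ ≤ 1 / 100) →
        (∀ t : ℂ, |t.im| < ρ → ‖deriv X t * EL L (X (t - w)) (X t) (X (t + w))‖ ≤ ε) →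
        ∃ A : ℂ, ∀ t : ℂ, |t.im| < ρ - d →
          ‖(∑ i ∈ Finset.range n, L (X (t + i * w), X (t + (i + 1) * w))) - A‖ ≤
            C * n ^ 5 / w ^ 2 * ε ^ 2

lemma real_w_mem {t : ℂ} {w : ℝ} {k ρ r : ℝ} : (t, (w : ℂ)) ∈ Dom k ρ r ↔ |t.im| < ρ ∧ |w| < r := by
  simp [mem_Dom]

/-- resonant coefficients, positive frequency and positive rotation number -/
theorem Adm.res_pos (hL : IsLag ρ₀ ε₀ L Ψ) {C c r₁ e : ℝ} (hC : 0 ≤ C) (hB4 : B4Const ρ₀ L C c r₁)
    (h : Adm ρ₀ ε₀ ρ r U) (hr₁ : r ≤ r₁) (he : 0 ≤ e) (hP : Bdd (3 / 2) ρ r 8 e (Pf L U))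
    (hd : 0 < d) (hdρ : d < ρ) (hd1 : d ≤ 1) {n j : ℕ} (hn : 0 < n) (hj : 0 < j)
    (hw : (j : ℝ) / n < r) (hnc : (n : ℝ) ^ 6 * e ≤ c * d) :
    ‖fc (Pf L U) n (((j : ℝ) / n : ℝ) : ℂ)‖ ≤
      7 * C * n ^ 5 * e ^ 2 * ((j : ℝ) / n) ^ 8 * Real.exp (-(2 * π * n * (ρ - d))) := by
  set w : ℝ := (j : ℝ) / n with hwdef
  have hnR : (0 : ℝ) < n := by exact_mod_cast hn
  have hjR : (0 : ℝ) < j := by exact_mod_cast hj
  have hw0 : 0 < w := by positivity
  have hw1 : w < 1 := by have := h.r_le; linarith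
  have hwabs : |w| < r := by rwa [abs_of_pos hw0]
  have hρ := h.ρ_pos
  -- the leaf
  set X : ℂ → ℂ := fun t => Xf U (t, (w : ℂ)) with hX
  have hmem : ∀ t : ℂ, |t.im| < ρ → (t, (w : ℂ)) ∈ Dom (1 / 2) ρ r := fun t ht =>
    real_w_mem.2 ⟨ht, hwabs⟩
  have hmem3 : ∀ t : ℂ, |t.im| < ρ → (t, (w : ℂ)) ∈ Dom (3 / 2) ρ r := fun t ht =>
    real_w_mem.2 ⟨ht, hwabs⟩
  have hXd : ∀ t : ℂ, |t.im| < ρ → HasDerivAt X (Xt U (t, (w : ℂ))) t := by
    intro t ht
    have := hasDerivAt_Xf_t (c := 0) (U := U) (t := t) (w := (w : ℂ))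
      (by simpa using h.hU.differentiableAt (hmem t ht))
    simpa [tr_zero] using this
  have hXper : ∀ t : ℂ, |t.im| < ρ → X (t + 1) = X t + 1 := fun t ht =>
    h.hU.isX.per t w (hmem t ht)
  have hXre : ∀ t : ℝ, (X t).im = 0 := by
    intro t
    have h1 := h.re.apply (hmem (t : ℂ) (by simpa using hρ))
    rw [Complex.conj_ofReal, Complex.conj_ofReal] at h1
    have h2 : (U ((t : ℂ), (w : ℂ))).im = 0 := Complex.conj_eq_iff_im.1 h1.symm
    simp [hX, Xf, h2]
  have hXt : ∀ t : ℂ, |t.im| < ρ → ‖X t - t‖ ≤ ρ₀ / 8 := by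
    intro t ht
    have : X t - t = U (t, (w : ℂ)) := by simp [hX, Xf]
    rw [this]
    exact h.U_bd _ (hmem t ht)
  have hX1 : ∀ t : ℂ, |t.im| < ρ → ‖deriv X t - 1‖ ≤ 1 / 100 := by
    intro t ht
    rw [(hXd t ht).deriv]
    have : Xt U (t, (w : ℂ)) - 1 = q1 U (t, (w : ℂ)) := by unfold Xt; ring
    rw [this]
    exact h.Ut_bd _ (hmem t ht)
  have hPX : ∀ t : ℂ, |t.im| < ρ →
      deriv X t * EL L (X (t - w)) (X t) (X (t + w)) = Pf L U (t, (w : ℂ)) := by
    intro t ht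
    rw [(hXd t ht).deriv]
    unfold Pf Ef tr
    simp only [hX]
    have e1 : t + ((-1 : ℝ) : ℂ) * (w : ℂ) = t - w := by push_cast; ring
    have e2 : t + ((1 : ℝ) : ℂ) * (w : ℂ) = t + w := by push_cast; ring
    rw [e1, e2]
  set ε : ℝ := e * w ^ 8 with hε
  have hε0 : 0 ≤ ε := by positivity
  have hPε : ∀ t : ℂ, |t.im| < ρ → ‖Pf L U (t, (w : ℂ))‖ ≤ ε := by
    intro t ht
    have := hP _ (hmem3 t ht)
    simp only [Complex.norm_real, Real.norm_of_nonneg hw0.le] at this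
    exact this
  have hw8 : w ^ 8 ≤ 1 := pow_le_one₀ hw0.le hw1.le
  have hnε : (n : ℝ) ^ 6 * ε ≤ c * d := by
    refine le_trans ?_ hnc
    rw [hε]
    have : e * w ^ 8 ≤ e * 1 := mul_le_mul_of_nonneg_left hw8 he
    refine mul_le_mul_of_nonneg_left (by linarith) (by positivity)
  obtain ⟨A, hA⟩ := hB4 ρ d w ε n j X hd hdρ hd1 h.ρ_le hn hj rfl (by linarith) hε0 hnε
    (fun t ht => (hXd t ht).differentiableAt.differentiableWithinAt) hXper hXre hXt hX1
    (fun t ht => by rw [hPX t ht]; exact hPε t ht)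
  -- the action function
  set W : ℂ → ℂ := fun t => ∑ i ∈ Finset.range n, L (X (t + i * w), X (t + (i + 1) * w)) with hW
  have him : ∀ (t : ℂ) (a : ℝ), (t + a * (w : ℂ)).im = t.im := by
    intro t a
    simp
  have hpair : ∀ (t : ℂ) (a : ℝ), |t.im| < ρ →
      (X (t + a * w), X (t + (a + 1) * w)) ∈ Dg ρ₀ ε₀ := by
    intro t a ht
    have h1 := hmem (t + a * w) (by rw [him]; exact ht)
    have h2 := hmem (t + ((a + 1 : ℝ) : ℂ) * w) (by rw [him]; exact ht)
    have h3 := h.pair h1 h2 (by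
      have : t + ((a + 1 : ℝ) : ℂ) * w - (t + a * w) = w := by push_cast; ring
      rw [this])
    have h4 := Dg_sub_of_lag hL h3
    simpa [hX] using h4
  have hXd' : ∀ (t : ℂ) (a : ℝ), |t.im| < ρ →
      HasDerivAt (fun t => X (t + a * w)) (Xt U (t + a * w, (w : ℂ))) t := by
    intro t a ht
    have h1 : HasDerivAt (fun t : ℂ => t + a * (w : ℂ)) 1 t := (hasDerivAt_id t).add_const _
    have h2 := (hXd (t + a * w) (by rw [him]; exact ht)).comp t h1
    exact h2.congr_deriv (mul_one _)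
  -- derivative of one summand
  set A1 : ℂ → ℝ → ℂ := fun t a => q1 L (X (t + a * w), X (t + (a + 1) * w)) *
    Xt U (t + a * w, (w : ℂ)) with hA1
  set A2 : ℂ → ℝ → ℂ := fun t a => q2 L (X (t + (a - 1) * w), X (t + a * w)) *
    Xt U (t + a * w, (w : ℂ)) with hA2
  have hsum_d : ∀ (t : ℂ) (a : ℝ), |t.im| < ρ →
      HasDerivAt (fun t => L (X (t + a * w), X (t + (a + 1) * w))) (A1 t a + A2 t (a + 1)) t := by
    intro t a ht
    have h1 := hXd' t a ht
    have h2 := hXd' t (a + 1) ht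
    push_cast at h2
    have h3 := hasDerivAt_comp2 (F := L) (hL.dL _ (hpair t a ht)) h1 h2
    refine h3.congr_deriv ?_
    simp only [hA1, hA2]
    push_cast
    ring_nf
  have hP12 : ∀ (t : ℂ) (a : ℝ), Pf L U (t + a * w, (w : ℂ)) = A2 t a + A1 t a := by
    intro t a
    simp only [hA1, hA2, hX]
    unfold Pf Ef tr EL
    simp only
    have e1 : t + a * (w : ℂ) + ((-1 : ℝ) : ℂ) * (w : ℂ) = t + (a - 1) * w := by push_cast; ring
    have e2 : t + a * (w : ℂ) + ((1 : ℝ) : ℂ) * (w : ℂ) = t + (a + 1) * w := by push_cast; ring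
    rw [e1, e2]
    ring
  have hA2per : ∀ t : ℂ, |t.im| < ρ → A2 t n = A2 t 0 := by
    intro t ht
    have hnw : (n : ℂ) * (w : ℂ) = j := by
      have hn0 : (n : ℂ) ≠ 0 := by exact_mod_cast hn.ne'
      rw [hwdef]; push_cast; field_simp
    have hXj : ∀ (m : ℕ) (s : ℂ), |s.im| < ρ → X (s + m) = X s + m := by
      intro m
      induction m with
      | zero => intro s _; simp
      | succ m ih =>
        intro s hs
        have h1 := ih s hs
        have h2 := hXper (s + m) (by simpa using hs)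
        push_cast
        rw [← add_assoc, h2, h1]
        ring
    have hXtj : ∀ (m : ℕ) (s : ℂ), |s.im| < ρ → Xt U (s + m, (w : ℂ)) = Xt U (s, (w : ℂ)) := by
      intro m
      induction m with
      | zero => intro s _; simp
      | succ m ih =>
        intro s hs
        have h1 := ih s hs
        have h2 := h.hXt.per (s + m) w (hmem _ (by simpa using hs))
        push_cast
        rw [← add_assoc, h2, h1]
    have hq2j : ∀ (m : ℕ) (a b : ℂ), (a, b) ∈ Dg ρ₀ ε₀ → q2 L (a + m, b + m) = q2 L (a, b) := by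
      intro m
      induction m with
      | zero => intro a b _; simp
      | succ m ih =>
        intro a b hab
        have h1 := ih a b hab
        have h3 : (a + m, b + m) ∈ Dg ρ₀ ε₀ := by
          simp only [Dg, Set.mem_ofPred_eq] at hab ⊢
          rw [add_sub_add_right_eq_sub]
          simpa using hab
        have h2 := hL.q2_per h3
        push_cast
        rw [← add_assoc, ← add_assoc, h2, h1]
    have e1 : t + (((n : ℝ) : ℂ) - 1) * w = (t + (((0 : ℝ) : ℂ) - 1) * w) + j := by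
      push_cast; linear_combination hnw
    have e2 : t + ((n : ℝ) : ℂ) * w = (t + ((0 : ℝ) : ℂ) * w) + j := by
      push_cast; linear_combination hnw
    have i1 : |(t + (((0 : ℝ) : ℂ) - 1) * w).im| < ρ := by
      have := him t ((0 : ℝ) - 1)
      push_cast at this ⊢
      rw [this]; exact ht
    have i2 : |(t + ((0 : ℝ) : ℂ) * w).im| < ρ := by
      rw [him]; exact ht
    have hp0 : (X (t + (((0 : ℝ) : ℂ) - 1) * w), X (t + ((0 : ℝ) : ℂ) * w)) ∈ Dg ρ₀ ε₀ := by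
      have := hpair t (-1) ht
      push_cast at this ⊢
      have e3 : t + (-1 : ℂ) * (w : ℂ) = t + (0 - 1) * w := by ring
      have e4 : t + (-1 + 1 : ℂ) * (w : ℂ) = t + 0 * w := by ring
      rwa [e3, e4] at this
    simp only [hA2]
    rw [e1, e2, hXj j _ i1, hXj j _ i2, hXtj j _ i2, hq2j j _ _ hp0]
  have hWd : ∀ t : ℂ, |t.im| < ρ →
      HasDerivAt W (∑ i ∈ Finset.range n, Pf L U (t + ((i : ℝ) : ℂ) * w, (w : ℂ))) t := by
    intro t ht
    have h1 : HasDerivAt W (∑ i ∈ Finset.range n, (A1 t i + A2 t (i + 1))) t := by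
      have h2 := HasDerivAt.fun_sum (u := Finset.range n)
        (A := fun (i : ℕ) (t : ℂ) => L (X (t + ((i : ℝ) : ℂ) * w), X (t + (((i : ℝ) : ℂ) + 1) * w)))
        (A' := fun i => A1 t i + A2 t (i + 1)) (x := t) (fun i _ => hsum_d t i ht)
      simpa [hW] using h2
    refine h1.congr_deriv ?_
    simp only [hP12]
    rw [Finset.sum_add_distrib, Finset.sum_add_distrib, add_comm]
    congr 1
    have h3 : ∑ i ∈ Finset.range n, A2 t ((i : ℝ) + 1) =
        ∑ i ∈ Finset.range n, (fun i : ℕ => A2 t (i : ℝ)) (i + 1) := by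
      refine Finset.sum_congr rfl (fun i _ => ?_)
      simp
    rw [h3, Finset.sum_range_succ' (fun i : ℕ => A2 t (i : ℝ)) n |>.symm.trans
      (Finset.sum_range_succ (fun i : ℕ => A2 t (i : ℝ)) n) |> eq_sub_of_add_eq]
    simp only [Nat.cast_zero]
    rw [hA2per t ht]
    ring
  -- W is periodic
  have hWper : ∀ t : ℂ, |t.im| < ρ → W (t + 1) = W t := by
    intro t ht
    simp only [hW]
    refine Finset.sum_congr rfl (fun i _ => ?_)
    have h1 := hpair t i ht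
    have i1 : |(t + ((i : ℝ) : ℂ) * w).im| < ρ := by rw [him]; exact ht
    have i2 : |(t + (((i : ℝ) : ℂ) + 1) * w).im| < ρ := by
      have := him t ((i : ℝ) + 1)
      push_cast at this ⊢
      rw [this]; exact ht
    have e1 := hXper _ i1
    have e2 := hXper _ i2
    have e3 := hL.perL h1
    push_cast at e1 e2 e3 ⊢
    have a1 : t + 1 + (i : ℂ) * w = t + i * w + 1 := by ring
    have a2 : t + 1 + ((i : ℂ) + 1) * w = t + ((i : ℂ) + 1) * w + 1 := by ring
    rw [a1, a2, e1, e2, e3]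
  -- the auxiliary two variable function
  set f : ℂ × ℂ → ℂ := fun p => W p.1 - A with hf
  have hfH : IsH 0 (ρ - d) 1 f := by
    refine ⟨?_, ?_⟩
    · intro p hp
      have hp1 : |p.1.im| < ρ := by
        have := hp.1
        rw [zero_mul, add_zero] at this
        linarith
      have h1 : DifferentiableAt ℂ W p.1 := (hWd p.1 hp1).differentiableAt
      exact ((h1.comp p differentiableAt_fst).sub_const A).differentiableWithinAt
    · intro t z hz
      have hp1 : |t.im| < ρ := by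
        have := hz.1
        simp only [zero_mul, add_zero] at this
        linarith
      simp only [hf]
      rw [hWper t hp1]
  have hfb : Bdd 0 (ρ - d) 1 0 (C * n ^ 5 / w ^ 2 * ε ^ 2) f := by
    intro p hp
    rw [pow_zero, mul_one]
    refine hA p.1 ?_
    have := hp.1
    rw [zero_mul, add_zero] at this
    exact this
  have h1 := norm_fc_le hfH hfb (n : ℤ) (w := 0) (by simp) (by simp; linarith)
  have h2 := fc_q1 hfH (n : ℤ) (w := 0) (by simp) (by simp; linarith)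
  -- the derivative
  have hreal : ∀ x : ℝ, ((x : ℂ)).im = 0 := fun x => Complex.ofReal_im x
  have h3 : fc (q1 f) (n : ℤ) 0 = n * fc (Pf L U) n (w : ℂ) := by
    have hPH := h.hPf hL
    have e1 : fc (q1 f) (n : ℤ) 0 = ∑ i ∈ Finset.range n, fc (tr (i : ℝ) (Pf L U)) n (w : ℂ) := by
      unfold fc
      rw [← intervalIntegral.integral_finsetSum]
      · refine intervalIntegral.integral_congr (fun x _ => ?_)
        have hx : |((x : ℂ)).im| < ρ := by rw [hreal, abs_zero]; exact hρ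
        have hd2 : q1 f ((x : ℂ), 0) = ∑ i ∈ Finset.range n,
            Pf L U ((x : ℂ) + ((i : ℝ) : ℂ) * w, (w : ℂ)) := by
          have hmx : ((x : ℂ), (0 : ℂ)) ∈ Dom 0 (ρ - d) 1 := by
            refine ⟨?_, by simp⟩
            simp only [hreal, abs_zero, zero_mul, add_zero]
            linarith
          have h4 := hasDerivAt_fst (hfH.differentiableAt hmx)
          exact h4.unique ((hWd x hx).sub_const A)
        simp only [hd2]
        rw [Finset.sum_mul]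
        rfl
      · intro i _
        have hci : Continuous (fun x : ℝ => tr (i : ℝ) (Pf L U) ((x : ℂ), (w : ℂ))) := by
          unfold tr
          refine hPH.continuousOn.comp_continuous (by fun_prop) (fun x => ?_)
          simp only
          exact hmem3 _ (by rw [him, hreal, abs_zero]; exact hρ)
        exact (hci.mul (continuous_ee.comp (by fun_prop))).intervalIntegrable _ _
    have e2 : ∀ i ∈ Finset.range n, fc (tr (i : ℝ) (Pf L U)) n (w : ℂ) = fc (Pf L U) n (w : ℂ) := by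
      intro i _
      rw [fc_tr hPH (i : ℝ) n (w := (w : ℂ)) (by simpa using hwabs) (by simp; exact hρ)]
      have e3 : ((n : ℤ) : ℂ) * (((i : ℝ) : ℂ) * (w : ℂ)) = ((i * j : ℕ) : ℤ) := by
        have hn0 : (n : ℂ) ≠ 0 := by exact_mod_cast hn.ne'
        rw [hwdef]; push_cast; field_simp
      rw [e3, ee_int, one_mul]
    rw [e1, Finset.sum_congr rfl e2, Finset.sum_const, Finset.card_range, nsmul_eq_mul]
  rw [h3] at h2
  have hn0 : (n : ℂ) ≠ 0 := by exact_mod_cast hn.ne'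
  have h4 : fc (Pf L U) n (w : ℂ) = 2 * π * I * fc f (n : ℤ) 0 := by
    apply mul_left_cancel₀ hn0
    rw [h2]
    push_cast
    ring
  have h5 : ‖fc (Pf L U) n (w : ℂ)‖ = 2 * π * ‖fc f (n : ℤ) 0‖ := by
    rw [h4]
    simp [abs_of_pos Real.pi_pos]
  have hnabs : |(((n : ℤ)) : ℝ)| = n := by simp
  rw [hnabs] at h1
  simp only [norm_zero, pow_zero, mul_one, Complex.zero_im, abs_zero, mul_zero, sub_zero] at h1
  rw [h5]
  have hpi4 : 2 * π ≤ 7 := by have := Real.pi_lt_d2; linarith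
  have h6 : C * n ^ 5 / w ^ 2 * ε ^ 2 ≤ C * n ^ 5 * e ^ 2 * w ^ 8 := by
    have e7 : C * n ^ 5 / w ^ 2 * ε ^ 2 = C * n ^ 5 * e ^ 2 * (w ^ 8 * w ^ 6) := by
      rw [hε]; field_simp
    rw [e7]
    have h7 : w ^ 6 ≤ 1 := pow_le_one₀ hw0.le hw1.le
    have h8 : w ^ 8 * w ^ 6 ≤ w ^ 8 * 1 := mul_le_mul_of_nonneg_left h7 (by positivity)
    rw [mul_one] at h8
    exact mul_le_mul_of_nonneg_left h8 (by positivity)
  calc 2 * π * ‖fc f (n : ℤ) 0‖
      ≤ 7 * ((C * n ^ 5 * e ^ 2 * w ^ 8) * Real.exp (-(2 * π * n * (ρ - d)))) := by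
        refine mul_le_mul hpi4 ?_ (norm_nonneg _) (by norm_num)
        refine h1.trans ?_
        exact mul_le_mul_of_nonneg_right h6 (Real.exp_nonneg _)
    _ = _ := by ring

/-- resonant coefficients of `P`, all signs -/
theorem Adm.res_all (hL : IsLag ρ₀ ε₀ L Ψ) {C c r₁ e : ℝ} (hC : 0 ≤ C) (hB4 : B4Const ρ₀ L C c r₁)
    (h : Adm ρ₀ ε₀ ρ r U) (hr₁ : r ≤ r₁) (he : 0 ≤ e) (hP : Bdd (3 / 2) ρ r 8 e (Pf L U))
    (hd : 0 < d) (hdρ : d < ρ) (hd1 : d ≤ 1) {N : ℕ} (hNc : (N : ℝ) ^ 6 * e ≤ c * d)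
    {n j : ℤ} (hn : n ≠ 0) (hnN : |(n : ℝ)| ≤ N) (hj : j ≠ 0) (hw : |(j : ℝ) / n| < r) :
    ‖fc (Pf L U) n ((j : ℂ) / n)‖ ≤
      7 * C * N ^ 5 * e ^ 2 * |(j : ℝ) / n| ^ 8 * Real.exp (-(2 * π * |(n : ℝ)| * (ρ - d))) := by
  -- absolute values
  set m : ℕ := n.natAbs with hm
  set i : ℕ := j.natAbs with hi
  have hm0 : 0 < m := Int.natAbs_pos.2 hn
  have hi0 : 0 < i := Int.natAbs_pos.2 hj
  have hmn : (m : ℝ) = |(n : ℝ)| := by rw [hm, Nat.cast_natAbs, Int.cast_abs]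
  have hij : (i : ℝ) = |(j : ℝ)| := by rw [hi, Nat.cast_natAbs, Int.cast_abs]
  have hw' : (i : ℝ) / m = |(j : ℝ) / n| := by rw [hmn, hij, abs_div]
  have hmN : (m : ℝ) ≤ N := by rw [hmn]; exact hnN
  have hmc : (m : ℝ) ^ 6 * e ≤ c * d := by
    refine le_trans ?_ hNc
    exact mul_le_mul_of_nonneg_right (pow_le_pow_left₀ (by positivity) hmN 6) he
  have h1 := h.res_pos hL hC hB4 hr₁ he hP hd hdρ hd1 hm0 hi0 (by rw [hw']; exact hw) hmc
  have h2 : ‖fc (Pf L U) m (((i : ℝ) / m : ℝ) : ℂ)‖ ≤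
      7 * C * N ^ 5 * e ^ 2 * |(j : ℝ) / n| ^ 8 * Real.exp (-(2 * π * |(n : ℝ)| * (ρ - d))) := by
    refine h1.trans ?_
    rw [hw', hmn]
    refine mul_le_mul_of_nonneg_right ?_ (Real.exp_nonneg _)
    refine mul_le_mul_of_nonneg_right ?_ (by positivity)
    refine mul_le_mul_of_nonneg_right ?_ (by positivity)
    refine mul_le_mul_of_nonneg_left ?_ (by positivity)
    exact pow_le_pow_left₀ (abs_nonneg _) hnN 5
  -- reduction to the positive case
  have hρ := h.ρ_pos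
  have key : ‖fc (Pf L U) n ((j : ℂ) / n)‖ = ‖fc (Pf L U) m (((i : ℝ) / m : ℝ) : ℂ)‖ := by
    have hPH := h.hPf hL
    have hmemx : ∀ (x v : ℝ), |v| < r → ((x : ℂ), (v : ℂ)) ∈ Dom (3 / 2) ρ r := by
      intro x v hv
      exact real_w_mem.2 ⟨by simpa using hρ, hv⟩
    -- parity
    have par : ∀ (q : ℤ) (v : ℝ), |v| < r → fc (Pf L U) q ((-v : ℝ) : ℂ) = - fc (Pf L U) q (v : ℂ) := by
      intro q v hv
      have h3 : fc (Pf L U) q (-(v : ℂ)) = fc (rf (Pf L U)) q (v : ℂ) := (fc_rf _ _ _).symm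
      have h4 : fc (rf (Pf L U)) q (v : ℂ) = fc (fun p => (fun _ : ℂ => (-1 : ℂ)) p.2 * Pf L U p) q (v : ℂ) :=
        fc_congr (fun x => h.Pf_par hL _ (hmemx x v hv)) q
      have h5 := fc_mul_w (fun _ : ℂ => (-1 : ℂ)) (Pf L U) q (v : ℂ)
      push_cast
      rw [h3, h4, h5]
      ring
    -- reality
    have rea : ∀ (q : ℤ) (v : ℝ), |v| < r → ‖fc (Pf L U) (-q) (v : ℂ)‖ = ‖fc (Pf L U) q (v : ℂ)‖ := by
      intro q v hv
      have h3 : fc (cj (Pf L U)) q (v : ℂ) = fc (Pf L U) q (v : ℂ) :=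
        fc_congr (fun x => h.Pf_re hL _ (hmemx x v hv)) q
      rw [fc_cj, Complex.conj_ofReal] at h3
      rw [← h3, Complex.norm_conj]
    have hcast : ((j : ℂ) / n) = (((j : ℝ) / n : ℝ) : ℂ) := by push_cast; rfl
    rw [hcast]
    have hv : |(i : ℝ) / m| < r := by rw [hw', abs_abs]; exact hw
    have s1 : ‖fc (Pf L U) n (((j : ℝ) / n : ℝ) : ℂ)‖ = ‖fc (Pf L U) n (((i : ℝ) / m : ℝ) : ℂ)‖ := by
      rcases abs_choice ((j : ℝ) / n) with h3 | h3
      · rw [hw', h3]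
      · have h4 : (j : ℝ) / n = -((i : ℝ) / m) := by rw [hw', h3]; ring
        rw [h4, par n _ hv, norm_neg]
    rw [s1]
    rcases Int.natAbs_eq n with h3 | h3
    · rw [h3, ← hm]
    · rw [h3, ← hm, rea _ _ hv]
  rw [key]
  exact h2

end Crest.Agent.R102.B821
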