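import Crest.Agent.R102.EdgeDefs_255

/-!
Row 102, EDGE, rigidity (helper596): along a column with interior labels the size `|log|R₀||` is
bounded at all windows far below the top, and `Im φ` is bounded on every subcone of `Wg (a + g)`,
uniformly in the scale (diagonal argument on `NormP` + `CuspP`).
-/

set_option autoImplicit false

open Set Filter Topology Metric MeasureTheory Complex

noncomputable section

namespace Crest.Agent.R102.RigIm596

open Crest.Agent.R102.Edge255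
open Crest.Agent.R102.Sup115 (HDu Dp E2 MaxiX GoodU)
open Crest.Agent.R102.S5 (Half bl ray Cn)
open Crest.Agent.R102.B821 (q1 q2)

/-- `Im ψ` is bounded on the closed sub-strips -/
theorem im_psi {h : ℝ} {ψ H : ℂ → ℂ} (hc : Curve h ψ H) {κ : ℝ} (hκ : 0 < κ) :
    ∃ C : ℝ, ∀ z : ℂ, |z.im| ≤ h - κ → |(ψ z).im| ≤ C := by
  obtain ⟨C, hC, hg⟩ := hc.grow 0
  set d : ℝ := min κ (h / 2) with hd
  have hh := hc.h_pos
  have hd0 : 0 < d := lt_min hκ (by linarith)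
  have hdh : d < h := lt_of_le_of_lt (min_le_right _ _) (by linarith)
  refine ⟨Real.exp (C * d ^ (-(1 / (((0 : ℕ) : ℝ) + 1)))) + 2 * Real.pi * h, fun z hz => ?_⟩
  have h1 := (hg d hd0 hdh z (by have := min_le_left κ (h / 2); rw [hd]; linarith)).1
  have h2 : |(ψ z - 2 * Real.pi * z).im| ≤ Real.exp (C * d ^ (-(1 / (((0 : ℕ) : ℝ) + 1)))) :=
    (abs_im_le_norm _).trans h1
  have h3 : (ψ z - 2 * Real.pi * z).im = (ψ z).im - 2 * Real.pi * z.im := by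
    have : (2 * (Real.pi : ℂ) * z).im = 2 * Real.pi * z.im := by
      have : (2 * (Real.pi : ℂ) * z) = ((2 * Real.pi : ℝ) : ℂ) * z := by push_cast; ring
      rw [this, Complex.im_ofReal_mul]
    rw [Complex.sub_im, this]
  rw [h3] at h2
  have h4 : |2 * Real.pi * z.im| ≤ 2 * Real.pi * h := by
    rw [abs_mul, abs_of_pos (by positivity : (0 : ℝ) < 2 * Real.pi)]
    exact mul_le_mul_of_nonneg_left (by linarith) (by positivity)
  have h5 : (ψ z).im = ((ψ z).im - 2 * Real.pi * z.im) + 2 * Real.pi * z.im := by ring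
  calc |(ψ z).im| = |((ψ z).im - 2 * Real.pi * z.im) + 2 * Real.pi * z.im| := by rw [← h5]
    _ ≤ |(ψ z).im - 2 * Real.pi * z.im| + |2 * Real.pi * z.im| := abs_add_le _ _
    _ ≤ _ := add_le_add h2 h4

/-- size of `R₀` -/
theorem log_R0 (ψ : ℂ → ℂ) (φ B : ℂ × ℂ → ℂ) (q : ℂ × ℂ) :
    Real.log ‖R0 ψ φ B q‖ = 2 * ((φ q).im - (ψ (B q)).im) := by
  rw [R0, Complex.norm_exp, Real.log_exp]
  simp [Complex.mul_re, Complex.mul_im, Complex.sub_re, Complex.sub_im]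
  try ring

theorem Kc_sub {m c : ℝ} (hc : 0 < c) : Kc m c ⊆ Wg m := by
  rintro q ⟨_, _, h3, h4⟩
  have h0 : 0 < q.2.im := lt_of_lt_of_le hc h3
  refine ⟨h0, lt_of_le_of_lt h4 ?_⟩
  nlinarith

theorem isCompact_Kc (m c : ℝ) : IsCompact (Kc m c) := by
  apply Metric.isCompact_of_isClosed_isBounded
  · have c1 : IsClosed {q : ℂ × ℂ | ‖q.1‖ ≤ 1} := isClosed_le (by fun_prop) continuous_const
    have c2 : IsClosed {q : ℂ × ℂ | ‖q.2‖ ≤ 1} := isClosed_le (by fun_prop) continuous_const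
    have c3 : IsClosed {q : ℂ × ℂ | c ≤ q.2.im} := isClosed_le continuous_const (by fun_prop)
    have c4 : IsClosed {q : ℂ × ℂ | q.1.im ≤ (m - c) * q.2.im} :=
      isClosed_le (by fun_prop) (by fun_prop)
    exact c1.inter (c2.inter (c3.inter c4))
  · refine (Metric.isBounded_closedBall (x := (0 : ℂ × ℂ)) (r := 1)).subset ?_
    rintro q ⟨h1, h2, _, _⟩
    rw [mem_closedBall_zero_iff, Prod.norm_def]
    exact max_le h1 h2

section

variable {u0 R d h : ℝ} {ψ H A : ℂ → ℂ} {φ p B : ℂ × ℂ → ℂ} {X L : Set (ℂ × ℂ)}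
  {u s₀ a g κ : ℝ} {e : ℕ → ℝ × ℝ} {s σ ρ η : ℕ → ℝ}

/-- subsequences and higher windows of a column -/
theorem cols_up (hc : Cols u0 R d h a g κ ψ φ p B X L u s₀ e s σ) {f : ℕ → ℕ}
    (hf : StrictMono f) {s' : ℕ → ℝ} (h1 : ∀ n, s (f n) ≤ s' n) (h2 : ∀ n, s' n ≤ σ (f n))
    (h3 : ∀ n, s' n / σ (f n) ≤ (s (f n) / σ (f n)) ^ (1 / 2 : ℝ)) :
    Cols u0 R d h a g κ ψ φ p B X L u s₀ (e ∘ f) s' (σ ∘ f) := by
  have hs := hc.s_pos
  have hσ : ∀ n, 0 < σ n := fun n => lt_of_lt_of_le (hs n) (hc.s_le n)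
  refine ⟨hc.e_lim.comp hf.tendsto_atTop, fun n => lt_of_lt_of_le (hs _) (h1 n), h2,
    fun n => hc.σ_le _, fun n => hc.ball_sub _, fun n => hc.line _,
    fun n s1 hs1 => hc.col _ s1 ⟨(h1 n).trans hs1.1, hs1.2⟩, fun c hc0 => ?_⟩
  obtain ⟨M, hM, hM'⟩ := hc.outer c hc0
  by_cases hK : (Kc (a + g) c).Nonempty
  swap
  · refine ⟨fun _ => 0, fun n q hq => absurd ⟨q, hq⟩ hK, fun τ hτ => ?_⟩
    simp
  obtain ⟨q, hq⟩ := hK
  have hM0 : ∀ n, 0 ≤ M n := fun n => le_trans (by positivity) (hM n q hq)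
  refine ⟨M ∘ f, fun n q hq => hM _ q hq, fun τ hτ => ?_⟩
  have hT := (hM' (τ / 2) (by positivity)).comp hf.tendsto_atTop
  refine squeeze_zero (fun n => ?_) (fun n => ?_) hT
  · exact mul_nonneg (Real.rpow_nonneg (div_nonneg (lt_of_lt_of_le (hs _) (h1 n)).le (hσ _).le) _)
      (hM0 _)
  · simp only [Function.comp]
    refine mul_le_mul_of_nonneg_right ?_ (hM0 _)
    have h4 : 0 ≤ s (f n) / σ (f n) := div_nonneg (hs _).le (hσ _).le
    calc (s' n / σ (f n)) ^ τ ≤ ((s (f n) / σ (f n)) ^ (1 / 2 : ℝ)) ^ τ :=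
          Real.rpow_le_rpow (div_nonneg (lt_of_lt_of_le (hs _) (h1 n)).le (hσ _).le) (h3 n) hτ.le
      _ = (s (f n) / σ (f n)) ^ (τ / 2) := by
          rw [← Real.rpow_mul h4]; congr 1; ring

theorem bl_Dp {e : ℝ × ℝ} {s σ : ℝ} (hs : 0 < s) (hsσ : s ≤ σ) (hσd : 4 * σ ≤ d)
    (hb : ball ((e.2 : ℝ) : ℂ) (4 * σ) ⊆ ball (u0 : ℂ) R) {q : ℂ × ℂ} (h1 : -4 < q.1.im)
    (h2 : q.1.im < 0) (h3 : 0 < q.2.im) (h4 : ‖q.2‖ < 4) : bl e s q ∈ Dp u0 R d := by
  have e1 : (bl e s q).1.im = s * q.1.im := by simp [bl, Complex.mul_im]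
  have e2 : (bl e s q).2.im = s * q.2.im := by simp [bl, Complex.mul_im]
  refine ⟨?_, ?_, ?_, ?_⟩
  · rw [e1]; nlinarith
  · rw [e1]; exact mul_neg_of_pos_of_neg hs h2
  · apply hb
    rw [mem_ball, dist_eq_norm]
    have : (bl e s q).2 - ((e.2 : ℝ) : ℂ) = s * q.2 := by simp [bl]
    rw [this, norm_mul, Complex.norm_of_nonneg hs.le]
    nlinarith [norm_nonneg q.2]
  · change 0 < (bl e s q).2.im
    rw [e2]; positivity

theorem near_z0 {q : ℂ × ℂ} (hq : q ∈ closedBall z0 (1 / 10)) :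
    -4 < q.1.im ∧ q.1.im < 0 ∧ 0 < q.2.im ∧ ‖q.2‖ < 4 := by
  rw [mem_closedBall, dist_eq_norm, Prod.norm_def] at hq
  have h1 : ‖(q - z0).1‖ ≤ 1 / 10 := (le_max_left _ _).trans hq
  have h2 : ‖(q - z0).2‖ ≤ 1 / 10 := (le_max_right _ _).trans hq
  have h3 := (abs_im_le_norm _).trans h1
  have h4 := (abs_im_le_norm _).trans h2
  have e1 : (q - z0).1.im = q.1.im + 1 := by simp [z0]
  have e2 : (q - z0).2.im = q.2.im - 1 / 4 := by simp [z0]
  rw [e1] at h3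
  rw [e2] at h4
  have h5 := abs_le.1 h3
  have h6 := abs_le.1 h4
  refine ⟨by linarith, by linarith, by linarith, ?_⟩
  have h7 : q.2 = (q - z0).2 + I / 4 := by simp [z0]
  have h8 : ‖(I / 4 : ℂ)‖ = 1 / 4 := by simp
  calc ‖q.2‖ = ‖(q - z0).2 + I / 4‖ := by rw [← h7]
    _ ≤ ‖(q - z0).2‖ + ‖(I / 4 : ℂ)‖ := norm_add_le _ _
    _ < 4 := by rw [h8]; linarith

/-- `ψ'` is periodic -/
theorem deriv_per {H : ℂ → ℂ} (hc : Curve h ψ H) {z : ℂ} (hz : |z.im| < h) :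
    deriv ψ (z + 1) = deriv ψ z := by
  have h1 : (fun x => ψ (x + 1)) =ᶠ[𝓝 z] fun x => ψ x + 2 * Real.pi := by
    have h2 : IsOpen {x : ℂ | |x.im| < h} :=
      isOpen_lt (continuous_abs.comp Complex.continuous_im) continuous_const
    filter_upwards [h2.mem_nhds hz] with x hx
    exact hc.ψ_per x hx
  have h3 := h1.deriv_eq
  rw [deriv_comp_add_const, deriv_add_const] at h3
  exact h3

theorem deriv_per_int {H : ℂ → ℂ} (hc : Curve h ψ H) {z : ℂ} (hz : |z.im| < h) (k : ℤ) :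
    deriv ψ (z + k) = deriv ψ z := by
  induction k using Int.induction_on with
  | zero => simp
  | succ n ih =>
    have h1 : |(z + (n : ℤ)).im| < h := by simpa using hz
    have := deriv_per hc h1
    rw [← ih, ← this]
    congr 1
    push_cast
    ring
  | pred n ih =>
    have h1 : |(z + ((-(n : ℤ) - 1 : ℤ) : ℂ)).im| < h := by simpa using hz
    have := deriv_per hc h1
    rw [← ih, ← this]
    congr 1
    push_cast
    ring

theorem ray_eq (e : ℝ × ℝ) (s : ℝ) : ray e s = bl e s z0 := rfl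

/-- **no cusp windows along columns** (for sequences) -/
theorem H_bdd (hN : NormP) (hW : ToWorld) (hC : CuspP) (D : ED u0 R d h ψ H A φ p B X L)
    (hu : u ∈ Ioo (u0 - R) (u0 + R)) (hu0 : u ≠ 0) (ha : 0 ≤ a) (hg : 0 < g) (hκ : 0 < κ)
    (hc : Cols u0 R d h a g κ ψ φ p B X L u s₀ e s σ)
    (hsσ : Tendsto (fun n => s n / σ n) atTop (𝓝 0)) (hs0 : Tendsto s atTop (𝓝 0))
    (hρ0 : ∀ n, 0 < ρ n) (hρ : Tendsto ρ atTop (𝓝 0)) (hση : ∀ n, σ n ≤ η n)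
    (hE : ∀ n, E2 X L a g (ρ n) (η n) (e n)) :
    ∃ C : ℝ, ∀ᶠ n in atTop, |Real.log ‖R0 ψ φ B (ray (e n) (s n))‖| ≤ C := by
  by_contra hcon
  push Not at hcon
  have hs := hc.s_pos
  have hσ : ∀ n, 0 < σ n := fun n => lt_of_lt_of_le (hs n) (hc.s_le n)
  -- a subsequence with sizes tending to infinity
  have hfreq : ∀ N : ℕ, ∃ᶠ n in atTop,
      (N : ℝ) < |Real.log ‖R0 ψ φ B (ray (e n) (s n))‖| := fun N => by
    have := hcon (N : ℝ)
    exact this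
  obtain ⟨f, hf, hf2⟩ := extraction_forall_of_frequently hfreq
  have hcf : Cols u0 R d h a g κ ψ φ p B X L u s₀ (e ∘ f) (s ∘ f) (σ ∘ f) := by
    refine cols_up hc hf (fun n => le_rfl) (fun n => hc.s_le _) (fun n => ?_)
    have h4 : 0 ≤ s (f n) / σ (f n) := div_nonneg (hs _).le (hσ _).le
    have h5 : s (f n) / σ (f n) ≤ 1 := (div_le_one (hσ _)).2 (hc.s_le _)
    calc (s ∘ f) n / σ (f n) = (s (f n) / σ (f n)) ^ (1 : ℝ) := by rw [Real.rpow_one]; rfl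
      _ ≤ _ := Real.rpow_le_rpow_of_exponent_ge' h4 h5 (by norm_num) (by norm_num)
  have hsσf : Tendsto (fun n => (s ∘ f) n / (σ ∘ f) n) atTop (𝓝 0) := hsσ.comp hf.tendsto_atTop
  obtain ⟨-, sg, hsg⟩ := hN u0 R d h ψ H A φ p B X L D u s₀ a g κ (e ∘ f) (s ∘ f) (σ ∘ f) hu hu0
    ha hg hκ hcf hsσf
  have hη : ∀ n, 0 < η n := fun n => lt_of_lt_of_le (hσ n) (hση n)
  have hsη : Tendsto (fun n => (s ∘ f) n / (η ∘ f) n) atTop (𝓝 0) := by
    refine squeeze_zero (fun n => div_nonneg (hs _).le (hη _).le) (fun n => ?_) hsσf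
    exact div_le_div_of_nonneg_left (hs _).le (hσ _) (hση _)
  have hWd := hW u0 R d h ψ H A φ p B X L D u s₀ a g (e ∘ f) (s ∘ f) (ρ ∘ f) (η ∘ f) hu hu0 ha hg
    hcf.e_lim (fun n => hs _) (hs0.comp hf.tendsto_atTop) (fun n => hρ0 _)
    (hρ.comp hf.tendsto_atTop) (fun n => hη _) hsη (fun n => hE _)
  obtain ⟨C, hCb⟩ := im_psi D.curve hκ
  refine hC h a g κ ψ H (A u) _ _ _ sg hκ hWd ?_ ?_ ?_ ?_
  · intro n
    obtain ⟨h1, q, hq, h2⟩ := hcf.col n ((s ∘ f) n) ⟨le_rfl, hcf.s_le n⟩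
    refine ⟨?_, q, hq, ?_⟩
    · have : (B (bl ((e ∘ f) n) ((s ∘ f) n) z0) -
          nB (fun x => B (bl ((e ∘ f) n) ((s ∘ f) n) x))).im =
          (B (ray ((e ∘ f) n) ((s ∘ f) n))).im := by
        rw [ray_eq, Complex.sub_im, nB, Complex.intCast_im, sub_zero]
      rw [this]
      exact h1
    · obtain ⟨m1, m2, m3, m4⟩ := near_z0 hq
      have hX : bl ((e ∘ f) n) ((s ∘ f) n) q ∈ X :=
        D.Dp_X (bl_Dp (hcf.s_pos n) (hcf.s_le n) (hcf.σ_le n) (hcf.ball_sub n) m1 m2 m3 m4)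
      have h3 := deriv_per_int D.curve (D.B_im _ hX)
        (-⌊((fun x => B (bl ((e ∘ f) n) ((s ∘ f) n) x)) z0).re⌋)
      have h4 : B (bl ((e ∘ f) n) ((s ∘ f) n) q) -
          nB (fun x => B (bl ((e ∘ f) n) ((s ∘ f) n) x)) =
          B (bl ((e ∘ f) n) ((s ∘ f) n) q) +
          ((-⌊((fun x => B (bl ((e ∘ f) n) ((s ∘ f) n) x)) z0).re⌋ : ℤ) : ℂ) := by
        rw [nB]; push_cast; ring
      change κ ≤ ‖deriv ψ (B (bl ((e ∘ f) n) ((s ∘ f) n) q) -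
          nB (fun x => B (bl ((e ∘ f) n) ((s ∘ f) n) x)))‖
      rw [h4, h3]
      exact h2
  · refine ⟨hsg.1, fun K hK hKc => ?_⟩
    obtain ⟨C1, hC1⟩ := hsg.2 K hK hKc
    refine ⟨C1, hC1.mono fun n hn q hq => ?_⟩
    obtain ⟨h1, h2⟩ := hn q hq
    set k : ℤ := ⌊((fun x => φ (bl ((e ∘ f) n) ((s ∘ f) n) x)) z0).re / (2 * Real.pi)⌋ with hk
    have h3 : nφ (fun x => φ (bl ((e ∘ f) n) ((s ∘ f) n) x)) = ((2 * Real.pi * k : ℝ) : ℂ) := by
      rw [nφ, ← hk]; push_cast; ring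
    have h4 : (φ (bl ((e ∘ f) n) ((s ∘ f) n) q) -
        nφ (fun x => φ (bl ((e ∘ f) n) ((s ∘ f) n) x))).im =
        (φ (bl ((e ∘ f) n) ((s ∘ f) n) q)).im := by
      rw [h3, Complex.sub_im, Complex.ofReal_im, sub_zero]
    have h5 : cexp (sg n * I * (φ (bl ((e ∘ f) n) ((s ∘ f) n) q) -
        nφ (fun x => φ (bl ((e ∘ f) n) ((s ∘ f) n) x)))) =
        cexp (sg n * I * φ (bl ((e ∘ f) n) ((s ∘ f) n) q)) := by
      rw [h3, mul_sub, Complex.exp_sub]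
      have h6 : cexp ((sg n : ℂ) * I * ((2 * Real.pi * k : ℝ) : ℂ)) = 1 := by
        rcases hsg.1 n with h7 | h7
        · rw [h7, Complex.exp_eq_one_iff]
          exact ⟨k, by push_cast; ring⟩
        · rw [h7, Complex.exp_eq_one_iff]
          exact ⟨-k, by push_cast; ring⟩
      rw [h6, div_one]
    constructor
    · change ‖p (bl ((e ∘ f) n) ((s ∘ f) n) q) * cexp (sg n * I *
        (φ (bl ((e ∘ f) n) ((s ∘ f) n) q) -
        nφ (fun x => φ (bl ((e ∘ f) n) ((s ∘ f) n) x))))‖ ≤ C1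
      rw [h5]; exact h1
    · change -C1 ≤ sg n * (φ (bl ((e ∘ f) n) ((s ∘ f) n) q) -
        nφ (fun x => φ (bl ((e ∘ f) n) ((s ∘ f) n) x))).im
      rw [h4]; exact h2
  · have h1 : ∀ n : ℕ, ((n : ℝ) - 2 * C) / 2 ≤ |(φ (ray (e (f n)) (s (f n)))).im| := by
      intro n
      have h2 := hf2 n
      obtain ⟨h3, -⟩ := hcf.col n ((s ∘ f) n) ⟨le_rfl, hcf.s_le n⟩
      have h4 := hCb _ h3
      rw [log_R0] at h2
      simp only [Function.comp] at h4
      have h5 : |2 * ((φ (ray (e (f n)) (s (f n)))).im - (ψ (B (ray (e (f n)) (s (f n))))).im)| ≤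
          2 * |(φ (ray (e (f n)) (s (f n)))).im| + 2 * C := by
        rw [abs_mul, abs_two]
        have := abs_sub (φ (ray (e (f n)) (s (f n)))).im (ψ (B (ray (e (f n)) (s (f n))))).im
        linarith
      linarith
    have h2 : Tendsto (fun n : ℕ => ((n : ℝ) - 2 * C) / 2) atTop atTop := by
      refine Tendsto.atTop_div_const (by norm_num) ?_
      exact tendsto_atTop_add_const_right _ _ tendsto_natCast_atTop_atTop
    refine tendsto_atTop_mono (fun n => ?_) h2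
    have h3 : (φ (bl ((e ∘ f) n) ((s ∘ f) n) z0) -
        nφ (fun x => φ (bl ((e ∘ f) n) ((s ∘ f) n) x))).im = (φ (ray (e (f n)) (s (f n)))).im := by
      rw [nφ]
      have : (2 * (Real.pi : ℂ) * ((⌊((fun x => φ (bl ((e ∘ f) n) ((s ∘ f) n) x)) z0).re /
          (2 * Real.pi)⌋ : ℤ) : ℂ)) = ((2 * Real.pi *
          (⌊((fun x => φ (bl ((e ∘ f) n) ((s ∘ f) n) x)) z0).re / (2 * Real.pi)⌋ : ℤ) : ℝ) : ℂ) := by
        push_cast; ring
      rw [this, Complex.sub_im, Complex.ofReal_im, sub_zero]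
      rfl
    change _ ≤ |(φ (bl ((e ∘ f) n) ((s ∘ f) n) z0) -
        nφ (fun x => φ (bl ((e ∘ f) n) ((s ∘ f) n) x))).im|
    rw [h3]
    exact h1 n
  · intro n
    change 0 ≤ (B (bl ((e ∘ f) n) ((s ∘ f) n) z0) -
        nB (fun x => B (bl ((e ∘ f) n) ((s ∘ f) n) x))).re ∧ _ ≤ 1
    rw [nB, Complex.sub_re, Complex.intCast_re]
    refine ⟨sub_nonneg.2 (Int.floor_le _), ?_⟩
    have := (Int.lt_floor_add_one ((fun x => B (bl ((e ∘ f) n) ((s ∘ f) n) x)) z0).re).le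
    simp only [Complex.sub_re, Complex.intCast_re] at *
    linarith

/-- **bounded lines** (after the `2π` normalisation) -/
theorem bdd_lines (hN : NormP) (hW : ToWorld) (hC : CuspP) (D : ED u0 R d h ψ H A φ p B X L)
    (hu : u ∈ Ioo (u0 - R) (u0 + R)) (hu0 : u ≠ 0) (ha : 0 ≤ a) (hg : 0 < g) (hκ : 0 < κ)
    (hc : Cols u0 R d h a g κ ψ φ p B X L u s₀ e s σ)
    (hsσ : Tendsto (fun n => s n / σ n) atTop (𝓝 0)) (hs0 : Tendsto s atTop (𝓝 0))
    (hρ0 : ∀ n, 0 < ρ n) (hρ : Tendsto ρ atTop (𝓝 0)) (hση : ∀ n, σ n ≤ η n)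
    (hE : ∀ n, E2 X L a g (ρ n) (η n) (e n)) :
    ∀ K ⊆ Wg (a + g), IsCompact K → ∃ C : ℝ, ∀ᶠ n in atTop, ∀ q ∈ K,
      ‖φ (bl (e n) (s n) q) - nφ (fun x => φ (bl (e n) (s n) x))‖ ≤ C ∧
        ‖p (bl (e n) (s n) q)‖ ≤ C := by
  intro K hK hKc
  obtain ⟨C0, hC0⟩ := H_bdd hN hW hC D hu hu0 ha hg hκ hc hsσ hs0 hρ0 hρ hση hE
  obtain ⟨h1, sg, hsg, h2⟩ := hN u0 R d h ψ H A φ p B X L D u s₀ a g κ e s σ hu hu0 ha hg hκ hc hsσ
  obtain ⟨C1, hC1⟩ := h1 K hK hKc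
  obtain ⟨C2, hC2⟩ := h2 K hK hKc
  set C3 : ℝ := |C1| * (1 + C0) with hC3
  refine ⟨max (C3 + 2 * Real.pi) (C2 * Real.exp C3), ?_⟩
  filter_upwards [hC0, hC1, hC2] with n a0 a1 a2 q hq
  have b1 := a1 q hq
  obtain ⟨b2, -⟩ := a2 q hq
  have b3 : ‖φ (bl (e n) (s n) q) - ((φ (ray (e n) (s n))).re : ℂ)‖ ≤ C3 := by
    refine b1.trans ?_
    calc C1 * (1 + |Real.log ‖R0 ψ φ B (ray (e n) (s n))‖|)
        ≤ |C1| * (1 + |Real.log ‖R0 ψ φ B (ray (e n) (s n))‖|) :=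
          mul_le_mul_of_nonneg_right (le_abs_self _) (by positivity)
      _ ≤ |C1| * (1 + C0) := mul_le_mul_of_nonneg_left (by linarith) (abs_nonneg _)
  have b4 : |(φ (bl (e n) (s n) q)).im| ≤ C3 := by
    have := (abs_im_le_norm (φ (bl (e n) (s n) q) - ((φ (ray (e n) (s n))).re : ℂ))).trans b3
    rwa [Complex.sub_im, Complex.ofReal_im, sub_zero] at this
  constructor
  · refine le_trans ?_ (le_max_left _ _)
    set k : ℤ := ⌊((fun x => φ (bl (e n) (s n) x)) z0).re / (2 * Real.pi)⌋ with hk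
    have h3 : nφ (fun x => φ (bl (e n) (s n) x)) = ((2 * Real.pi * k : ℝ) : ℂ) := by
      rw [nφ, ← hk]; push_cast; ring
    have h4 : ‖((φ (ray (e n) (s n))).re : ℂ) - nφ (fun x => φ (bl (e n) (s n) x))‖ ≤
        2 * Real.pi := by
      rw [h3, ← Complex.ofReal_sub, Complex.norm_real, Real.norm_eq_abs, abs_le]
      have h5 : (k : ℝ) ≤ (φ (ray (e n) (s n))).re / (2 * Real.pi) := by
        rw [hk]; exact Int.floor_le _
      have h6 : (φ (ray (e n) (s n))).re / (2 * Real.pi) < k + 1 := by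
        rw [hk]; exact Int.lt_floor_add_one _
      have hpi : (0 : ℝ) < 2 * Real.pi := by positivity
      rw [le_div_iff₀ hpi] at h5
      rw [div_lt_iff₀ hpi] at h6
      constructor <;> nlinarith
    calc ‖φ (bl (e n) (s n) q) - nφ (fun x => φ (bl (e n) (s n) x))‖
        = ‖(φ (bl (e n) (s n) q) - ((φ (ray (e n) (s n))).re : ℂ)) +
            (((φ (ray (e n) (s n))).re : ℂ) - nφ (fun x => φ (bl (e n) (s n) x)))‖ := by
          congr 1; ring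
      _ ≤ _ := norm_add_le _ _
      _ ≤ C3 + 2 * Real.pi := add_le_add b3 h4
  · refine le_trans ?_ (le_max_right _ _)
    have h5 : ‖cexp (sg n * I * φ (bl (e n) (s n) q))‖ =
        Real.exp (-(sg n * (φ (bl (e n) (s n) q)).im)) := by
      rw [Complex.norm_exp]
      congr 1
      simp [Complex.mul_re, Complex.mul_im]
    have h6 : Real.exp (-C3) ≤ Real.exp (-(sg n * (φ (bl (e n) (s n) q)).im)) := by
      apply Real.exp_le_exp.2
      have h7 := abs_le.1 b4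
      rcases hsg n with h8 | h8 <;> rw [h8] <;> linarith [h7.1, h7.2]
    rw [norm_mul, h5] at b2
    have h7 : ‖p (bl (e n) (s n) q)‖ * Real.exp (-C3) ≤ C2 :=
      (mul_le_mul_of_nonneg_left h6 (norm_nonneg _)).trans b2
    calc ‖p (bl (e n) (s n) q)‖ = ‖p (bl (e n) (s n) q)‖ * Real.exp (-C3) * Real.exp C3 := by
          rw [mul_assoc, ← Real.exp_add]; simp
      _ ≤ C2 * Real.exp C3 := mul_le_mul_of_nonneg_right h7 (Real.exp_pos _).le

end

end Crest.Agent.R102.RigIm596
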