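import Crest.Agent.R102.RigIm_596
import Crest.Agent.R102.NrmAll_812
import Crest.Agent.R102.EdgeAsm_255

/-!
Row 102, EDGE: **`rigid_of`** (helper596): windows with interior column and birth precision `→ 0` are
slow, from `NormP`, `ToWorld`, `CuspP`, `FlatP`.
-/

set_option autoImplicit false

open Set Filter Topology Metric MeasureTheory Complex

noncomputable section

namespace Crest.Agent.R102.RigIm596

open Crest.Agent.R102.Edge255
open Crest.Agent.R102.Sup115 (HDu Dp E2 MaxiX GoodU)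
open Crest.Agent.R102.S5 (Half bl ray Cn)

/-- **RIGID** -/
theorem rigid_of (hN : NormP) (hW : ToWorld) (hC : CuspP) (hF : FlatP)
    (u0 R d h : ℝ) (ψ H A : ℂ → ℂ) (φ p B : ℂ × ℂ → ℂ) (X L : Set (ℂ × ℂ))
    (D : ED u0 R d h ψ H A φ p B X L) (u s₀ a g : ℝ) (hu : u ∈ Ioo (u0 - R) (u0 + R))
    (hu0 : u ≠ 0) (ha : 0 ≤ a) (hg : 0 < g) : Rigid u0 R d h ψ φ p B X L u s₀ a g := by
  intro κ e s σ ρ η hκ hc hsσ hs0 hρ0 hρ hση hE ε hε K hK hKc K' hK' hKc'
  have hs := hc.s_pos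
  have hσ : ∀ n, 0 < σ n := fun n => lt_of_lt_of_le (hs n) (hc.s_le n)
  have hη : ∀ n, 0 < η n := fun n => lt_of_lt_of_le (hσ n) (hση n)
  have hsη : Tendsto (fun n => s n / η n) atTop (𝓝 0) := by
    refine squeeze_zero (fun n => div_nonneg (hs _).le (hη _).le) (fun n => ?_) hsσ
    exact div_le_div_of_nonneg_left (hs _).le (hσ _) (hση _)
  have hWd := hW u0 R d h ψ H A φ p B X L D u s₀ a g e s ρ η hu hu0 ha hg
    hc.e_lim hs hs0 hρ0 hρ hη hsη hE
  have hbd := bdd_lines hN hW hC D hu hu0 ha hg hκ hc hsσ hs0 hρ0 hρ hση hE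
  have hall := NrmAll812.nrmAll_nrm hN D hu hu0 ha hg hκ hc hsσ
  have hI : IntrW h κ ψ (fun n q => B (bl (e n) (s n) q) - nB (fun x => B (bl (e n) (s n) x))) := by
    intro n
    obtain ⟨h1, q, hq, h2⟩ := hc.col n (s n) ⟨le_rfl, hc.s_le n⟩
    refine ⟨?_, q, hq, ?_⟩
    · have : (B (bl (e n) (s n) z0) - nB (fun x => B (bl (e n) (s n) x))).im =
          (B (ray (e n) (s n))).im := by
        rw [ray_eq, Complex.sub_im, nB, Complex.intCast_im, sub_zero]
      change |(B (bl (e n) (s n) z0) - nB (fun x => B (bl (e n) (s n) x))).im| ≤ h - κ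
      rw [this]
      exact h1
    · obtain ⟨m1, m2, m3, m4⟩ := near_z0 hq
      have hX : bl (e n) (s n) q ∈ X :=
        D.Dp_X (bl_Dp (hc.s_pos n) (hc.s_le n) (hc.σ_le n) (hc.ball_sub n) m1 m2 m3 m4)
      change κ ≤ ‖deriv ψ (B (bl (e n) (s n) q) - nB (fun x => B (bl (e n) (s n) x)))‖
      rw [nB, dψ_sub_int D.curve (D.B_im _ hX)]
      exact h2
  have hre : ∀ n, 0 ≤ (B (bl (e n) (s n) z0) - nB (fun x => B (bl (e n) (s n) x))).re ∧
      (B (bl (e n) (s n) z0) - nB (fun x => B (bl (e n) (s n) x))).re ≤ 1 := by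
    intro n
    have h2 := (Int.lt_floor_add_one ((fun x => B (bl (e n) (s n) x)) z0).re).le
    have h3 := Int.floor_le ((fun x => B (bl (e n) (s n) x)) z0).re
    rw [nB, Complex.sub_re, Complex.intCast_re]
    constructor
    · exact sub_nonneg.2 h3
    · have h4 : (B (bl (e n) (s n) z0)).re ≤ (⌊((fun x => B (bl (e n) (s n) x)) z0).re⌋ : ℝ) + 1 := h2
      linarith
  have key := hF h a g κ ψ H (A u) _ _ _ hκ hWd hI hre hbd hall ε hε K hK hKc K' hK' hKc'
  filter_upwards [key] with n hn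
  obtain ⟨h1, h2⟩ := hn
  refine ⟨fun q hq => ?_, fun q hq => ?_⟩
  · obtain ⟨h3, h4⟩ := h1 q hq
    refine ⟨?_, h4⟩
    have hz : B (bl (e n) (s n) z0) ∈ T5.Str h := by
      have := (hc.col n (s n) ⟨le_rfl, hc.s_le n⟩).1
      have h5 : |(B (ray (e n) (s n))).im| < h := by linarith
      exact h5
    have h6 : (φ (bl (e n) (s n) q) - nφ (fun x => φ (bl (e n) (s n) x))) -
        ψ (B (bl (e n) (s n) z0) - nB (fun x => B (bl (e n) (s n) x))) =
        (φ (bl (e n) (s n) q) - ψ (B (bl (e n) (s n) z0))) +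
        ((⌊((fun x => B (bl (e n) (s n) x)) z0).re⌋ -
          ⌊((fun x => φ (bl (e n) (s n) x)) z0).re / (2 * Real.pi)⌋ : ℤ) : ℂ) * (2 * Real.pi) := by
      rw [nB, nφ, ψ_sub_int D.curve hz]
      push_cast
      ring
    have h7 : cexp (2 * I * ((φ (bl (e n) (s n) q) - nφ (fun x => φ (bl (e n) (s n) x))) -
        ψ (B (bl (e n) (s n) z0) - nB (fun x => B (bl (e n) (s n) x))))) =
        cexp (2 * I * (φ (bl (e n) (s n) q) - ψ (B (bl (e n) (s n) z0)))) := by
      rw [h6, mul_add]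
      have h8 : 2 * I * (((⌊((fun x => B (bl (e n) (s n) x)) z0).re⌋ -
          ⌊((fun x => φ (bl (e n) (s n) x)) z0).re / (2 * Real.pi)⌋ : ℤ) : ℂ) * (2 * Real.pi)) =
          ((2 * (⌊((fun x => B (bl (e n) (s n) x)) z0).re⌋ -
          ⌊((fun x => φ (bl (e n) (s n) x)) z0).re / (2 * Real.pi)⌋) : ℤ) : ℂ) *
          (2 * Real.pi * I) := by
        push_cast; ring
      rw [h8, Complex.exp_add, Complex.exp_int_mul_two_pi_mul_I, mul_one]
    change ‖cexp (2 * I * (φ (bl (e n) (s n) q) - ψ (B (bl (e n) (s n) z0)))) - 1‖ ≤ ε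
    rw [← h7]
    exact h3
  · have h3 := h2 q hq
    change ‖B (bl (e n) (s n) q) - B (bl (e n) (s n) z0)‖ ≤ ε
    have h4 : B (bl (e n) (s n) q) - B (bl (e n) (s n) z0) =
        (B (bl (e n) (s n) q) - nB (fun x => B (bl (e n) (s n) x))) -
        (B (bl (e n) (s n) z0) - nB (fun x => B (bl (e n) (s n) x))) := by ring
    rw [h4]
    exact h3

end Crest.Agent.R102.RigIm596
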