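import Crest.Agent.R102.Rule2_300

/-!
Row 102, T1-E (helper300): RULE-E: two regular lines `⟹` the vertex is regular, for an entire
curve `(ψ, H)`.

`step_discS`, `rule1gS`, `rule2S`: the germ version and the joint version of F1(ii) from the
one-variable rule `R1D S ψ H` on any open set `S`; `r1dE`: `R1D univ ψ H` for entire `(ψ, H)`.
-/

set_option autoImplicit false

open Set Filter Topology Metric
open scoped ComplexConjugate

noncomputable section

namespace Crest.Agent.R102.F300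

open Crest.Agent.R102.Rule982

/-- value conditions for a label -/
def PVS (S : Set ℂ) (ψ H Ψ N Dn : ℂ → ℂ) (t b : ℂ) : Prop := b ∈ S ∧ ψ b = Ψ t ∧ Dn t * H b = N t

/-- the one-variable rule (F1(ii) on half discs) for the curve `(ψ, H)` on `S` -/
def R1D (S : Set ℂ) (ψ H : ℂ → ℂ) : Prop :=
  ∀ (t₁ : ℂ) (ε : ℝ), 0 < ε → ∀ Ψ N Dn B : ℂ → ℂ, DifferentiableOn ℂ Ψ (ball t₁ ε) →
    DifferentiableOn ℂ N (ball t₁ ε) → DifferentiableOn ℂ Dn (ball t₁ ε) →
    (∃ t ∈ ball t₁ ε, Dn t ≠ 0) → DifferentiableOn ℂ B (LD t₁ ε) →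
    (∀ t ∈ LD t₁ ε, B t ∈ S) → (∃ t ∈ LD t₁ ε, deriv B t ≠ 0) →
    (∀ t ∈ LD t₁ ε, ψ (B t) = Ψ t) → (∀ t ∈ LD t₁ ε, Dn t * H (B t) = N t) →
    ∃ r : ℝ, 0 < r ∧ r ≤ ε ∧ ∃ Bt : ℂ → ℂ, DifferentiableOn ℂ Bt (ball t₁ r) ∧
      (∀ t ∈ ball t₁ r, Bt t ∈ S ∧ ψ (Bt t) = Ψ t ∧ Dn t * H (Bt t) = N t) ∧
      EqOn Bt B (LD t₁ r)

/-- one boundary point of a disc -/
theorem step_discS {S : Set ℂ} {ψ H : ℂ → ℂ} (hR : R1D S ψ H)
    {W : Set ℂ} (hW : IsOpen W) (hWc : IsPreconnected W) {Ψ N Dn : ℂ → ℂ}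
    (hΨ : DifferentiableOn ℂ Ψ W) (hN : DifferentiableOn ℂ N W) (hDn : DifferentiableOn ℂ Dn W)
    (hDn0 : ∃ t ∈ W, Dn t ≠ 0) {a : ℂ} {ρ : ℝ} {B : ℂ → ℂ}
    (hB : DifferentiableOn ℂ B (ball a ρ)) (hBP : ∀ t ∈ ball a ρ, PVS S ψ H Ψ N Dn t (B t))
    (hnc : ∃ t ∈ ball a ρ, deriv B t ≠ 0) {s : ℂ} (hs : dist s a = ρ) (hsW : s ∈ W)
    (hρ : 0 < ρ) :
    ∃ δ : ℝ, 0 < δ ∧ ∃ F : ℂ → ℂ, DifferentiableOn ℂ F (ball s δ) ∧
      (∀ t ∈ ball s δ, PVS S ψ H Ψ N Dn t (F t)) ∧ ∀ t ∈ ball s δ, t ∈ ball a ρ → F t = B t := by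
  have hsa : s - a ≠ 0 := by
    intro h0
    rw [dist_eq_norm, h0, norm_zero] at hs
    exact hρ.ne hs
  have hns : ‖s - a‖ = ρ := by rw [← dist_eq_norm]; exact hs
  -- coordinates
  set m : ℂ → ℂ := fun τ => a + (s - a) * Complex.exp (-(Complex.I * τ)) with hm
  set n : ℂ → ℂ := fun t => Complex.I * Complex.log ((t - a) / (s - a)) with hn
  have hm0 : m 0 = s := by rw [hm]; simp
  have hn0 : n s = 0 := by rw [hn]; simp [hsa]
  have hmd : Differentiable ℂ m := by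
    rw [hm]; fun_prop
  have hmn : ∀ t, t ≠ a → m (n t) = t := by
    intro t ht
    have h1 : (t - a) / (s - a) ≠ 0 := div_ne_zero (sub_ne_zero.2 ht) hsa
    rw [hm, hn]
    simp only
    have e : -(Complex.I * (Complex.I * Complex.log ((t - a) / (s - a))))
        = Complex.log ((t - a) / (s - a)) := by
      linear_combination (-Complex.log ((t - a) / (s - a))) * Complex.I_mul_I
    rw [e, Complex.exp_log h1]
    field_simp
    ring
  have hnorm : ∀ τ, ‖m τ - a‖ = ρ * Real.exp τ.im := by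
    intro τ
    rw [hm]
    simp only
    rw [add_sub_cancel_left, norm_mul, Complex.norm_exp, hns]
    congr 2
    simp
  have hnim : ∀ t, t ≠ a → (n t).im = Real.log (‖t - a‖ / ρ) := by
    intro t _
    rw [hn]
    simp only
    rw [Complex.mul_im, Complex.I_re, Complex.I_im, zero_mul, one_mul, zero_add, Complex.log_re,
      norm_div, hns]
  have hna : ∀ t, (t - a) / (s - a) ∈ Complex.slitPlane → AnalyticAt ℂ n t := by
    intro t ht
    refine analyticAt_const.mul (AnalyticAt.clog ?_ ht)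
    exact (analyticAt_id.sub analyticAt_const).div analyticAt_const hsa
  have hsl : (s - a) / (s - a) ∈ Complex.slitPlane := by
    rw [div_self hsa]; exact Complex.one_mem_slitPlane
  have hnas : AnalyticAt ℂ n s := hna s hsl
  -- a ball in `τ`
  have hmc : Tendsto m (𝓝 0) (𝓝 s) := by
    have := hmd.continuous.tendsto 0
    rwa [hm0] at this
  obtain ⟨e0, he0, hball⟩ := Metric.eventually_nhds_iff_ball.1 (hmc.eventually (hW.mem_nhds hsW))
  have hmL : ∀ τ ∈ LD 0 e0, m τ ∈ ball a ρ := by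
    intro τ hτ
    rw [mem_ball, dist_eq_norm, hnorm]
    have h1 : τ.im < 0 := by simpa using hτ.2
    have h2 : Real.exp τ.im < 1 := by rw [← Real.exp_zero]; exact Real.exp_lt_exp.2 h1
    nlinarith
  have hnct : Tendsto n (𝓝 s) (𝓝 0) := by
    have := hnas.continuousAt.tendsto
    rwa [hn0] at this
  have hsna : ∀ᶠ t in 𝓝 s, t ≠ a := by
    exact eventually_ne_nhds (sub_ne_zero.1 hsa)
  -- hypotheses of rule1d
  have A1 : DifferentiableOn ℂ (fun τ => Ψ (m τ)) (ball 0 e0) :=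
    hΨ.comp hmd.differentiableOn hball
  have A2 : DifferentiableOn ℂ (fun τ => N (m τ)) (ball 0 e0) :=
    hN.comp hmd.differentiableOn hball
  have A3 : DifferentiableOn ℂ (fun τ => Dn (m τ)) (ball 0 e0) :=
    hDn.comp hmd.differentiableOn hball
  have A4 : ∃ τ ∈ ball (0 : ℂ) e0, Dn (m τ) ≠ 0 := by
    by_contra hcon
    push Not at hcon
    have h1 : Dn =ᶠ[𝓝 s] fun _ => (0 : ℂ) := by
      filter_upwards [hnct.eventually (ball_mem_nhds 0 he0), hsna] with t h2 h3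
      have := hcon _ h2
      rwa [hmn t h3] at this
    have h4 := (hDn.analyticOnNhd hW).eqOn_of_preconnected_of_eventuallyEq
      (analyticOnNhd_const) hWc hsW h1
    obtain ⟨t, ht, ht'⟩ := hDn0
    exact ht' (h4 ht)
  have A5 : DifferentiableOn ℂ (fun τ => B (m τ)) (LD 0 e0) :=
    hB.comp hmd.differentiableOn hmL
  have A6 : ∀ τ ∈ LD 0 e0, B (m τ) ∈ S := fun τ hτ => (hBP _ (hmL τ hτ)).1
  have A7 : ∃ τ ∈ LD 0 e0, deriv (fun τ => B (m τ)) τ ≠ 0 := by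
    by_contra hcon
    push Not at hcon
    have hτ2 : (0 : ℂ) - ((e0 / 2 : ℝ) : ℂ) * Complex.I ∈ LD 0 e0 :=
      mem_LD_self (by positivity) (by linarith)
    set τ2 : ℂ := (0 : ℂ) - ((e0 / 2 : ℝ) : ℂ) * Complex.I with hτ2d
    have hcst : ∀ τ ∈ LD 0 e0, B (m τ) = B (m τ2) := by
      intro τ hτ
      exact (isOpen_LD 0 e0).is_const_of_deriv_eq_zero (convex_LD 0 e0).isPreconnected A5
        (fun z hz => hcon z hz) hτ hτ2
    -- near `m τ2`, `B` is constant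
    have hmder : HasDerivAt m ((s - a) * (Complex.exp (-(Complex.I * τ2)) * (-(Complex.I)))) τ2 := by
      have h0 : HasDerivAt (fun τ : ℂ => -(Complex.I * τ)) (-(Complex.I * 1)) τ2 :=
        ((hasDerivAt_id τ2).const_mul Complex.I).neg
      have h1 := (h0.cexp.const_mul (s - a)).const_add a
      rw [mul_one] at h1
      exact h1
    have hmne : (s - a) * (Complex.exp (-(Complex.I * τ2)) * (-(Complex.I))) ≠ 0 :=
      mul_ne_zero hsa (mul_ne_zero (Complex.exp_ne_zero _) (by simp))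
    have hopen : map m (𝓝 τ2) = 𝓝 (m τ2) := by
      have h2 : HasStrictDerivAt m ((s - a) * (Complex.exp (-(Complex.I * τ2)) * (-(Complex.I)))) τ2 := by
        have h3 : AnalyticAt ℂ m τ2 := hmd.analyticAt τ2
        have h4 := h3.hasStrictDerivAt
        rwa [hmder.deriv] at h4
      exact h2.map_nhds_eq hmne
    have hBc : B =ᶠ[𝓝 (m τ2)] fun _ => B (m τ2) := by
      rw [← hopen]
      change ∀ᶠ y in map m (𝓝 τ2), B y = B (m τ2)
      rw [eventually_map]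
      filter_upwards [(isOpen_LD 0 e0).mem_nhds hτ2] with τ hτ
      exact hcst τ hτ
    have hEq := (hB.analyticOnNhd isOpen_ball).eqOn_of_preconnected_of_eventuallyEq
      (analyticOnNhd_const) (convex_ball a ρ).isPreconnected (hmL _ hτ2) hBc
    obtain ⟨t, ht, ht'⟩ := hnc
    apply ht'
    have h5 : B =ᶠ[𝓝 t] fun _ => B (m τ2) := by
      filter_upwards [isOpen_ball.mem_nhds ht] with y hy
      exact hEq hy
    rw [h5.deriv_eq]; simp
  obtain ⟨r, hr, hre, Bt, hBt, hBtP, hBtB⟩ := hR 0 e0 he0 _ _ _ _ A1 A2 A3 A4 A5 A6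
    A7 (fun τ hτ => (hBP _ (hmL τ hτ)).2.1) (fun τ hτ => (hBP _ (hmL τ hτ)).2.2)
  have hev : ∀ᶠ t in 𝓝 s, AnalyticAt ℂ n t ∧ n t ∈ ball (0 : ℂ) r ∧ t ≠ a := by
    exact hnas.eventually_analyticAt.and ((hnct.eventually (ball_mem_nhds 0 hr)).and hsna)
  obtain ⟨δ, hδ, hδb⟩ := Metric.eventually_nhds_iff_ball.1 hev
  refine ⟨δ, hδ, fun t => Bt (n t), ?_, ?_, ?_⟩
  · intro t ht
    obtain ⟨b1, b2, b3⟩ := hδb t ht
    exact ((hBt.differentiableAt (isOpen_ball.mem_nhds b2)).comp t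
      b1.differentiableAt).differentiableWithinAt
  · intro t ht
    obtain ⟨b1, b2, b3⟩ := hδb t ht
    obtain ⟨c1, c2, c3⟩ := hBtP (n t) b2
    rw [hmn t b3] at c2 c3
    exact ⟨c1, c2, c3⟩
  · intro t ht hta
    obtain ⟨b1, b2, b3⟩ := hδb t ht
    have hL : n t ∈ LD 0 r := by
      refine ⟨b2, ?_⟩
      change (n t).im < (0 : ℂ).im
      rw [hnim t b3, Complex.zero_im]
      refine Real.log_neg (div_pos (norm_pos_iff.2 (sub_ne_zero.2 b3)) hρ) ?_
      rw [div_lt_one hρ, ← dist_eq_norm]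
      exact hta
    have hh := hBtB hL
    simp only at hh
    change Bt (n t) = B t
    rw [hh, hmn t b3]

/-- **F1(ii), germ version**: the tangent-line data `Ψ, N, Dn` are holomorphic on the disc
`ball t1 ε`, a non-constant germ of the label `B` is given at a point `t0` of the disc; then the
label continues to the whole disc, with values in the strip. -/
theorem rule1gS {S : Set ℂ} {ψ H : ℂ → ℂ} (hR : R1D S ψ H)
    {t1 t0 : ℂ} {ε : ℝ} {Ψ N Dn : ℂ → ℂ}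
    (hΨ : DifferentiableOn ℂ Ψ (ball t1 ε)) (hN : DifferentiableOn ℂ N (ball t1 ε))
    (hDn : DifferentiableOn ℂ Dn (ball t1 ε)) (hDn0 : ∃ t ∈ ball t1 ε, Dn t ≠ 0)
    (ht0 : t0 ∈ ball t1 ε) {B : ℂ → ℂ} (hB : AnalyticAt ℂ B t0)
    (hBP : ∀ᶠ t in 𝓝 t0, PVS S ψ H Ψ N Dn t (B t)) (hnc : ∃ᶠ t in 𝓝 t0, deriv B t ≠ 0) :
    ∃ Bt : ℂ → ℂ, DifferentiableOn ℂ Bt (ball t1 ε) ∧
      (∀ t ∈ ball t1 ε, PVS S ψ H Ψ N Dn t (Bt t)) ∧ Bt =ᶠ[𝓝 t0] B := by
  have h0 : ‖t1 - t0‖ < ε := by rw [← dist_eq_norm, dist_comm]; exact ht0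
  have hε : 0 < ε := (norm_nonneg _).trans_lt h0
  set E : ℝ → Prop := fun r => ∃ Bt : ℂ → ℂ, DifferentiableOn ℂ Bt (Wr t0 t1 ε r) ∧
      (∀ t ∈ Wr t0 t1 ε r, PVS S ψ H Ψ N Dn t (Bt t)) ∧ Bt =ᶠ[𝓝 t0] B with hE
  -- (1) small `r`
  have hsmall : ∃ r : ℝ, 0 < r ∧ r < 1 ∧ E r := by
    obtain ⟨d, hd, hdb⟩ := Metric.eventually_nhds_iff_ball.1 (hB.eventually_analyticAt.and hBP)
    have hr : 0 < min (1 / 2) (d / (2 * ε)) := by positivity
    refine ⟨min (1 / 2) (d / (2 * ε)), hr, by linarith [min_le_left (1 / 2 : ℝ) (d / (2 * ε))],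
      B, ?_, ?_, EventuallyEq.rfl⟩
    all_goals
      have hsub : Wr t0 t1 ε (min (1 / 2) (d / (2 * ε))) ⊆ ball t0 d := by
        refine (Wr_small h0 hr).trans (ball_subset_ball ?_)
        have := min_le_right (1 / 2 : ℝ) (d / (2 * ε))
        calc 2 * min (1 / 2) (d / (2 * ε)) * ε ≤ 2 * (d / (2 * ε)) * ε := by gcongr
          _ = d := by field_simp
    · intro t ht
      exact (hdb t (hsub ht)).1.differentiableAt.differentiableWithinAt
    · intro t ht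
      exact (hdb t (hsub ht)).2
  -- uniqueness
  have huniq : ∀ r r' : ℝ, 0 < r → r ≤ r' → ∀ B1 B2 : ℂ → ℂ,
      DifferentiableOn ℂ B1 (Wr t0 t1 ε r) → DifferentiableOn ℂ B2 (Wr t0 t1 ε r') →
      B1 =ᶠ[𝓝 t0] B → B2 =ᶠ[𝓝 t0] B → EqOn B1 B2 (Wr t0 t1 ε r) := by
    intro r r' hr hrr B1 B2 d1 d2 e1 e2
    exact (d1.analyticOnNhd isOpen_ball).eqOn_of_preconnected_of_eventuallyEq
      ((d2.mono (Wr_mono h0 hrr)).analyticOnNhd isOpen_ball) (convex_ball _ _).isPreconnected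
      (Wr_self h0 hr) (e1.trans e2.symm)
  -- (2) downward closed
  have hdown : ∀ r r' : ℝ, r ≤ r' → E r' → E r := by
    rintro r r' hrr ⟨Bt, b1, b2, b3⟩
    exact ⟨Bt, b1.mono (Wr_mono h0 hrr), fun t ht => b2 t (Wr_mono h0 hrr ht), b3⟩
  -- (3) closed under suprema
  have hsup : ∀ R : ℝ, 0 < R → (∀ r, 0 < r → r < R → E r) → E R := by
    intro R hR hall
    have hex : ∀ z ∈ Wr t0 t1 ε R, ∃ r : ℝ, 0 < r ∧ r < R ∧ z ∈ Wr t0 t1 ε r := by
      intro z hz
      have hcont : Tendsto (fun r : ℝ => r * ε - ‖z - (t0 + r * (t1 - t0))‖) (𝓝[<] R)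
          (𝓝 (R * ε - ‖z - (t0 + R * (t1 - t0))‖)) := by
        have : ContinuousAt (fun r : ℝ => r * ε - ‖z - (t0 + r * (t1 - t0))‖) R := by fun_prop
        exact this.tendsto.mono_left nhdsWithin_le_nhds
      have hpos : 0 < R * ε - ‖z - (t0 + R * (t1 - t0))‖ := by
        unfold Wr at hz
        rw [mem_ball, dist_eq_norm] at hz
        linarith
      obtain ⟨r, hr1, hr2⟩ := ((hcont.eventually (lt_mem_nhds hpos)).and
        (Ioo_mem_nhdsLT hR)).exists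
      refine ⟨r, hr2.1, hr2.2, ?_⟩
      unfold Wr
      rw [mem_ball, dist_eq_norm]
      linarith
    choose! ρ hρ0 hρR hρm using hex
    choose! Br hBr1 hBr2 hBr3 using hall
    have key : ∀ r : ℝ, 0 < r → r < R → ∀ z ∈ Wr t0 t1 ε r, Br (ρ z) z = Br r z := by
      intro r hr hrR z hz
      have hzR : z ∈ Wr t0 t1 ε R := Wr_mono h0 hrR.le hz
      have a1 := hρ0 z hzR
      have a2 := hρR z hzR
      have a3 := hρm z hzR
      rcases le_total (ρ z) r with h5 | h5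
      · exact huniq _ _ a1 h5 _ _ (hBr1 _ a1 a2) (hBr1 _ hr hrR) (hBr3 _ a1 a2) (hBr3 _ hr hrR) a3
      · exact (huniq _ _ hr h5 _ _ (hBr1 _ hr hrR) (hBr1 _ a1 a2) (hBr3 _ hr hrR)
          (hBr3 _ a1 a2) hz).symm
    refine ⟨fun z => Br (ρ z) z, ?_, ?_, ?_⟩
    · intro z hz
      have a1 := hρ0 z hz
      have a2 := hρR z hz
      have a3 := hρm z hz
      have hev : (fun z => Br (ρ z) z) =ᶠ[𝓝 z] Br (ρ z) := by
        filter_upwards [isOpen_ball.mem_nhds a3] with y hy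
        exact key _ a1 a2 y hy
      exact (((hBr1 _ a1 a2).differentiableAt (isOpen_ball.mem_nhds a3)).congr_of_eventuallyEq
        hev).differentiableWithinAt
    · intro z hz
      exact hBr2 _ (hρ0 z hz) (hρR z hz) z (hρm z hz)
    · have hR2 : 0 < R / 2 := by positivity
      have hR3 : R / 2 < R := by linarith
      refine EventuallyEq.trans ?_ (hBr3 _ hR2 hR3)
      filter_upwards [isOpen_ball.mem_nhds (Wr_self h0 hR2)] with y hy
      exact key _ hR2 hR3 y hy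
  -- (4) open
  have hstep : ∀ r : ℝ, 0 < r → r < 1 → E r → ∃ r' > r, E r' := by
    rintro r hr hr1 ⟨Bt, b1, b2, b3⟩
    have hrε : 0 < r * ε := by positivity
    have hfr : ∀ s ∈ frontier (Wr t0 t1 ε r), ∃ δ : ℝ, 0 < δ ∧ ∃ F : ℂ → ℂ,
        DifferentiableOn ℂ F (ball s δ) ∧ (∀ t ∈ ball s δ, PVS S ψ H Ψ N Dn t (F t)) ∧
        ∀ t ∈ ball s δ, t ∈ Wr t0 t1 ε r → F t = Bt t := by
      intro s hs
      have hs1 : dist s (t0 + r * (t1 - t0)) = r * ε := by
        unfold Wr at hs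
        rw [frontier_ball _ hrε.ne'] at hs
        exact hs
      have hsW : s ∈ ball t1 ε := Wr_closed h0 hr1 (by rw [mem_closedBall, hs1])
      refine step_discS hR isOpen_ball (convex_ball t1 ε).isPreconnected
        hΨ hN hDn hDn0 b1 b2 ?_ hs1 hsW hrε
      -- non-constant
      have hmem : ∀ᶠ t in 𝓝 t0, t ∈ Wr t0 t1 ε r := isOpen_ball.mem_nhds (Wr_self h0 hr)
      obtain ⟨t, ht1, ht2, ht3⟩ := (hnc.and_eventually (hmem.and b3.eventually_nhds)).exists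
      refine ⟨t, ht2, ?_⟩
      have : Bt =ᶠ[𝓝 t] B := ht3
      rw [this.deriv_eq]
      exact ht1
    have hcomp : IsCompact (closure (Wr t0 t1 ε r)) := by
      unfold Wr
      rw [closure_ball _ hrε.ne']
      exact isCompact_closedBall _ _
    obtain ⟨η, hη, F, f1, f2, f3⟩ := glue_closure isOpen_ball hcomp b1 b2 hfr
    have hr' : r < r + η / (2 * ε) := by
      have : 0 < η / (2 * ε) := by positivity
      linarith
    have hsub : Wr t0 t1 ε (r + η / (2 * ε)) ⊆ thickening η (Wr t0 t1 ε r) := by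
      refine Wr_thick h0 hr hr' (le_of_eq ?_)
      field_simp
      ring
    refine ⟨r + η / (2 * ε), hr', F, f1.mono hsub, fun t ht => f2 t (hsub ht), ?_⟩
    refine EventuallyEq.trans ?_ b3
    filter_upwards [isOpen_ball.mem_nhds (Wr_self h0 hr)] with y hy
    exact f3 hy
  -- conclusion
  have hE1 : E 1 := by
    by_contra hno
    obtain ⟨r1, hr1, hr1', hEr1⟩ := hsmall
    set A : Set ℝ := {r | 0 < r ∧ r ≤ 1 ∧ E r} with hA
    have hAne : A.Nonempty := ⟨r1, hr1, hr1'.le, hEr1⟩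
    have hAb : BddAbove A := ⟨1, fun r hr => hr.2.1⟩
    have hs1 : sSup A ≤ 1 := csSup_le hAne fun r hr => hr.2.1
    have hs0 : 0 < sSup A := hr1.trans_le (le_csSup hAb ⟨hr1, hr1'.le, hEr1⟩)
    have hEs : E (sSup A) := by
      refine hsup _ hs0 fun r hr hrs => ?_
      obtain ⟨r', hr'A, hrr'⟩ := exists_lt_of_lt_csSup hAne hrs
      exact hdown r r' hrr'.le hr'A.2.2
    rcases hs1.lt_or_eq with hlt | heq
    · obtain ⟨r', hr'1, hr'2⟩ := hstep _ hs0 hlt hEs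
      have hm : min r' 1 ∈ A := ⟨lt_min (hs0.trans hr'1) one_pos, min_le_right _ _,
        hdown _ r' (min_le_left _ _) hr'2⟩
      have := le_csSup hAb hm
      rcases min_le_iff.1 this with h5 | h5
      · linarith
      · linarith
    · rw [heq] at hEs
      exact hno hEs
  obtain ⟨Bt, b1, b2, b3⟩ := hE1
  rw [Wr_one] at b1 b2
  exact ⟨Bt, b1, b2, b3⟩

/-- **F1(ii), joint form, retro-reflection allowed** (`Dn` may vanish at `x`, but not identically on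
the slice). -/
theorem rule2S {S : Set ℂ} (hSo : IsOpen S) {ψ H : ℂ → ℂ} (hψ : DifferentiableOn ℂ ψ S)
    (hH : DifferentiableOn ℂ H S) {c : ℂ} (hc : c ≠ 0)
    (rel : ∀ z ∈ S, deriv ψ z * deriv (deriv H) z - deriv (deriv ψ) z * deriv H z +
      deriv ψ z ^ 3 * H z = c) (hR : R1D S ψ H)
    {D : Set (ℂ × ℂ)} (hD : IsOpen D) {B Ψ N Dn : ℂ × ℂ → ℂ} (hB : DifferentiableOn ℂ B D)
    (hBS : ∀ y ∈ D, B y ∈ S)
    {t1 w1 : ℂ} (hΨ : AnalyticAt ℂ Ψ (t1, w1)) (hN : AnalyticAt ℂ N (t1, w1))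
    (hDn : AnalyticAt ℂ Dn (t1, w1)) (hDnf : ∃ᶠ t in 𝓝 t1, Dn (t, w1) ≠ 0)
    (hDb : ∀ b ∈ S, deriv ψ b = 0 → ψ b = Ψ (t1, w1) → Dn (t1, w1) ≠ 0)
    (h1 : ∀ᶠ y in 𝓝 (t1, w1), y ∈ D → ψ (B y) = Ψ y)
    (h2 : ∀ᶠ y in 𝓝 (t1, w1), y ∈ D → Dn y * H (B y) = N y)
    {r0 : ℝ} (hr0 : 0 < r0) (hseg : ∀ s : ℝ, 0 < s → s < r0 → (t1 - s * Complex.I, w1) ∈ D)
    (hnc : ∀ s : ℝ, 0 < s → s < r0 → deriv (fun t => B (t, w1)) (t1 - s * Complex.I) ≠ 0) :
    ∃ G : ℂ × ℂ → ℂ, AnalyticAt ℂ G (t1, w1) ∧ G (t1, w1) ∈ S ∧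
      ∀ᶠ s : ℝ in 𝓝[>] 0, G =ᶠ[𝓝 (t1 - s * Complex.I, w1)] B := by
  -- slices
  have hsl : ∀ F : ℂ × ℂ → ℂ, ∀ t : ℂ, AnalyticAt ℂ F (t, w1) →
      AnalyticAt ℂ (fun t => F (t, w1)) t := by
    intro F t hF
    have h3 : AnalyticAt ℂ (fun t : ℂ => ((t, w1) : ℂ × ℂ)) t := analyticAt_id.prod analyticAt_const
    exact AnalyticAt.comp (g := F) (f := fun t : ℂ => ((t, w1) : ℂ × ℂ)) hF h3
  have hslc : Tendsto (fun t : ℂ => ((t, w1) : ℂ × ℂ)) (𝓝 t1) (𝓝 (t1, w1)) :=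
    (Continuous.prodMk continuous_id continuous_const).tendsto t1
  obtain ⟨ε, hε, hball⟩ := Metric.eventually_nhds_iff_ball.1 (hslc.eventually
    (hΨ.eventually_analyticAt.and (hN.eventually_analyticAt.and
      (hDn.eventually_analyticAt.and (h1.eventually_nhds.and h2.eventually_nhds)))))
  set s0 : ℝ := min r0 ε / 2 with hs0
  have hs0p : 0 < s0 := by positivity
  have hs0r : s0 < r0 := by have := min_le_left r0 ε; rw [hs0]; linarith [lt_min hr0 hε]
  have hs0ε : s0 < ε := by have := min_le_right r0 ε; rw [hs0]; linarith [lt_min hr0 hε]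
  have hmem : ∀ s : ℝ, 0 < s → s < ε → t1 - s * Complex.I ∈ ball t1 ε := by
    intro s hs hsε
    rw [mem_ball, dist_eq_norm, sub_sub_cancel_left, norm_neg, norm_mul, Complex.norm_I, mul_one,
      Complex.norm_real, Real.norm_eq_abs, abs_of_pos hs]
    exact hsε
  -- `B` analytic on the slice near the segment
  have hBan : ∀ t : ℂ, (t, w1) ∈ D → AnalyticAt ℂ (fun t => B (t, w1)) t := by
    intro t ht
    have := Crest.Agent.R266.SCV.analyticOnNhd_of_differentiableOn hD hB (t, w1) ht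
    exact hsl B t this
  have hDev : ∀ t : ℂ, (t, w1) ∈ D → ∀ᶠ t' in 𝓝 t, (t', w1) ∈ D := by
    intro t ht
    have hc1 : Tendsto (fun t : ℂ => ((t, w1) : ℂ × ℂ)) (𝓝 t) (𝓝 (t, w1)) :=
      (Continuous.prodMk continuous_id continuous_const).tendsto t
    exact hc1.eventually (hD.mem_nhds ht)
  have hPV : ∀ t ∈ ball t1 ε, (t, w1) ∈ D →
      PVS S ψ H (fun t => Ψ (t, w1)) (fun t => N (t, w1)) (fun t => Dn (t, w1)) t (B (t, w1)) := by
    intro t ht htD
    obtain ⟨-, -, -, a5, a6⟩ := hball t ht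
    exact ⟨hBS _ htD, a5.self_of_nhds htD, a6.self_of_nhds htD⟩
  have hDnx : ∃ t ∈ ball t1 ε, Dn (t, w1) ≠ 0 := by
    obtain ⟨t, k1, k2⟩ := (hDnf.and_eventually (ball_mem_nhds t1 hε)).exists
    exact ⟨t, k2, k1⟩
  obtain ⟨Bt, b1, b2, b3⟩ := rule1gS hR (t1 := t1)
    (t0 := t1 - s0 * Complex.I) (ε := ε) (Ψ := fun t => Ψ (t, w1)) (N := fun t => N (t, w1))
    (Dn := fun t => Dn (t, w1))
    (fun t ht => (hsl Ψ t (hball t ht).1).differentiableAt.differentiableWithinAt)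
    (fun t ht => (hsl N t (hball t ht).2.1).differentiableAt.differentiableWithinAt)
    (fun t ht => (hsl Dn t (hball t ht).2.2.1).differentiableAt.differentiableWithinAt)
    hDnx (hmem s0 hs0p hs0ε)
    (B := fun t => B (t, w1)) (hBan _ (hseg s0 hs0p hs0r))
    (by
      filter_upwards [hDev _ (hseg s0 hs0p hs0r), isOpen_ball.mem_nhds (hmem s0 hs0p hs0ε)]
        with t k1 k2
      exact hPV t k2 k1)
    (by
      have hd := (hBan _ (hseg s0 hs0p hs0r)).deriv.continuousAt.eventually_ne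
        (hnc s0 hs0p hs0r)
      exact hd.frequently)
  -- `Bt = B` along the segment
  have hEqseg : ∀ s : ℝ, 0 < s → s ≤ s0 → Bt (t1 - s * Complex.I) = B (t1 - s * Complex.I, w1) := by
    -- identity theorem along the segment: the set of good `s` is clopen in `(0, s0]`
    set γ : ℝ → ℂ := fun s => t1 - s * Complex.I with hγ
    set V : Set ℂ := {t | t ∈ ball t1 ε ∧ (t, w1) ∈ D} with hV
    have hVo : IsOpen V := by
      rw [isOpen_iff_mem_nhds]
      rintro t ⟨k1, k2⟩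
      filter_upwards [isOpen_ball.mem_nhds k1, hDev t k2] with y l1 l2
      exact ⟨l1, l2⟩
    intro s hs hss
    -- preconnected component: the set of points of `V` near which the two agree is clopen in `V`
    set T : Set ℂ := {t | Bt =ᶠ[𝓝 t] fun t => B (t, w1)} with hT
    have hTo : IsOpen T := isOpen_setOfPred_eventually_nhds
    have hTcl : ∀ t ∈ V, t ∈ closure T → t ∈ T := by
      intro t ht htc
      have a1 : AnalyticAt ℂ Bt t := b1.analyticAt (isOpen_ball.mem_nhds ht.1)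
      have a2 : AnalyticAt ℂ (fun t => B (t, w1)) t := hBan t ht.2
      have a3 : ∃ᶠ y in 𝓝 t, y ∈ T := mem_closure_iff_frequently.1 htc
      rcases (a1.eventually_eq_or_eventually_ne a2) with a4 | a4
      · exact a4
      · exfalso
        have a5 : ∀ᶠ y in 𝓝 t, y ≠ t → Bt y ≠ B (y, w1) := eventually_nhdsWithin_iff.1 a4
        obtain ⟨y, hy, hy2⟩ := (a3.and_eventually a5.eventually_nhds).exists
        have a6 : ∀ᶠ z in 𝓝 y, z = t := by
          filter_upwards [hy2, hy] with z l1 l2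
          by_contra l3
          exact l1 l3 l2
        have a7 : ∀ᶠ z in 𝓝[≠] y, z = t := a6.filter_mono nhdsWithin_le_nhds
        have a8 : ∀ᶠ z in 𝓝[≠] y, z ≠ y := eventually_mem_nhdsWithin
        obtain ⟨z, hz1, hz2⟩ := (a7.and a8).exists
        exact hz2 (hz1.trans a6.self_of_nhds.symm)
    have hγc : Continuous γ := by rw [hγ]; fun_prop
    have hIcc : IsPreconnected (γ '' Icc s s0) := isPreconnected_Icc.image _ hγc.continuousOn
    have hsubV : γ '' Icc s s0 ⊆ V := by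
      rintro _ ⟨σ, hσ, rfl⟩
      exact ⟨hmem σ (hs.trans_le hσ.1) (hσ.2.trans_lt hs0ε),
        hseg σ (hs.trans_le hσ.1) (hσ.2.trans_lt hs0r)⟩
    have hsubT : γ '' Icc s s0 ⊆ T := by
      refine hIcc.subset_of_closure_inter_subset hTo ⟨γ s0, ⟨s0, ⟨hss, le_rfl⟩, rfl⟩, b3⟩ ?_
      rintro z ⟨hz1, hz2⟩
      exact hTcl z (hsubV hz2) hz1
    have : γ s ∈ T := hsubT ⟨s, ⟨le_rfl, hss⟩, rfl⟩
    exact (show Bt =ᶠ[𝓝 (γ s)] fun t => B (t, w1) from this).self_of_nhds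
  -- cluster value
  set u : ℕ → ℂ × ℂ := fun n => (t1 - ((s0 / (n + 1 : ℝ) : ℝ) : ℂ) * Complex.I, w1) with hu
  have hsn : ∀ n : ℕ, 0 < s0 / (n + 1 : ℝ) ∧ s0 / (n + 1 : ℝ) ≤ s0 := by
    intro n
    have hn : (1 : ℝ) ≤ (n : ℝ) + 1 := by linarith [Nat.cast_nonneg (α := ℝ) n]
    exact ⟨by positivity, div_le_self hs0p.le hn⟩
  have hlim0 : Tendsto (fun n : ℕ => s0 / (n + 1 : ℝ)) atTop (𝓝 0) :=
    tendsto_const_nhds.div_atTop (tendsto_atTop_add_const_right _ _ tendsto_natCast_atTop_atTop)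
  have hlim1 : Tendsto (fun n : ℕ => t1 - ((s0 / (n + 1 : ℝ) : ℝ) : ℂ) * Complex.I) atTop (𝓝 t1) := by
    have hcc : ContinuousAt (fun s : ℝ => t1 - (s : ℂ) * Complex.I) 0 := by fun_prop
    have := hcc.tendsto.comp hlim0
    simpa [Function.comp_def] using this
  have hux : Tendsto u atTop (𝓝 (t1, w1)) := hlim1.prodMk_nhds tendsto_const_nhds
  have hBtc : ContinuousAt Bt t1 := (b1.differentiableAt (ball_mem_nhds t1 hε)).continuousAt
  have hub : Tendsto (fun n => B (u n)) atTop (𝓝 (Bt t1)) := by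
    refine (hBtc.tendsto.comp hlim1).congr fun n => ?_
    exact hEqseg _ (hsn n).1 (hsn n).2
  have huD : ∀ n, u n ∈ D := fun n => hseg _ (hsn n).1 ((hsn n).2.trans_lt hs0r)
  obtain ⟨G, g1, g2, g3⟩ := extend_of_cluster' hSo hc hψ hH rel hD hB hΨ hN hDn
    (b2 t1 (mem_ball_self hε)).1
    (fun h0 => hDb _ (b2 t1 (mem_ball_self hε)).1 h0 (b2 t1 (mem_ball_self hε)).2.1)
    h1 h2 huD hux hub
  refine ⟨G, g1, ?_, ?_⟩
  · rw [g2]; exact (b2 t1 (mem_ball_self hε)).1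
  · -- propagate along the segment
    obtain ⟨V, hV1, hV2⟩ : ∃ e : ℝ, 0 < e ∧ ∀ s : ℝ, 0 < s → s < e →
        AnalyticAt ℂ G (t1 - s * Complex.I, w1) := by
      have hcc : Tendsto (fun s : ℝ => ((t1 - (s : ℂ) * Complex.I, w1) : ℂ × ℂ)) (𝓝 0)
          (𝓝 (t1, w1)) := by
        have hcc : ContinuousAt (fun s : ℝ => ((t1 - (s : ℂ) * Complex.I, w1) : ℂ × ℂ)) 0 := by
          fun_prop
        simpa using hcc.tendsto
      obtain ⟨e, he, heb⟩ := Metric.eventually_nhds_iff_ball.1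
        (hcc.eventually g1.eventually_analyticAt)
      refine ⟨e, he, fun s hs hse => heb s ?_⟩
      rw [mem_ball, dist_zero_right, Real.norm_eq_abs, abs_of_pos hs]
      exact hse
    have hev : ∀ᶠ s : ℝ in 𝓝[>] 0, s ∈ Ioo (0 : ℝ) (min V r0) := Ioo_mem_nhdsGT (lt_min hV1 hr0)
    filter_upwards [hev] with s hs
    obtain ⟨n, hn1, hn2⟩ := (g3.and (hlim0.eventually (gt_mem_nhds hs.1))).exists
    -- both analytic on the segment from `s0/(n+1)` to `s`
    set T : Set (ℂ × ℂ) := {y | G =ᶠ[𝓝 y] B} with hT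
    have hTo : IsOpen T := isOpen_setOfPred_eventually_nhds
    set γ : ℝ → ℂ × ℂ := fun σ => (t1 - (σ : ℂ) * Complex.I, w1) with hγ
    have hγc : Continuous γ := by rw [hγ]; fun_prop
    have hIcc : IsPreconnected (γ '' Icc (s0 / (n + 1 : ℝ)) s) :=
      isPreconnected_Icc.image _ hγc.continuousOn
    have hcl : closure T ∩ (γ '' Icc (s0 / (n + 1 : ℝ)) s) ⊆ T := by
      rintro y ⟨hy1, σ, hσ, rfl⟩
      have hσ0 : 0 < σ := (hsn n).1.trans_le hσ.1
      have hσV : σ < V := hσ.2.trans_lt (hs.2.trans_le (min_le_left _ _))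
      have hσr : σ < r0 := hσ.2.trans_lt (hs.2.trans_le (min_le_right _ _))
      have a1 : AnalyticAt ℂ G (γ σ) := hV2 σ hσ0 hσV
      have a2 : AnalyticAt ℂ B (γ σ) :=
        Crest.Agent.R266.SCV.analyticOnNhd_of_differentiableOn hD hB _ (hseg σ hσ0 hσr)
      obtain ⟨e, he, heb⟩ := Metric.eventually_nhds_iff_ball.1
        (a1.eventually_analyticAt.and a2.eventually_analyticAt)
      obtain ⟨y, hyT, hyb⟩ := ((mem_closure_iff_frequently.1 hy1).and_eventually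
        (ball_mem_nhds (γ σ) he)).exists
      have hEq := AnalyticOnNhd.eqOn_of_preconnected_of_eventuallyEq (f := G) (g := B)
        (U := ball (γ σ) e) (fun z hz => (heb z hz).1) (fun z hz => (heb z hz).2)
        (convex_ball _ _).isPreconnected hyb hyT
      change G =ᶠ[𝓝 (γ σ)] B
      filter_upwards [ball_mem_nhds (γ σ) he] with z hz
      exact hEq hz
    have hsubT : γ '' Icc (s0 / (n + 1 : ℝ)) s ⊆ T :=
      hIcc.subset_of_closure_inter_subset hTo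
        ⟨γ (s0 / (n + 1 : ℝ)), ⟨_, ⟨le_rfl, hn2.le⟩, rfl⟩, hn1⟩ hcl
    exact hsubT ⟨s, ⟨hn2.le, le_rfl⟩, rfl⟩

end Crest.Agent.R102.F300
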