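import Crest.Agent.R102.RATDefs_926

/-!
# Row 102, [H3], THEOREM (RAT), leaf R5 = RUN, algebraic part (helper58)

The field generated by the first line and the jets at all vertices of a chain is stable under the
derivations `∂/∂m_a`, `∂/∂k_a` of any line `a` of the chain; hence it contains the differential field
generated by the lines `a` and `a + N`.
-/

set_option autoImplicit false

noncomputable section

namespace Crest.Agent.R102.RunAlg58

open Crest.Agent.R102.RAT Crest.Agent.R102

variable {M : Type*} [Field M] [Algebra ℂ M]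

/-- chain relations for `P` mirrors, for one derivation -/
structure PChain (D : Derivation ℂ M M) (P : ℕ) (b : ℕ → M) (x : ℕ → ℕ → M)
    (E k : ℕ → M) : Prop where
  inc : ∀ j, j < P → x j 0 = E j ^ 2 * b j + k j
  inc' : ∀ j, j < P → x j 0 = E (j + 1) ^ 2 * b j + k (j + 1)
  refl : ∀ j, j < P → E j * E (j + 1) = x j 1
  E_ne : ∀ j, j ≤ P → E j ≠ 0
  tr : ∀ j, j < P → x j 1 ≠ E j ^ 2
  jet : ∀ j, j < P → ∀ r, D (x j r) = x j (r + 1) * D (b j)

variable {D : Derivation ℂ M M} {P : ℕ} {b : ℕ → M} {x : ℕ → ℕ → M} {E k : ℕ → M}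

theorem b_mem {j : ℕ} (hj : j < P) : b j ∈ LL P b x E k :=
  IntermediateField.subset_adjoin ℂ _ (Or.inr ⟨j, hj, Or.inl rfl⟩)

theorem x_mem {j : ℕ} (hj : j < P) (r : ℕ) : x j r ∈ LL P b x E k :=
  IntermediateField.subset_adjoin ℂ _ (Or.inr ⟨j, hj, Or.inr ⟨r, rfl⟩⟩)

theorem E0_mem : E 0 ∈ LL P b x E k :=
  IntermediateField.subset_adjoin ℂ _ (Or.inl (Or.inl rfl))

theorem k0_mem : k 0 ∈ LL P b x E k :=
  IntermediateField.subset_adjoin ℂ _ (Or.inl (Or.inr rfl))

theorem two_mem' : (2 : M) ∈ LL P b x E k := by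
  have := natCast_mem (LL P b x E k) 2
  exact_mod_cast this

/-- all lines of the chain are in `LL` -/
theorem line_mem (C : PChain D P b x E k) : ∀ j, j ≤ P → E j ∈ LL P b x E k ∧ k j ∈ LL P b x E k := by
  intro j
  induction j with
  | zero => exact fun _ => ⟨E0_mem, k0_mem⟩
  | succ j ih =>
    intro hj
    obtain ⟨h1, h2⟩ := ih (by omega)
    have e1 : E (j + 1) = x j 1 / E j := by
      rw [eq_div_iff (C.E_ne j (by omega)), ← C.refl j (by omega), mul_comm]
    have h3 : E (j + 1) ∈ LL P b x E k := by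
      rw [e1]; exact div_mem (x_mem (by omega) 1) h1
    refine ⟨h3, ?_⟩
    have e2 : k (j + 1) = x j 0 - E (j + 1) ^ 2 * b j := by
      rw [C.inc' j (by omega)]; ring
    rw [e2]
    exact sub_mem (x_mem (by omega) 0) (mul_mem (pow_mem h3 2) (b_mem (by omega)))

theorem tr' (C : PChain D P b x E k) {j : ℕ} (hj : j < P) : x j 1 ≠ E (j + 1) ^ 2 := by
  intro h
  have h1 := C.refl j hj
  rw [h, pow_two] at h1
  have h2 := mul_right_cancel₀ (C.E_ne (j + 1) (by omega)) h1
  apply C.tr j hj
  rw [h, h2]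

/-- derivative of the vertex from the line before -/
theorem Db_mem (C : PChain D P b x E k) {j : ℕ} (hj : j < P) (h1 : D (E j) ∈ LL P b x E k)
    (h2 : D (k j) ∈ LL P b x E k) : D (b j) ∈ LL P b x E k := by
  have hE := (line_mem C j hj.le).1
  have e1 := congrArg D (C.inc j hj)
  rw [map_add, Derivation.leibniz, Derivation.leibniz_pow, C.jet j hj 0] at e1
  simp only [smul_eq_mul, nsmul_eq_mul, zero_add] at e1
  have hne : x j 1 - E j ^ 2 ≠ 0 := sub_ne_zero.2 (C.tr j hj)
  have e2 : D (b j) = (b j * (2 * (E j * D (E j))) + D (k j)) / (x j 1 - E j ^ 2) := by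
    rw [eq_div_iff hne]
    push_cast at e1
    linear_combination e1
  rw [e2]
  exact div_mem (add_mem (mul_mem (b_mem hj) (mul_mem (two_mem')
    (mul_mem hE h1))) h2) (sub_mem (x_mem hj 1) (pow_mem hE 2))

/-- derivative of the vertex from the line after -/
theorem Db_mem' (C : PChain D P b x E k) {j : ℕ} (hj : j < P) (h1 : D (E (j + 1)) ∈ LL P b x E k)
    (h2 : D (k (j + 1)) ∈ LL P b x E k) : D (b j) ∈ LL P b x E k := by
  have hE := (line_mem C (j + 1) hj).1
  have e1 := congrArg D (C.inc' j hj)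
  rw [map_add, Derivation.leibniz, Derivation.leibniz_pow, C.jet j hj 0] at e1
  simp only [smul_eq_mul, nsmul_eq_mul, zero_add] at e1
  have hne : x j 1 - E (j + 1) ^ 2 ≠ 0 := sub_ne_zero.2 (tr' C hj)
  have e2 : D (b j) = (b j * (2 * (E (j + 1) * D (E (j + 1)))) + D (k (j + 1))) /
      (x j 1 - E (j + 1) ^ 2) := by
    rw [eq_div_iff hne]
    push_cast at e1
    linear_combination e1
  rw [e2]
  exact div_mem (add_mem (mul_mem (b_mem hj) (mul_mem (two_mem')
    (mul_mem hE h1))) h2) (sub_mem (x_mem hj 1) (pow_mem hE 2))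

theorem step_up (C : PChain D P b x E k) {j : ℕ} (hj : j < P) (h1 : D (E j) ∈ LL P b x E k)
    (h2 : D (k j) ∈ LL P b x E k) :
    D (E (j + 1)) ∈ LL P b x E k ∧ D (k (j + 1)) ∈ LL P b x E k := by
  have hb := Db_mem C hj h1 h2
  have hE := (line_mem C j hj.le).1
  have hE' := (line_mem C (j + 1) hj).1
  have e1 := congrArg D (C.refl j hj)
  rw [Derivation.leibniz, C.jet j hj 1] at e1
  simp only [smul_eq_mul] at e1
  have e2 : D (E (j + 1)) = (x j 2 * D (b j) - E (j + 1) * D (E j)) / E j := by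
    rw [eq_div_iff (C.E_ne j hj.le)]
    linear_combination e1
  have h3 : D (E (j + 1)) ∈ LL P b x E k := by
    rw [e2]
    exact div_mem (sub_mem (mul_mem (x_mem hj 2) hb) (mul_mem hE' h1)) hE
  refine ⟨h3, ?_⟩
  have e3 := congrArg D (C.inc' j hj)
  rw [map_add, Derivation.leibniz, Derivation.leibniz_pow, C.jet j hj 0] at e3
  simp only [smul_eq_mul, nsmul_eq_mul, zero_add] at e3
  have e4 : D (k (j + 1)) = x j 1 * D (b j) - E (j + 1) ^ 2 * D (b j)
      - b j * (2 * (E (j + 1) * D (E (j + 1)))) := by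
    push_cast at e3
    linear_combination -e3
  rw [e4]
  exact sub_mem (sub_mem (mul_mem (x_mem hj 1) hb) (mul_mem (pow_mem hE' 2) hb))
    (mul_mem (b_mem hj) (mul_mem (two_mem') (mul_mem hE' h3)))

theorem step_down (C : PChain D P b x E k) {j : ℕ} (hj : j < P)
    (h1 : D (E (j + 1)) ∈ LL P b x E k) (h2 : D (k (j + 1)) ∈ LL P b x E k) :
    D (E j) ∈ LL P b x E k ∧ D (k j) ∈ LL P b x E k := by
  have hb := Db_mem' C hj h1 h2
  have hE := (line_mem C j hj.le).1
  have hE' := (line_mem C (j + 1) hj).1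
  have e1 := congrArg D (C.refl j hj)
  rw [Derivation.leibniz, C.jet j hj 1] at e1
  simp only [smul_eq_mul] at e1
  have e2 : D (E j) = (x j 2 * D (b j) - E j * D (E (j + 1))) / E (j + 1) := by
    rw [eq_div_iff (C.E_ne (j + 1) hj)]
    linear_combination e1
  have h3 : D (E j) ∈ LL P b x E k := by
    rw [e2]
    exact div_mem (sub_mem (mul_mem (x_mem hj 2) hb) (mul_mem hE h1)) hE'
  refine ⟨h3, ?_⟩
  have e3 := congrArg D (C.inc j hj)
  rw [map_add, Derivation.leibniz, Derivation.leibniz_pow, C.jet j hj 0] at e3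
  simp only [smul_eq_mul, nsmul_eq_mul, zero_add] at e3
  have e4 : D (k j) = x j 1 * D (b j) - E j ^ 2 * D (b j) - b j * (2 * (E j * D (E j))) := by
    push_cast at e3
    linear_combination -e3
  rw [e4]
  exact sub_mem (sub_mem (mul_mem (x_mem hj 1) hb) (mul_mem (pow_mem hE 2) hb))
    (mul_mem (b_mem hj) (mul_mem (two_mem') (mul_mem hE h3)))

/-- all derivatives of the lines are in `LL` -/
theorem Dline_mem (C : PChain D P b x E k) {a : ℕ} (ha : a ≤ P) (h1 : D (E a) ∈ LL P b x E k)
    (h2 : D (k a) ∈ LL P b x E k) :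
    ∀ j, j ≤ P → D (E j) ∈ LL P b x E k ∧ D (k j) ∈ LL P b x E k := by
  have hup : ∀ i, a + i ≤ P → D (E (a + i)) ∈ LL P b x E k ∧ D (k (a + i)) ∈ LL P b x E k := by
    intro i
    induction i with
    | zero => exact fun _ => ⟨h1, h2⟩
    | succ i ih =>
      intro hi
      obtain ⟨e1, e2⟩ := ih (by omega)
      exact step_up C (j := a + i) (by omega) e1 e2
  have hdown : ∀ i, i ≤ a → D (E (a - i)) ∈ LL P b x E k ∧ D (k (a - i)) ∈ LL P b x E k := by
    intro i
    induction i with
    | zero => exact fun _ => ⟨h1, h2⟩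
    | succ i ih =>
      intro hi
      obtain ⟨e1, e2⟩ := ih (by omega)
      have e3 : a - i = a - (i + 1) + 1 := by omega
      rw [e3] at e1 e2
      exact step_down C (by omega) e1 e2
  intro j hj
  rcases le_total a j with h | h
  · obtain ⟨i, rfl⟩ := Nat.exists_eq_add_of_le h
    exact hup i hj
  · have e3 : a - (a - j) = j := by omega
    have := hdown (a - j) (by omega)
    rwa [e3] at this

/-- **`LL` is stable under a derivation which maps one line of the chain into `LL`** -/
theorem LL_stable (C : PChain D P b x E k) {a : ℕ} (ha : a ≤ P) (h1 : D (E a) ∈ LL P b x E k)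
    (h2 : D (k a) ∈ LL P b x E k) : ∀ f ∈ LL P b x E k, D f ∈ LL P b x E k := by
  intro f hf
  refine DF389.der_adjoin D _ (LL P b x E k) (IntermediateField.subset_adjoin ℂ _) ?_ hf
  have hl := Dline_mem C ha h1 h2
  have hb : ∀ j, j < P → D (b j) ∈ LL P b x E k := fun j hj =>
    Db_mem C hj (hl j hj.le).1 (hl j hj.le).2
  rintro y (hy | ⟨j, hj, rfl | ⟨r, rfl⟩⟩)
  · rcases hy with rfl | hy
    · exact (hl 0 (Nat.zero_le _)).1
    · rw [Set.mem_singleton_iff] at hy
      subst hy
      exact (hl 0 (Nat.zero_le _)).2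
  · exact hb j hj
  · rw [C.jet j hj r]
    exact mul_mem (x_mem hj _) (hb j hj)

/-- the marked line `a` is the line of the coordinates `m, k` -/
structure Mark (D₁ D₂ : Derivation ℂ M M) (a : ℕ) (E k : ℕ → M) : Prop where
  D₁E : D₁ (E a ^ 2) = 1
  D₂E : D₂ (E a ^ 2) = 0
  D₁k : D₁ (k a) = 0
  D₂k : D₂ (k a) = 1

/-- **the differential field of the end lines is contained in `LL` of the longer chain** -/
theorem KK_le {D₁ D₂ : Derivation ℂ M M} (C₁ : PChain D₁ P b x E k) (C₂ : PChain D₂ P b x E k)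
    {a N : ℕ} (hP : a + N ≤ P) (hm : Mark D₁ D₂ a E k) :
    KK D₁ D₂ N (fun j => E (a + j)) (fun j => k (a + j)) ≤ LL P b x E k := by
  have hEa := C₁.E_ne a (by omega)
  have hEm := (line_mem C₁ a (by omega)).1
  have h2 : (2 : M) ≠ 0 := by
    have : CharZero M := charZero_of_injective_algebraMap (algebraMap ℂ M).injective
    exact two_ne_zero
  have hD1 : D₁ (E a) = 1 / (2 * E a) := by
    have := hm.D₁E
    rw [Derivation.leibniz_pow] at this
    simp only [smul_eq_mul, nsmul_eq_mul] at this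
    push_cast at this
    rw [eq_div_iff (mul_ne_zero h2 hEa)]
    linear_combination this
  have hD2 : D₂ (E a) = 0 := by
    have := hm.D₂E
    rw [Derivation.leibniz_pow] at this
    simp only [smul_eq_mul, nsmul_eq_mul] at this
    push_cast at this
    have e : (2 * E a) * D₂ (E a) = 0 := by linear_combination this
    exact (mul_eq_zero.1 e).resolve_left (mul_ne_zero h2 hEa)
  have s1 : ∀ f ∈ LL P b x E k, D₁ f ∈ LL P b x E k := by
    refine LL_stable C₁ (a := a) (by omega) ?_ ?_
    · rw [hD1]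
      exact div_mem (one_mem _) (mul_mem (two_mem') hEm)
    · rw [hm.D₁k]; exact zero_mem _
  have s2 : ∀ f ∈ LL P b x E k, D₂ f ∈ LL P b x E k := by
    refine LL_stable C₂ (a := a) (by omega) ?_ ?_
    · rw [hD2]; exact zero_mem _
    · rw [hm.D₂k]; exact one_mem _
  refine DF389.dfield_le _ _ _ ?_ ?_
  · intro y hy
    simp only [Set.mem_insert_iff, Set.mem_singleton_iff, add_zero] at hy
    rcases hy with rfl | rfl | rfl | rfl
    · exact (line_mem C₁ a (by omega)).1
    · exact (line_mem C₁ a (by omega)).2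
    · exact (line_mem C₁ (a + N) hP).1
    · exact (line_mem C₁ (a + N) hP).2
  · intro i
    fin_cases i
    · exact s1
    · exact s2

/-- transport of algebraicity by a homomorphism `τ` which agrees with `ρ` on `K` -/
theorem tau_alg {F : Type*} [Field F] [Algebra ℂ F] (K L L' : IntermediateField ℂ M) (hKL : K ≤ L)
    (hKL' : K ≤ L') (τ : L →ₐ[ℂ] F) (ρ : M →ₐ[ℂ] F)
    (h : ∀ f (hf : f ∈ K), τ ⟨f, hKL hf⟩ = ρ f) (f : L) (hf : IsAlgebraic K (f : M)) :
    IsAlgebraic (L'.map ρ) (τ f) := by
  obtain ⟨p, hp0, hp⟩ := hf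
  let j : K →+* (L'.map ρ) :=
    { toFun := fun y => ⟨ρ y, (IntermediateField.mem_map _).2 ⟨y, hKL' y.2, rfl⟩⟩
      map_one' := by ext; simp
      map_mul' := fun y z => by ext; simp
      map_zero' := by ext; simp
      map_add' := fun y z => by ext; simp }
  refine ⟨p.map j, ?_, ?_⟩
  · rw [Ne, Polynomial.map_eq_zero]
    exact hp0
  · rw [Polynomial.aeval_def, Polynomial.eval₂_map]
    -- `p` evaluated at `f` in `L`
    have e1 : Polynomial.eval₂ (IntermediateField.inclusion hKL).toRingHom f p = 0 := by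
      apply Subtype.ext
      have e2 := Polynomial.hom_eval₂ p (IntermediateField.inclusion hKL).toRingHom
        (algebraMap L M) f
      change algebraMap L M (Polynomial.eval₂ (IntermediateField.inclusion hKL).toRingHom f p) = _
      rw [e2]
      exact hp
    have e3 := congrArg τ.toRingHom e1
    rw [Polynomial.hom_eval₂, map_zero] at e3
    have e4 : τ.toRingHom.comp (IntermediateField.inclusion hKL).toRingHom =
        (algebraMap (L'.map ρ) F).comp j := by
      ext y
      exact h y y.2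
    rw [← e4]
    exact e3

end Crest.Agent.R102.RunAlg58
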