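import Crest.Agent.R102.Run_58

/-!
# Row 102, [H3], THEOREM (RAT), leaf R5 = RUN (helper58): the shift of the chain

`Th β a p` = the chord coordinates of the line `l_{-a}(p)`; the chain of `Th β a p` is the chain of
`p` shifted by `a`, and `Th β a` is locally invertible, with inverse `fl ∘ Th β a ∘ fl`.
-/

set_option autoImplicit false

open Set Filter Topology Metric

noncomputable section

namespace Crest.Agent.R102.RunD58

open Crest.Agent.R102.F7389 Crest.Agent.R102.Run58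

/-- vertices with integer index, `B (-1-i) = bm i` -/
def Bz (β : ℕ → ℂ × ℂ → ℂ) : ℤ → ℂ × ℂ → ℂ
  | Int.ofNat j => bp β j
  | Int.negSucc i => bm β i

/-- lines with integer index -/
def Lz (m : ℕ → ℂ × ℂ → ℂ) : ℤ → ℂ × ℂ → ℂ
  | Int.ofNat j => m j
  | Int.negSucc i => lm m (i + 1)

/-- the chord coordinates of the line `l_{-a}` -/
def Th (β : ℕ → ℂ × ℂ → ℂ) (a : ℕ) (p : ℂ × ℂ) : ℂ × ℂ :=
  ((Bz β (-a) p + Bz β (-a - 1) p) / 2, (Bz β (-a) p - Bz β (-a - 1) p) / 2)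

theorem Th_add (β : ℕ → ℂ × ℂ → ℂ) (a : ℕ) (p : ℂ × ℂ) :
    (Th β a p).1 + (Th β a p).2 = Bz β (-a) p := by
  simp only [Th]; ring

theorem Th_sub (β : ℕ → ℂ × ℂ → ℂ) (a : ℕ) (p : ℂ × ℂ) :
    (Th β a p).1 - (Th β a p).2 = Bz β (-a - 1) p := by
  simp only [Th]; ring

theorem Bz_nat (β : ℕ → ℂ × ℂ → ℂ) (j : ℕ) : Bz β (j : ℤ) = bp β j := rfl

theorem Bz_neg (β : ℕ → ℂ × ℂ → ℂ) (i : ℕ) : Bz β (-1 - (i : ℤ)) = bm β i := by
  have : (-1 - (i : ℤ)) = Int.negSucc i := by rw [Int.negSucc_eq]; ring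
  rw [this]; rfl

theorem Lz_nat (m : ℕ → ℂ × ℂ → ℂ) (j : ℕ) : Lz m (j : ℤ) = m j := rfl

theorem Lz_neg (m : ℕ → ℂ × ℂ → ℂ) (i : ℕ) (hi : 0 < i) : Lz m (-(i : ℤ)) = lm m i := by
  obtain ⟨j, rfl⟩ : ∃ j, i = j + 1 := ⟨i - 1, by omega⟩
  have : (-((j + 1 : ℕ) : ℤ)) = Int.negSucc j := by rw [Int.negSucc_eq]; push_cast; ring
  rw [this]; rfl

theorem Bz_zero {g : ℂ → ℂ} {c₀ : ℂ} {N : ℕ} {ρ : ℝ} {β m k q q' : ℕ → ℂ × ℂ → ℂ}
    (C : Chain g c₀ N ρ β m k q q') (p : ℂ × ℂ) : Bz β 0 p = p.1 + p.2 := by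
  change bp β 0 p = _
  simp [bp, C.β_zero]

theorem bm_zero {g : ℂ → ℂ} {c₀ : ℂ} {N : ℕ} {ρ : ℝ} {β m k q q' : ℕ → ℂ × ℂ → ℂ}
    (C : Chain g c₀ N ρ β m k q q') (p : ℂ × ℂ) : bm β 0 p = p.1 - p.2 := by
  simp [bm, bp, fl, C.β_zero, sub_eq_add_neg]

/-- `Θ_0 = id` -/
theorem Th_zero {g : ℂ → ℂ} {c₀ : ℂ} {N : ℕ} {ρ : ℝ} {β m k q q' : ℕ → ℂ × ℂ → ℂ}
    (C : Chain g c₀ N ρ β m k q q') (p : ℂ × ℂ) : Th β 0 p = p := by
  have h1 : Bz β (-((0 : ℕ) : ℤ)) p = p.1 + p.2 := by simpa using Bz_zero C p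
  have h2 : Bz β (-((0 : ℕ) : ℤ) - 1) p = p.1 - p.2 := by
    have := Bz_neg β 0
    simp only [Nat.cast_zero, sub_zero] at this
    simp only [Nat.cast_zero, neg_zero, zero_sub, this]
    exact bm_zero C p
  rw [Th, h1, h2]
  ext
  · ring
  · ring

section

variable {g : ℂ → ℂ} {c₀ : ℂ} {N : ℕ} {ρ : ℝ} {β m k q q' : ℕ → ℂ × ℂ → ℂ}

/-- the line `j` passes through the vertex `j` -/
theorem incz (C : Chain g c₀ N ρ β m k q q') {j : ℤ} (h1 : -N ≤ j) (h2 : j ≤ N) {p : ℂ × ℂ}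
    (hp : p ∈ ball c₀ ρ ×ˢ ball (0 : ℂ) ρ) : g (Bz β j p) = Lz m j p * Bz β j p + Lz k j p := by
  rcases j with j | i
  · exact C.inc j (by simpa using h2) p hp
  · refine C.inc' i ?_ (fl p) (fl_mem hp)
    rw [Int.negSucc_eq] at h1
    omega

/-- the line `j` passes through the vertex `j - 1` -/
theorem incz' (C : Chain g c₀ N ρ β m k q q') {j : ℤ} (h1 : -N ≤ j) (h2 : j ≤ N) {p : ℂ × ℂ}
    (hp : p ∈ ball c₀ ρ ×ˢ ball (0 : ℂ) ρ) :
    g (Bz β (j - 1) p) = Lz m j p * Bz β (j - 1) p + Lz k j p := by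
  rcases j with j | i
  · rcases j with _ | j
    · have h3 : Bz β (Int.ofNat 0 - 1) = bm β 0 := Bz_neg β 0
      rw [h3, bm_zero C p]
      exact C.chord p hp
    · have h3 : Bz β (Int.ofNat (j + 1) - 1) = bp β j := by
        have : (Int.ofNat (j + 1) - 1) = Int.ofNat j := by simp
        rw [this]; rfl
      rw [h3]
      refine C.inc' j ?_ p hp
      simp only [Int.ofNat_eq_natCast, Nat.cast_add, Nat.cast_one] at h2
      omega
  · have h3 : Bz β (Int.negSucc i - 1) = bm β (i + 1) := by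
      have : (Int.negSucc i - 1) = Int.negSucc (i + 1) := by
        simp only [Int.negSucc_eq]; push_cast; ring
      rw [this]; rfl
    rw [h3]
    refine C.inc (i + 1) ?_ (fl p) (fl_mem hp)
    rw [Int.negSucc_eq] at h1
    omega

/-- reflection at the vertex `j` -/
theorem reflz (C : Chain g c₀ N ρ β m k q q') {j : ℤ} (h1 : -N ≤ j) (h2 : j < N) {p : ℂ × ℂ}
    (hp : p ∈ ball c₀ ρ ×ˢ ball (0 : ℂ) ρ) :
    Lz m (j + 1) p * Lz m j p = deriv g (Bz β j p) ^ 2 := by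
  rcases j with j | i
  · exact C.refl j (by simpa using h2) p hp
  · rw [Int.negSucc_eq] at h1
    have h3 := C.refl i (by omega) (fl p) (fl_mem hp)
    rcases i with _ | i
    · have e1 : Lz m (Int.negSucc 0 + 1) p = m 0 (fl p) := by
        have : (Int.negSucc 0 + 1) = Int.ofNat 0 := rfl
        rw [this]
        exact (C.even_m p hp).symm
      rw [e1, mul_comm]
      exact h3
    · have e1 : Lz m (Int.negSucc (i + 1) + 1) = lm m (i + 1) := by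
        have : (Int.negSucc (i + 1) + 1) = Int.negSucc i := by
          simp only [Int.negSucc_eq]; push_cast; ring
        rw [this]; rfl
      rw [e1, mul_comm]
      exact h3

theorem nez (C : Chain g c₀ N ρ β m k q q') {j : ℤ} (h1 : -N ≤ j) (h2 : j ≤ N) {p : ℂ × ℂ}
    (hp : p ∈ ball c₀ ρ ×ˢ ball (0 : ℂ) ρ) : Lz m j p ≠ 0 := by
  rcases j with j | i
  · exact C.m_ne j (by simpa using h2) p hp
  · refine C.m_ne (i + 1) ?_ (fl p) (fl_mem hp)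
    rw [Int.negSucc_eq] at h1
    omega

variable {r ρ₀ : ℝ}

theorem twoz (G : Good g c₀ N β m k r ρ₀) {j : ℤ} (h1 : -N ≤ j) (h2 : j ≤ N) {p : ℂ × ℂ}
    (hp : p ∈ ball c₀ ρ₀ ×ˢ ball (0 : ℂ) ρ₀) (h0 : p.2 ≠ 0) {z : ℂ} (hz : z ∈ ball c₀ r)
    (hgz : g z = Lz m j p * z + Lz k j p) : z = Bz β j p ∨ z = Bz β (j - 1) p := by
  rcases j with j | i
  · have := G.two j (by simpa using h2) p hp h0 z hz hgz
    rcases this with h | h
    · exact Or.inl h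
    · right
      rcases j with _ | j
      · have h3 : Bz β (Int.ofNat 0 - 1) = bm β 0 := Bz_neg β 0
        rw [h3]; simpa using h
      · have h3 : Bz β (Int.ofNat (j + 1) - 1) = bp β j := by
          have : (Int.ofNat (j + 1) - 1) = Int.ofNat j := by simp
          rw [this]; rfl
        rw [h3]; simpa using h
  · rw [Int.negSucc_eq] at h1
    have := G.two' (i + 1) (by omega) p hp h0 z hz hgz
    have h3 : Bz β (Int.negSucc i - 1) = bm β (i + 1) := by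
      have : (Int.negSucc i - 1) = Int.negSucc (i + 1) := by
        simp only [Int.negSucc_eq]; push_cast; ring
      rw [this]; rfl
    rcases this with h | h
    · right; rw [h3]; exact h
    · left
      have h4 : z = bm β i p := by simpa using h
      exact h4

/-- consecutive vertices are different -/
theorem succ_ne (G : Good g c₀ N β m k r ρ₀) {j : ℤ} (h1 : -N ≤ j) (h2 : j ≤ N) {p : ℂ × ℂ}
    (hp : p ∈ ball c₀ ρ₀ ×ˢ ball (0 : ℂ) ρ₀) (h0 : p.2 ≠ 0) : Bz β j p ≠ Bz β (j - 1) p := by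
  have h0' : (fl p).2 ≠ 0 := by simpa [fl] using h0
  rcases j with j | i
  · rcases j with _ | j
    · have h3 : Bz β (Int.ofNat 0 - 1) = bm β 0 := Bz_neg β 0
      rw [h3]
      exact G.ne' 0 (Nat.zero_le _) 0 (Nat.zero_le _) p hp h0
    · have h3 : Bz β (Int.ofNat (j + 1) - 1) = bp β j := by
        have : (Int.ofNat (j + 1) - 1) = Int.ofNat j := by simp
        rw [this]; rfl
      rw [h3]
      simp only [Int.ofNat_eq_natCast, Nat.cast_add, Nat.cast_one] at h2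
      exact G.ne (j + 1) (by omega) j (by omega) p hp h0 (by omega)
  · rw [Int.negSucc_eq] at h1
    have h3 : Bz β (Int.negSucc i - 1) = bm β (i + 1) := by
      have : (Int.negSucc i - 1) = Int.negSucc (i + 1) := by
        simp only [Int.negSucc_eq]; push_cast; ring
      rw [this]; rfl
    rw [h3]
    exact G.ne i (by omega) (i + 1) (by omega) (fl p) (fl_mem hp) h0' (by omega)

/-- **SHIFT**: the chain of `Θ_a p` is the chain of `p` shifted by `a` -/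
theorem shift (C : Chain g c₀ N ρ β m k q q') (hρ : ρ₀ ≤ ρ) (G : Good g c₀ N β m k r ρ₀)
    {a : ℕ} (ha : a ≤ N) {p : ℂ × ℂ}
    (hp : p ∈ ball c₀ ρ₀ ×ˢ ball (0 : ℂ) ρ₀) (h0 : p.2 ≠ 0)
    (hT : Th β a p ∈ ball c₀ ρ₀ ×ˢ ball (0 : ℂ) ρ₀) :
    (Th β a p).2 ≠ 0 ∧ ∀ j ≤ N, bp β j (Th β a p) = Bz β (j - a) p ∧
      m j (Th β a p) = Lz m (j - a) p ∧ k j (Th β a p) = Lz k (j - a) p := by
  have hin : ∀ {p : ℂ × ℂ}, p ∈ ball c₀ ρ₀ ×ˢ ball (0 : ℂ) ρ₀ →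
      p ∈ ball c₀ ρ ×ˢ ball (0 : ℂ) ρ := fun hp =>
    ⟨ball_subset_ball hρ hp.1, ball_subset_ball hρ hp.2⟩
  have hne := succ_ne G (j := -a) (by omega) (by omega) hp h0
  have hT0 : (Th β a p).2 ≠ 0 := by
    rw [Th]
    exact div_ne_zero (sub_ne_zero.2 hne) two_ne_zero
  refine ⟨hT0, ?_⟩
  intro j
  induction j with
  | zero =>
    intro _
    have hb : bp β 0 (Th β a p) = Bz β (-a) p := by
      have : bp β 0 (Th β a p) = (Th β a p).1 + (Th β a p).2 := Bz_zero C (Th β a p)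
      rw [this, Th_add]
    have e1 := C.inc 0 (Nat.zero_le _) (Th β a p) (hin hT)
    have e2 := C.chord (Th β a p) (hin hT)
    rw [Th_sub] at e2
    have e1' : g (bp β 0 (Th β a p)) = m 0 (Th β a p) * bp β 0 (Th β a p) + k 0 (Th β a p) := e1
    rw [hb] at e1'
    have e3 := incz C (j := -a) (by omega) (by omega) (hin hp)
    have e4 := incz' C (j := -a) (by omega) (by omega) (hin hp)
    have hm : m 0 (Th β a p) = Lz m (-a) p := by
      refine mul_right_cancel₀ (sub_ne_zero.2 hne) ?_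
      linear_combination e2 - e1' + e3 - e4
    refine ⟨by simpa using hb, by simpa using hm, ?_⟩
    have : k 0 (Th β a p) = Lz k (-a) p := by
      rw [hm] at e1'
      linear_combination e3 - e1'
    simpa using this
  | succ j ih =>
    intro hj
    obtain ⟨h1, h2, h3⟩ := ih (by omega)
    have e1 := C.refl j (by omega) (Th β a p) (hin hT)
    have e1' : m (j + 1) (Th β a p) * m j (Th β a p) = deriv g (bp β j (Th β a p)) ^ 2 := e1
    have e2 := reflz C (j := (j : ℤ) - a) (by omega) (by omega) (hin hp)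
    have hcast : (((j + 1 : ℕ) : ℤ) - a) = (j : ℤ) - a + 1 := by push_cast; ring
    rw [hcast]
    have hmne := nez C (j := (j : ℤ) - a) (by omega) (by omega) (hin hp)
    have hm : m (j + 1) (Th β a p) = Lz m ((j : ℤ) - a + 1) p := by
      refine mul_right_cancel₀ hmne ?_
      rw [e2, ← h2, e1', h1]
    have e3 : g (bp β j (Th β a p)) =
        m (j + 1) (Th β a p) * bp β j (Th β a p) + k (j + 1) (Th β a p) :=
      C.inc' j (by omega) (Th β a p) (hin hT)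
    have e4 := incz' C (j := (j : ℤ) - a + 1) (by omega) (by omega) (hin hp)
    rw [add_sub_cancel_right] at e4
    have hk : k (j + 1) (Th β a p) = Lz k ((j : ℤ) - a + 1) p := by
      rw [hm, h1] at e3
      linear_combination e4 - e3
    refine ⟨?_, hm, hk⟩
    have e5 : g (bp β (j + 1) (Th β a p)) =
        m (j + 1) (Th β a p) * bp β (j + 1) (Th β a p) + k (j + 1) (Th β a p) :=
      C.inc (j + 1) hj (Th β a p) (hin hT)
    rw [hm, hk] at e5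
    have e6 := twoz G (j := (j : ℤ) - a + 1) (by omega) (by omega) hp h0
      (G.mem (j + 1) hj (Th β a p) hT) e5
    rcases e6 with h | h
    · exact h
    · exfalso
      rw [add_sub_cancel_right, ← h1] at h
      exact G.ne (j + 1) hj j (by omega) (Th β a p) hT hT0 (by omega) h

/-- **inverse of the shift** -/
theorem inv_shift (C : Chain g c₀ N ρ β m k q q') (hρ : ρ₀ ≤ ρ) (G : Good g c₀ N β m k r ρ₀)
    {a : ℕ} (ha : a ≤ N) {p : ℂ × ℂ}
    (hp : p ∈ ball c₀ ρ₀ ×ˢ ball (0 : ℂ) ρ₀) (h0 : p.2 ≠ 0)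
    (hT : Th β a p ∈ ball c₀ ρ₀ ×ˢ ball (0 : ℂ) ρ₀) :
    Th β a (fl (Th β a p)) = fl p := by
  rcases Nat.eq_zero_or_pos a with rfl | hpos
  · rw [Th_zero C, Th_zero C]
  · obtain ⟨i, rfl⟩ : ∃ i, a = i + 1 := ⟨a - 1, by omega⟩
    obtain ⟨-, hs⟩ := shift C hρ G ha hp h0 hT
    have e1 : Bz β (-((i + 1 : ℕ) : ℤ)) = bm β i := by
      rw [← Bz_neg]; congr 1; push_cast; ring
    have e2 : Bz β (-((i + 1 : ℕ) : ℤ) - 1) = bm β (i + 1) := by
      rw [← Bz_neg]; congr 1; push_cast; ring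
    have e3 := (hs i (by omega)).1
    have e4 := (hs (i + 1) ha).1
    have e5 : (((i : ℕ) : ℤ) - ((i + 1 : ℕ) : ℤ)) = -1 - ((0 : ℕ) : ℤ) := by push_cast; ring
    have e6 : ((((i + 1 : ℕ) : ℕ) : ℤ) - ((i + 1 : ℕ) : ℤ)) = 0 := by ring
    rw [e5, Bz_neg, bm_zero C] at e3
    rw [e6, Bz_zero C] at e4
    have e7 : Th β (i + 1) (fl (Th β (i + 1) p)) =
        ((bp β i (Th β (i + 1) p) + bp β (i + 1) (Th β (i + 1) p)) / 2,
          (bp β i (Th β (i + 1) p) - bp β (i + 1) (Th β (i + 1) p)) / 2) := by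
      conv_lhs => rw [Th]
      rw [e1, e2, bm, bm, fl_fl]
    rw [e7, e3, e4]
    ext
    · simp only [fl]; ring
    · simp only [fl]; ring

end

/-- analyticity of the shift -/
theorem an_Bz {g : ℂ → ℂ} {c₀ : ℂ} {N : ℕ} {ρ : ℝ} {β m k q q' : ℕ → ℂ × ℂ → ℂ}
    (C : Chain g c₀ N ρ β m k q q') {j : ℤ} (h1 : -(N : ℤ) - 1 ≤ j) (h2 : j ≤ N) {p : ℂ × ℂ}
    (hp : p ∈ ball c₀ ρ ×ˢ ball (0 : ℂ) ρ) : AnalyticAt ℂ (Bz β j) p := by
  have han_fl : ∀ p, AnalyticAt ℂ fl p := fun p => analyticAt_fst.prod analyticAt_snd.neg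
  have han_bp : ∀ i ≤ N, ∀ p ∈ ball c₀ ρ ×ˢ ball (0 : ℂ) ρ, AnalyticAt ℂ (bp β i) p :=
    fun i hi p hp => analyticAt_fst.add (analyticAt_snd.mul (C.an_β i hi p hp))
  rcases j with j | i
  · exact han_bp j (by simpa using h2) p hp
  · rw [Int.negSucc_eq] at h1
    exact AnalyticAt.fun_comp (g := bp β i) (f := fl)
      (han_bp i (by omega) _ (fl_mem hp)) (han_fl p)

theorem an_Lz {g : ℂ → ℂ} {c₀ : ℂ} {N : ℕ} {ρ : ℝ} {β m k q q' : ℕ → ℂ × ℂ → ℂ}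
    (C : Chain g c₀ N ρ β m k q q') {j : ℤ} (h1 : -(N : ℤ) ≤ j) (h2 : j ≤ N) {p : ℂ × ℂ}
    (hp : p ∈ ball c₀ ρ ×ˢ ball (0 : ℂ) ρ) :
    AnalyticAt ℂ (Lz m j) p ∧ AnalyticAt ℂ (Lz k j) p := by
  have han_fl : ∀ p, AnalyticAt ℂ fl p := fun p => analyticAt_fst.prod analyticAt_snd.neg
  rcases j with j | i
  · exact ⟨C.an_m j (by simpa using h2) p hp, C.an_k j (by simpa using h2) p hp⟩
  · rw [Int.negSucc_eq] at h1
    exact ⟨AnalyticAt.fun_comp (g := m (i + 1)) (f := fl)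
      (C.an_m (i + 1) (by omega) _ (fl_mem hp)) (han_fl p),
      AnalyticAt.fun_comp (g := k (i + 1)) (f := fl)
      (C.an_k (i + 1) (by omega) _ (fl_mem hp)) (han_fl p)⟩

theorem an_Th {g : ℂ → ℂ} {c₀ : ℂ} {N : ℕ} {ρ : ℝ} {β m k q q' : ℕ → ℂ × ℂ → ℂ}
    (C : Chain g c₀ N ρ β m k q q') {a : ℕ} (ha : a ≤ N) {p : ℂ × ℂ}
    (hp : p ∈ ball c₀ ρ ×ˢ ball (0 : ℂ) ρ) : AnalyticAt ℂ (Th β a) p := by
  have h1 := an_Bz C (j := -a) (by omega) (by omega) hp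
  have h2 := an_Bz C (j := -a - 1) (by omega) (by omega) hp
  exact ((h1.add h2).div_const).prod ((h1.sub h2).div_const)

/-- small polydiscs are mapped to small polydiscs -/
theorem small {g : ℂ → ℂ} {c₀ : ℂ} {N : ℕ} {ρ : ℝ} {β m k q q' : ℕ → ℂ × ℂ → ℂ}
    (C : Chain g c₀ N ρ β m k q q') {δ : ℝ} (hδ : 0 < δ) :
    ∃ R > 0, R ≤ δ ∧ ∀ a ≤ N, ∀ p ∈ ball c₀ R ×ˢ ball (0 : ℂ) R,
      Th β a p ∈ ball c₀ δ ×ˢ ball (0 : ℂ) δ := by
  have hc : ((c₀, 0) : ℂ × ℂ) ∈ ball c₀ ρ ×ˢ ball (0 : ℂ) ρ :=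
    ⟨mem_ball_self C.ρ_pos, mem_ball_self C.ρ_pos⟩
  have hBc : ∀ j : ℤ, Bz β j (c₀, 0) = c₀ := by
    intro j
    rcases j with j | i
    · simp [Bz, bp]
    · simp [Bz, bm, bp, fl]
  have h0 : ∀ a, Th β a (c₀, 0) = (c₀, 0) := by
    intro a
    simp only [Th, hBc]
    ext
    · simp
    · simp
  have h1 : ∀ a ∈ Finset.range (N + 1), ∀ᶠ p in 𝓝 ((c₀, 0) : ℂ × ℂ),
      Th β a p ∈ ball c₀ δ ×ˢ ball (0 : ℂ) δ := by
    intro a ha
    refine (an_Th C (Nat.lt_succ_iff.1 (Finset.mem_range.1 ha)) hc).continuousAt.eventually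
      ((isOpen_ball.prod isOpen_ball).mem_nhds ?_)
    rw [h0]
    exact ⟨mem_ball_self hδ, mem_ball_self hδ⟩
  obtain ⟨R, hR, hball⟩ := Metric.eventually_nhds_iff.1
    ((Filter.eventually_all_finset (Finset.range (N + 1))).2 h1)
  refine ⟨min R δ, lt_min hR hδ, min_le_right _ _, fun a ha p hp => ?_⟩
  refine hball ?_ a (Finset.mem_range.2 (by omega))
  rw [Prod.dist_eq]
  exact max_lt (lt_of_lt_of_le hp.1 (min_le_left _ _)) (lt_of_lt_of_le hp.2 (min_le_left _ _))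

/-- **local inverse** -/
theorem exists_inv {g : ℂ → ℂ} {c₀ : ℂ} {N : ℕ} {ρ : ℝ} {β m k q q' : ℕ → ℂ × ℂ → ℂ}
    {r ρ₀ : ℝ} (C : Chain g c₀ N ρ β m k q q') (hρ : ρ₀ ≤ ρ) (G : Good g c₀ N β m k r ρ₀)
    {a : ℕ} (ha : a ≤ N) {p : ℂ × ℂ}
    (hp : p ∈ ball c₀ ρ₀ ×ˢ ball (0 : ℂ) ρ₀) (h0 : p.2 ≠ 0)
    (hT : Th β a p ∈ ball c₀ ρ₀ ×ˢ ball (0 : ℂ) ρ₀) :
    ∃ ψ : ℂ × ℂ → ℂ × ℂ, AnalyticAt ℂ ψ (Th β a p) ∧ ψ (Th β a p) = p ∧
      ∀ᶠ x in 𝓝 (Th β a p), Th β a (ψ x) = x := by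
  have hin : ∀ {p : ℂ × ℂ}, p ∈ ball c₀ ρ₀ ×ˢ ball (0 : ℂ) ρ₀ →
      p ∈ ball c₀ ρ ×ˢ ball (0 : ℂ) ρ := fun hp =>
    ⟨ball_subset_ball hρ hp.1, ball_subset_ball hρ hp.2⟩
  have han_fl : ∀ p, AnalyticAt ℂ fl p := fun p => analyticAt_fst.prod analyticAt_snd.neg
  obtain ⟨hT0, -⟩ := shift C hρ G ha hp h0 hT
  have hI := inv_shift C hρ G ha hp h0 hT
  have hU : IsOpen (ball c₀ ρ₀ ×ˢ ball (0 : ℂ) ρ₀) := isOpen_ball.prod isOpen_ball
  have han1 : AnalyticAt ℂ (fun x => Th β a (fl x)) (Th β a p) :=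
    AnalyticAt.fun_comp (g := Th β a) (f := fl) (an_Th C ha (hin (fl_mem hT))) (han_fl _)
  refine ⟨fun x => fl (Th β a (fl x)), ?_, ?_, ?_⟩
  · exact AnalyticAt.fun_comp (g := fl) (f := fun x => Th β a (fl x)) (han_fl _) han1
  · change fl (Th β a (fl (Th β a p))) = p
    rw [hI, fl_fl]
  · have c1 : ∀ᶠ x in 𝓝 (Th β a p), fl x ∈ ball c₀ ρ₀ ×ˢ ball (0 : ℂ) ρ₀ :=
      (han_fl _).continuousAt.eventually (hU.mem_nhds (fl_mem hT))
    have c2 : ∀ᶠ x in 𝓝 (Th β a p), Th β a (fl x) ∈ ball c₀ ρ₀ ×ˢ ball (0 : ℂ) ρ₀ := by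
      refine han1.continuousAt.eventually (hU.mem_nhds ?_)
      change Th β a (fl (Th β a p)) ∈ _
      rw [hI]
      exact fl_mem hp
    have c3 : ∀ᶠ x in 𝓝 (Th β a p), x.2 ≠ 0 :=
      continuousAt_snd.eventually_ne hT0
    filter_upwards [c1, c2, c3] with x h1 h2 h3
    have h4 := inv_shift C hρ G ha h1 (by simpa [fl] using h3) h2
    rw [h4, fl_fl]

end Crest.Agent.R102.RunD58
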