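import Crest.Agent.R102.RunD_58
import Crest.Agent.R102.RunAlg_58
import Crest.Agent.R102.RatGlueA_798

/-!
# Row 102, [H3], THEOREM (RAT), leaf R5 = RUN (helper58): the chain in `FractionRing (Hol W)`

vertices and lines with integer indices as elements of `Hol W`, the shifted chain `PChain`.
-/

set_option autoImplicit false

open Set Filter Topology Metric TopologicalSpace

noncomputable section

namespace Crest.Agent.R102.RunE58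

open Crest.Agent.R102 Crest.Agent.R102.F7389 Crest.Agent.R102.Run58 Crest.Agent.R102.RunD58
  Crest.Agent.R102.RunAlg58 Crest.Agent.R102.RAT Crest.Agent.R102.Glue798 Crest.Agent.R102.H3

/-! ### shorter chains -/

theorem chain_mono {g : ℂ → ℂ} {c₀ : ℂ} {N N' : ℕ} {ρ : ℝ} {β m k q q' : ℕ → ℂ × ℂ → ℂ}
    (C : Chain g c₀ N ρ β m k q q') (h : N' ≤ N) : Chain g c₀ N' ρ β m k q q' where
  ρ_pos := C.ρ_pos
  an_β i hi := C.an_β i (hi.trans h)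
  an_m i hi := C.an_m i (hi.trans h)
  an_k i hi := C.an_k i (hi.trans h)
  an_q i hi := C.an_q i (hi.trans h)
  an_q' i hi := C.an_q' i (by omega)
  β_zero := C.β_zero
  β_c i hi := C.β_c i (hi.trans h)
  m_c i hi := C.m_c i (hi.trans h)
  q_c i hi := C.q_c i (hi.trans h)
  q'_c i hi := C.q'_c i (by omega)
  an_g i hi := C.an_g i (hi.trans h)
  an_g' := C.an_g'
  inc i hi := C.inc i (hi.trans h)
  inc' i hi := C.inc' i (by omega)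
  chord := C.chord
  refl i hi := C.refl i (by omega)
  m_ne i hi := C.m_ne i (hi.trans h)
  q_ne i hi := C.q_ne i (hi.trans h)
  q'_ne i hi := C.q'_ne i (by omega)
  q_eq i hi := C.q_eq i (hi.trans h)
  q'_eq i hi := C.q'_eq i (by omega)
  even_m := C.even_m
  even_k := C.even_k

theorem good_mono {g : ℂ → ℂ} {c₀ : ℂ} {N N' : ℕ} {β m k : ℕ → ℂ × ℂ → ℂ} {r ρ₀ : ℝ}
    (G : Good g c₀ N β m k r ρ₀) (h : N' ≤ N) : Good g c₀ N' β m k r ρ₀ where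
  r_pos := G.r_pos
  ρ_pos := G.ρ_pos
  an := G.an
  mem i hi := G.mem i (hi.trans h)
  mem' i hi := G.mem' i (hi.trans h)
  two i hi := G.two i (hi.trans h)
  two' i hi := G.two' i (hi.trans h)
  ne i hi j hj := G.ne i (hi.trans h) j (hj.trans h)
  ne' i hi j hj := G.ne' i (hi.trans h) j (hj.trans h)

/-! ### the data -/

/-- the chain of length `P` near `c₀` and an open set `W` of lines -/
structure Setup (g : ℂ → ℂ) (c₀ : ℂ) (P : ℕ) (ρ : ℝ) (β m k q q' : ℕ → ℂ × ℂ → ℂ) (r ρ₀ : ℝ)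
    (V : Opens ℂ) (W : Opens (ℂ × ℂ)) : Prop where
  C : Chain g c₀ P ρ β m k q q'
  G : Good g c₀ P β m k r ρ₀
  hρ : ρ₀ ≤ ρ
  an_g : AnalyticOnNhd ℂ g V
  inV : ∀ j ≤ P, ∀ p ∈ ball c₀ ρ₀ ×ˢ ball (0 : ℂ) ρ₀, bp β j p ∈ V
  ne : (W : Set (ℂ × ℂ)).Nonempty
  pre : IsPreconnected (W : Set (ℂ × ℂ))
  sub : (W : Set (ℂ × ℂ)) ⊆ ball c₀ ρ₀ ×ˢ ball (0 : ℂ) ρ₀

/-- the vertex `b_j` -/
def bH (β : ℕ → ℂ × ℂ → ℂ) (W : Opens (ℂ × ℂ)) (j : ℤ) : Hol W := toH W (Bz β j)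

/-- `f ∘ b_j` -/
def xH (β : ℕ → ℂ × ℂ → ℂ) (W : Opens (ℂ × ℂ)) {V : Opens ℂ} (j : ℤ) (f : Hol V) : Hol W :=
  toH W (fun p => ext0 (f : V → ℂ) (Bz β j p))

/-- the line `l_j` -/
def mH (m : ℕ → ℂ × ℂ → ℂ) (W : Opens (ℂ × ℂ)) (j : ℤ) : Hol W := toH W (Lz m j)

section

variable {g : ℂ → ℂ} {c₀ : ℂ} {P : ℕ} {ρ : ℝ} {β m k q q' : ℕ → ℂ × ℂ → ℂ} {r ρ₀ : ℝ}
  {V : Opens ℂ} {W : Opens (ℂ × ℂ)}

namespace Setup

theorem mem (S : Setup g c₀ P ρ β m k q q' r ρ₀ V W) {p : ℂ × ℂ} (hp : p ∈ W) :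
    p ∈ ball c₀ ρ ×ˢ ball (0 : ℂ) ρ :=
  ⟨ball_subset_ball S.hρ (S.sub hp).1, ball_subset_ball S.hρ (S.sub hp).2⟩

theorem res (S : Setup g c₀ P ρ β m k q q' r ρ₀ V W) {W' : Opens (ℂ × ℂ)} (hle : W' ≤ W)
    (hne : (W' : Set (ℂ × ℂ)).Nonempty) (hpre : IsPreconnected (W' : Set (ℂ × ℂ))) :
    Setup g c₀ P ρ β m k q q' r ρ₀ V W' :=
  ⟨S.C, S.G, S.hρ, S.an_g, S.inV, hne, hpre, fun _ hp => S.sub (hle hp)⟩

/-- a point off `ω = 0` -/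
theorem exists_om (S : Setup g c₀ P ρ β m k q q' r ρ₀ V W) : ∃ p : W, (p : ℂ × ℂ).2 ≠ 0 := by
  obtain ⟨p, hp⟩ := S.ne
  by_cases h0 : p.2 = 0
  · obtain ⟨ε, hε, hb⟩ := Metric.isOpen_iff.1 W.isOpen p hp
    refine ⟨⟨(p.1, ((ε / 2 : ℝ) : ℂ)), hb ?_⟩, ?_⟩
    · rw [mem_ball, Prod.dist_eq, h0]
      simp only [dist_self, dist_zero_right, Complex.norm_real, Real.norm_eq_abs,
        abs_of_pos (half_pos hε)]
      exact max_lt hε (by linarith)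
    · simpa using hε.ne'
  · exact ⟨⟨p, hp⟩, h0⟩

theorem an_b (S : Setup g c₀ P ρ β m k q q' r ρ₀ V W) {j : ℤ} (h1 : -(P : ℤ) - 1 ≤ j)
    (h2 : j ≤ P) : AnalyticOnNhd ℂ (Bz β j) W := fun _ hp => an_Bz S.C h1 h2 (S.mem hp)

theorem an_m (S : Setup g c₀ P ρ β m k q q' r ρ₀ V W) {j : ℤ} (h1 : -(P : ℤ) ≤ j)
    (h2 : j ≤ P) : AnalyticOnNhd ℂ (Lz m j) W := fun _ hp => (an_Lz S.C h1 h2 (S.mem hp)).1

theorem an_k (S : Setup g c₀ P ρ β m k q q' r ρ₀ V W) {j : ℤ} (h1 : -(P : ℤ) ≤ j)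
    (h2 : j ≤ P) : AnalyticOnNhd ℂ (Lz k j) W := fun _ hp => (an_Lz S.C h1 h2 (S.mem hp)).2

theorem b_mem (S : Setup g c₀ P ρ β m k q q' r ρ₀ V W) {j : ℤ} (h1 : -(P : ℤ) - 1 ≤ j)
    (h2 : j ≤ P) {p : ℂ × ℂ} (hp : p ∈ ball c₀ ρ₀ ×ˢ ball (0 : ℂ) ρ₀) : Bz β j p ∈ V := by
  rcases j with j | i
  · exact S.inV j (by simpa using h2) p hp
  · rw [Int.negSucc_eq] at h1
    exact S.inV i (by omega) (fl p) (fl_mem hp)

theorem bH_apply (S : Setup g c₀ P ρ β m k q q' r ρ₀ V W) {j : ℤ} (h1 : -(P : ℤ) - 1 ≤ j)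
    (h2 : j ≤ P) (p : W) : (bH β W j : W → ℂ) p = Bz β j p := toH_apply (S.an_b h1 h2) p

theorem mH_apply (S : Setup g c₀ P ρ β m k q q' r ρ₀ V W) {j : ℤ} (h1 : -(P : ℤ) ≤ j)
    (h2 : j ≤ P) (p : W) : (mH m W j : W → ℂ) p = Lz m j p := toH_apply (S.an_m h1 h2) p

theorem kH_apply (S : Setup g c₀ P ρ β m k q q' r ρ₀ V W) {j : ℤ} (h1 : -(P : ℤ) ≤ j)
    (h2 : j ≤ P) (p : W) : (mH k W j : W → ℂ) p = Lz k j p := toH_apply (S.an_k h1 h2) p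

theorem bH_mem (S : Setup g c₀ P ρ β m k q q' r ρ₀ V W) {j : ℤ} (h1 : -(P : ℤ) - 1 ≤ j)
    (h2 : j ≤ P) (p : W) : (bH β W j : W → ℂ) p ∈ V := by
  rw [S.bH_apply h1 h2]
  exact S.b_mem h1 h2 (S.sub p.2)

theorem an_x (S : Setup g c₀ P ρ β m k q q' r ρ₀ V W) {j : ℤ} (h1 : -(P : ℤ) - 1 ≤ j)
    (h2 : j ≤ P) (f : Hol V) : AnalyticOnNhd ℂ (fun p => ext0 (f : V → ℂ) (Bz β j p)) W :=
  fun p hp => AnalyticAt.fun_comp (g := ext0 (f : V → ℂ)) (f := Bz β j)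
    (Hol.an f _ (S.b_mem h1 h2 (S.sub hp))) (S.an_b h1 h2 p hp)

theorem xH_apply (S : Setup g c₀ P ρ β m k q q' r ρ₀ V W) {j : ℤ} (h1 : -(P : ℤ) - 1 ≤ j)
    (h2 : j ≤ P) (f : Hol V) (p : W) :
    (xH β W j f : W → ℂ) p = ext0 (f : V → ℂ) (Bz β j p) := toH_apply (S.an_x h1 h2 f) p

theorem xH_eq (S : Setup g c₀ P ρ β m k q q' r ρ₀ V W) {j : ℤ} (h1 : -(P : ℤ) - 1 ≤ j)
    (h2 : j ≤ P) (f : Hol V) : xH β W j f = compH (bH β W j) (S.bH_mem h1 h2) f := by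
  ext p
  rw [S.xH_apply h1 h2, compH_apply, ← ext0_of_mem (f : V → ℂ) (S.bH_mem h1 h2 p),
    S.bH_apply h1 h2]

theorem ext0_g (S : Setup g c₀ P ρ β m k q q' r ρ₀ V W) {z : ℂ} (hz : z ∈ V) :
    ext0 (toH V g : V → ℂ) z = g z := by
  rw [ext0_of_mem _ hz, toH_apply S.an_g]

theorem ext0_dg (S : Setup g c₀ P ρ β m k q q' r ρ₀ V W) {z : ℂ} (hz : z ∈ V) :
    ext0 (DH V (toH V g) : V → ℂ) z = deriv g z := by
  rw [ext0_of_mem _ hz, DH_apply]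
  exact (ext0_toH S.an_g hz).deriv_eq

theorem inc (S : Setup g c₀ P ρ β m k q q' r ρ₀ V W) {j : ℤ} (h1 : -(P : ℤ) ≤ j)
    (h2 : j ≤ P) : xH β W j (toH V g) = mH m W j * bH β W j + mH k W j := by
  ext p
  have e1 := incz S.C h1 h2 (S.mem p.2)
  rw [S.xH_apply (by omega) h2, S.ext0_g (S.b_mem (by omega) h2 (S.sub p.2))]
  simp only [Subalgebra.coe_add, Subalgebra.coe_mul, Pi.add_apply, Pi.mul_apply]
  rw [S.bH_apply (by omega) h2, S.mH_apply h1 h2, S.kH_apply h1 h2]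
  exact e1

theorem inc' (S : Setup g c₀ P ρ β m k q q' r ρ₀ V W) {j : ℤ} (h1 : -(P : ℤ) - 1 ≤ j)
    (h2 : j < P) : xH β W j (toH V g) = mH m W (j + 1) * bH β W j + mH k W (j + 1) := by
  ext p
  have e1 := incz' S.C (j := j + 1) (by omega) (by omega) (S.mem p.2)
  rw [add_sub_cancel_right] at e1
  rw [S.xH_apply (by omega) h2.le, S.ext0_g (S.b_mem (by omega) h2.le (S.sub p.2))]
  simp only [Subalgebra.coe_add, Subalgebra.coe_mul, Pi.add_apply, Pi.mul_apply]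
  rw [S.bH_apply (by omega) h2.le, S.mH_apply (by omega) (by omega),
    S.kH_apply (by omega) (by omega)]
  exact e1

theorem refl (S : Setup g c₀ P ρ β m k q q' r ρ₀ V W) {j : ℤ} (h1 : -(P : ℤ) ≤ j)
    (h2 : j < P) : mH m W (j + 1) * mH m W j = xH β W j (DH V (toH V g)) ^ 2 := by
  ext p
  have e1 := reflz S.C h1 h2 (S.mem p.2)
  simp only [SubmonoidClass.coe_pow, Subalgebra.coe_mul, Pi.pow_apply, Pi.mul_apply]
  rw [S.xH_apply (by omega) h2.le, S.ext0_dg (S.b_mem (by omega) h2.le (S.sub p.2)),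
    S.mH_apply (by omega) (by omega), S.mH_apply h1 h2.le]
  exact e1

theorem m_ne (S : Setup g c₀ P ρ β m k q q' r ρ₀ V W) {j : ℤ} (h1 : -(P : ℤ) ≤ j)
    (h2 : j ≤ P) (p : W) : (mH m W j : W → ℂ) p ≠ 0 := by
  rw [S.mH_apply h1 h2]
  exact nez S.C h1 h2 (S.mem p.2)

theorem nonempty (S : Setup g c₀ P ρ β m k q q' r ρ₀ V W) : Nonempty W :=
  ⟨⟨S.ne.some, S.ne.some_mem⟩⟩

theorem mH_ne (S : Setup g c₀ P ρ β m k q q' r ρ₀ V W) {j : ℤ} (h1 : -(P : ℤ) ≤ j)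
    (h2 : j ≤ P) : mH m W j ≠ 0 := by
  obtain ⟨p⟩ := S.nonempty
  intro h
  have := S.m_ne h1 h2 p
  rw [h] at this
  exact this rfl

/-- transversality -/
theorem tr_pt (S : Setup g c₀ P ρ β m k q q' r ρ₀ V W) {j : ℤ} (h1 : -(P : ℤ) ≤ j)
    (h2 : j ≤ P) {p : ℂ × ℂ} (hp : p ∈ ball c₀ ρ₀ ×ˢ ball (0 : ℂ) ρ₀) (h0 : p.2 ≠ 0) :
    deriv g (Bz β j p) ≠ Lz m j p := by
  have hin : p ∈ ball c₀ ρ ×ˢ ball (0 : ℂ) ρ :=
    ⟨ball_subset_ball S.hρ hp.1, ball_subset_ball S.hρ hp.2⟩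
  intro h
  rcases j with j | i
  · have e1 := S.C.q_eq j (by simpa using h2) p hin
    have e2 : deriv g (p.1 + p.2 * β j p) = m j p := h
    rw [e2, sub_self] at e1
    exact mul_ne_zero h0 (S.C.q_ne j (by simpa using h2) p hin) e1.symm
  · rw [Int.negSucc_eq] at h1
    have h0' : (fl p).2 ≠ 0 := by simpa [fl] using h0
    have e1 := S.C.q'_eq i (by omega) (fl p) (fl_mem hin)
    have e2 : deriv g ((fl p).1 + (fl p).2 * β i (fl p)) = m (i + 1) (fl p) := h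
    rw [e2, sub_self] at e1
    exact mul_ne_zero h0' (S.C.q'_ne i (by omega) (fl p) (fl_mem hin)) e1.symm

theorem tr (S : Setup g c₀ P ρ β m k q q' r ρ₀ V W) {j : ℤ} (h1 : -(P : ℤ) ≤ j)
    (h2 : j ≤ P) : xH β W j (DH V (toH V g)) ≠ mH m W j := by
  obtain ⟨p, hp⟩ := S.exists_om
  intro h
  have e1 := congrArg (fun f : Hol W => (f : W → ℂ) p) h
  rw [S.xH_apply (by omega) h2, S.ext0_dg (S.b_mem (by omega) h2 (S.sub p.2)),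
    S.mH_apply h1 h2] at e1
  exact S.tr_pt h1 h2 (S.sub p.2) hp e1

theorem b_succ_ne (S : Setup g c₀ P ρ β m k q q' r ρ₀ V W) {j : ℤ} (h1 : -(P : ℤ) ≤ j)
    (h2 : j ≤ P) : bH β W j ≠ bH β W (j - 1) := by
  obtain ⟨p, hp⟩ := S.exists_om
  intro h
  have e1 := congrArg (fun f : Hol W => (f : W → ℂ) p) h
  rw [S.bH_apply (by omega) h2, S.bH_apply (by omega) (by omega)] at e1
  exact succ_ne S.G h1 h2 (S.sub p.2) hp e1

/-- the vertices are not constant -/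
theorem pd_b (S : Setup g c₀ P ρ β m k q q' r ρ₀ V W) {j : ℕ} (hj : j ≤ P) :
    pdH W (1, 0) (bH β W j) ≠ 0 := by
  have hne := S.nonempty
  have hpre : IsPreconnected (ball c₀ ρ ×ˢ ball (0 : ℂ) ρ) :=
    ((convex_ball c₀ ρ).prod (convex_ball (0 : ℂ) ρ)).isPreconnected
  have hc : ((c₀, 0) : ℂ × ℂ) ∈ ball c₀ ρ ×ˢ ball (0 : ℂ) ρ :=
    ⟨mem_ball_self S.C.ρ_pos, mem_ball_self S.C.ρ_pos⟩
  have han : AnalyticOnNhd ℂ (Bz β (j : ℤ)) (ball c₀ ρ ×ˢ ball (0 : ℂ) ρ) := fun p hp =>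
    an_Bz S.C (by omega) (by omega) hp
  have han' : AnalyticOnNhd ℂ (fun p => fderiv ℂ (Bz β (j : ℤ)) p (1, 0))
      (ball c₀ ρ ×ˢ ball (0 : ℂ) ρ) := fun x hx =>
    (((ContinuousLinearMap.apply ℂ ℂ ((1, 0) : ℂ × ℂ)).analyticAt _).comp (han x hx).fderiv)
  rw [bH, pdH_toH _ (S.an_b (by omega) (by omega))]
  refine toH_ne_zero hpre (fun p hp => S.mem hp) han' hc ?_
  -- the derivative at the centre is `1`
  have h1 : HasFDerivAt (Bz β (j : ℤ)) (fderiv ℂ (Bz β (j : ℤ)) (c₀, 0)) (c₀, 0) :=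
    (han _ hc).differentiableAt.hasFDerivAt
  have h2 : HasDerivAt (fun c : ℂ => ((c, 0) : ℂ × ℂ)) (1, 0) c₀ :=
    (hasDerivAt_id _).prodMk (hasDerivAt_const _ _)
  have h3 := h1.comp_hasDerivAt c₀ h2
  have h4 : (Bz β (j : ℤ) ∘ fun c : ℂ => ((c, 0) : ℂ × ℂ)) = fun c => c := by
    funext c
    simp [Bz, bp]
  rw [h4] at h3
  rw [h3.unique (hasDerivAt_id c₀)]
  exact one_ne_zero

/-- chain rule -/
theorem pd_x (S : Setup g c₀ P ρ β m k q q' r ρ₀ V W) {j : ℤ} (h1 : -(P : ℤ) - 1 ≤ j)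
    (h2 : j ≤ P) (v : ℂ × ℂ) (f : Hol V) :
    pdH W v (xH β W j f) = xH β W j (DH V f) * pdH W v (bH β W j) := by
  rw [S.xH_eq h1 h2, S.xH_eq h1 h2, pdH_compH]

/-- restriction -/
theorem res_b (S : Setup g c₀ P ρ β m k q q' r ρ₀ V W) {W' : Opens (ℂ × ℂ)} (hle : W' ≤ W)
    {j : ℤ} (h1 : -(P : ℤ) - 1 ≤ j) (h2 : j ≤ P) : Hol.res hle (bH β W j) = bH β W' j :=
  res_toH hle (S.an_b h1 h2)

theorem res_m (S : Setup g c₀ P ρ β m k q q' r ρ₀ V W) {W' : Opens (ℂ × ℂ)} (hle : W' ≤ W)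
    {j : ℤ} (h1 : -(P : ℤ) ≤ j) (h2 : j ≤ P) : Hol.res hle (mH m W j) = mH m W' j :=
  res_toH hle (S.an_m h1 h2)

theorem res_k (S : Setup g c₀ P ρ β m k q q' r ρ₀ V W) {W' : Opens (ℂ × ℂ)} (hle : W' ≤ W)
    {j : ℤ} (h1 : -(P : ℤ) ≤ j) (h2 : j ≤ P) : Hol.res hle (mH k W j) = mH k W' j :=
  res_toH hle (S.an_k h1 h2)

theorem res_x (S : Setup g c₀ P ρ β m k q q' r ρ₀ V W) {W' : Opens (ℂ × ℂ)} (hle : W' ≤ W)
    {j : ℤ} (h1 : -(P : ℤ) - 1 ≤ j) (h2 : j ≤ P) (f : Hol V) :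
    Hol.res hle (xH β W j f) = xH β W' j f :=
  res_toH hle (S.an_x h1 h2 f)

end Setup

end

end Crest.Agent.R102.RunE58
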