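import Crest.Agent.R102.RunSec_58
import Crest.Agent.R102.RunI_58

/-!
# Row 102, [H3], THEOREM (RAT), leaf R5 = RUN (helper58): `RAT.RunStmt`
-/

set_option autoImplicit false

namespace Crest.Agent.R102.RunE58

/-- **RUN** -/
theorem runStmt : RAT.RunStmt := runStmt_of second

end Crest.Agent.R102.RunE58
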