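import Crest.Agent.R102.Hol_575

/-!
Row 102, part (C), leaf H3, RAT, **RUN-FUN** of 58 #26118: an algebra of analytic functions all of
whose differentials are parallel to `dh` consists of functions of `h`.
-/

set_option autoImplicit false

open Set Filter Topology Metric TopologicalSpace
open scoped ContDiff

noncomputable section

namespace Crest.Agent.R102.RunFun262

open Crest.Agent.R102.H3

variable {E : Type*} [NormedAddCommGroup E] [NormedSpace ℂ E]

/-- precomposition with `s` -/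
def pre {A : Type*} [CommRing A] [Algebra ℂ A] (phi : A →ₐ[ℂ] (E → ℂ)) (s : ℂ → E) :
    A →ₐ[ℂ] (ℂ → ℂ) where
  toFun a := fun y => phi a (s y)
  map_one' := by funext y; simp
  map_mul' a b := by funext y; simp
  map_zero' := by funext y; simp
  map_add' a b := by funext y; simp
  commutes' c := by funext y; simp

omit [NormedAddCommGroup E] [NormedSpace ℂ E] in
@[simp] theorem pre_apply {A : Type*} [CommRing A] [Algebra ℂ A] (phi : A →ₐ[ℂ] (E → ℂ))
    (s : ℂ → E) (a : A) (y : ℂ) : pre phi s a y = phi a (s y) := rfl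

/-- RUN-FUN: functions whose differentials are parallel to `dh` are functions of `h`. -/
theorem func [CompleteSpace E] {W : Set E} (hW : IsOpen W) {p : E} (hp : p ∈ W) {h : E → ℂ}
    (hh : AnalyticOnNhd ℂ h W) (hd : fderiv ℂ h p ≠ 0)
    {A : Type*} [CommRing A] [Algebra ℂ A] {del : Derivation ℂ A A} {z : A}
    {phi : A →ₐ[ℂ] (E → ℂ)} (hphi : ∀ a, AnalyticOnNhd ℂ (phi a) W)
    (hder : ∀ a, ∀ x ∈ W, fderiv ℂ (phi a) x = phi (del a) x • fderiv ℂ h x)
    (hz : ∀ x ∈ W, phi z x = h x) :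
    ∃ r > (0 : ℝ), ∃ iota : A →ₐ[ℂ] (ℂ → ℂ),
      (∀ a, AnalyticOnNhd ℂ (iota a) (ball (h p) r)) ∧
      (∀ a, ∀ y ∈ ball (h p) r, deriv (iota a) y = iota (del a) y) ∧
      (∀ y ∈ ball (h p) r, iota z y = y) ∧
      ∃ W'' ∈ 𝓝 p, W'' ⊆ W ∧ ∀ a, ∀ x ∈ W'', h x ∈ ball (h p) r ∧ phi a x = iota a (h x) := by
  set l : E →L[ℂ] ℂ := fderiv ℂ h p with hl
  obtain ⟨v, hv⟩ : ∃ v : E, l v = 1 := by
    obtain ⟨v₀, hv₀⟩ : ∃ v₀, l v₀ ≠ 0 := by
      by_contra hcon
      push Not at hcon
      exact hd (ContinuousLinearMap.ext hcon)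
    exact ⟨(l v₀)⁻¹ • v₀, by rw [map_smul, smul_eq_mul, inv_mul_cancel₀ hv₀]⟩
  set Psi : E → E := fun x => x + (h x - h p - l (x - p)) • v with hPsi
  have hhp : AnalyticAt ℂ h p := hh p hp
  have hPa : AnalyticAt ℂ Psi p := by
    have e1 : AnalyticAt ℂ (fun x => l (x - p)) p :=
      (l.analyticAt _).comp (analyticAt_id.sub analyticAt_const)
    exact analyticAt_id.add (((hhp.sub analyticAt_const).sub e1).smul analyticAt_const)
  have hPd : HasStrictFDerivAt Psi ((ContinuousLinearEquiv.refl ℂ E : E ≃L[ℂ] E) : E →L[ℂ] E) p := by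
    have e1 : HasStrictFDerivAt (fun x => l (x - p)) l p := by
      have := l.hasStrictFDerivAt.comp p ((hasStrictFDerivAt_id (𝕜 := ℂ) p).sub_const p)
      simpa using this
    have e2 : HasStrictFDerivAt h l p := hhp.hasStrictFDerivAt
    have e3 : HasStrictFDerivAt (fun x => h x - h p - l (x - p)) (l - l) p :=
      (e2.sub_const _).sub e1
    have e4 := (hasStrictFDerivAt_id (𝕜 := ℂ) p).add (e3.smul_const v)
    refine e4.congr_fderiv ?_
    ext x
    simp
  have hPp : Psi p = p := by simp [hPsi]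
  set P := hPd.toOpenPartialHomeomorph Psi with hP
  have hPcoe : (P : E → E) = Psi := hPd.toOpenPartialHomeomorph_coe
  have hps : p ∈ P.source := hPd.mem_toOpenPartialHomeomorph_source
  have hpt : p ∈ P.target := by
    have := P.map_source hps
    rwa [hPcoe, hPp] at this
  have hsp : P.symm p = p := by
    have := P.left_inv hps
    rwa [hPcoe, hPp] at this
  have hsa : AnalyticAt ℂ P.symm p := by
    have e1 : ContDiffAt ℂ ω P.symm p := by
      refine P.contDiffAt_symm (f₀' := ContinuousLinearEquiv.refl ℂ E) hpt ?_ ?_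
      · rw [hsp, hPcoe]
        exact hPd.hasFDerivAt
      · rw [hsp, hPcoe]
        exact hPa.contDiffAt
    exact e1.analyticAt
  have hgood : ∀ᶠ X in 𝓝 p, AnalyticAt ℂ P.symm X ∧ X ∈ P.target ∧ P.symm X ∈ W := by
    refine hsa.eventually_analyticAt.and (Filter.Eventually.and (P.open_target.mem_nhds hpt) ?_)
    have e1 : Tendsto P.symm (𝓝 p) (𝓝 p) := by
      have := hsa.continuousAt.tendsto
      rwa [hsp] at this
    exact e1.eventually (hW.mem_nhds hp)
  obtain ⟨R, hR, hball⟩ := Metric.eventually_nhds_iff_ball.1 hgood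
  have hlin : ∀ X ∈ ball p R, h (P.symm X) = h p + l (X - p) := by
    intro X hX
    have e1 := P.right_inv (hball X hX).2.1
    rw [hPcoe] at e1
    have e2 : l (X - p) = h (P.symm X) - h p := by
      conv_lhs => rw [← e1]
      simp only [hPsi, map_sub, map_add, map_smul, hv, smul_eq_mul, mul_one]
      ring
    rw [e2]; ring
  -- the section
  set s : ℂ → E := fun y => P.symm (p + (y - h p) • v) with hs
  have hvpos : 0 < ‖v‖ + 1 := by positivity
  set r : ℝ := R / (‖v‖ + 1) with hr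
  have hrpos : 0 < r := by positivity
  have hin : ∀ y ∈ ball (h p) r, p + (y - h p) • v ∈ ball p R := by
    intro y hy
    rw [mem_ball, dist_eq_norm] at hy
    rw [mem_ball, dist_eq_norm, add_sub_cancel_left, norm_smul]
    have e1 : ‖y - h p‖ * ‖v‖ ≤ r * ‖v‖ := by gcongr
    have e2 : r * (‖v‖ + 1) = R := by rw [hr]; field_simp
    nlinarith
  have hsW : ∀ y ∈ ball (h p) r, s y ∈ W := fun y hy => (hball _ (hin y hy)).2.2
  have hsan : ∀ y ∈ ball (h p) r, AnalyticAt ℂ s y := by
    intro y hy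
    have e1 : AnalyticAt ℂ (fun y : ℂ => p + (y - h p) • v) y :=
      analyticAt_const.add ((analyticAt_id.sub analyticAt_const).smul analyticAt_const)
    exact AnalyticAt.comp (f := fun y : ℂ => p + (y - h p) • v) (g := P.symm)
      (hball _ (hin y hy)).1 e1
  have hhs : ∀ y ∈ ball (h p) r, h (s y) = y := by
    intro y hy
    rw [hs]
    simp only
    rw [hlin _ (hin y hy), add_sub_cancel_left, map_smul, hv, smul_eq_mul, mul_one]
    ring
  refine ⟨r, hrpos, pre phi s, ?_, ?_, ?_, ?_⟩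
  · intro a y hy
    exact (hphi a _ (hsW y hy)).comp (hsan y hy)
  · intro a y hy
    have e1 : HasDerivAt s (deriv s y) y := (hsan y hy).differentiableAt.hasDerivAt
    have e2 : HasDerivAt (fun y => phi a (s y)) (fderiv ℂ (phi a) (s y) (deriv s y)) y :=
      (hphi a _ (hsW y hy)).differentiableAt.hasFDerivAt.comp_hasDerivAt y e1
    have e3 : HasDerivAt (fun y => h (s y)) (fderiv ℂ h (s y) (deriv s y)) y :=
      (hh _ (hsW y hy)).differentiableAt.hasFDerivAt.comp_hasDerivAt y e1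
    have e4 : (fun y => h (s y)) =ᶠ[𝓝 y] fun y => y := by
      filter_upwards [isOpen_ball.mem_nhds hy] with y' hy'
      exact hhs y' hy'
    have e5 : fderiv ℂ h (s y) (deriv s y) = 1 :=
      (e3.congr_of_eventuallyEq e4.symm).unique (hasDerivAt_id y)
    have e6 : deriv (pre phi s a) y = fderiv ℂ (phi a) (s y) (deriv s y) := e2.deriv
    rw [e6, hder a _ (hsW y hy), smul_apply, e5, smul_eq_mul, mul_one,
      pre_apply]
  · intro y hy
    rw [pre_apply, hz _ (hsW y hy), hhs y hy]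
  -- uniform neighbourhood
  have hPcont : ContinuousAt Psi p := hPa.continuousAt
  have hW1 : ∀ᶠ x in 𝓝 p, x ∈ P.source ∧ x ∈ W ∧ Psi x ∈ ball p R ∧ h x ∈ ball (h p) r := by
    refine Filter.Eventually.and (P.open_source.mem_nhds hps)
      (Filter.Eventually.and (hW.mem_nhds hp) (Filter.Eventually.and ?_ ?_))
    · have e1 : Tendsto Psi (𝓝 p) (𝓝 p) := by
        have := hPcont.tendsto
        rwa [hPp] at this
      exact e1.eventually (isOpen_ball.mem_nhds (mem_ball_self hR))
    · exact hhp.continuousAt.tendsto.eventually (isOpen_ball.mem_nhds (mem_ball_self hrpos))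
  refine ⟨_, hW1, fun x hx => hx.2.1, ?_⟩
  rintro a x ⟨hxs, hxW, hxR, hxr⟩
  refine ⟨hxr, ?_⟩
  rw [pre_apply, hs]
  simp only
  -- derivative of `F = phi a ∘ P.symm`
  have hF : ∀ X ∈ ball p R, HasFDerivAt (fun X => phi a (P.symm X))
      (phi (del a) (P.symm X) • l) X := by
    intro X hX
    have e1 : HasFDerivAt P.symm (fderiv ℂ P.symm X) X :=
      (hball X hX).1.differentiableAt.hasFDerivAt
    have e2 : HasFDerivAt (fun X => phi a (P.symm X))
        ((fderiv ℂ (phi a) (P.symm X)).comp (fderiv ℂ P.symm X)) X :=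
      HasFDerivAt.comp X (hphi a _ (hball X hX).2.2).differentiableAt.hasFDerivAt e1
    have e3 : HasFDerivAt (fun X => h (P.symm X))
        ((fderiv ℂ h (P.symm X)).comp (fderiv ℂ P.symm X)) X :=
      HasFDerivAt.comp X (hh _ (hball X hX).2.2).differentiableAt.hasFDerivAt e1
    have e4 : HasFDerivAt (fun X => h p + l (X - p)) l X := by
      have := (l.hasFDerivAt.comp X ((hasFDerivAt_id (𝕜 := ℂ) X).sub_const p)).const_add (h p)
      simpa using this
    have e5 : (fun X => h (P.symm X)) =ᶠ[𝓝 X] fun X => h p + l (X - p) := by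
      filter_upwards [isOpen_ball.mem_nhds hX] with X' hX'
      exact hlin X' hX'
    have e6 : (fderiv ℂ h (P.symm X)).comp (fderiv ℂ P.symm X) = l :=
      e3.unique (e4.congr_of_eventuallyEq e5)
    refine e2.congr_fderiv ?_
    rw [hder a _ (hball X hX).2.2, ContinuousLinearMap.smul_comp, e6]
  set X : E := Psi x with hX
  set Y : E := p + (h x - h p) • v with hY
  have hYR : Y ∈ ball p R := hin _ hxr
  have hsX : P.symm X = x := by
    have := P.left_inv hxs
    rwa [hPcoe] at this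
  have hlX : l (X - p) = h x - h p := by
    have := hlin X hxR
    rw [hsX] at this
    rw [this]; ring
  have hlY : l (Y - X) = 0 := by
    have e1 : Y - X = (Y - p) - (X - p) := by abel
    rw [e1, map_sub, hlX, hY, add_sub_cancel_left, map_smul, hv, smul_eq_mul, mul_one, sub_self]
  have hseg : ∀ u ∈ Icc (0 : ℝ) 1, X + (u : ℂ) • (Y - X) ∈ ball p R := by
    intro u hu
    have e1 := (convex_ball p R).add_smul_sub_mem hxR hYR hu
    have e2 : (u : ℂ) • (Y - X) = u • (Y - X) := by
      rw [Complex.coe_smul]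
    rw [e2]
    exact e1
  have hd0 : ∀ u ∈ Icc (0 : ℝ) 1,
      HasDerivAt (fun u : ℝ => phi a (P.symm (X + (u : ℂ) • (Y - X)))) 0 u := by
    intro u hu
    have e1 : HasDerivAt (fun w : ℂ => X + w • (Y - X)) (Y - X) (u : ℂ) := by
      have := ((hasDerivAt_id (u : ℂ)).smul_const (Y - X)).const_add X
      simpa using this
    have e2 : HasDerivAt (fun w : ℂ => phi a (P.symm (X + w • (Y - X))))
        ((phi (del a) (P.symm (X + (u : ℂ) • (Y - X))) • l) (Y - X)) (u : ℂ) :=
      HasFDerivAt.comp_hasDerivAt (f := fun w : ℂ => X + w • (Y - X))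
        (l := fun X => phi a (P.symm X)) (u : ℂ) (hF _ (hseg u hu)) e1
    rw [smul_apply, hlY, smul_zero] at e2
    exact e2.comp_ofReal
  have hconst := constant_of_has_deriv_right_zero
    (f := fun u : ℝ => phi a (P.symm (X + (u : ℂ) • (Y - X)))) (a := 0) (b := 1)
    (fun u hu => (hd0 u hu).continuousAt.continuousWithinAt)
    (fun u hu => (hd0 u ⟨hu.1, hu.2.le⟩).hasDerivWithinAt) 1 ⟨zero_le_one, le_rfl⟩
  simp only [Complex.ofReal_one, one_smul, Complex.ofReal_zero, zero_smul, add_zero] at hconst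
  rw [hsX] at hconst
  rw [← hconst]
  abel_nf

/-- an algebra of functions analytic on `U`, as a map to `Hol U` -/
def toHol {F : Type*} [NormedAddCommGroup F] [NormedSpace ℂ F] {A : Type*} [CommRing A]
    [Algebra ℂ A] (iota : A →ₐ[ℂ] (F → ℂ)) (U : Opens F)
    (h : ∀ a, AnalyticOnNhd ℂ (iota a) U) : A →ₐ[ℂ] Hol U where
  toFun a := Hol.ofFun (iota a) (h a)
  map_one' := Subtype.ext (by funext x; simp)
  map_mul' a b := Subtype.ext (by funext x; simp)
  map_zero' := Subtype.ext (by funext x; simp)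
  map_add' a b := Subtype.ext (by funext x; simp)
  commutes' c := Subtype.ext (by funext x; simp)

theorem toHol_apply {F : Type*} [NormedAddCommGroup F] [NormedSpace ℂ F] {A : Type*} [CommRing A]
    [Algebra ℂ A] (iota : A →ₐ[ℂ] (F → ℂ)) (U : Opens F)
    (h : ∀ a, AnalyticOnNhd ℂ (iota a) U) (a : A) :
    toHol iota U h a = Hol.ofFun (iota a) (h a) := rfl

/-- RUN-FUN with values in `Hol`. -/
theorem func_hol [CompleteSpace E] {W : Set E} (hW : IsOpen W) {p : E} (hp : p ∈ W) {h : E → ℂ}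
    (hh : AnalyticOnNhd ℂ h W) (hd : fderiv ℂ h p ≠ 0)
    {A : Type*} [CommRing A] [Algebra ℂ A] {del : Derivation ℂ A A} {z : A}
    {phi : A →ₐ[ℂ] (E → ℂ)} (hphi : ∀ a, AnalyticOnNhd ℂ (phi a) W)
    (hder : ∀ a, ∀ x ∈ W, fderiv ℂ (phi a) x = phi (del a) x • fderiv ℂ h x)
    (hz : ∀ x ∈ W, phi z x = h x) :
    ∃ r > (0 : ℝ), ∃ iota : A →ₐ[ℂ] Hol (⟨ball (h p) r, isOpen_ball⟩ : Opens ℂ),
      (∀ a, DH _ (iota a) = iota (del a)) ∧ iota z = zH _ ∧
      ∃ W'' ∈ 𝓝 p, W'' ⊆ W ∧ ∀ a, ∀ x ∈ W'', h x ∈ ball (h p) r ∧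
        phi a x = ext0 (U := (⟨ball (h p) r, isOpen_ball⟩ : Opens ℂ)) (iota a).1 (h x) := by
  obtain ⟨r, hr, iota, h1, h2, h3, W'', hW'', h4, h5⟩ := func hW hp hh hd hphi hder hz
  refine ⟨r, hr, toHol iota _ h1, ?_, ?_, W'', hW'', h4, ?_⟩
  · intro a
    rw [toHol_apply, DH_ofFun, toHol_apply]
    refine Subtype.ext (funext fun y => ?_)
    exact h2 a y y.2
  · rw [toHol_apply]
    exact Subtype.ext (funext fun y => h3 y y.2)
  · intro a x hx
    refine ⟨(h5 a x hx).1, ?_⟩
    have e1 := ext0_of_mem (U := (⟨ball (h p) r, isOpen_ball⟩ : Opens ℂ))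
      (toHol iota _ h1 a).1 (x := h x) (h5 a x hx).1
    rw [e1]
    exact (h5 a x hx).2

end Crest.Agent.R102.RunFun262
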