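import Crest.Agent.R102.F7_389

/-!
Row 102, RAT R5, leaf RUN-FUN (58 #26118): a ring of functions whose differentials are multiples of
`dh`, closed under the derivation, factors through `h` near a point where `dh ≠ 0`.
-/

set_option autoImplicit false

open Set Filter Topology Metric

noncomputable section

namespace Crest.Agent.R102.RunFun324

theorem func {E : Type} [NormedAddCommGroup E] [NormedSpace ℂ E] [CompleteSpace E]
    {W : Set E} (hW : IsOpen W) {p : E} (hp : p ∈ W) {h : E → ℂ} (hh : AnalyticOnNhd ℂ h W)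
    (hd : fderiv ℂ h p ≠ 0) {A0 : Type} [CommRing A0] [Algebra ℂ A0]
    {del : Derivation ℂ A0 A0} {z : A0} {phi : A0 →ₐ[ℂ] (E → ℂ)}
    (han : ∀ a, AnalyticOnNhd ℂ (phi a) W)
    (hdel : ∀ a, ∀ x ∈ W, fderiv ℂ (phi a) x = phi (del a) x • fderiv ℂ h x)
    (hz : ∀ x ∈ W, phi z x = h x) :
    ∃ r > 0, ∃ iota : A0 →ₐ[ℂ] (ℂ → ℂ),
      (∀ a, AnalyticOnNhd ℂ (iota a) (ball (h p) r)) ∧
      (∀ a, ∀ y ∈ ball (h p) r, deriv (iota a) y = iota (del a) y) ∧
      (∀ y ∈ ball (h p) r, iota z y = y) ∧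
      ∃ W'' ∈ 𝓝 p, W'' ⊆ W ∧ ∀ a, ∀ x ∈ W'', h x ∈ ball (h p) r ∧ phi a x = iota a (h x) := by
  -- a transversal direction
  obtain ⟨v, hv⟩ : ∃ v, fderiv ℂ h p v ≠ 0 := by
    by_contra hcon
    exact hd (ContinuousLinearMap.ext fun v => not_not.1 fun hv => hcon ⟨v, hv⟩)
  have hpan : AnalyticAt ℂ h p := hh p hp
  -- the implicit function `τ (q, c)`: `h (q + τ v) = c`
  set Φ : (E × ℂ) × ℂ → ℂ := fun x => h (x.1.1 + x.2 • v) - x.1.2 with hΦ
  have hlin : AnalyticAt ℂ (fun x : (E × ℂ) × ℂ => x.1.1 + x.2 • v) ((p, h p), 0) := by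
    exact (analyticAt_fst.fun_comp analyticAt_fst).add (analyticAt_snd.smul analyticAt_const)
  have hΦa : AnalyticAt ℂ Φ ((p, h p), 0) := by
    refine AnalyticAt.sub ?_ (analyticAt_snd.fun_comp analyticAt_fst)
    exact AnalyticAt.fun_comp (g := h) (f := fun x : (E × ℂ) × ℂ => x.1.1 + x.2 • v)
      (by simpa using hpan) hlin
  have hΦ0 : Φ ((p, h p), 0) = 0 := by simp [hΦ]
  have hΦd : fderiv ℂ Φ ((p, h p), 0) (0, 1) ≠ 0 := by
    have h1 : HasDerivAt (fun t : ℂ => Φ ((p, h p), t)) (fderiv ℂ Φ ((p, h p), 0) (0, 1)) 0 := by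
      have h2 : HasDerivAt (fun t : ℂ => (((p, h p), t) : (E × ℂ) × ℂ)) (0, 1) 0 :=
        (hasDerivAt_const _ _).prodMk (hasDerivAt_id _)
      exact hΦa.differentiableAt.hasFDerivAt.comp_hasDerivAt 0 h2
    have h3 : HasDerivAt (fun t : ℂ => Φ ((p, h p), t)) (fderiv ℂ h p v) 0 := by
      have h4 : HasDerivAt (fun t : ℂ => p + t • v) v 0 := by
        simpa using ((hasDerivAt_id (0 : ℂ)).smul_const v).const_add p
      have h5 : HasFDerivAt h (fderiv ℂ h p) (p + (0 : ℂ) • v) := by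
        simpa using hpan.differentiableAt.hasFDerivAt
      exact (h5.comp_hasDerivAt (0 : ℂ) h4).sub_const (h p)
    rw [h1.unique h3]; exact hv
  obtain ⟨τ, hτa, hτ0, hτ, hτu⟩ := F7389.implicit hΦa hΦ0 hΦd
  -- a good ball
  have hqa : AnalyticAt ℂ (fun w : E × ℂ => w.1 + τ w • v) (p, h p) :=
    analyticAt_fst.add (hτa.smul analyticAt_const)
  have hq0 : p + τ (p, h p) • v = p := by rw [hτ0]; simp
  have ev1 : ∀ᶠ w in 𝓝 ((p, h p) : E × ℂ), AnalyticAt ℂ τ w ∧ h (w.1 + τ w • v) = w.2 ∧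
      w.1 + τ w • v ∈ W := by
    refine hτa.eventually_analyticAt.and (Eventually.and ?_
      (hqa.continuousAt.eventually_mem (by simpa only [hq0] using hW.mem_nhds hp)))
    filter_upwards [hτ] with w hw
    exact sub_eq_zero.1 hw
  obtain ⟨ρ, hρ, hball⟩ := Metric.eventually_nhds_iff_ball.1 ev1
  have hgood : ∀ q : E, ∀ c : ℂ, dist q p < ρ → dist c (h p) < ρ →
      AnalyticAt ℂ τ (q, c) ∧ h (q + τ (q, c) • v) = c ∧ q + τ (q, c) • v ∈ W := by
    intro q c h1 h2
    refine hball (q, c) ?_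
    rw [mem_ball, Prod.dist_eq]
    exact max_lt h1 h2
  have ev2 : ∀ᶠ x in 𝓝 p, dist (h x) (h p) < ρ ∧ τ (x, h x) = 0 ∧ x ∈ W := by
    refine Eventually.and (hpan.continuousAt.eventually_mem (ball_mem_nhds _ hρ))
      (Eventually.and ?_ (hW.mem_nhds hp))
    have hc : ContinuousAt (fun x : E => (((x, h x), 0) : (E × ℂ) × ℂ)) p :=
      ContinuousAt.prodMk (ContinuousAt.prodMk continuousAt_id hpan.continuousAt) continuousAt_const
    filter_upwards [hc.eventually hτu] with x hx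
    exact (hx (by simp [hΦ])).symm
  -- the section
  set s : ℂ → E := fun y => p + τ (p, y) • v with hs
  have hsa : ∀ y ∈ ball (h p) ρ, AnalyticAt ℂ s y ∧ h (s y) = y ∧ s y ∈ W := by
    intro y hy
    obtain ⟨h1, h2, h3⟩ := hgood p y (by simpa using hρ) hy
    have h4 : AnalyticAt ℂ (fun y : ℂ => ((p, y) : E × ℂ)) y := analyticAt_const.prod analyticAt_id
    have h5 : AnalyticAt ℂ (fun y : ℂ => τ (p, y)) y :=
      AnalyticAt.fun_comp (g := τ) (f := fun y : ℂ => ((p, y) : E × ℂ)) h1 h4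
    exact ⟨analyticAt_const.add (h5.smul analyticAt_const), h2, h3⟩
  set iota : A0 →ₐ[ℂ] (ℂ → ℂ) :=
    AlgHom.pi (fun y : ℂ => (Pi.evalAlgHom ℂ (fun _ : E => ℂ) (s y)).comp phi)
    with hiota
  have hiota' : ∀ a y, iota a y = phi a (s y) := fun a y => rfl
  refine ⟨ρ, hρ, iota, ?_, ?_, ?_, {x | dist x p < ρ / 2 ∧ dist (h x) (h p) < ρ ∧ τ (x, h x) = 0 ∧
    x ∈ W}, ?_, fun x hx => hx.2.2.2, ?_⟩
  · intro a y hy
    obtain ⟨h1, _, h3⟩ := hsa y hy
    exact AnalyticAt.fun_comp (g := phi a) (f := s) (han a _ h3) h1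
  · intro a y hy
    obtain ⟨h1, h2, h3⟩ := hsa y hy
    have h4 : HasDerivAt s (deriv s y) y := h1.differentiableAt.hasDerivAt
    have h5 : HasDerivAt (fun y => phi a (s y)) (fderiv ℂ (phi a) (s y) (deriv s y)) y :=
      (han a _ h3).differentiableAt.hasFDerivAt.comp_hasDerivAt y h4
    have h6 : HasDerivAt (fun y => h (s y)) (fderiv ℂ h (s y) (deriv s y)) y :=
      (hh _ h3).differentiableAt.hasFDerivAt.comp_hasDerivAt y h4
    have h7 : HasDerivAt (fun y => h (s y)) 1 y := by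
      refine (hasDerivAt_id y).congr_of_eventuallyEq ?_
      filter_upwards [isOpen_ball.mem_nhds hy] with w hw
      exact (hsa w hw).2.1
    have h8 : fderiv ℂ h (s y) (deriv s y) = 1 := h6.unique h7
    have h9 : deriv (iota a) y = fderiv ℂ (phi a) (s y) (deriv s y) := h5.deriv
    rw [h9, hdel a _ h3, hiota']
    simp [h8]
  · intro y hy
    obtain ⟨h1, h2, h3⟩ := hsa y hy
    rw [hiota', hz _ h3, h2]
  · have h1 : ∀ᶠ x in 𝓝 p, dist x p < ρ / 2 := ball_mem_nhds p (by positivity)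
    exact h1.and ev2
  · rintro a x ⟨hx1, hx2, hx3, hx4⟩
    refine ⟨hx2, ?_⟩
    rw [hiota']
    -- the path in the fibre
    set c : ℂ := h x with hc
    set γ : ℝ → E := fun t => (p + t • (x - p)) + τ (p + t • (x - p), c) • v with hγ
    have hseg : ∀ t : ℝ, |t| < 2 → dist (p + t • (x - p)) p < ρ := by
      intro t ht
      rw [dist_eq_norm, add_sub_cancel_left, norm_smul, Real.norm_eq_abs, ← dist_eq_norm]
      have h1 : |t| * dist x p ≤ 2 * dist x p := mul_le_mul_of_nonneg_right ht.le dist_nonneg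
      linarith
    have hγd : ∀ t : ℝ, |t| < 2 → ∃ w, HasDerivAt γ w t := by
      intro t ht
      obtain ⟨h1, _, _⟩ := hgood _ c (hseg t ht) hx2
      have h2 : HasDerivAt (fun t : ℝ => p + t • (x - p)) (x - p) t := by
        simpa using ((hasDerivAt_id t).smul_const (x - p)).const_add p
      have h3 : HasDerivAt (fun t : ℝ => ((p + t • (x - p), c) : E × ℂ)) (x - p, 0) t :=
        h2.prodMk (hasDerivAt_const t c)
      have h4 := (h1.differentiableAt.hasFDerivAt.restrictScalars ℝ).comp_hasDerivAt t h3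
      exact ⟨_, h2.add (h4.smul_const v)⟩
    have hzero : ∀ t : ℝ, |t| < 2 → HasDerivAt (fun t => phi a (γ t)) 0 t := by
      intro t ht
      obtain ⟨w, hw⟩ := hγd t ht
      obtain ⟨_, h2, h3⟩ := hgood _ c (hseg t ht) hx2
      have h3' : γ t ∈ W := h3
      have h5 : HasDerivAt (fun t => h (γ t)) (fderiv ℂ h (γ t) w) t :=
        ((hh _ h3').differentiableAt.hasFDerivAt.restrictScalars ℝ).comp_hasDerivAt t hw
      have h6 : HasDerivAt (fun t => h (γ t)) 0 t := by
        refine (hasDerivAt_const t c).congr_of_eventuallyEq ?_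
        have : ∀ᶠ t' in 𝓝 t, |t'| < 2 :=
          continuous_abs.continuousAt.eventually_lt continuousAt_const ht
        filter_upwards [this] with t' ht'
        exact (hgood _ c (hseg t' ht') hx2).2.1
      have h7 : fderiv ℂ h (γ t) w = 0 := h5.unique h6
      have h8 : HasDerivAt (fun t => phi a (γ t)) (fderiv ℂ (phi a) (γ t) w) t :=
        ((han a _ h3').differentiableAt.hasFDerivAt.restrictScalars ℝ).comp_hasDerivAt t hw
      rw [hdel a _ h3'] at h8
      simpa [h7] using h8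
    have hcon := constant_of_has_deriv_right_zero (f := fun t => phi a (γ t)) (a := 0) (b := 1)
      (fun t ht => (hzero t (by rw [abs_of_nonneg ht.1]; linarith [ht.2])).continuousAt.continuousWithinAt)
      (fun t ht => (hzero t (by rw [abs_of_nonneg ht.1]; linarith [ht.2])).hasDerivWithinAt)
      1 ⟨zero_le_one, le_rfl⟩
    have e1 : γ 1 = x := by
      have h1 : p + (1 : ℝ) • (x - p) = x := by simp
      simp only [hγ, h1, hx3, zero_smul, add_zero]
    have e0 : γ 0 = s c := by simp [hγ, hs]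
    simpa only [e1, e0] using hcon

end Crest.Agent.R102.RunFun324
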