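import Crest.Agent.R102.RunE_58
import Crest.Agent.R102.AlgC_985
import Crest.Agent.R102.RATDefs3_926

/-!
# Row 102, [H3], THEOREM (RAT), leaf R5 = RUN (helper58): the second chain

If `L` (the field of the line `0` and the jets at the vertices) is algebraic over the differential
field `K` of the two end lines and `b 0 ∉ K`, then over some open set `W'` there is a second chain
with the same end lines and another first vertex, all of whose vertices are algebraic over the field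
of each shifted chain.
-/

set_option autoImplicit false
set_option linter.unusedSectionVars false

open Set Filter Topology Metric TopologicalSpace

noncomputable section

namespace Crest.Agent.R102.RunE58

open Crest.Agent.R102 Crest.Agent.R102.F7389 Crest.Agent.R102.Run58 Crest.Agent.R102.RunD58
  Crest.Agent.R102.RunAlg58 Crest.Agent.R102.RAT Crest.Agent.R102.Glue798 Crest.Agent.R102.H3
  Crest.Agent.R102.Rat7217

/-- `Hol W` into its field of fractions -/
abbrev al (W : Opens (ℂ × ℂ)) [IsDomain (Hol W)] : Hol W →+* FractionRing (Hol W) :=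
  algebraMap (Hol W) (FractionRing (Hol W))

theorem al_inj (W : Opens (ℂ × ℂ)) [IsDomain (Hol W)] : Function.Injective (al W) :=
  IsFractionRing.injective (Hol W) (FractionRing (Hol W))

section

variable {g : ℂ → ℂ} {c₀ : ℂ} {P : ℕ} {ρ : ℝ} {β m k q q' : ℕ → ℂ × ℂ → ℂ} {r ρ₀ : ℝ}
  {V : Opens ℂ} {W : Opens (ℂ × ℂ)} [IsDomain (Hol W)]

/-- square roots of the slopes, all lines -/
structure Roots (g : ℂ → ℂ) (P N : ℕ) (β m : ℕ → ℂ × ℂ → ℂ) (V : Opens ℂ) (W : Opens (ℂ × ℂ))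
    [IsDomain (Hol W)] (E : ℤ → FractionRing (Hol W)) : Prop where
  sq : ∀ j : ℤ, -(P : ℤ) ≤ j → j ≤ N → E j ^ 2 = al W (mH m W j)
  refl : ∀ j : ℤ, -(P : ℤ) ≤ j → j < N → E j * E (j + 1) = al W (xH β W j (DH V (toH V g)))

/-- extension of the roots to the lines of negative index -/
def Em (e : FractionRing (Hol W)) (G : ℕ → FractionRing (Hol W)) : ℕ → FractionRing (Hol W)
  | 0 => e
  | i + 1 => G i / Em e G i

theorem exists_roots (S : Setup g c₀ P ρ β m k q q' r ρ₀ V W) {N : ℕ} (hNP : N ≤ P)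
    (E : ℕ → FractionRing (Hol W)) (hsq : ∀ j : ℕ, j ≤ N → E j ^ 2 = al W (mH m W j))
    (hrefl : ∀ j : ℕ, j < N → E j * E (j + 1) = al W (xH β W j (DH V (toH V g)))) :
    ∃ Ez : ℤ → FractionRing (Hol W), (∀ j : ℕ, Ez j = E j) ∧ Roots g P N β m V W Ez := by
  set G : ℕ → FractionRing (Hol W) := fun i => al W (xH β W (-1 - (i : ℤ)) (DH V (toH V g)))
    with hG
  have hsm : ∀ i : ℕ, i ≤ P → Em (E 0) G i ^ 2 = al W (mH m W (-(i : ℤ))) := by
    intro i
    induction i with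
    | zero =>
      intro _
      have := hsq 0 (Nat.zero_le _)
      simpa [Em] using this
    | succ i ih =>
      intro hi
      have h1 := ih (by omega)
      have h2 := S.refl (j := -1 - (i : ℤ)) (by omega) (by omega)
      have e1 : (-1 - (i : ℤ) + 1) = -(i : ℤ) := by ring
      have e2 : (-1 - (i : ℤ)) = -((i + 1 : ℕ) : ℤ) := by push_cast; ring
      rw [e1] at h2
      have h3 := congrArg (al W) h2
      rw [map_mul, map_pow, ← h1] at h3
      have h4 : Em (E 0) G i ^ 2 ≠ 0 := by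
        rw [h1, Ne, map_eq_zero_iff _ (al_inj W)]
        exact S.mH_ne (by omega) (by omega)
      rw [Em, div_pow]
      have h5 : G i ^ 2 = Em (E 0) G i ^ 2 * al W (mH m W (-((i + 1 : ℕ) : ℤ))) := by
        rw [← e2, h3]
      rw [h5, mul_div_cancel_left₀ _ h4]
  have hmne : ∀ i : ℕ, i ≤ P → Em (E 0) G i ≠ 0 := by
    intro i hi h0
    have h1 := hsm i hi
    rw [h0, zero_pow two_ne_zero] at h1
    have h2 := (map_eq_zero_iff _ (al_inj W)).1 h1.symm
    exact S.mH_ne (by omega) (by omega) h2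
  refine ⟨fun j => match j with
    | Int.ofNat j => E j
    | Int.negSucc i => Em (E 0) G (i + 1), fun j => rfl, ⟨?_, ?_⟩⟩
  · intro j h1 h2
    rcases j with j | i
    · exact hsq j (by simpa using h2)
    · rw [Int.negSucc_eq] at h1
      have h3 := hsm (i + 1) (by omega)
      have e2 : -((i + 1 : ℕ) : ℤ) = Int.negSucc i := by rw [Int.negSucc_eq]; push_cast; ring
      rw [e2] at h3
      exact h3
  · intro j h1 h2
    rcases j with j | i
    · exact hrefl j (by simpa using h2)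
    · rw [Int.negSucc_eq] at h1
      have e1 : (-1 - (i : ℤ)) = Int.negSucc i := by rw [Int.negSucc_eq]; ring
      have hGi : G i = al W (xH β W (Int.negSucc i) (DH V (toH V g))) := by
        rw [hG, ← e1]
      rcases i with _ | i
      · change Em (E 0) G 1 * E 0 = _
        rw [← hGi]
        have h4 : Em (E 0) G 0 ≠ 0 := hmne 0 (Nat.zero_le _)
        change G 0 / Em (E 0) G 0 * E 0 = G 0
        have h5 : Em (E 0) G 0 = E 0 := rfl
        rw [h5] at h4 ⊢
        exact div_mul_cancel₀ _ h4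
      · have e3 : (Int.negSucc (i + 1) + 1) = Int.negSucc i := by
          simp only [Int.negSucc_eq]; push_cast; ring
        rw [e3, ← hGi]
        change G (i + 1) / Em (E 0) G (i + 1) * Em (E 0) G (i + 1) = G (i + 1)
        exact div_mul_cancel₀ _ (hmne (i + 1) (by omega))

theorem Roots.ne {Ez : ℤ → FractionRing (Hol W)} {N : ℕ}
    (S : Setup g c₀ P ρ β m k q q' r ρ₀ V W) (hNP : N ≤ P)
    (R : Roots g P N β m V W Ez) {j : ℤ} (h1 : -(P : ℤ) ≤ j) (h2 : j ≤ N) : Ez j ≠ 0 := by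
  intro h0
  have h3 := R.sq j h1 h2
  rw [h0, zero_pow two_ne_zero] at h3
  exact S.mH_ne h1 (by omega) ((map_eq_zero_iff _ (al_inj W)).1 h3.symm)

/-- **the shifted chain** -/
theorem pchain (S : Setup g c₀ P ρ β m k q q' r ρ₀ V W) {N : ℕ} (hNP : N ≤ P)
    {Ez : ℤ → FractionRing (Hol W)} (R : Roots g P N β m V W Ez) {a : ℕ} (ha : a ≤ P)
    (D : Derivation ℂ (FractionRing (Hol W)) (FractionRing (Hol W)))
    (hD : ∀ (j : ℤ) (f : Hol V), -(P : ℤ) ≤ j → j ≤ P →
      D (al W (xH β W j f)) = al W (xH β W j (DH V f)) * D (al W (bH β W j))) :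
    PChain D (N + a) (fun j => al W (bH β W ((j : ℤ) - a)))
      (fun j i => al W (xH β W ((j : ℤ) - a) ((DH V)^[i] (toH V g))))
      (fun j => Ez ((j : ℤ) - a)) (fun j => al W (mH k W ((j : ℤ) - a))) where
  inc j hj := by
    have h1 := congrArg (al W) (S.inc (j := (j : ℤ) - a) (by omega) (by omega))
    rw [map_add, map_mul, ← R.sq _ (by omega) (by omega)] at h1
    exact h1
  inc' j hj := by
    have h1 := congrArg (al W) (S.inc' (j := (j : ℤ) - a) (by omega) (by omega))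
    rw [map_add, map_mul, ← R.sq _ (by omega) (by omega)] at h1
    have e1 : (((j + 1 : ℕ) : ℤ) - a) = (j : ℤ) - a + 1 := by push_cast; ring
    simp only [e1]
    exact h1
  refl j hj := by
    have e1 : (((j + 1 : ℕ) : ℤ) - a) = (j : ℤ) - a + 1 := by push_cast; ring
    simp only [e1]
    exact R.refl _ (by omega) (by omega)
  E_ne j hj := R.ne S hNP (by omega) (by omega)
  tr j hj := by
    rw [R.sq _ (by omega) (by omega)]
    intro h
    exact S.tr (j := (j : ℤ) - a) (by omega) (by omega) (al_inj W h)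
  jet j hj i := by
    have h1 := hD ((j : ℤ) - a) ((DH V)^[i] (toH V g)) (by omega) (by omega)
    rw [h1, Function.iterate_succ_apply']

/-! ### the derivations -/

section der

variable {D₁ D₂ : Derivation ℂ (FractionRing (Hol W)) (FractionRing (Hol W))}

theorem jcb_x (S : Setup g c₀ P ρ β m k q q' r ρ₀ V W) (j : ℤ) (f : Hol V) (h1 : -(P : ℤ) ≤ j)
    (h2 : j ≤ P) (h : Hol W) :
    Rat7217.jcb (xH β W j f) h = xH β W j (DH V f) * Rat7217.jcb (bH β W j) h ∧
    Rat7217.jcb h (xH β W j f) = xH β W j (DH V f) * Rat7217.jcb h (bH β W j) := by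
  have e : ∀ (v : ℂ × ℂ) (f : Hol W), MerF217.dV v f = pdH W v f := fun v f => by
    ext x; rw [pdH_apply]; rfl
  constructor
  · simp only [Rat7217.jcb, e]
    rw [S.pd_x (by omega) h2, S.pd_x (by omega) h2]
    ring
  · simp only [Rat7217.jcb, e]
    rw [S.pd_x (by omega) h2, S.pd_x (by omega) h2]
    ring

theorem D1_x (S : Setup g c₀ P ρ β m k q q' r ρ₀ V W) (hD : Dual (mH m W 0) (mH k W 0) D₁ D₂)
    (j : ℤ) (f : Hol V) (h1 : -(P : ℤ) ≤ j) (h2 : j ≤ P) :
    D₁ (al W (xH β W j f)) = al W (xH β W j (DH V f)) * D₁ (al W (bH β W j)) := by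
  refine mul_left_cancel₀ hD.ne ?_
  rw [hD.d₁, (jcb_x S j f h1 h2 _).1, map_mul, mul_left_comm, hD.d₁]

theorem D2_x (S : Setup g c₀ P ρ β m k q q' r ρ₀ V W) (hD : Dual (mH m W 0) (mH k W 0) D₁ D₂)
    (j : ℤ) (f : Hol V) (h1 : -(P : ℤ) ≤ j) (h2 : j ≤ P) :
    D₂ (al W (xH β W j f)) = al W (xH β W j (DH V f)) * D₂ (al W (bH β W j)) := by
  refine mul_left_cancel₀ hD.ne ?_
  rw [hD.d₂, (jcb_x S j f h1 h2 _).2, map_mul, mul_left_comm, hD.d₂]

theorem dual_mark (hD : Dual (mH m W 0) (mH k W 0) D₁ D₂) :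
    D₁ (al W (mH m W 0)) = 1 ∧ D₂ (al W (mH m W 0)) = 0 ∧ D₁ (al W (mH k W 0)) = 0 ∧
      D₂ (al W (mH k W 0)) = 1 := by
  have hz : ∀ f : Hol W, Rat7217.jcb f f = 0 := fun f => by rw [Rat7217.jcb]; ring
  refine ⟨mul_left_cancel₀ hD.ne ?_, mul_left_cancel₀ hD.ne ?_, mul_left_cancel₀ hD.ne ?_,
    mul_left_cancel₀ hD.ne ?_⟩
  · rw [hD.d₁, mul_one]
  · rw [hD.d₂, hz, map_zero, mul_zero]
  · rw [hD.d₁, hz, map_zero, mul_zero]
  · rw [hD.d₂, mul_one]

theorem mark {N : ℕ} {Ez : ℤ → FractionRing (Hol W)} (R : Roots g P N β m V W Ez)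
    (hD : Dual (mH m W 0) (mH k W 0) D₁ D₂) (a : ℕ) :
    Mark D₁ D₂ a (fun j : ℕ => Ez ((j : ℤ) - a))
      (fun j : ℕ => al W (mH k W ((j : ℤ) - a))) := by
  obtain ⟨h1, h2, h3, h4⟩ := dual_mark hD
  have h0 : Ez ((a : ℤ) - a) ^ 2 = al W (mH m W 0) := by
    rw [sub_self]
    exact R.sq 0 (by omega) (by omega)
  refine ⟨?_, ?_, ?_, ?_⟩
  · simp only [h0]; exact h1
  · simp only [h0]; exact h2
  · simp only [sub_self]; exact h3
  · simp only [sub_self]; exact h4

end der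

/-! ### the fields -/

/-- the field of the line `0` and the values of `A₀` at the vertices -/
def LLA (N : ℕ) (β k : ℕ → ℂ × ℂ → ℂ) {V : Opens ℂ} (W : Opens (ℂ × ℂ)) [IsDomain (Hol W)]
    (A₀ : Subalgebra ℂ (Hol V)) (E0 : FractionRing (Hol W)) :
    IntermediateField ℂ (FractionRing (Hol W)) :=
  IntermediateField.adjoin ℂ ({E0, al W (mH k W 0)} ∪
    {y | ∃ j : ℕ, j < N ∧ ∃ f ∈ A₀, y = al W (xH β W j f)})

theorem x_mem_LLA {N : ℕ} (A₀ : Subalgebra ℂ (Hol V)) (E0 : FractionRing (Hol W)) {j : ℕ}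
    (hj : j < N) {f : Hol V} (hf : f ∈ A₀) : al W (xH β W j f) ∈ LLA N β k W A₀ E0 :=
  IntermediateField.subset_adjoin ℂ _ (Or.inr ⟨j, hj, f, hf, rfl⟩)

theorem xH_z (S : Setup g c₀ P ρ β m k q q' r ρ₀ V W) {j : ℤ} (h1 : -(P : ℤ) - 1 ≤ j)
    (h2 : j ≤ P) : xH β W j (zH V) = bH β W j := by
  rw [S.xH_eq h1 h2, compH_zH]

theorem b_mem_LLA (S : Setup g c₀ P ρ β m k q q' r ρ₀ V W) {N : ℕ} (hNP : N ≤ P)
    (A₀ : Subalgebra ℂ (Hol V)) (hz : zH V ∈ A₀) (E0 : FractionRing (Hol W)) {j : ℕ}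
    (hj : j < N) : al W (bH β W j) ∈ LLA N β k W A₀ E0 := by
  rw [← xH_z S (by omega) (by omega)]
  exact x_mem_LLA A₀ E0 hj hz

theorem LL_le (S : Setup g c₀ P ρ β m k q q' r ρ₀ V W) {N : ℕ} (hNP : N ≤ P)
    (A₀ : Subalgebra ℂ (Hol V)) (hz : zH V ∈ A₀) (hg : toH V g ∈ A₀)
    (hDA : ∀ f ∈ A₀, DH V f ∈ A₀) (E : ℕ → FractionRing (Hol W)) :
    LL N (fun j : ℕ => al W (bH β W j))
      (fun j i => al W (xH β W (j : ℤ) ((DH V)^[i] (toH V g)))) E
      (fun j : ℕ => al W (mH k W j)) ≤ LLA N β k W A₀ (E 0) := by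
  have hit : ∀ i : ℕ, (DH V)^[i] (toH V g) ∈ A₀ := by
    intro i
    induction i with
    | zero => exact hg
    | succ i ih => rw [Function.iterate_succ_apply']; exact hDA _ ih
  refine IntermediateField.adjoin_le_iff.2 ?_
  rintro y (hy | ⟨j, hj, rfl | ⟨i, rfl⟩⟩)
  · rcases hy with rfl | hy
    · exact IntermediateField.subset_adjoin ℂ _ (Or.inl (Or.inl rfl))
    · rw [Set.mem_singleton_iff] at hy
      subst hy
      exact IntermediateField.subset_adjoin ℂ _ (Or.inl (Or.inr rfl))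
  · exact b_mem_LLA S hNP A₀ hz _ hj
  · exact x_mem_LLA A₀ _ hj (hit i)

theorem LLA_FG (S : Setup g c₀ P ρ β m k q q' r ρ₀ V W) {N : ℕ} (hNP : N ≤ P)
    (A₀ : Subalgebra ℂ (Hol V)) (hfg : A₀.FG) (E0 : FractionRing (Hol W)) :
    ∃ s : Finset (FractionRing (Hol W)),
      LLA N β k W A₀ E0 = IntermediateField.adjoin ℂ (s : Set (FractionRing (Hol W))) := by
  classical
  obtain ⟨T, hT⟩ := hfg
  set s : Finset (FractionRing (Hol W)) := {E0, al W (mH k W 0)} ∪
    (Finset.range N).biUnion fun j : ℕ => T.image fun f => al W (xH β W (j : ℤ) f) with hs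
  have hgen : ∀ j : ℕ, j < N → ∀ f ∈ A₀, al W (xH β W (j : ℤ) f) ∈
      IntermediateField.adjoin ℂ (s : Set (FractionRing (Hol W))) := by
    intro j hj f hf
    rw [← hT] at hf
    have hx : ∀ f, xH β W (j : ℤ) f = compH (bH β W (j : ℤ)) (S.bH_mem (by omega) (by omega)) f :=
      S.xH_eq (by omega) (by omega)
    induction hf using Algebra.adjoin_induction with
    | mem f hf =>
      refine IntermediateField.subset_adjoin ℂ _ ?_
      rw [Finset.mem_coe, hs, Finset.mem_union, Finset.mem_biUnion]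
      exact Or.inr ⟨j, Finset.mem_range.2 hj, Finset.mem_image_of_mem _ hf⟩
    | algebraMap c =>
      rw [hx, AlgHom.commutes, ← IsScalarTower.algebraMap_apply]
      exact IntermediateField.algebraMap_mem _ c
    | add f h _ _ h1 h2 => rw [hx, map_add, map_add, ← hx, ← hx]; exact add_mem h1 h2
    | mul f h _ _ h1 h2 => rw [hx, map_mul, map_mul, ← hx, ← hx]; exact mul_mem h1 h2
  refine ⟨s, le_antisymm (IntermediateField.adjoin_le_iff.2 ?_)
    (IntermediateField.adjoin_le_iff.2 ?_)⟩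
  · rintro y (hy | ⟨j, hj, f, hf, rfl⟩)
    · refine IntermediateField.subset_adjoin ℂ _ ?_
      rw [Finset.mem_coe, hs, Finset.mem_union]
      left
      simpa using hy
    · exact hgen j hj f hf
  · intro y hy
    rw [Finset.mem_coe, hs, Finset.mem_union, Finset.mem_biUnion] at hy
    rcases hy with hy | ⟨j, hj, hy⟩
    · refine IntermediateField.subset_adjoin ℂ _ (Or.inl ?_)
      simpa using hy
    · obtain ⟨f, hf, rfl⟩ := Finset.mem_image.1 hy
      refine x_mem_LLA A₀ _ (Finset.mem_range.1 hj) ?_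
      rw [← hT]
      exact Algebra.subset_adjoin hf

omit [IsDomain (Hol W)] in
theorem inv_two_mem {M : Type*} [Field M] [Algebra ℂ M] (P : ℕ) (b : ℕ → M) (x : ℕ → ℕ → M)
    (E k : ℕ → M) : 1 / (2 * E 0) ∈ LL P b x E k :=
  div_mem (one_mem _) (mul_mem two_mem' E0_mem)

omit [IsDomain (Hol W)] in
theorem one_LL {M : Type*} [Field M] [Algebra ℂ M] (P : ℕ) (b : ℕ → M) (x : ℕ → ℕ → M)
    (E k : ℕ → M) : (1 : M) ∈ LL P b x E k := one_mem _

omit [IsDomain (Hol W)] in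
theorem zero_LL {M : Type*} [Field M] [Algebra ℂ M] (P : ℕ) (b : ℕ → M) (x : ℕ → ℕ → M)
    (E k : ℕ → M) : (0 : M) ∈ LL P b x E k := zero_mem _

theorem KK_le_shift (S : Setup g c₀ P ρ β m k q q' r ρ₀ V W) {N : ℕ} (hNP : N ≤ P)
    {D₁ D₂ : Derivation ℂ (FractionRing (Hol W)) (FractionRing (Hol W))}
    (hD : Dual (mH m W 0) (mH k W 0) D₁ D₂)
    {E : ℕ → FractionRing (Hol W)} {Ez : ℤ → FractionRing (Hol W)} (hE : ∀ j : ℕ, Ez j = E j)
    (R : Roots g P N β m V W Ez) {a : ℕ} (ha : a ≤ P) :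
    KK D₁ D₂ N E (fun j : ℕ => al W (mH k W j)) ≤
      LL (N + a) (fun j : ℕ => al W (bH β W ((j : ℤ) - a)))
      (fun j i => al W (xH β W ((j : ℤ) - a) ((DH V)^[i] (toH V g))))
      (fun j : ℕ => Ez ((j : ℤ) - a)) (fun j : ℕ => al W (mH k W ((j : ℤ) - a))) := by
  have h1 := pchain S hNP R ha D₁ (D1_x S hD)
  have h2 := pchain S hNP R ha D₂ (D2_x S hD)
  have h3 := KK_le h1 h2 (a := a) (N := N) (by omega) (mark R hD a)
  refine le_trans (le_of_eq ?_) h3
  have e1 : ∀ j : ℕ, (((a + j : ℕ) : ℤ) - a) = j := fun j => by push_cast; ring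
  simp only [e1, hE]

/-- `L` is stable under the derivations -/
theorem LLA_stable (S : Setup g c₀ P ρ β m k q q' r ρ₀ V W) {N : ℕ} (hNP : N ≤ P)
    (A₀ : Subalgebra ℂ (Hol V)) (hz : zH V ∈ A₀) (hg : toH V g ∈ A₀)
    (hDA : ∀ f ∈ A₀, DH V f ∈ A₀)
    {E : ℕ → FractionRing (Hol W)} {Ez : ℤ → FractionRing (Hol W)} (hE : ∀ j : ℕ, Ez j = E j)
    (R : Roots g P N β m V W Ez)
    (D : Derivation ℂ (FractionRing (Hol W)) (FractionRing (Hol W)))
    (hD : ∀ (j : ℤ) (f : Hol V), -(P : ℤ) ≤ j → j ≤ P →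
      D (al W (xH β W j f)) = al W (xH β W j (DH V f)) * D (al W (bH β W j)))
    (hDE : D (E 0) ∈ LL N (fun j : ℕ => al W (bH β W j))
      (fun j i => al W (xH β W (j : ℤ) ((DH V)^[i] (toH V g)))) E
      (fun j : ℕ => al W (mH k W j)))
    (hDk : D (al W (mH k W 0)) ∈ LL N (fun j : ℕ => al W (bH β W j))
      (fun j i => al W (xH β W (j : ℤ) ((DH V)^[i] (toH V g)))) E
      (fun j : ℕ => al W (mH k W j))) :
    ∀ f ∈ LLA N β k W A₀ (E 0), D f ∈ LLA N β k W A₀ (E 0) := by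
  have hle := LL_le S hNP A₀ hz hg hDA (k := k) E
  have h1 := pchain S hNP R (a := 0) (by omega) D hD
  simp only [Nat.cast_zero, sub_zero, add_zero, hE] at h1
  have h2 := LL_stable h1 (a := 0) (Nat.zero_le _) hDE hDk
  intro f hf
  refine DF389.der_adjoin D _ (LLA N β k W A₀ (E 0)) (IntermediateField.subset_adjoin ℂ _) ?_ hf
  rintro y (hy | ⟨j, hj, f, hf, rfl⟩)
  · rcases hy with rfl | hy
    · exact hle hDE
    · rw [Set.mem_singleton_iff] at hy
      subst hy
      exact hle hDk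
  · rw [hD j f (by omega) (by omega)]
    refine mul_mem (x_mem_LLA A₀ _ hj (hDA f hf)) (hle (h2 _ ?_))
    exact b_mem hj

/-- `L` is stable under `∂/∂m₀, ∂/∂k₀` -/
theorem LLA_stable' (S : Setup g c₀ P ρ β m k q q' r ρ₀ V W) {N : ℕ} (hNP : N ≤ P)
    {D₁ D₂ : Derivation ℂ (FractionRing (Hol W)) (FractionRing (Hol W))}
    (hD : Dual (mH m W 0) (mH k W 0) D₁ D₂)
    (A₀ : Subalgebra ℂ (Hol V)) (hz : zH V ∈ A₀) (hg : toH V g ∈ A₀)
    (hDA : ∀ f ∈ A₀, DH V f ∈ A₀)
    {E : ℕ → FractionRing (Hol W)} {Ez : ℤ → FractionRing (Hol W)} (hE : ∀ j : ℕ, Ez j = E j)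
    (R : Roots g P N β m V W Ez) :
    (∀ f ∈ LLA N β k W A₀ (E 0), D₁ f ∈ LLA N β k W A₀ (E 0)) ∧
      ∀ f ∈ LLA N β k W A₀ (E 0), D₂ f ∈ LLA N β k W A₀ (E 0) := by
  obtain ⟨e1, e2, e3, e4⟩ := dual_mark hD
  have hE0 : E 0 ≠ 0 := by rw [← hE]; exact R.ne S hNP (by omega) (by omega)
  have hsq : E 0 ^ 2 = al W (mH m W 0) := by
    rw [← hE]; exact R.sq 0 (by omega) (by omega)
  have h2 : (2 : FractionRing (Hol W)) ≠ 0 := by
    have : CharZero (FractionRing (Hol W)) :=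
      charZero_of_injective_algebraMap (algebraMap ℂ _).injective
    exact two_ne_zero
  have hD1 : D₁ (E 0) = 1 / (2 * E 0) := by
    rw [← hsq, Derivation.leibniz_pow] at e1
    simp only [smul_eq_mul, nsmul_eq_mul] at e1
    push_cast at e1
    rw [eq_div_iff (mul_ne_zero h2 hE0)]
    linear_combination e1
  have hD2 : D₂ (E 0) = 0 := by
    rw [← hsq, Derivation.leibniz_pow] at e2
    simp only [smul_eq_mul, nsmul_eq_mul] at e2
    push_cast at e2
    have e : (2 * E 0) * D₂ (E 0) = 0 := by linear_combination e2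
    exact (mul_eq_zero.1 e).resolve_left (mul_ne_zero h2 hE0)
  constructor
  · refine LLA_stable S hNP A₀ hz hg hDA hE R D₁ (D1_x S hD) ?_ ?_
    · rw [hD1]
      exact inv_two_mem N _ _ E _
    · rw [e3]; exact zero_LL N _ _ E _
  · refine LLA_stable S hNP A₀ hz hg hDA hE R D₂ (D2_x S hD) ?_ ?_
    · rw [hD2]; exact zero_LL N _ _ E _
    · rw [e4]; exact one_LL N _ _ E _

end

end Crest.Agent.R102.RunE58
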