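import Mathlib

/-!
Row 102, part (C), leaf H3, RAT, **RUN-TAN** of 58 #26118: a line which is tangent to one mirror `g`
near `c₀` cannot be tangent, for every `y`, to the second mirror `gh` at `y`.
-/

set_option autoImplicit false

open Set Filter Topology Metric

noncomputable section

namespace Crest.Agent.R102.RunTan262

/-- RUN-TAN: generic tangents of `gh` are not tangents of `g` near `c₀`. -/
theorem gentan {g : ℂ → ℂ} {c₀ : ℂ} (hg : AnalyticAt ℂ g c₀) (hg2 : deriv (deriv g) c₀ ≠ 0) :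
    ∃ ρ₀ > (0 : ℝ), ∀ ρ' : ℝ, 0 < ρ' → ρ' ≤ ρ₀ → ∀ O : Set ℂ, IsOpen O → O.Nonempty →
      ∀ gh : ℂ → ℂ, AnalyticOnNhd ℂ gh O → (∀ y ∈ O, deriv (deriv gh) y ≠ 0) →
      (∀ y ∈ O, y ∈ closedBall c₀ ρ' → g y ≠ gh y) →
      ∃ y ∈ O, ∀ t ∈ closedBall c₀ ρ', deriv g t = deriv gh y →
        g t + deriv g t * (y - t) ≠ gh y := by
  have h1 : HasStrictDerivAt (deriv g) (deriv (deriv g) c₀) c₀ := hg.deriv.hasStrictDerivAt
  -- `g'` is injective near `c₀`
  have hinj : ∃ u ∈ 𝓝 c₀, InjOn (deriv g) u := by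
    have h2 := h1.hasStrictFDerivAt_equiv hg2
    exact ⟨(h2.toOpenPartialHomeomorph (deriv g)).source,
      (h2.toOpenPartialHomeomorph (deriv g)).open_source.mem_nhds
        h2.mem_toOpenPartialHomeomorph_source,
      (h2.toOpenPartialHomeomorph (deriv g)).injOn⟩
  obtain ⟨u, hu, hinj⟩ := hinj
  have h3 : ∀ᶠ x in 𝓝 c₀, AnalyticAt ℂ g x ∧ deriv (deriv g) x ≠ 0 ∧ x ∈ u :=
    hg.eventually_analyticAt.and
      ((hg.deriv.deriv.continuousAt.eventually_ne hg2).and hu)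
  obtain ⟨r, hr, hball⟩ := Metric.eventually_nhds_iff_ball.1 h3
  refine ⟨r / 2, by positivity, ?_⟩
  intro ρ' hρ' hρr O hO hne gh hgh hgh2 hsep
  by_contra hcon
  push Not at hcon
  choose! t ht1 ht2 ht3 using hcon
  obtain ⟨y₀, hy₀⟩ := hne
  have hin : ∀ y ∈ O, t y ∈ ball c₀ r := by
    intro y hy
    have := ht1 y hy
    rw [mem_closedBall] at this
    rw [mem_ball]
    linarith
  have hgt : AnalyticAt ℂ g (t y₀) := (hball _ (hin y₀ hy₀)).1
  have hgt2 : deriv (deriv g) (t y₀) ≠ 0 := (hball _ (hin y₀ hy₀)).2.1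
  have h4 : HasStrictDerivAt (deriv g) (deriv (deriv g) (t y₀)) (t y₀) :=
    hgt.deriv.hasStrictDerivAt
  have h5 := h4.hasStrictFDerivAt_equiv hgt2
  set ψ : ℂ → ℂ := h5.localInverse (deriv g) _ _ with hψ
  have hψd : HasStrictDerivAt ψ (deriv (deriv g) (t y₀))⁻¹ (deriv g (t y₀)) :=
    h4.to_localInverse hgt2
  have hψ0 : ψ (deriv g (t y₀)) = t y₀ := h5.localInverse_apply_image
  have hψr : ∀ᶠ s in 𝓝 (deriv g (t y₀)), deriv g (ψ s) = s := h5.eventually_right_inverse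
  have hgy : AnalyticAt ℂ gh y₀ := hgh y₀ hy₀
  have e0 : deriv gh y₀ = deriv g (t y₀) := (ht2 y₀ hy₀).symm
  have hcont : Tendsto (deriv gh) (𝓝 y₀) (𝓝 (deriv g (t y₀))) := by
    rw [← e0]
    exact hgy.deriv.continuousAt
  have hψc : ContinuousAt ψ (deriv g (t y₀)) := hψd.hasDerivAt.continuousAt
  -- `t y = ψ (gh' y)` near `y₀`
  have ht : ∀ᶠ y in 𝓝 y₀, t y = ψ (deriv gh y) := by
    have h6 : ∀ᶠ y in 𝓝 y₀, ψ (deriv gh y) ∈ ball c₀ r := by
      have : Tendsto (fun y => ψ (deriv gh y)) (𝓝 y₀) (𝓝 (t y₀)) := by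
        rw [← hψ0]
        rw [hψ0]
        have h7 := hψc.tendsto.comp hcont
        rw [hψ0] at h7
        exact h7
      exact this.eventually (isOpen_ball.mem_nhds (hin y₀ hy₀))
    filter_upwards [h6, hcont.eventually hψr, hO.mem_nhds hy₀] with y hy1 hy2 hy3
    refine hinj (hball _ (hin y hy3)).2.2 (hball _ hy1).2.2 ?_
    rw [hy2, ht2 y hy3]
  have hτ : HasDerivAt t ((deriv (deriv g) (t y₀))⁻¹ * deriv (deriv gh) y₀) y₀ := by
    have h8 : HasDerivAt (deriv gh) (deriv (deriv gh) y₀) y₀ :=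
      hgy.deriv.differentiableAt.hasDerivAt
    have h9 : HasDerivAt ψ (deriv (deriv g) (t y₀))⁻¹ (deriv gh y₀) := by
      rw [e0]; exact hψd.hasDerivAt
    exact (h9.comp y₀ h8).congr_of_eventuallyEq ht
  set τ' : ℂ := (deriv (deriv g) (t y₀))⁻¹ * deriv (deriv gh) y₀ with hτ'
  have hL : HasDerivAt (fun y => g (t y) + deriv g (t y) * (y - t y))
      (deriv g (t y₀) * τ' + (deriv (deriv g) (t y₀) * τ' * (y₀ - t y₀)
        + deriv g (t y₀) * (1 - τ'))) y₀ := by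
    have h10 : HasDerivAt (fun y => g (t y)) (deriv g (t y₀) * τ') y₀ :=
      HasDerivAt.comp y₀ hgt.differentiableAt.hasDerivAt hτ
    have h11 : HasDerivAt (fun y => deriv g (t y)) (deriv (deriv g) (t y₀) * τ') y₀ :=
      HasDerivAt.comp y₀ h4.hasDerivAt hτ
    exact h10.add (h11.mul ((hasDerivAt_id y₀).sub hτ))
  have hR : HasDerivAt gh (deriv gh y₀) y₀ := hgy.differentiableAt.hasDerivAt
  have hEq : (fun y => g (t y) + deriv g (t y) * (y - t y)) =ᶠ[𝓝 y₀] gh := by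
    filter_upwards [hO.mem_nhds hy₀] with y hy
    exact ht3 y hy
  have hU := hL.unique (hR.congr_of_eventuallyEq hEq)
  have h12 : deriv (deriv gh) y₀ * (y₀ - t y₀) = 0 := by
    have h13 : deriv (deriv g) (t y₀) * τ' = deriv (deriv gh) y₀ := by
      rw [hτ', ← mul_assoc, mul_inv_cancel₀ hgt2, one_mul]
    rw [← h13]
    have h14 := e0
    linear_combination hU + h14
  have h15 : y₀ = t y₀ := by
    rcases mul_eq_zero.1 h12 with h | h
    · exact absurd h (hgh2 y₀ hy₀)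
    · exact sub_eq_zero.1 h
  refine hsep y₀ hy₀ ?_ ?_
  · rw [h15]; exact ht1 y₀ hy₀
  · have h16 := ht3 y₀ hy₀
    rw [← h15] at h16
    simpa using h16

end Crest.Agent.R102.RunTan262
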