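import Crest.Agent.R102.RunS_58
import Crest.Agent.R102.RunTan_262
import Crest.Agent.R102.RunFun_324

/-!
# Row 102, [H3], THEOREM (RAT), leaf R5 = RUN (helper58): analytic end, first part

`sec_of` : the second chain as functions; `local_far` : the far mirror near a generic point;
`obs_eq` : observables of the shifted chain.
-/

set_option autoImplicit false
set_option linter.unusedSectionVars false
set_option linter.unusedVariables false

open Set Filter Topology Metric TopologicalSpace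

noncomputable section

namespace Crest.Agent.R102.RunE58

open Crest.Agent.R102 Crest.Agent.R102.F7389 Crest.Agent.R102.Run58 Crest.Agent.R102.RunD58
  Crest.Agent.R102.RunAlg58 Crest.Agent.R102.RAT Crest.Agent.R102.Glue798 Crest.Agent.R102.H3
  Crest.Agent.R102.Rat7217

/-- the second chain as a chain of functions -/
theorem sec_of {g : ℂ → ℂ} {c₀ : ℂ} {P : ℕ} {ρ : ℝ} {β m k q q' : ℕ → ℂ × ℂ → ℂ} {r ρ₀ : ℝ}
    {V : Opens ℂ} {W' : Opens (ℂ × ℂ)} (S : Setup g c₀ P ρ β m k q q' r ρ₀ V W') {N : ℕ}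
    (hNP : N ≤ P) {A₀ : Subalgebra ℂ (Hol V)} {z₀ G₀ G₁ : A₀}
    (hG : (G₁ : Hol V) = DH V (G₀ : Hol V)) {θ : ℕ → A₀ →ₐ[ℂ] Hol W'} {m' k' : ℕ → Hol W'}
    (H : Second β m k N A₀ z₀ G₀ G₁ W' θ m' k') :
    Sec g N β m k (W' : Set (ℂ × ℂ)) (fun j => ext0 (θ j z₀ : W' → ℂ))
      (fun j i => ext0 (θ j (if i = 0 then G₀ else G₁) : W' → ℂ))
      (fun j => ext0 (m' j : W' → ℂ)) (fun j => ext0 (k' j : W' → ℂ)) where
  an_b j _ := Hol.an _
  an_x0 j _ := Hol.an _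
  an_x1 j _ := Hol.an _
  inc j hj p hp := by
    have h1 := congrArg (fun f : Hol W' => (f : W' → ℂ) ⟨p, hp⟩) (H.inc j hj)
    simp only [if_true]
    rw [ext0_of_mem _ hp, ext0_of_mem _ hp, ext0_of_mem _ hp, ext0_of_mem _ hp]
    exact h1
  inc' j hj p hp := by
    have h1 := congrArg (fun f : Hol W' => (f : W' → ℂ) ⟨p, hp⟩) (H.inc' j hj)
    simp only [if_true]
    rw [ext0_of_mem _ hp, ext0_of_mem _ hp, ext0_of_mem _ hp, ext0_of_mem _ hp]
    exact h1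
  refl j hj p hp := by
    have h1 := congrArg (fun f : Hol W' => (f : W' → ℂ) ⟨p, hp⟩) (H.refl j hj)
    simp only [one_ne_zero, if_false]
    rw [ext0_of_mem _ hp, ext0_of_mem _ hp, ext0_of_mem _ hp]
    exact h1
  m_ne j hj p hp := by
    rw [ext0_of_mem _ hp]
    exact H.m_ne j hj.le ⟨p, hp⟩
  dx j hj p hp := by
    refine ContinuousLinearMap.ext fun v => ?_
    have h1 := congrArg (fun f : Hol W' => (f : W' → ℂ) ⟨p, hp⟩) (H.dx j hj v G₀ G₁ hG)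
    simp only [if_true, one_ne_zero, if_false]
    rw [ext0_of_mem (θ j G₁ : W' → ℂ) hp]
    exact h1
  db j hj := by
    obtain ⟨v, hv⟩ := H.db j hj
    by_contra hcon
    push Not at hcon
    refine hv ?_
    ext p
    rw [pdH_apply]
    have h1 := hcon p p.2
    rw [h1]
    rfl
  ne j hj := by
    by_contra hcon
    push Not at hcon
    refine H.ne j hj ?_
    ext p
    have h1 := hcon p p.2
    rw [ext0_apply, ext0_apply] at h1
    exact h1
  start_m p hp := by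
    rw [H.start_m, ext0_of_mem _ hp, S.mH_apply (by omega) (by omega)]
    rfl
  start_k p hp := by
    rw [H.start_k, ext0_of_mem _ hp, S.kH_apply (by omega) (by omega)]
    rfl
  end_m p hp := by
    rw [H.end_m, ext0_of_mem _ hp, S.mH_apply (by omega) (by omega)]
    rfl
  end_k p hp := by
    rw [H.end_k, ext0_of_mem _ hp, S.kH_apply (by omega) (by omega)]
    rfl
  ne₀ := by
    by_contra hcon
    push Not at hcon
    refine H.ne₀ ?_
    ext p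
    have h1 := hcon p p.2
    rw [ext0_apply] at h1
    rw [S.bH_apply (by omega) (by omega), h1]
    rfl

/-- derivation of the subalgebra -/
def delA {V : Opens ℂ} (A : Subalgebra ℂ (Hol V)) (hD : ∀ f ∈ A, DH V f ∈ A) :
    Derivation ℂ A A where
  toFun f := ⟨DH V f, hD f f.2⟩
  map_add' f h := Subtype.ext (map_add _ _ _)
  map_smul' c f := Subtype.ext ((DH V).map_smul c (f : Hol V))
  map_one_eq_zero' := Subtype.ext (Derivation.map_one_eq_zero _)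
  leibniz' f h := Subtype.ext (Derivation.leibniz _ _ _)

/-- **the far mirror near a generic point** -/
theorem local_far {g : ℂ → ℂ} {c₀ : ℂ} {r : ℝ} {A : Subalgebra ℂ (Hol (bO c₀ r))}
    {G : Hol (bO c₀ r)} (hFT : FT g c₀ r A G) {ρt : ℝ}
    (htan : ∀ ρ' : ℝ, 0 < ρ' → ρ' ≤ ρt → ∀ O : Set ℂ, IsOpen O → O.Nonempty →
      ∀ gh : ℂ → ℂ, AnalyticOnNhd ℂ gh O → (∀ y ∈ O, deriv (deriv gh) y ≠ 0) →
      (∀ y ∈ O, y ∈ closedBall c₀ ρ' → g y ≠ gh y) →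
      ∃ y ∈ O, ∀ t ∈ closedBall c₀ ρ', deriv g t = deriv gh y →
        g t + deriv g t * (y - t) ≠ gh y) {ρ' : ℝ} (hρ' : 0 < ρ') (hρt : ρ' ≤ ρt)
    {W' : Opens (ℂ × ℂ)} (hpre : IsPreconnected (W' : Set (ℂ × ℂ))) {θ : A →ₐ[ℂ] Hol W'}
    (hinj : Function.Injective θ) {z₀ G₀ G₁ G₂ : A}
    (hz₀ : (z₀ : Hol (bO c₀ r)) = zH _) (hG₀ : (G₀ : Hol (bO c₀ r)) = G)
    (hG₁ : (G₁ : Hol (bO c₀ r)) = DH _ (G₀ : Hol (bO c₀ r)))
    (hG₂ : (G₂ : Hol (bO c₀ r)) = DH _ (G₁ : Hol (bO c₀ r)))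
    (hdx : ∀ (v : ℂ × ℂ) (f f' : A), (f' : Hol (bO c₀ r)) = DH _ (f : Hol (bO c₀ r)) →
      pdH W' v (θ f) = θ f' * pdH W' v (θ z₀))
    {O₁ : Set (ℂ × ℂ)} (hO₁ : IsOpen O₁) (hO₁W : O₁ ⊆ W') {p₁ : ℂ × ℂ} (hp₁ : p₁ ∈ O₁)
    (hfd : fderiv ℂ (ext0 (θ z₀ : W' → ℂ)) p₁ ≠ 0)
    (h2 : ∀ x ∈ O₁, ext0 (θ G₂ : W' → ℂ) x ≠ 0)
    (hγ : ∀ x ∈ O₁, ext0 (θ z₀ : W' → ℂ) x ∈ closedBall c₀ ρ' →
      g (ext0 (θ z₀ : W' → ℂ) x) ≠ ext0 (θ G₀ : W' → ℂ) x) :
    ∃ x₁ ∈ O₁, ∃ (y : ℂ) (r' : ℝ) (ι : A →ₐ[ℂ] Hol (bO y r')) (gh : ℂ → ℂ),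
      Far A G y r' ι gh ∧ ext0 (θ z₀ : W' → ℂ) x₁ = y ∧
      (∀ᶠ w in 𝓝 x₁, gh (ext0 (θ z₀ : W' → ℂ) w) = ext0 (θ G₀ : W' → ℂ) w) ∧
      deriv gh y = ext0 (θ G₁ : W' → ℂ) x₁ ∧
      ∀ t ∈ closedBall c₀ ρ', deriv g t = deriv gh y → g t + deriv g t * (y - t) ≠ gh y := by
  classical
  set h : ℂ × ℂ → ℂ := ext0 (θ z₀ : W' → ℂ) with hh
  have hp₁W : p₁ ∈ W' := hO₁W hp₁
  -- functions on all of `ℂ × ℂ`
  let pr : ℂ × ℂ → W' := fun x => if hx : x ∈ W' then ⟨x, hx⟩ else ⟨p₁, hp₁W⟩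
  have hpr : ∀ x (hx : x ∈ W'), pr x = ⟨x, hx⟩ := fun x hx => dif_pos hx
  let phi : A →ₐ[ℂ] (ℂ × ℂ → ℂ) := AlgHom.pi fun x => (evH (pr x)).comp θ
  have hphi : ∀ (a : A) (x : ℂ × ℂ), x ∈ W' → phi a x = ext0 (θ a : W' → ℂ) x := by
    intro a x hx
    change evH (pr x) (θ a) = _
    rw [hpr x hx, ext0_of_mem _ hx, evH_apply]
  have hphie : ∀ (a : A) (x : ℂ × ℂ), x ∈ W' → phi a =ᶠ[𝓝 x] ext0 (θ a : W' → ℂ) := by
    intro a x hx
    filter_upwards [W'.isOpen.mem_nhds hx] with w hw using hphi a w hw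
  have han : ∀ a, AnalyticOnNhd ℂ (phi a) (W' : Set (ℂ × ℂ)) := fun a x hx =>
    (Hol.an (θ a) x hx).congr (hphie a x hx).symm
  have hfdx : ∀ (f f' : A), (f' : Hol (bO c₀ r)) = DH _ (f : Hol (bO c₀ r)) → ∀ x ∈ W',
      fderiv ℂ (ext0 (θ f : W' → ℂ)) x = ext0 (θ f' : W' → ℂ) x • fderiv ℂ h x := by
    intro f f' hff x hx
    refine ContinuousLinearMap.ext fun v => ?_
    have h1 := congrArg (fun F : Hol W' => (F : W' → ℂ) ⟨x, hx⟩) (hdx v f f' hff)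
    rw [ext0_of_mem (θ f' : W' → ℂ) hx]
    exact h1
  have hdel : ∀ a, ∀ x ∈ (W' : Set (ℂ × ℂ)),
      fderiv ℂ (phi a) x = phi (delA A hFT.stable a) x • fderiv ℂ h x := by
    intro a x hx
    rw [(hphie a x hx).fderiv_eq, hfdx a (delA A hFT.stable a) rfl x hx, hphi _ x hx]
  obtain ⟨s, hs, iota, hi1, hi2, hi3, W'', hW'', hW''W, hi4⟩ := RunFun324.func
    (E := ℂ × ℂ) (W := (W' : Set (ℂ × ℂ))) W'.isOpen hp₁W (h := h) (Hol.an _) hfd
    (A0 := A) (del := delA A hFT.stable) (z := z₀) (phi := phi) han hdel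
    (fun x hx => hphi z₀ x hx)
  -- open set of good points
  set O₂ : Set (ℂ × ℂ) := interior W'' ∩ O₁ with hO₂
  have hO₂o : IsOpen O₂ := isOpen_interior.inter hO₁
  have hp₂ : p₁ ∈ O₂ := ⟨mem_interior_iff_mem_nhds.2 hW'', hp₁⟩
  have hmap : map h (𝓝 p₁) = 𝓝 (h p₁) := by
    have h1 : HasStrictFDerivAt h (fderiv ℂ h p₁) p₁ := (Hol.an _ p₁ hp₁W).hasStrictFDerivAt
    refine h1.map_nhds_eq_of_surj ?_
    obtain ⟨v, hv⟩ : ∃ v, fderiv ℂ h p₁ v ≠ 0 := by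
      by_contra hall
      push Not at hall
      exact hfd (ContinuousLinearMap.ext hall)
    rw [LinearMap.range_eq_top]
    intro w
    refine ⟨(w / fderiv ℂ h p₁ v) • v, ?_⟩
    change fderiv ℂ h p₁ ((w / fderiv ℂ h p₁ v) • v) = w
    rw [map_smul, smul_eq_mul, div_mul_cancel₀ _ hv]
  have himg : h '' O₂ ∈ 𝓝 (h p₁) := by
    rw [← hmap]
    exact image_mem_map (hO₂o.mem_nhds hp₂)
  set O : Set ℂ := interior (h '' O₂) with hO
  have hpO : h p₁ ∈ O := mem_interior_iff_mem_nhds.2 himg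
  have hOim : ∀ y ∈ O, ∃ x ∈ O₂, h x = y := fun y hy =>
    (interior_subset hy : y ∈ h '' O₂)
  have hOball : ∀ y ∈ O, y ∈ ball (h p₁) s := by
    intro y hy
    obtain ⟨x, hx, rfl⟩ := hOim y hy
    exact (hi4 z₀ x (interior_subset hx.1)).1
  have hval : ∀ (a : A) (x : ℂ × ℂ), x ∈ O₂ → iota a (h x) = ext0 (θ a : W' → ℂ) x := by
    intro a x hx
    rw [← hphi a x (hO₁W hx.2)]
    exact ((hi4 a x (interior_subset hx.1)).2).symm
  have hd1 : ∀ y ∈ ball (h p₁) s, deriv (iota G₀) y = iota G₁ y := by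
    intro y hy
    have e : delA A hFT.stable G₀ = G₁ := Subtype.ext hG₁.symm
    rw [hi2 G₀ y hy, e]
  have hd2 : ∀ y ∈ ball (h p₁) s, deriv (deriv (iota G₀)) y = iota G₂ y := by
    intro y hy
    have e1 : deriv (iota G₀) =ᶠ[𝓝 y] iota G₁ := by
      filter_upwards [isOpen_ball.mem_nhds hy] with w hw using hd1 w hw
    have e : delA A hFT.stable G₁ = G₂ := Subtype.ext hG₂.symm
    rw [e1.deriv_eq, hi2 G₁ y hy, e]
  obtain ⟨y, hyO, hyt⟩ := htan ρ' hρ' hρt O isOpen_interior ⟨_, hpO⟩ (iota G₀)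
    (fun y hy => hi1 G₀ y (hOball y hy))
    (fun y hy => by
      rw [hd2 y (hOball y hy)]
      obtain ⟨x, hx, rfl⟩ := hOim y hy
      rw [hval G₂ x hx]
      exact h2 x hx.2)
    (fun y hy hyc => by
      obtain ⟨x, hx, rfl⟩ := hOim y hy
      rw [hval G₀ x hx]
      exact hγ x hx.2 hyc)
  obtain ⟨x₁, hx₁, hx₁y⟩ := hOim y hyO
  have hyb := hOball y hyO
  set r' : ℝ := s - dist y (h p₁) with hr'
  have hr'0 : 0 < r' := by rw [hr']; rw [mem_ball] at hyb; linarith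
  have hsub : ball y r' ⊆ ball (h p₁) s := by
    intro w hw
    rw [mem_ball] at hw ⊢
    calc dist w (h p₁) ≤ dist w y + dist y (h p₁) := dist_triangle _ _ _
      _ < s := by linarith
  let ι : A →ₐ[ℂ] Hol (bO y r') :=
    { toFun := fun a => ⟨fun w => iota a w,
        analyticOnNhd_ext0 (F := iota a) (fun _ => rfl) ((hi1 a).mono hsub)⟩
      map_one' := by ext w; change iota 1 w = 1; rw [map_one]; rfl
      map_mul' := fun a b => by ext w; change iota (a * b) w = iota a w * iota b w; rw [map_mul]; rfl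
      map_zero' := by ext w; change iota 0 w = 0; rw [map_zero]; rfl
      map_add' := fun a b => by ext w; change iota (a + b) w = iota a w + iota b w; rw [map_add]; rfl
      commutes' := fun c => by ext w; change iota (algebraMap ℂ A c) w = c; rw [AlgHom.commutes]; rfl }
  have hιe : ∀ (a : A) (w : bO y r'), ext0 (ι a : bO y r' → ℂ) =ᶠ[𝓝 (w : ℂ)] iota a := fun a w =>
    eventually_ext0_eq (F := iota a) (fun _ => rfl) w.2
  refine ⟨x₁, hx₁.2, y, r', ι, iota G₀, ⟨hr'0, ?_, ?_, ?_, ?_⟩, hx₁y, ?_, ?_, hyt⟩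
  · rw [injective_iff_map_eq_zero]
    intro f hf
    have e1 : iota f =ᶠ[𝓝 y] 0 := by
      filter_upwards [ball_mem_nhds y hr'0] with w hw
      have := congrArg (fun F : Hol (bO y r') => (F : bO y r' → ℂ) ⟨w, hw⟩) hf
      exact this
    have e2 := (hi1 f).eqOn_zero_of_preconnected_of_eventuallyEq_zero
      (convex_ball (h p₁) s).isPreconnected hyb e1
    have e3 : θ f = 0 := by
      refine Hol.eq_zero_of_eventually hpre (θ f) ⟨p₁, hp₁W⟩ ?_
      filter_upwards [hO₂o.mem_nhds hp₂] with x hx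
      rw [← hval f x hx]
      exact e2 (hi4 z₀ x (interior_subset hx.1)).1
    exact hinj (e3.trans (map_zero θ).symm)
  · intro hz
    ext w
    have e : (⟨zH _, hz⟩ : A) = z₀ := Subtype.ext hz₀.symm
    rw [e]
    change iota z₀ w = w
    exact hi3 w (hsub w.2)
  · intro hG w
    have e : (⟨G, hG⟩ : A) = G₀ := Subtype.ext hG₀.symm
    rw [e]
    rfl
  · intro f f' hff
    ext w
    rw [DH_apply, (hιe f w).deriv_eq, hi2 f w (hsub w.2)]
    have e : delA A hFT.stable f = f' := Subtype.ext hff.symm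
    rw [e]
    rfl
  · filter_upwards [hO₂o.mem_nhds hx₁] with w hw using hval G₀ w hw
  · rw [hd1 y hyb, ← hx₁y, hval G₁ x₁ hx₁]

/-- observables of the shifted chain -/
theorem obs_eq {g : ℂ → ℂ} {c₀ : ℂ} {P : ℕ} {ρ : ℝ} {β m k q q' : ℕ → ℂ × ℂ → ℂ} {r ρ₀ : ℝ}
    {r₁ : ℝ} {W' : Opens (ℂ × ℂ)} (S : Setup g c₀ P ρ β m k q q' r ρ₀ (bO c₀ r₁) W')
    {N a : ℕ} (hNP : N + a ≤ P) (A : Subalgebra ℂ (Hol (bO c₀ r₁))) (w : W')
    (h0 : (w : ℂ × ℂ).2 ≠ 0) (hT : Th β a w ∈ ball c₀ ρ₀ ×ˢ ball (0 : ℂ) ρ₀)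
    (F : MvPolynomial (Fin 2 ⊕ (Fin (N + a) × A)) ℂ) :
    evH w (MvPolynomial.aeval (obsH β m k A N a W') F) =
      MvPolynomial.eval (obs A (N + a) β m k (Th β a w)) F := by
  obtain ⟨-, hs⟩ := shift S.C S.hρ S.G (a := a) (by omega) (S.sub w.2) h0 hT
  have hfun : (fun i => evH w (obsH β m k A N a W' i)) = obs A (N + a) β m k (Th β a w) := by
    funext i
    rcases i with i | ⟨j, f⟩
    · have e0 := hs 0 (Nat.zero_le _)
      simp only [Nat.cast_zero, zero_sub] at e0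
      fin_cases i
      · change evH w (mH m W' (-(a : ℤ))) = m 0 (Th β a w)
        rw [evH_apply, S.mH_apply (by omega) (by omega), e0.2.1]
      · change evH w (mH k W' (-(a : ℤ))) = k 0 (Th β a w)
        rw [evH_apply, S.kH_apply (by omega) (by omega), e0.2.2]
    · change evH w (xH β W' (((j : ℕ) : ℤ) - a) (f : Hol (bO c₀ r₁))) =
        ext0 ((f : Hol (bO c₀ r₁)) : bO c₀ r₁ → ℂ)
          ((Th β a w).1 + (Th β a w).2 * β j (Th β a w))
      have ej := (hs j (by omega)).1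
      rw [evH_apply, S.xH_apply (by omega) (by omega), ← ej]
      rfl
  rw [← hfun]
  have h1 : (evH w).comp (MvPolynomial.aeval (obsH β m k A N a W')) =
      MvPolynomial.aeval fun i => evH w (obsH β m k A N a W' i) := by
    refine MvPolynomial.algHom_ext fun i => ?_
    simp
  have h2 := congrArg (fun φ : MvPolynomial (Fin 2 ⊕ (Fin (N + a) × A)) ℂ →ₐ[ℂ] ℂ => φ F) h1
  exact h2

end Crest.Agent.R102.RunE58
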