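import Crest.Agent.R102.RunS_58

/-!
# Row 102, [H3], THEOREM (RAT), leaf R5 = RUN (helper58): the algebraic relation of a far vertex
-/

set_option autoImplicit false
set_option linter.unusedSectionVars false
set_option linter.unusedVariables false

open Set Filter Topology Metric TopologicalSpace

noncomputable section

namespace Crest.Agent.R102.RunE58

open Crest.Agent.R102 Crest.Agent.R102.F7389 Crest.Agent.R102.Run58 Crest.Agent.R102.RunD58
  Crest.Agent.R102.RunAlg58 Crest.Agent.R102.RAT Crest.Agent.R102.Glue798 Crest.Agent.R102.H3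
  Crest.Agent.R102.Rat7217

section alg

variable {M : Type*} [Field M] [Algebra ℂ M]

/-- transitivity without inclusion: `u` algebraic over `F₂`, `F₂` generated by elements algebraic
over `F₁` -/
theorem alg_trans' (F₁ : IntermediateField ℂ M) (s : Set M)
    (hs : ∀ x ∈ s, IsAlgebraic F₁ x) {u : M}
    (hu : IsAlgebraic (IntermediateField.adjoin ℂ s) u) : IsAlgebraic F₁ u := by
  set Ac : IntermediateField F₁ M := algebraicClosure F₁ M with hAc
  have hle : IntermediateField.adjoin ℂ s ≤ Ac.restrictScalars ℂ := by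
    refine IntermediateField.adjoin_le_iff.2 fun x hx => ?_
    exact mem_algebraicClosure_iff.2 (hs x hx)
  let f : IntermediateField.adjoin ℂ s →+* Ac :=
    { toFun := fun y => ⟨y, hle y.2⟩
      map_one' := rfl
      map_mul' := fun a b => rfl
      map_zero' := rfl
      map_add' := fun a b => rfl }
  obtain ⟨p, hp0, hp⟩ := hu
  have h1 : IsAlgebraic Ac u := by
    refine ⟨p.map f, ?_, ?_⟩
    · rw [Ne, Polynomial.map_eq_zero]
      exact hp0
    · rw [Polynomial.aeval_def, Polynomial.eval₂_map]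
      exact hp
  exact h1.restrictScalars F₁

/-- from algebraicity over `ℂ(v i)` to a polynomial relation with coefficients in
`ℂ[X i]` -/
theorem rel_of_adjoin {σ : Type*} (v : σ → M) {u : M}
    (hu : IsAlgebraic (Algebra.adjoin ℂ (Set.range v)) u) :
    ∃ Q : Polynomial (MvPolynomial σ ℂ),
      Q.eval₂ (MvPolynomial.aeval v : MvPolynomial σ ℂ →ₐ[ℂ] M).toRingHom u = 0 ∧
      ∃ i, MvPolynomial.aeval v (Q.coeff i) ≠ 0 := by
  obtain ⟨p, hp0, hp⟩ := hu
  have hmem : ∀ F : MvPolynomial σ ℂ, MvPolynomial.aeval v F ∈ Algebra.adjoin ℂ (Set.range v) := by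
    intro F
    rw [Algebra.adjoin_range_eq_range_aeval]
    exact ⟨F, rfl⟩
  let φ : MvPolynomial σ ℂ →+* Algebra.adjoin ℂ (Set.range v) :=
    { toFun := fun F => ⟨MvPolynomial.aeval v F, hmem F⟩
      map_one' := Subtype.ext (map_one _)
      map_mul' := fun a b => Subtype.ext (map_mul _ _ _)
      map_zero' := Subtype.ext (map_zero _)
      map_add' := fun a b => Subtype.ext (map_add _ _ _) }
  have hsurj : Function.Surjective φ := by
    rintro ⟨y, hy⟩
    have hy' := hy
    rw [Algebra.adjoin_range_eq_range_aeval] at hy'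
    obtain ⟨F, hF⟩ := hy'
    exact ⟨F, Subtype.ext hF⟩
  obtain ⟨Q, rfl⟩ := Polynomial.map_surjective φ hsurj p
  refine ⟨Q, ?_, ?_⟩
  · rw [Polynomial.aeval_def, Polynomial.eval₂_map] at hp
    exact hp
  · by_contra hcon
    push Not at hcon
    refine hp0 (Polynomial.ext fun i => ?_)
    rw [Polynomial.coeff_map, Polynomial.coeff_zero]
    exact Subtype.ext (hcon i)

end alg

section

variable {g : ℂ → ℂ} {c₀ : ℂ} {P : ℕ} {ρ : ℝ} {β m k q q' : ℕ → ℂ × ℂ → ℂ} {r ρ₀ : ℝ}
  {V : Opens ℂ} {W : Opens (ℂ × ℂ)} [IsDomain (Hol W)]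

set_option maxHeartbeats 1000000 in
theorem rel_of (S : Setup g c₀ P ρ β m k q q' r ρ₀ V W) {W' : Opens (ℂ × ℂ)}
    [IsDomain (Hol W')] (hle : W' ≤ W) {N a : ℕ} (hNP : N ≤ P) (haP : a ≤ P)
    (A₀ : Subalgebra ℂ (Hol V)) (hz : zH V ∈ A₀) (hg : toH V g ∈ A₀)
    (hDA : ∀ f ∈ A₀, DH V f ∈ A₀) {Ez : ℤ → FractionRing (Hol W)}
    (R : Roots g P N β m V W Ez)
    (ro : FractionRing (Hol W) →ₐ[ℂ] FractionRing (Hol W'))
    (hro : ∀ f : Hol W, ro (algebraMap (Hol W) (FractionRing (Hol W)) f) =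
      algebraMap (Hol W') (FractionRing (Hol W')) (Hol.res hle f))
    (u : Hol W')
    (hu : IsAlgebraic ((LL (N + a) (fun j : ℕ => al W (bH β W ((j : ℤ) - a)))
      (fun j i => al W (xH β W ((j : ℤ) - a) ((DH V)^[i] (toH V g))))
      (fun j : ℕ => Ez ((j : ℤ) - a)) (fun j : ℕ => al W (mH k W ((j : ℤ) - a)))).map ro)
      (algebraMap (Hol W') (FractionRing (Hol W')) u)) :
    ∃ Q : Polynomial (MvPolynomial (Fin 2 ⊕ (Fin (N + a) × A₀)) ℂ),
      Q.eval₂ (MvPolynomial.aeval (obsH β m k A₀ N a W') :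
        MvPolynomial (Fin 2 ⊕ (Fin (N + a) × A₀)) ℂ →ₐ[ℂ] Hol W').toRingHom u = 0 ∧
      ∃ i, MvPolynomial.aeval (obsH β m k A₀ N a W') (Q.coeff i) ≠ 0 := by
  have hit : ∀ i : ℕ, (DH V)^[i] (toH V g) ∈ A₀ := by
    intro i
    induction i with
    | zero => exact hg
    | succ i ih => rw [Function.iterate_succ_apply']; exact hDA _ ih
  set v : Fin 2 ⊕ (Fin (N + a) × A₀) → FractionRing (Hol W') := fun i =>
    algebraMap (Hol W') (FractionRing (Hol W')) (obsH β m k A₀ N a W' i) with hv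
  set F₁ : IntermediateField ℂ (FractionRing (Hol W')) :=
    IntermediateField.adjoin ℂ (Set.range v) with hF₁
  have hvF : ∀ i, v i ∈ F₁ := fun i => IntermediateField.subset_adjoin ℂ _ ⟨i, rfl⟩
  have halgF : ∀ x ∈ F₁, IsAlgebraic F₁ x := fun x hx => isAlgebraic_algebraMap (⟨x, hx⟩ : F₁)
  rw [LL, IntermediateField.adjoin_map] at hu
  have h1 : IsAlgebraic F₁ (algebraMap (Hol W') (FractionRing (Hol W')) u) := by
    refine alg_trans' F₁ _ ?_ hu
    rintro _ ⟨y, (hy | ⟨j, hj, rfl | ⟨i, rfl⟩⟩), rfl⟩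
    · rcases hy with rfl | hy
      · -- the square root of the slope of the first line
        refine IsAlgebraic.of_pow (n := 2) two_pos ?_
        refine halgF _ ?_
        have e1 := R.sq ((0 : ℕ) - (a : ℤ)) (by omega) (by omega)
        have e2 : ro (Ez (((0 : ℕ) : ℤ) - a)) ^ 2 = v (Sum.inl 0) := by
          rw [← map_pow, e1, hro, S.res_m hle (by omega) (by omega)]
          have e3 : (((0 : ℕ) : ℤ) - a) = -(a : ℤ) := by simp
          rw [e3]
          rfl
        have e4 := hvF (Sum.inl 0)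
        rw [← e2] at e4
        exact e4
      · rw [Set.mem_singleton_iff] at hy
        subst hy
        refine halgF _ ?_
        have e2 : ro (al W (mH k W (((0 : ℕ) : ℤ) - a))) = v (Sum.inl 1) := by
          have e0 := hro (mH k W (((0 : ℕ) : ℤ) - a))
          rw [e0, S.res_k hle (by omega) (by omega)]
          have e3 : (((0 : ℕ) : ℤ) - a) = -(a : ℤ) := by simp
          rw [e3]
          rfl
        have e4 := hvF (Sum.inl 1)
        rw [← e2] at e4
        exact e4
    · refine halgF _ ?_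
      have e2 : ro (al W (bH β W ((j : ℤ) - a))) = v (Sum.inr (⟨j, hj⟩, ⟨zH V, hz⟩)) := by
        have e0 := hro (bH β W ((j : ℤ) - a))
        rw [e0, S.res_b hle (by omega) (by omega)]
        have e5 : obsH β m k A₀ N a W' (Sum.inr (⟨j, hj⟩, ⟨zH V, hz⟩)) =
            xH β W' ((j : ℤ) - a) (zH V) := rfl
        rw [hv]
        simp only
        rw [e5, ← S.res_x hle (by omega) (by omega), xH_z S (by omega) (by omega),
          S.res_b hle (by omega) (by omega)]
      have e4 := hvF (Sum.inr (⟨j, hj⟩, ⟨zH V, hz⟩))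
      rw [← e2] at e4
      exact e4
    · refine halgF _ ?_
      have e2 : ro (al W (xH β W ((j : ℤ) - a) ((DH V)^[i] (toH V g)))) =
          v (Sum.inr (⟨j, hj⟩, ⟨_, hit i⟩)) := by
        have e0 := hro (xH β W ((j : ℤ) - a) ((DH V)^[i] (toH V g)))
        rw [e0, S.res_x hle (by omega) (by omega)]
        rfl
      have e4 := hvF (Sum.inr (⟨j, hj⟩, ⟨_, hit i⟩))
      rw [← e2] at e4
      exact e4
  have h2 := Alg985.alg_of_alg_adjoin (Set.range v) _ h1
  obtain ⟨Q, hQ, i, hi⟩ := rel_of_adjoin v h2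
  have hcomp : (MvPolynomial.aeval v : MvPolynomial (Fin 2 ⊕ (Fin (N + a) × A₀)) ℂ →ₐ[ℂ]
      FractionRing (Hol W')) = (IsScalarTower.toAlgHom ℂ (Hol W') (FractionRing (Hol W'))).comp
      (MvPolynomial.aeval (obsH β m k A₀ N a W')) := by
    refine MvPolynomial.algHom_ext fun i => ?_
    simp [hv]
  have hc : ∀ F, MvPolynomial.aeval v F = algebraMap (Hol W') (FractionRing (Hol W'))
      (MvPolynomial.aeval (obsH β m k A₀ N a W') F) := fun F => by
    rw [hcomp]; rfl
  refine ⟨Q, ?_, i, ?_⟩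
  · apply IsFractionRing.injective (Hol W') (FractionRing (Hol W'))
    rw [Polynomial.hom_eval₂, map_zero]
    have h3 : (algebraMap (Hol W') (FractionRing (Hol W'))).comp
        (MvPolynomial.aeval (obsH β m k A₀ N a W') :
        MvPolynomial (Fin 2 ⊕ (Fin (N + a) × A₀)) ℂ →ₐ[ℂ] Hol W').toRingHom =
        (MvPolynomial.aeval v : MvPolynomial (Fin 2 ⊕ (Fin (N + a) × A₀)) ℂ →ₐ[ℂ]
          FractionRing (Hol W')).toRingHom := by
      refine RingHom.ext fun F => ?_
      exact (hc F).symm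
    rw [h3]
    exact hQ
  · intro h0
    rw [hc, h0, map_zero] at hi
    exact hi rfl

end

end Crest.Agent.R102.RunE58
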