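import Crest.Agent.R102.RunG_58

/-!
# Row 102, [H3], THEOREM (RAT), leaf R5 = RUN (helper58): interface of the two halves

`Second` = the second chain over `W'` given by the embedding `τ` of ALG; `SecondStmt` = its existence.
-/

set_option autoImplicit false
set_option linter.unusedSectionVars false

open Set Filter Topology Metric TopologicalSpace

noncomputable section

namespace Crest.Agent.R102.RunE58

open Crest.Agent.R102 Crest.Agent.R102.F7389 Crest.Agent.R102.Run58 Crest.Agent.R102.RunD58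
  Crest.Agent.R102.RunAlg58 Crest.Agent.R102.RAT Crest.Agent.R102.Glue798 Crest.Agent.R102.H3
  Crest.Agent.R102.Rat7217

/-- observables of the chain starting at the line `-a` -/
def obsH (β m k : ℕ → ℂ × ℂ → ℂ) {V : Opens ℂ} (A₀ : Subalgebra ℂ (Hol V)) (N a : ℕ)
    (W : Opens (ℂ × ℂ)) : Fin 2 ⊕ (Fin (N + a) × A₀) → Hol W :=
  Sum.elim ![mH m W (-(a : ℤ)), mH k W (-(a : ℤ))]
    (fun ja => xH β W (((ja.1 : ℕ) : ℤ) - a) (ja.2 : Hol V))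

/-- the second chain over `W'`; `θ j` = values at the vertex `j` -/
structure Second (β m k : ℕ → ℂ × ℂ → ℂ) {V : Opens ℂ} (N : ℕ) (A₀ : Subalgebra ℂ (Hol V))
    (z₀ G₀ G₁ : A₀) (W' : Opens (ℂ × ℂ)) (θ : ℕ → A₀ →ₐ[ℂ] Hol W') (m' k' : ℕ → Hol W') :
    Prop where
  inc : ∀ j < N, θ j G₀ = m' j * θ j z₀ + k' j
  inc' : ∀ j < N, θ j G₀ = m' (j + 1) * θ j z₀ + k' (j + 1)
  refl : ∀ j < N, m' (j + 1) * m' j = θ j G₁ ^ 2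
  m_ne : ∀ j ≤ N, ∀ p : W', (m' j : W' → ℂ) p ≠ 0
  start_m : m' 0 = mH m W' 0
  start_k : k' 0 = mH k W' 0
  end_m : m' N = mH m W' N
  end_k : k' N = mH k W' N
  dx : ∀ j < N, ∀ (v : ℂ × ℂ) (f f' : A₀), (f' : Hol V) = DH V f →
    pdH W' v (θ j f) = θ j f' * pdH W' v (θ j z₀)
  db : ∀ j < N, ∃ v : ℂ × ℂ, pdH W' v (θ j z₀) ≠ 0
  ne : ∀ j, j + 1 < N → θ (j + 1) z₀ ≠ θ j z₀
  ne₀ : θ 0 z₀ ≠ bH β W' 0
  tr : ∀ j < N, θ j G₁ ≠ m' j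
  inj : ∀ j < N, Function.Injective (θ j)
  rel : ∀ a < N, ∀ j < N, ∃ Q : Polynomial (MvPolynomial (Fin 2 ⊕ (Fin (N + a) × A₀)) ℂ),
    Q.eval₂ (MvPolynomial.aeval (obsH β m k A₀ N a W') :
      MvPolynomial (Fin 2 ⊕ (Fin (N + a) × A₀)) ℂ →ₐ[ℂ] Hol W').toRingHom (θ j z₀) = 0 ∧
    ∃ i, MvPolynomial.aeval (obsH β m k A₀ N a W') (Q.coeff i) ≠ 0

/-- **existence of the second chain** -/
def SecondStmt : Prop :=
  ∀ (g : ℂ → ℂ) (c₀ : ℂ) (P : ℕ) (ρ : ℝ) (β m k q q' : ℕ → ℂ × ℂ → ℂ) (r ρ₀ : ℝ)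
    (V : Opens ℂ) (W : Opens (ℂ × ℂ)) [IsDomain (Hol W)],
    Setup g c₀ P ρ β m k q q' r ρ₀ V W → ∀ (N : ℕ), 0 < N → 2 * N ≤ P →
    ∀ (A₀ : Subalgebra ℂ (Hol V)) (z₀ G₀ G₁ : A₀), (z₀ : Hol V) = zH V →
    (G₀ : Hol V) = toH V g → (G₁ : Hol V) = DH V (toH V g) → A₀.FG →
    (∀ f ∈ A₀, DH V f ∈ A₀) →
    ∀ (E : ℕ → FractionRing (Hol W)), (∀ j : ℕ, j ≤ N → E j ^ 2 = al W (mH m W j)) →
    (∀ j : ℕ, j < N → E j * E (j + 1) = al W (xH β W j (DH V (toH V g)))) →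
    ∀ (D₁ D₂ : Derivation ℂ (FractionRing (Hol W)) (FractionRing (Hol W))),
    Dual (mH m W 0) (mH k W 0) D₁ D₂ →
    (∀ j : ℕ, j < N → ∀ f ∈ A₀, xH β W (j : ℤ) f = 0 → f = 0) →
    (∀ f ∈ LLA N β k W A₀ (E 0),
      IsAlgebraic (KK D₁ D₂ N E (fun j : ℕ => al W (mH k W j))) f) →
    al W (bH β W 0) ∉ KK D₁ D₂ N E (fun j : ℕ => al W (mH k W j)) →
    ∀ U : Opens (ℂ × ℂ), (U : Set (ℂ × ℂ)).Nonempty → U ≤ W →
    ∃ (W' : Opens (ℂ × ℂ)) (θ : ℕ → A₀ →ₐ[ℂ] Hol W') (m' k' : ℕ → Hol W'),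
      W' ≤ U ∧ (W' : Set (ℂ × ℂ)).Nonempty ∧ IsPreconnected (W' : Set (ℂ × ℂ)) ∧
      Second β m k N A₀ z₀ G₀ G₁ W' θ m' k'

end Crest.Agent.R102.RunE58
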