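import Crest.Agent.R102.RunS_58
import Crest.Agent.R102.RatGlueB_798

/-!
# Row 102, [H3], THEOREM (RAT), RUN: the second chain, algebraic preparations (helper201)
-/

set_option autoImplicit false
set_option linter.unusedSectionVars false

open Set Filter Topology Metric TopologicalSpace

noncomputable section

namespace Crest.Agent.R102.RunSec201

open Crest.Agent.R102 Crest.Agent.R102.F7389 Crest.Agent.R102.Run58 Crest.Agent.R102.RunD58
  Crest.Agent.R102.RunAlg58 Crest.Agent.R102.RAT Crest.Agent.R102.Glue798 Crest.Agent.R102.H3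
  Crest.Agent.R102.Rat7217 Crest.Agent.R102.RunE58

/-- lift of an algebra homomorphism through an injection -/
theorem exists_lift {A B C : Type} [CommRing A] [CommRing B] [CommRing C] [Algebra ℂ A]
    [Algebra ℂ B] [Algebra ℂ C] (i : B →ₐ[ℂ] C) (hi : Function.Injective i) (f : A →ₐ[ℂ] C)
    (T : Set A) (hT : Algebra.adjoin ℂ T = ⊤) (h : ∀ t ∈ T, ∃ b, f t = i b) :
    ∃ θ : A →ₐ[ℂ] B, ∀ a, i (θ a) = f a := by
  have hr : ∀ a, f a ∈ i.range := by
    intro a
    have h1 : (⊤ : Subalgebra ℂ A) ≤ i.range.comap f := by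
      rw [← hT]
      refine Algebra.adjoin_le fun t ht => ?_
      obtain ⟨b, hb⟩ := h t ht
      exact ⟨b, hb.symm⟩
    exact h1 trivial
  let e := AlgEquiv.ofInjective i hi
  refine ⟨(e.symm : i.range →ₐ[ℂ] B).comp (f.codRestrict i.range hr), fun a => ?_⟩
  have h1 : e (e.symm ⟨f a, hr a⟩) = ⟨f a, hr a⟩ := e.apply_symm_apply _
  have h2 := congrArg Subtype.val h1
  exact h2

/-- algebraic elements and polynomials with polynomial coefficients -/
theorem rel_of_alg {R F : Type} [CommRing R] [Algebra ℂ R] [Field F] [Algebra ℂ F]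
    (i : R →ₐ[ℂ] F) (hi : Function.Injective i) {σ : Type} (o : σ → R) (t : R)
    (h : IsAlgebraic (IntermediateField.adjoin ℂ (range (fun s => i (o s)))) (i t)) :
    ∃ Q : Polynomial (MvPolynomial σ ℂ),
      Q.eval₂ (MvPolynomial.aeval o : MvPolynomial σ ℂ →ₐ[ℂ] R).toRingHom t = 0 ∧
      ∃ n, MvPolynomial.aeval o (Q.coeff n) ≠ 0 := by
  have h1 := Crest.Agent.R102.Alg985.alg_of_alg_adjoin _ _ h
  rw [Algebra.adjoin_range_eq_range_aeval] at h1
  obtain ⟨p, hp0, hp⟩ := h1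
  let ψ : MvPolynomial σ ℂ →ₐ[ℂ] F := MvPolynomial.aeval (fun s => i (o s))
  have hψ : ∀ q, ψ q = i (MvPolynomial.aeval o q) := fun q => by
    rw [MvPolynomial.comp_aeval_apply]
  obtain ⟨Q, hQ⟩ := Polynomial.map_surjective (ψ.rangeRestrict : MvPolynomial σ ℂ →+* ψ.range)
    ψ.rangeRestrict_surjective p
  refine ⟨Q, ?_, ?_⟩
  · apply hi
    have e1 := Polynomial.hom_eval₂ Q (MvPolynomial.aeval o : MvPolynomial σ ℂ →ₐ[ℂ] R).toRingHom
      (i : R →+* F) t
    rw [map_zero]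
    refine e1.trans ?_
    rw [← hQ, Polynomial.aeval_def, Polynomial.eval₂_map] at hp
    refine Eq.trans ?_ hp
    congr 1
    refine RingHom.ext fun q => ?_
    exact (hψ q).symm
  · obtain ⟨n, hn⟩ : ∃ n, p.coeff n ≠ 0 := by
      by_contra hcon
      push Not at hcon
      exact hp0 (Polynomial.ext fun n => by rw [hcon n, Polynomial.coeff_zero])
    refine ⟨n, fun h0 => hn ?_⟩
    rw [← hQ, Polynomial.coeff_map]
    apply Subtype.ext
    change ψ (Q.coeff n) = 0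
    rw [hψ, h0, map_zero]

theorem alg_mono {M : Type} [Field M] [Algebra ℂ M] {K L : IntermediateField ℂ M} (h : K ≤ L)
    {x : M} (hx : IsAlgebraic K x) : IsAlgebraic L x := by
  let _ : Algebra K L := (IntermediateField.inclusion h).toRingHom.toAlgebra
  have : IsScalarTower K L M := IsScalarTower.of_algebraMap_eq' rfl
  exact hx.tower_top L

/-- transitivity of algebraicity -/
theorem alg_trans {M : Type} [Field M] [Algebra ℂ M] (F K : IntermediateField ℂ M)
    (hK : ∀ y ∈ K, IsAlgebraic F y) {x : M} (hx : IsAlgebraic K x) : IsAlgebraic F x := by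
  let C : IntermediateField F M := algebraicClosure F M
  have hC : K ≤ C.restrictScalars ℂ := fun y hy => mem_algebraicClosure_iff.2 (hK y hy)
  have h1 : IsAlgebraic (C.restrictScalars ℂ) x := alg_mono hC hx
  have h2 : IsAlgebraic C x := h1
  exact h2.restrictScalars F

theorem alg_of_mem {M : Type} [Field M] [Algebra ℂ M] (F : IntermediateField ℂ M) {y : M}
    (hy : y ∈ F) : IsAlgebraic F y := isAlgebraic_algebraMap (⟨y, hy⟩ : F)

theorem alg_of_sq {M : Type} [Field M] [Algebra ℂ M] (F : IntermediateField ℂ M) {y z : M}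
    (hz : z ∈ F) (h : y ^ 2 = z) : IsAlgebraic F y :=
  IsAlgebraic.of_pow two_pos (by rw [h]; exact alg_of_mem F hz)

theorem adjoin_alg {M M' : Type} [Field M] [Algebra ℂ M] [Field M'] [Algebra ℂ M']
    (F : IntermediateField ℂ M') (S : Set M) (φ : M →ₐ[ℂ] M') (h : ∀ s ∈ S, IsAlgebraic F (φ s)) :
    ∀ y ∈ (IntermediateField.adjoin ℂ S).map φ, IsAlgebraic F y := by
  have h1 : (IntermediateField.adjoin ℂ S).map φ ≤
      (algebraicClosure F M').restrictScalars ℂ := by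
    rw [IntermediateField.adjoin_map, IntermediateField.adjoin_le_iff]
    rintro _ ⟨y, hy, rfl⟩
    exact mem_algebraicClosure_iff.2 (h y hy)
  intro y hy
  exact mem_algebraicClosure_iff.1 (h1 hy)

/-! ### transfer by an embedding -/

section tau

variable {M M' : Type} [Field M] [Algebra ℂ M] [Field M'] [Algebra ℂ M']
  {L : IntermediateField ℂ M} (τ : L →ₐ[ℂ] M')

theorem ex_D (D : Derivation ℂ M M) (hD : ∀ f ∈ L, D f ∈ L) (x : L) :
    ∃ y : L, (y : M) = D x := ⟨⟨_, hD x x.2⟩, rfl⟩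

/-- one derivation -/
theorem dx_one (D : Derivation ℂ M M) (D' : Derivation ℂ M' M') (hD : ∀ f ∈ L, D f ∈ L)
    (hd : ∀ x y : L, (y : M) = D x → τ y = D' (τ x)) (x x' z : L)
    (h : D (x : M) = (x' : M) * D z) : D' (τ x) = τ x' * D' (τ z) := by
  obtain ⟨y1, hy1⟩ := ex_D D hD x
  obtain ⟨y2, hy2⟩ := ex_D D hD z
  rw [← hd x y1 hy1, ← hd z y2 hy2, ← map_mul]
  refine congrArg τ (Subtype.ext ?_)
  rw [hy1, h]
  change _ = (x' : M) * (y2 : M)
  rw [hy2]

theorem D_zero (D : Derivation ℂ M M) (D' : Derivation ℂ M' M') (hD : ∀ f ∈ L, D f ∈ L)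
    (hd : ∀ x y : L, (y : M) = D x → τ y = D' (τ x)) (x : L)
    (h : D' (τ x) = 0) : D (x : M) = 0 := by
  obtain ⟨y, hy⟩ := ex_D D hD x
  have h1 := hd x y hy
  rw [h] at h1
  have h2 : y = 0 := τ.injective (h1.trans (map_zero τ).symm)
  rw [← hy, h2]
  rfl

variable {R : Type} [CommRing R] (i : R →+* M') (hi : Function.Injective i)

include hi in
theorem t_inc {x e z κ : L} {X Y Z T : R} (hx : τ x = i X) (he : τ e = i Y) (hz : τ z = i Z)
    (hk : τ κ = i T) (h : (x : M) = (e : M) ^ 2 * z + κ) : X = Y ^ 2 * Z + T := by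
  apply hi
  rw [map_add, map_mul, map_pow, ← hx, ← he, ← hz, ← hk, ← map_pow, ← map_mul, ← map_add]
  exact congrArg τ (Subtype.ext h)

include hi in
theorem t_refl {e e' x : L} {X Y Z : R} (he : τ e = i X) (he' : τ e' = i Y) (hx : τ x = i Z)
    (h : (e : M) * e' = x) : X * Y = Z := by
  apply hi
  rw [map_mul, ← hx, ← he, ← he', ← map_mul]
  exact congrArg τ (Subtype.ext h)

include hi in
theorem t_inv {e e' : L} {X Y : R} (he : τ e = i X) (he' : τ e' = i Y)
    (h : (e : M) * e' = 1) : X * Y = 1 := by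
  apply hi
  rw [map_mul, ← he, ← he', ← map_mul, map_one, ← map_one τ]
  exact congrArg τ (Subtype.ext h)

theorem t_eq {x y : L} {X : M'} (hx : τ x = X) (hy : τ y = X) : (x : M) = y :=
  congrArg Subtype.val (τ.injective (hx.trans hy.symm))

theorem t_sq {x e : L} {X Y : M'} (hx : τ x = X) (he : τ e = Y) (h : X = Y ^ 2) :
    (x : M) = (e : M) ^ 2 := by
  have h1 : τ (e ^ 2) = X := by rw [map_pow, he, h]
  have h2 := t_eq τ hx h1
  rw [h2]
  rfl

theorem t_zero {x : L} (hx : τ x = 0) : (x : M) = 0 := by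
  have h2 : x = 0 := τ.injective (hx.trans (map_zero τ).symm)
  rw [h2]
  rfl

end tau

/-! ### two variables -/

theorem dV_eq' {W : Opens (ℂ × ℂ)} (v : ℂ × ℂ) (f : Hol W) : MerF217.dV v f = pdH W v f := by
  ext x
  rw [pdH_apply]
  rfl

theorem pdH_lin {W : Opens (ℂ × ℂ)} (v : ℂ × ℂ) (f : Hol W) :
    pdH W v f = v.1 • pdH W (1, 0) f + v.2 • pdH W (0, 1) f := by
  ext x
  change _ = v.1 • (pdH W (1, 0) f : W → ℂ) x + v.2 • (pdH W (0, 1) f : W → ℂ) x
  rw [pdH_apply, pdH_apply, pdH_apply, ← map_smul, ← map_smul, ← map_add]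
  congr 1
  ext <;> simp

/-- Cramer -/
theorem pd_of_jcb {W : Opens (ℂ × ℂ)} [IsDomain (Hol W)] {μ κ F G h : Hol W}
    (hJ : Rat7217.jcb μ κ ≠ 0) (h1 : Rat7217.jcb F κ = h * Rat7217.jcb G κ)
    (h2 : Rat7217.jcb μ F = h * Rat7217.jcb μ G) (v : ℂ × ℂ) :
    pdH W v F = h * pdH W v G := by
  rw [Rat7217.jcb] at hJ
  rw [Rat7217.jcb, Rat7217.jcb] at h1 h2
  simp only [dV_eq'] at hJ h1 h2
  have a1 : (pdH W (1, 0) F - h * pdH W (1, 0) G) *
      (pdH W (1, 0) μ * pdH W (0, 1) κ - pdH W (0, 1) μ * pdH W (1, 0) κ) = 0 := by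
    linear_combination pdH W (1, 0) μ * h1 + pdH W (1, 0) κ * h2
  have a2 : (pdH W (0, 1) F - h * pdH W (0, 1) G) *
      (pdH W (1, 0) μ * pdH W (0, 1) κ - pdH W (0, 1) μ * pdH W (1, 0) κ) = 0 := by
    linear_combination pdH W (0, 1) μ * h1 + pdH W (0, 1) κ * h2
  have b1 := sub_eq_zero.1 ((mul_eq_zero.1 a1).resolve_right hJ)
  have b2 := sub_eq_zero.1 ((mul_eq_zero.1 a2).resolve_right hJ)
  rw [pdH_lin v F, pdH_lin v G, b1, b2, mul_add, mul_smul_comm, mul_smul_comm]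

/-- a finitely generated differential field inside a finitely generated field -/
theorem KK_fg {M : Type} [Field M] [Algebra ℂ M] (D₁ D₂ : Derivation ℂ M M) (N : ℕ) (E k : ℕ → M)
    (L : IntermediateField ℂ M) (hL : L.FG) (hKL : KK D₁ D₂ N E k ≤ L) : (KK D₁ D₂ N E k).FG := by
  classical
  obtain ⟨sL, hsL⟩ := hL
  have h0 : (({E 0, k 0, E N, k N} : Finset M) : Set M) = {E 0, k 0, E N, k N} := by simp
  have h1 := DF389.dfield_fg ![D₁, D₂] ({E 0, k 0, E N, k N} : Finset M) sL ?_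
  · rw [h0] at h1
    exact h1
  · intro x hx
    rw [h0] at hx
    refine alg_of_mem _ ?_
    rw [hsL]
    exact hKL hx

/-- the finite set of elements which become holomorphic -/
def SSg {M : Type} [Field M] (N : ℕ) (E kk : ℕ → M) {A : Type} (T : Set A) (xx : ℕ → A → M) :
    Set M :=
  (E '' Iic N) ∪ ((fun j => (E j)⁻¹) '' Iic N) ∪ (kk '' Iic N) ∪ ⋃ j ∈ Iio N, xx j '' T

section SSg

variable {M : Type} [Field M] [Algebra ℂ M] {N : ℕ} {E kk : ℕ → M} {A : Type} {T : Set A}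
  {xx : ℕ → A → M}

theorem SSg_finite (hT : T.Finite) : (SSg N E kk T xx).Finite :=
  Set.Finite.union (Set.Finite.union (Set.Finite.union ((Set.finite_Iic N).image _)
    ((Set.finite_Iic N).image _)) ((Set.finite_Iic N).image _))
    ((Set.finite_Iio N).biUnion fun _ _ => hT.image _)

theorem SSg_sub (L : IntermediateField ℂ M) (h1 : ∀ j ≤ N, E j ∈ L ∧ kk j ∈ L)
    (h2 : ∀ j < N, ∀ t ∈ T, xx j t ∈ L) : SSg N E kk T xx ⊆ (L : Set M) := by
  rintro x (((hx | hx) | hx) | hx)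
  · obtain ⟨j, hj, rfl⟩ := hx
    exact (h1 j hj).1
  · obtain ⟨j, hj, rfl⟩ := hx
    exact inv_mem (h1 j hj).1
  · obtain ⟨j, hj, rfl⟩ := hx
    exact (h1 j hj).2
  · obtain ⟨j, hj, t, ht, rfl⟩ := Set.mem_iUnion₂.1 hx
    exact h2 j hj t ht

theorem SSg_E {j : ℕ} (hj : j ≤ N) : E j ∈ SSg N E kk T xx := Or.inl (Or.inl (Or.inl ⟨j, hj, rfl⟩))

theorem SSg_Ei {j : ℕ} (hj : j ≤ N) : (E j)⁻¹ ∈ SSg N E kk T xx :=
  Or.inl (Or.inl (Or.inr ⟨j, hj, rfl⟩))

theorem SSg_k {j : ℕ} (hj : j ≤ N) : kk j ∈ SSg N E kk T xx := Or.inl (Or.inr ⟨j, hj, rfl⟩)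

theorem SSg_x {j : ℕ} (hj : j < N) {t : A} (ht : t ∈ T) : xx j t ∈ SSg N E kk T xx :=
  Or.inr (Set.mem_biUnion (show j ∈ Iio N from hj) ⟨t, ht, rfl⟩)

end SSg

theorem frac_ext {A F : Type} [CommRing A] [IsDomain A] [Algebra ℂ A] [Field F] [Algebra ℂ F]
    (φ ψ : FractionRing A →ₐ[ℂ] F)
    (h : ∀ a : A, φ (algebraMap A (FractionRing A) a) = ψ (algebraMap A (FractionRing A) a)) :
    φ = ψ := by
  have h1 : (φ : FractionRing A →+* F) = ψ :=
    IsLocalization.ringHom_ext (nonZeroDivisors A) (RingHom.ext fun a => h a)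
  exact AlgHom.coe_ringHom_injective h1

section dual

variable {W : Opens (ℂ × ℂ)} [IsDomain (Hol W)] {μ κ : Hol W}
  {D₁ D₂ : Derivation ℂ (FractionRing (Hol W)) (FractionRing (Hol W))}

theorem jcb_ne (hD : Dual μ κ D₁ D₂) : Rat7217.jcb μ κ ≠ 0 := by
  intro h
  exact hD.ne (by rw [h, map_zero])

/-- chain rule from the dual derivations -/
theorem dx_of (hD : Dual μ κ D₁ D₂) {F G h : Hol W}
    (h1 : D₁ (al W F) = al W h * D₁ (al W G)) (h2 : D₂ (al W F) = al W h * D₂ (al W G))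
    (v : ℂ × ℂ) : pdH W v F = h * pdH W v G := by
  refine pd_of_jcb (jcb_ne hD) ?_ ?_ v
  · apply al_inj W
    have e1 := hD.d₁ F
    have e2 := hD.d₁ G
    rw [map_mul, ← e1, ← e2, h1]
    ring
  · apply al_inj W
    have e1 := hD.d₂ F
    have e2 := hD.d₂ G
    rw [map_mul, ← e1, ← e2, h2]
    ring

theorem D_zero_of_pd (hD : Dual μ κ D₁ D₂) {F : Hol W} (h : ∀ v, pdH W v F = 0) :
    D₁ (al W F) = 0 ∧ D₂ (al W F) = 0 := by
  constructor
  · refine mul_left_cancel₀ hD.ne ?_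
    have e1 := hD.d₁ F
    rw [mul_zero]
    refine e1.trans ?_
    rw [Rat7217.jcb]
    simp only [dV_eq', h]
    simp
  · refine mul_left_cancel₀ hD.ne ?_
    have e1 := hD.d₂ F
    rw [mul_zero]
    refine e1.trans ?_
    rw [Rat7217.jcb]
    simp only [dV_eq', h]
    simp

theorem pd_zero_of_D (hD : Dual μ κ D₁ D₂) {F : Hol W} (h1 : D₁ (al W F) = 0)
    (h2 : D₂ (al W F) = 0) (v : ℂ × ℂ) : pdH W v F = 0 := by
  have := dx_of hD (F := F) (G := 0) (h := 0) (by rw [h1]; simp) (by rw [h2]; simp) v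
  rw [this, zero_mul]

end dual

end Crest.Agent.R102.RunSec201
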