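import Crest.Agent.R102.RunSecA_201

/-!
# Row 102, [H3], THEOREM (RAT), RUN: the second chain, fields (helper201)
-/

set_option autoImplicit false
set_option linter.unusedSectionVars false

open Set Filter Topology Metric TopologicalSpace

noncomputable section

namespace Crest.Agent.R102.RunSec201

open Crest.Agent.R102 Crest.Agent.R102.F7389 Crest.Agent.R102.Run58 Crest.Agent.R102.RunD58
  Crest.Agent.R102.RunAlg58 Crest.Agent.R102.RAT Crest.Agent.R102.Glue798 Crest.Agent.R102.H3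
  Crest.Agent.R102.Rat7217 Crest.Agent.R102.RunE58

variable {g : ℂ → ℂ} {c₀ : ℂ} {P : ℕ} {ρ : ℝ} {β m k q q' : ℕ → ℂ × ℂ → ℂ} {r ρ₀ : ℝ}
  {V : Opens ℂ} {W : Opens (ℂ × ℂ)} [IsDomain (Hol W)]

theorem iter_mem {A₀ : Subalgebra ℂ (Hol V)} (hg : toH V g ∈ A₀)
    (hDA : ∀ f ∈ A₀, DH V f ∈ A₀) (i : ℕ) : (DH V)^[i] (toH V g) ∈ A₀ := by
  induction i with
  | zero => exact hg
  | succ i ih => rw [Function.iterate_succ_apply']; exact hDA _ ih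

/-- `K ≤ L` -/
theorem KK_le_LLA (S : Setup g c₀ P ρ β m k q q' r ρ₀ V W) {N : ℕ} (hNP : N ≤ P)
    {D₁ D₂ : Derivation ℂ (FractionRing (Hol W)) (FractionRing (Hol W))}
    (hD : Dual (mH m W 0) (mH k W 0) D₁ D₂) (A₀ : Subalgebra ℂ (Hol V)) (hz : zH V ∈ A₀)
    (hg : toH V g ∈ A₀) (hDA : ∀ f ∈ A₀, DH V f ∈ A₀)
    {E : ℕ → FractionRing (Hol W)} {Ez : ℤ → FractionRing (Hol W)} (hE : ∀ j : ℕ, Ez j = E j)
    (R : Roots g P N β m V W Ez) :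
    KK D₁ D₂ N E (fun j : ℕ => al W (mH k W j)) ≤ LLA N β k W A₀ (E 0) := by
  have h1 := KK_le_shift S hNP hD hE R (a := 0) (Nat.zero_le _)
  simp only [Nat.cast_zero, sub_zero, add_zero, hE] at h1
  exact h1.trans (LL_le S hNP A₀ hz hg hDA E)

/-- the lines of the chain are in `L` -/
theorem line_mem_LLA (S : Setup g c₀ P ρ β m k q q' r ρ₀ V W) {N : ℕ} (hNP : N ≤ P)
    {D₁ D₂ : Derivation ℂ (FractionRing (Hol W)) (FractionRing (Hol W))}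
    (hD : Dual (mH m W 0) (mH k W 0) D₁ D₂) (A₀ : Subalgebra ℂ (Hol V)) (hz : zH V ∈ A₀)
    (hg : toH V g ∈ A₀) (hDA : ∀ f ∈ A₀, DH V f ∈ A₀)
    {E : ℕ → FractionRing (Hol W)} {Ez : ℤ → FractionRing (Hol W)} (hE : ∀ j : ℕ, Ez j = E j)
    (R : Roots g P N β m V W Ez) {j : ℕ} (hj : j ≤ N) :
    E j ∈ LLA N β k W A₀ (E 0) ∧ al W (mH k W j) ∈ LLA N β k W A₀ (E 0) := by
  have h1 := pchain S hNP R (a := 0) (by omega) D₁ (D1_x S hD)
  simp only [Nat.cast_zero, sub_zero, add_zero, hE] at h1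
  have h2 := RunAlg58.line_mem h1 j hj
  have hle := LL_le S hNP A₀ hz hg hDA (k := k) E
  exact ⟨hle h2.1, hle h2.2⟩

/-- the values at the vertex `j` as elements of `L` -/
def xL (S : Setup g c₀ P ρ β m k q q' r ρ₀ V W) {N : ℕ} (hNP : N ≤ P) (A₀ : Subalgebra ℂ (Hol V))
    (L : IntermediateField ℂ (FractionRing (Hol W)))
    (hxL : ∀ j : ℕ, j < N → ∀ a : A₀, al W (xH β W (j : ℤ) (a : Hol V)) ∈ L)
    {j : ℕ} (hj : j < N) : A₀ →ₐ[ℂ] L :=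
  (AlgHom.codRestrict ((IsScalarTower.toAlgHom ℂ (Hol W) (FractionRing (Hol W))).comp
    ((compH (bH β W j) (S.bH_mem (by omega) (by omega))).comp A₀.val))
    L.toSubalgebra (fun a => by
      have h1 := hxL j hj a
      rw [S.xH_eq (by omega) (by omega)] at h1
      exact h1) : A₀ →ₐ[ℂ] L.toSubalgebra)

theorem xL_coe (S : Setup g c₀ P ρ β m k q q' r ρ₀ V W) {N : ℕ} (hNP : N ≤ P)
    (A₀ : Subalgebra ℂ (Hol V)) (L : IntermediateField ℂ (FractionRing (Hol W)))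
    (hxL : ∀ j : ℕ, j < N → ∀ a : A₀, al W (xH β W (j : ℤ) (a : Hol V)) ∈ L) {j : ℕ}
    (hj : j < N) (a : A₀) :
    ((xL S hNP A₀ L hxL hj a : L) : FractionRing (Hol W)) =
      al W (xH β W (j : ℤ) (a : Hol V)) := by
  rw [S.xH_eq (by omega) (by omega)]
  rfl

/-- the relation over the shifted chain -/
theorem rel_core (S : Setup g c₀ P ρ β m k q q' r ρ₀ V W) {N : ℕ} (hNP : 2 * N ≤ P)
    (A₀ : Subalgebra ℂ (Hol V)) (hz : zH V ∈ A₀) (hg : toH V g ∈ A₀)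
    (hDA : ∀ f ∈ A₀, DH V f ∈ A₀) {Ez : ℤ → FractionRing (Hol W)}
    (R : Roots g P N β m V W Ez) {W' : Opens (ℂ × ℂ)} (hle : W' ≤ W) [IsDomain (Hol W')]
    (S' : Setup g c₀ P ρ β m k q q' r ρ₀ V W')
    (ρF : FractionRing (Hol W) →ₐ[ℂ] FractionRing (Hol W'))
    (hρ : ∀ f : Hol W, ρF (al W f) = al W' (Hol.res hle f)) {a : ℕ} (ha : a < N)
    (t : Hol W')
    (ht : IsAlgebraic ((LL (N + a) (fun j : ℕ => al W (bH β W ((j : ℤ) - a)))
      (fun j i => al W (xH β W ((j : ℤ) - a) ((DH V)^[i] (toH V g))))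
      (fun j : ℕ => Ez ((j : ℤ) - a)) (fun j : ℕ => al W (mH k W ((j : ℤ) - a)))).map ρF)
      (al W' t)) :
    ∃ Q : Polynomial (MvPolynomial (Fin 2 ⊕ (Fin (N + a) × A₀)) ℂ),
    Q.eval₂ (MvPolynomial.aeval (obsH β m k A₀ N a W') :
      MvPolynomial (Fin 2 ⊕ (Fin (N + a) × A₀)) ℂ →ₐ[ℂ] Hol W').toRingHom t = 0 ∧
    ∃ i, MvPolynomial.aeval (obsH β m k A₀ N a W') (Q.coeff i) ≠ 0 := by
  refine rel_of_alg (IsScalarTower.toAlgHom ℂ (Hol W') (FractionRing (Hol W'))) (al_inj W')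
    (obsH β m k A₀ N a W') t ?_
  have hz' : (⟨zH V, hz⟩ : A₀) = ⟨zH V, hz⟩ := rfl
  set F := IntermediateField.adjoin ℂ (range fun s => (IsScalarTower.toAlgHom ℂ (Hol W')
    (FractionRing (Hol W'))) (obsH β m k A₀ N a W' s)) with hF
  have hobs : ∀ s, al W' (obsH β m k A₀ N a W' s) ∈ F := fun s =>
    IntermediateField.subset_adjoin ℂ _ ⟨s, rfl⟩
  refine alg_trans F _ ?_ ht
  refine adjoin_alg F _ ρF ?_
  rintro y (hy | ⟨j, hj, rfl | ⟨i, rfl⟩⟩)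
  · rcases hy with rfl | hy
    · -- the root of the slope of the line `-a`
      have h1 : Ez (((0 : ℕ) : ℤ) - a) ^ 2 = al W (mH m W (((0 : ℕ) : ℤ) - a)) :=
        R.sq _ (by omega) (by omega)
      have h2 : (ρF (Ez (((0 : ℕ) : ℤ) - a))) ^ 2 = al W' (mH m W' (-(a : ℤ))) := by
        rw [← map_pow, h1, hρ, S.res_m hle (by omega) (by omega)]
        simp
      exact alg_of_sq F (hobs (Sum.inl 0)) h2
    · rw [Set.mem_singleton_iff] at hy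
      subst hy
      have h2 : ρF (al W (mH k W (((0 : ℕ) : ℤ) - a))) = al W' (mH k W' (-(a : ℤ))) := by
        rw [hρ, S.res_k hle (by omega) (by omega)]
        simp
      have h3 := alg_of_mem F (hobs (Sum.inl 1))
      rw [h2]
      exact h3
  · have h2 : ρF (al W (bH β W ((j : ℤ) - a))) = al W' (xH β W' ((j : ℤ) - a) (zH V)) := by
      rw [hρ, S.res_b hle (by omega) (by omega), ← xH_z S' (by omega) (by omega)]
    have h3 := alg_of_mem F (hobs (Sum.inr (⟨j, hj⟩, ⟨zH V, hz⟩)))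
    rw [h2]
    exact h3
  · have h2 : ρF (al W (xH β W ((j : ℤ) - a) ((DH V)^[i] (toH V g)))) =
        al W' (xH β W' ((j : ℤ) - a) ((DH V)^[i] (toH V g))) := by
      rw [hρ, S.res_x hle (by omega) (by omega)]
    have h3 := alg_of_mem F (hobs (Sum.inr (⟨j, hj⟩, ⟨_, iter_mem hg hDA i⟩)))
    rw [h2]
    exact h3

/-- lift to `Hol W` -/
theorem exists_liftW {A : Type} [CommRing A] [Algebra ℂ A] (f : A →ₐ[ℂ] FractionRing (Hol W))
    (T : Set A) (hT : Algebra.adjoin ℂ T = ⊤) (h : ∀ t ∈ T, ∃ b : Hol W, f t = al W b) :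
    ∃ θ : A →ₐ[ℂ] Hol W, ∀ a, al W (θ a) = f a :=
  exists_lift (IsScalarTower.toAlgHom ℂ (Hol W) (FractionRing (Hol W))) (al_inj W) f T hT h

/-- the values of the second chain -/
theorem exists_theta (S : Setup g c₀ P ρ β m k q q' r ρ₀ V W) {N : ℕ} (hN : 0 < N) (hNP : N ≤ P)
    (A₀ : Subalgebra ℂ (Hol V)) (L : IntermediateField ℂ (FractionRing (Hol W)))
    (hxL : ∀ j : ℕ, j < N → ∀ a : A₀, al W (xH β W (j : ℤ) (a : Hol V)) ∈ L)
    (T : Set A₀) (hT : Algebra.adjoin ℂ T = ⊤) {W' : Opens (ℂ × ℂ)} [IsDomain (Hol W')]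
    (τ : L →ₐ[ℂ] FractionRing (Hol W'))
    (h : ∀ j : ℕ, j < N → ∀ t ∈ T, ∀ x : L, (x : FractionRing (Hol W)) =
      al W (xH β W (j : ℤ) (t : Hol V)) → ∃ b, τ x = al W' b) :
    ∃ θ : ℕ → A₀ →ₐ[ℂ] Hol W', ∀ j : ℕ, j < N → ∀ (a : A₀) (x : L),
      (x : FractionRing (Hol W)) = al W (xH β W (j : ℤ) (a : Hol V)) → τ x = al W' (θ j a) := by
  have hθ0 : ∀ j (hj : j < N), ∃ θ : A₀ →ₐ[ℂ] Hol W', ∀ a : A₀, al W' (θ a) =
      τ (xL S hNP A₀ L hxL hj a) := by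
    intro j hj
    have h1 : ∀ t ∈ T, ∃ b : Hol W', (τ.comp (xL S hNP A₀ L hxL hj)) t = al W' b :=
      fun t ht => h j hj t ht (xL S hNP A₀ L hxL hj t) (xL_coe S hNP A₀ L hxL hj t)
    obtain ⟨θ, hθ⟩ := exists_liftW (τ.comp (xL S hNP A₀ L hxL hj)) T hT h1
    exact ⟨θ, fun a => hθ a⟩
  have hθ : ∀ j, ∃ θ : A₀ →ₐ[ℂ] Hol W', ∀ (hj : j < N) (a : A₀), al W' (θ a) =
      τ (xL S hNP A₀ L hxL hj a) := by
    intro j
    by_cases hj : j < N
    · obtain ⟨θ, hθ⟩ := hθ0 j hj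
      exact ⟨θ, fun _ a => hθ a⟩
    · obtain ⟨θ, -⟩ := hθ0 0 hN
      exact ⟨θ, fun h => absurd h hj⟩
  choose θ hθ using hθ
  refine ⟨θ, fun j hj a x hx => ?_⟩
  rw [hθ j hj a]
  exact congrArg τ (Subtype.ext (hx.trans (xL_coe S hNP A₀ L hxL hj a).symm))

end Crest.Agent.R102.RunSec201
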