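import Crest.Agent.R102.RunSecB_201

/-!
# Row 102, [H3], THEOREM (RAT), RUN: the second chain, embedding (helper201)
-/

set_option autoImplicit false
set_option linter.unusedSectionVars false

open Set Filter Topology Metric TopologicalSpace

noncomputable section

namespace Crest.Agent.R102.RunSec201

open Crest.Agent.R102 Crest.Agent.R102.F7389 Crest.Agent.R102.Run58 Crest.Agent.R102.RunD58
  Crest.Agent.R102.RunAlg58 Crest.Agent.R102.RAT Crest.Agent.R102.Glue798 Crest.Agent.R102.H3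
  Crest.Agent.R102.Rat7217 Crest.Agent.R102.RunE58

variable {g : ℂ → ℂ} {c₀ : ℂ} {P : ℕ} {ρ : ℝ} {β m k q q' : ℕ → ℂ × ℂ → ℂ} {r ρ₀ : ℝ}
  {V : Opens ℂ} {W : Opens (ℂ × ℂ)} [IsDomain (Hol W)]

/-- output of ALG for the chain -/
structure Emb (N : ℕ) (β m k : ℕ → ℂ × ℂ → ℂ) (A₀ : Subalgebra ℂ (Hol V))
    (E : ℕ → FractionRing (Hol W))
    (D₁ D₂ : Derivation ℂ (FractionRing (Hol W)) (FractionRing (Hol W)))
    (K L : IntermediateField ℂ (FractionRing (Hol W)))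
    {W' : Opens (ℂ × ℂ)} (hle : W' ≤ W) [IsDomain (Hol W')]
    (ρF : FractionRing (Hol W) →ₐ[ℂ] FractionRing (Hol W'))
    (τ : L →ₐ[ℂ] FractionRing (Hol W'))
    (D₁' D₂' : Derivation ℂ (FractionRing (Hol W')) (FractionRing (Hol W')))
    (θ : ℕ → A₀ →ₐ[ℂ] Hol W') : Prop where
  rho : ∀ f : Hol W, ρF (al W f) = al W' (Hol.res hle f)
  onK : ∀ x : L, (x : FractionRing (Hol W)) ∈ K → τ x = ρF x
  b0 : ∀ x : L, (x : FractionRing (Hol W)) = al W (bH β W 0) → τ x ≠ ρF x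
  dual : Dual (mH m W' 0) (mH k W' 0) D₁' D₂'
  d₁ : ∀ x y : L, (y : FractionRing (Hol W)) = D₁ x → τ y = D₁' (τ x)
  d₂ : ∀ x y : L, (y : FractionRing (Hol W)) = D₂ x → τ y = D₂' (τ x)
  regE : ∀ j ≤ N, ∀ x : L, (x : FractionRing (Hol W)) = E j → ∃ h, τ x = al W' h
  regEi : ∀ j ≤ N, ∀ x : L, (x : FractionRing (Hol W)) = (E j)⁻¹ → ∃ h, τ x = al W' h
  regk : ∀ j : ℕ, j ≤ N → ∀ x : L, (x : FractionRing (Hol W)) = al W (mH k W j) →
    ∃ h, τ x = al W' h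
  regx : ∀ j : ℕ, j < N → ∀ (a : A₀) (x : L), (x : FractionRing (Hol W)) =
    al W (xH β W (j : ℤ) (a : Hol V)) → τ x = al W' (θ j a)

set_option maxHeartbeats 2000000 in
theorem exists_emb (S : Setup g c₀ P ρ β m k q q' r ρ₀ V W) {N : ℕ} (hN : 0 < N)
    (hNP : N ≤ P) (A₀ : Subalgebra ℂ (Hol V)) (hfg : A₀.FG) {E : ℕ → FractionRing (Hol W)}
    {D₁ D₂ : Derivation ℂ (FractionRing (Hol W)) (FractionRing (Hol W))}
    (hD : Dual (mH m W 0) (mH k W 0) D₁ D₂)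
    (K L : IntermediateField ℂ (FractionRing (Hol W))) (hKL : K ≤ L) (hKfg : K.FG) (hLfg : L.FG)
    (hK : (∀ f ∈ K, D₁ f ∈ K) ∧ ∀ f ∈ K, D₂ f ∈ K) (hst : (∀ f ∈ L, D₁ f ∈ L) ∧ ∀ f ∈ L, D₂ f ∈ L)
    (hxL : ∀ j : ℕ, j < N → ∀ a : A₀, al W (xH β W (j : ℤ) (a : Hol V)) ∈ L)
    (hline : ∀ j : ℕ, j ≤ N → E j ∈ L ∧ al W (mH k W j) ∈ L)
    (halg : ∀ f ∈ L, IsAlgebraic K f) (hf0L : al W (bH β W 0) ∈ L)
    (hf0 : al W (bH β W 0) ∉ K)
    (U : Opens (ℂ × ℂ)) (hUne : (U : Set (ℂ × ℂ)).Nonempty) (hUW : U ≤ W) :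
    ∃ (W' : Opens (ℂ × ℂ)) (hle : W' ≤ W) (_ : IsDomain (Hol W')), W' ≤ U ∧
      (W' : Set (ℂ × ℂ)).Nonempty ∧ IsPreconnected (W' : Set (ℂ × ℂ)) ∧
      ∃ (ρF : FractionRing (Hol W) →ₐ[ℂ] FractionRing (Hol W'))
        (τ : L →ₐ[ℂ] FractionRing (Hol W'))
        (D₁' D₂' : Derivation ℂ (FractionRing (Hol W')) (FractionRing (Hol W')))
        (θ : ℕ → A₀ →ₐ[ℂ] Hol W'), Emb N β m k A₀ E D₁ D₂ K L hle ρF τ D₁' D₂' θ := by
  obtain ⟨T, hT⟩ := (Algebra.FiniteType.out (self := Subalgebra.fg_iff_finiteType _ |>.1 hfg) :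
    (⊤ : Subalgebra ℂ A₀).FG)
  obtain ⟨SS, hSS⟩ : ∃ SS, SS = SSg N E (fun j : ℕ => al W (mH k W j)) (T : Set A₀)
    (fun (j : ℕ) (t : A₀) => al W (xH β W (j : ℤ) (t : Hol V))) := ⟨_, rfl⟩
  have hSfin : SS.Finite := by
    rw [hSS]
    exact SSg_finite T.finite_toSet
  have hSL : SS ⊆ (L : Set (FractionRing (Hol W))) := by
    rw [hSS]
    exact SSg_sub L hline (fun j hj t _ => hxL j hj t)
  obtain ⟨W', hle, hdom, hWU, hne, hpre, ρF, τ, a1, a2, a3, a4, a5⟩ :=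
    Alg985.alg_main S.pre K L hKL hKfg hLfg halg (al W (bH β W 0)) hf0L hf0 SS hSfin hSL U hUne hUW
  have S' := S.res hle hne hpre
  have hneW' : Nonempty W' := S'.nonempty
  -- the derivations
  have hjac : algebraMap (Hol W') (FractionRing (Hol W')) (Rat7217.jcb
      (Hol.res hle (mH m W 0)) (Hol.res hle (mH k W 0))) ≠ 0 := by
    rw [jcb_res]
    intro h0
    have h1 := (map_eq_zero_iff _ (al_inj W')).1 h0
    have h2 := (map_eq_zero_iff _ (res_injective hle S.pre)).1 h1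
    exact jcb_ne hD h2
  obtain ⟨D₁', D₂', hdual⟩ : ∃ D₁' D₂' : Derivation ℂ (FractionRing (Hol W'))
      (FractionRing (Hol W')), Dual (Hol.res hle (mH m W 0)) (Hol.res hle (mH k W 0)) D₁' D₂' :=
    ⟨_, _, dual_of_ne hjac⟩
  obtain ⟨φ, b1, b2, b3⟩ := transferU hle S.pre hD hdual
  have hφ : φ = ρF := frac_ext _ _ fun f => (b1 f).trans (a1 f).symm
  subst hφ
  have hdual' : Dual (mH m W' 0) (mH k W' 0) D₁' D₂' := by
    have e1 := S.res_m hle (j := 0) (by omega) (by omega)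
    have e2 := S.res_k hle (j := 0) (by omega) (by omega)
    rw [← e1, ← e2]
    exact hdual
  obtain ⟨θ, hθ⟩ := exists_theta S hN hNP A₀ L hxL (T : Set A₀) hT τ (by
    intro j hj t ht x hx
    obtain ⟨h, hh⟩ := (a4 (al W (xH β W (j : ℤ) (t : Hol V))) (by rw [hSS]; exact SSg_x hj ht)).2
    exact ⟨h, (congrArg τ (Subtype.ext hx)).trans hh⟩)
  refine ⟨W', hle, hdom, hWU, hne, hpre, φ, τ, D₁', D₂', θ,
    ⟨b1, ?_, ?_, hdual', ?_, ?_, ?_, ?_, ?_, hθ⟩⟩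
  · intro x hx
    exact a2 x hx
  · intro x hx h
    apply a3
    have e1 : x = ⟨al W (bH β W 0), hf0L⟩ := Subtype.ext hx
    rw [e1] at h
    exact h
  · intro x y hy
    have h1 := a5 D₁ D₁' hst.1 hK.1 (fun f _ => b2 f) x x.2
    exact (congrArg τ (Subtype.ext hy)).trans h1
  · intro x y hy
    have h1 := a5 D₂ D₂' hst.2 hK.2 (fun f _ => b3 f) x x.2
    exact (congrArg τ (Subtype.ext hy)).trans h1
  · intro j hj x hx
    obtain ⟨h, hh⟩ := (a4 (E j) (by rw [hSS]; exact SSg_E hj)).2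
    exact ⟨h, (congrArg τ (Subtype.ext hx)).trans hh⟩
  · intro j hj x hx
    obtain ⟨h, hh⟩ := (a4 (E j)⁻¹ (by rw [hSS]; exact SSg_Ei hj)).2
    exact ⟨h, (congrArg τ (Subtype.ext hx)).trans hh⟩
  · intro j hj x hx
    obtain ⟨h, hh⟩ := (a4 (al W (mH k W j)) (by
      rw [hSS]; exact SSg_k (kk := fun j : ℕ => al W (mH k W j)) hj)).2
    exact ⟨h, (congrArg τ (Subtype.ext hx)).trans hh⟩

end Crest.Agent.R102.RunSec201
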