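import Crest.Agent.R102.RunSecC_201

/-!
# Row 102, [H3], THEOREM (RAT), RUN: the second chain (helper201)

`second : RunE58.SecondStmt`
-/

set_option autoImplicit false
set_option linter.unusedSectionVars false

open Set Filter Topology Metric TopologicalSpace

noncomputable section

namespace Crest.Agent.R102.RunSec201

open Crest.Agent.R102 Crest.Agent.R102.F7389 Crest.Agent.R102.Run58 Crest.Agent.R102.RunD58
  Crest.Agent.R102.RunAlg58 Crest.Agent.R102.RAT Crest.Agent.R102.Glue798 Crest.Agent.R102.H3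
  Crest.Agent.R102.Rat7217 Crest.Agent.R102.RunE58

variable {g : ℂ → ℂ} {c₀ : ℂ} {P : ℕ} {ρ : ℝ} {β m k q q' : ℕ → ℂ × ℂ → ℂ} {r ρ₀ : ℝ}
  {V : Opens ℂ} {W : Opens (ℂ × ℂ)} [IsDomain (Hol W)]

section

variable {N : ℕ} {A₀ : Subalgebra ℂ (Hol V)} {E : ℕ → FractionRing (Hol W)}
  {D₁ D₂ : Derivation ℂ (FractionRing (Hol W)) (FractionRing (Hol W))}
  {K L : IntermediateField ℂ (FractionRing (Hol W))}
  {W' : Opens (ℂ × ℂ)} {hle : W' ≤ W} [IsDomain (Hol W')]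
  {ρF : FractionRing (Hol W) →ₐ[ℂ] FractionRing (Hol W')}
  {τ : L →ₐ[ℂ] FractionRing (Hol W')}
  {D₁' D₂' : Derivation ℂ (FractionRing (Hol W')) (FractionRing (Hol W'))}
  {θ : ℕ → A₀ →ₐ[ℂ] Hol W'}

theorem ex_x (hxL : ∀ j : ℕ, j < N → ∀ a : A₀, al W (xH β W (j : ℤ) (a : Hol V)) ∈ L)
    {j : ℕ} (hj : j < N) (a : A₀) : ∃ x : L, (x : FractionRing (Hol W)) =
      al W (xH β W (j : ℤ) (a : Hol V)) := ⟨⟨_, hxL j hj a⟩, rfl⟩

/-- chain rule on the second chain -/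
theorem emb_dx (S : Setup g c₀ P ρ β m k q q' r ρ₀ V W) (hNP : N ≤ P)
    (hD : Dual (mH m W 0) (mH k W 0) D₁ D₂)
    (hst : (∀ f ∈ L, D₁ f ∈ L) ∧ ∀ f ∈ L, D₂ f ∈ L)
    (hxL : ∀ j : ℕ, j < N → ∀ a : A₀, al W (xH β W (j : ℤ) (a : Hol V)) ∈ L)
    (h : Emb N β m k A₀ E D₁ D₂ K L hle ρF τ D₁' D₂' θ) (z₀ : A₀) (hz₀ : (z₀ : Hol V) = zH V)
    {j : ℕ} (hj : j < N) (f f' : A₀) (hf : (f' : Hol V) = DH V f) (v : ℂ × ℂ) :
    pdH W' v (θ j f) = θ j f' * pdH W' v (θ j z₀) := by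
  have hzb : xH β W (j : ℤ) (z₀ : Hol V) = bH β W j := by
    rw [hz₀, xH_z S (by omega) (by omega)]
  obtain ⟨x, hx⟩ := ex_x hxL hj f
  obtain ⟨x', hx'⟩ := ex_x hxL hj f'
  obtain ⟨z, hz⟩ := ex_x hxL hj z₀
  have r1 := h.regx j hj f x hx
  have r2 := h.regx j hj f' x' hx'
  have r3 := h.regx j hj z₀ z hz
  refine dx_of h.dual ?_ ?_ v
  · rw [← r1, ← r2, ← r3]
    refine dx_one τ D₁ D₁' hst.1 h.d₁ x x' z ?_
    rw [hx, hx', hz, hzb, hf]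
    exact D1_x S hD _ _ (by omega) (by omega)
  · rw [← r1, ← r2, ← r3]
    refine dx_one τ D₂ D₂' hst.2 h.d₂ x x' z ?_
    rw [hx, hx', hz, hzb, hf]
    exact D2_x S hD _ _ (by omega) (by omega)

/-- the vertices of the second chain are not constant -/
theorem emb_db (S : Setup g c₀ P ρ β m k q q' r ρ₀ V W) (hNP : N ≤ P)
    (hD : Dual (mH m W 0) (mH k W 0) D₁ D₂)
    (hst : (∀ f ∈ L, D₁ f ∈ L) ∧ ∀ f ∈ L, D₂ f ∈ L)
    (hxL : ∀ j : ℕ, j < N → ∀ a : A₀, al W (xH β W (j : ℤ) (a : Hol V)) ∈ L)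
    (h : Emb N β m k A₀ E D₁ D₂ K L hle ρF τ D₁' D₂' θ) (z₀ : A₀) (hz₀ : (z₀ : Hol V) = zH V)
    {j : ℕ} (hj : j < N) : ∃ v : ℂ × ℂ, pdH W' v (θ j z₀) ≠ 0 := by
  by_contra hcon
  push Not at hcon
  have hzb : xH β W (j : ℤ) (z₀ : Hol V) = bH β W j := by
    rw [hz₀, xH_z S (by omega) (by omega)]
  obtain ⟨h1, h2⟩ := D_zero_of_pd h.dual hcon
  obtain ⟨z, hz⟩ := ex_x hxL hj z₀
  have r3 := h.regx j hj z₀ z hz
  rw [← r3] at h1 h2
  have g1 := D_zero τ D₁ D₁' hst.1 h.d₁ z h1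
  have g2 := D_zero τ D₂ D₂' hst.2 h.d₂ z h2
  rw [hz, hzb] at g1 g2
  exact S.pd_b (j := j) (by omega) (pd_zero_of_D hD g1 g2 (1, 0))

/-- choice of representatives -/
theorem ex_rep {x₀ : FractionRing (Hol W)} (h0 : x₀ ∈ L)
    (h : ∀ x : L, (x : FractionRing (Hol W)) = x₀ → ∃ h, τ x = al W' h) :
    ∃ e : Hol W', ∀ x : L, (x : FractionRing (Hol W)) = x₀ → τ x = al W' e := by
  obtain ⟨e, he⟩ := h ⟨x₀, h0⟩ rfl
  refine ⟨e, fun x hx => ?_⟩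
  rw [← he]
  exact congrArg τ (Subtype.ext hx)

set_option maxHeartbeats 2000000 in
/-- incidence, reflection and the end conditions of the second chain -/
theorem second_of_emb (S : Setup g c₀ P ρ β m k q q' r ρ₀ V W) (hN : 0 < N) (h2N : 2 * N ≤ P)
    (hDA : ∀ f ∈ A₀, DH V f ∈ A₀) (z₀ G₀ G₁ : A₀) (hz₀ : (z₀ : Hol V) = zH V)
    (hG₀ : (G₀ : Hol V) = toH V g) (hG₁ : (G₁ : Hol V) = DH V (toH V g))
    (hsq : ∀ j : ℕ, j ≤ N → E j ^ 2 = al W (mH m W j))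
    (hrefl : ∀ j : ℕ, j < N → E j * E (j + 1) = al W (xH β W j (DH V (toH V g))))
    {Ez : ℤ → FractionRing (Hol W)} (R : Roots g P N β m V W Ez)
    (hD : Dual (mH m W 0) (mH k W 0) D₁ D₂)
    (hst : (∀ f ∈ L, D₁ f ∈ L) ∧ ∀ f ∈ L, D₂ f ∈ L)
    (hxL : ∀ j : ℕ, j < N → ∀ a : A₀, al W (xH β W (j : ℤ) (a : Hol V)) ∈ L)
    (hline : ∀ j : ℕ, j ≤ N → E j ∈ L ∧ al W (mH k W j) ∈ L) (hKL : K ≤ L)
    (hK0 : E 0 ∈ K) (hK0' : al W (mH k W ((0 : ℕ) : ℤ)) ∈ K) (hKN : E N ∈ K)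
    (hKN' : al W (mH k W (N : ℤ)) ∈ K)
    (halg : ∀ f ∈ L, IsAlgebraic K f)
    (hKs : ∀ a : ℕ, a < N → K ≤ LL (N + a) (fun j : ℕ => al W (bH β W ((j : ℤ) - a)))
      (fun j i => al W (xH β W ((j : ℤ) - a) ((DH V)^[i] (toH V g))))
      (fun j : ℕ => Ez ((j : ℤ) - a)) (fun j : ℕ => al W (mH k W ((j : ℤ) - a))))
    (hinj : ∀ j : ℕ, j < N → ∀ f ∈ A₀, xH β W (j : ℤ) f = 0 → f = 0)
    (S' : Setup g c₀ P ρ β m k q q' r ρ₀ V W')
    (h : Emb N β m k A₀ E D₁ D₂ K L hle ρF τ D₁' D₂' θ) :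
    ∃ m' k' : ℕ → Hol W', Second β m k N A₀ z₀ G₀ G₁ W' θ m' k' := by
  have hNP : N ≤ P := by omega
  have hxz : ∀ j : ℕ, j < N → xH β W (j : ℤ) (z₀ : Hol V) = bH β W j := fun j hj => by
    rw [hz₀, xH_z S (by omega) (by omega)]
  have he0 : ∀ j, ∃ e : Hol W', j ≤ N → ∀ x : L, (x : FractionRing (Hol W)) = E j →
      τ x = al W' e := by
    intro j
    by_cases hj : j ≤ N
    · obtain ⟨e, he⟩ := ex_rep (hline j hj).1 (h.regE j hj)
      exact ⟨e, fun _ => he⟩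
    · exact ⟨0, fun h => absurd h hj⟩
  have hk0 : ∀ j : ℕ, ∃ e : Hol W', j ≤ N → ∀ x : L, (x : FractionRing (Hol W)) =
      al W (mH k W j) → τ x = al W' e := by
    intro j
    by_cases hj : j ≤ N
    · obtain ⟨e, he⟩ := ex_rep (hline j hj).2 (h.regk j hj)
      exact ⟨e, fun _ => he⟩
    · exact ⟨0, fun h => absurd h hj⟩
  choose e he using he0
  choose κ hκ using hk0
  have hexE : ∀ j : ℕ, j ≤ N → ∃ x : L, (x : FractionRing (Hol W)) = E j := fun j hj =>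
    ⟨⟨_, (hline j hj).1⟩, rfl⟩
  have hexk : ∀ j : ℕ, j ≤ N → ∃ x : L, (x : FractionRing (Hol W)) = al W (mH k W j) :=
    fun j hj => ⟨⟨_, (hline j hj).2⟩, rfl⟩
  refine ⟨fun j => e j ^ 2, κ, ?_, ?_, ?_, ?_, ?_, ?_, ?_, ?_, ?_, ?_, ?_, ?_, ?_, ?_, ?_⟩
  · -- inc
    intro j hj
    obtain ⟨x, hx⟩ := ex_x hxL hj G₀
    obtain ⟨z, hz⟩ := ex_x hxL hj z₀
    obtain ⟨y, hy⟩ := hexE j hj.le
    obtain ⟨t, ht⟩ := hexk j hj.le
    refine t_inc τ (al W') (al_inj W') (h.regx j hj G₀ x hx) (he j hj.le y hy)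
      (h.regx j hj z₀ z hz) (hκ j hj.le t ht) ?_
    rw [hx, hz, hy, ht, hsq j hj.le, hG₀, hxz j hj, S.inc (by omega) (by omega), map_add, map_mul]
  · -- inc'
    intro j hj
    obtain ⟨x, hx⟩ := ex_x hxL hj G₀
    obtain ⟨z, hz⟩ := ex_x hxL hj z₀
    obtain ⟨y, hy⟩ := hexE (j + 1) hj
    obtain ⟨t, ht⟩ := hexk (j + 1) hj
    refine t_inc τ (al W') (al_inj W') (h.regx j hj G₀ x hx) (he (j + 1) hj y hy)
      (h.regx j hj z₀ z hz) (hκ (j + 1) hj t ht) ?_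
    rw [hx, hz, hy, ht, hsq (j + 1) hj, hG₀, hxz j hj, S.inc' (by omega) (by omega), map_add,
      map_mul]
    push_cast
    rfl
  · -- refl
    intro j hj
    obtain ⟨x, hx⟩ := ex_x hxL hj G₁
    obtain ⟨y, hy⟩ := hexE j hj.le
    obtain ⟨y', hy'⟩ := hexE (j + 1) hj
    have h1 := t_refl τ (al W') (al_inj W') (he j hj.le y hy) (he (j + 1) hj y' hy')
      (h.regx j hj G₁ x hx) (by rw [hx, hy, hy', hrefl j hj, hG₁])
    show e (j + 1) ^ 2 * e j ^ 2 = _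
    rw [← h1]; ring
  · -- m_ne
    intro j hj p
    obtain ⟨y, hy⟩ := hexE j hj
    have hEne : E j ≠ 0 := by
      intro h0
      have h1 := hsq j hj
      rw [h0, zero_pow two_ne_zero] at h1
      exact S.mH_ne (by omega) (by omega) ((map_eq_zero_iff _ (al_inj W)).1 h1.symm)
    obtain ⟨ei, hei⟩ := h.regEi j hj ⟨(E j)⁻¹, inv_mem (hline j hj).1⟩ rfl
    have h1 : e j * ei = 1 := t_inv τ (al W') (al_inj W') (he j hj y hy) hei
      (by rw [hy]; exact mul_inv_cancel₀ hEne)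
    have h2 := congrArg (fun f : Hol W' => (f : W' → ℂ) p) h1
    change (e j : W' → ℂ) p * (ei : W' → ℂ) p = 1 at h2
    change (e j : W' → ℂ) p ^ 2 ≠ 0
    exact pow_ne_zero 2 (left_ne_zero_of_mul (by rw [h2]; exact one_ne_zero))
  · -- start_m
    obtain ⟨y, hy⟩ := hexE 0 (Nat.zero_le _)
    have h1 := he 0 (Nat.zero_le _) y hy
    have h2 := h.onK y (by rw [hy]; exact hK0)
    show e 0 ^ 2 = mH m W' 0
    apply al_inj W'
    rw [map_pow, ← h1, h2, hy, ← map_pow, hsq 0 (Nat.zero_le _), h.rho]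
    exact congrArg (al W') (S.res_m hle (j := 0) (by omega) (by omega))
  · -- start_k
    obtain ⟨t, ht⟩ := hexk 0 (Nat.zero_le _)
    have h1 := hκ 0 (Nat.zero_le _) t ht
    have h2 := h.onK t (by rw [ht]; exact hK0')
    apply al_inj W'
    rw [← h1, h2, ht, h.rho]
    exact congrArg (al W') (S.res_k hle (j := 0) (by omega) (by omega))
  · -- end_m
    obtain ⟨y, hy⟩ := hexE N le_rfl
    have h1 := he N le_rfl y hy
    have h2 := h.onK y (by rw [hy]; exact hKN)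
    show e N ^ 2 = mH m W' N
    apply al_inj W'
    rw [map_pow, ← h1, h2, hy, ← map_pow, hsq N le_rfl, h.rho]
    exact congrArg (al W') (S.res_m hle (j := (N : ℤ)) (by omega) (by omega))
  · -- end_k
    obtain ⟨t, ht⟩ := hexk N le_rfl
    have h1 := hκ N le_rfl t ht
    have h2 := h.onK t (by rw [ht]; exact hKN')
    apply al_inj W'
    rw [← h1, h2, ht, h.rho]
    exact congrArg (al W') (S.res_k hle (j := (N : ℤ)) (by omega) (by omega))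
  · -- dx
    intro j hj v f f' hf
    exact emb_dx S hNP hD hst hxL h z₀ hz₀ hj f f' hf v
  · -- db
    intro j hj
    exact emb_db S hNP hD hst hxL h z₀ hz₀ hj
  · -- ne
    intro j hj hcon
    have hj' : j < N := by omega
    obtain ⟨z, hz⟩ := ex_x hxL hj' z₀
    obtain ⟨z', hz'⟩ := ex_x hxL hj z₀
    have h1 := h.regx j hj' z₀ z hz
    have h2 := h.regx (j + 1) hj z₀ z' hz'
    rw [hcon] at h2
    have h3 := t_eq τ h1 h2
    rw [hz, hz', hxz j hj', hxz (j + 1) hj] at h3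
    have h4 := al_inj W h3
    have h5 := S.b_succ_ne (j := ((j + 1 : ℕ) : ℤ)) (by omega) (by omega)
    have e1 : ((j + 1 : ℕ) : ℤ) - 1 = j := by push_cast; ring
    rw [e1] at h5
    exact h5 h4.symm
  · -- ne₀
    intro hcon
    obtain ⟨z, hz⟩ := ex_x hxL hN z₀
    have h1 := h.regx 0 hN z₀ z hz
    have hz' : (z : FractionRing (Hol W)) = al W (bH β W 0) :=
      hz.trans (congrArg (al W) (hxz 0 hN))
    apply h.b0 z hz'
    rw [h1, hcon, hz', h.rho]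
    exact congrArg (al W') (S.res_b hle (j := 0) (by omega) (by omega)).symm
  · -- tr
    intro j hj hcon
    obtain ⟨x, hx⟩ := ex_x hxL hj G₁
    obtain ⟨y, hy⟩ := hexE j hj.le
    have h1 := h.regx j hj G₁ x hx
    have h2 := he j hj.le y hy
    have h3 := t_sq τ h1 h2 (by rw [hcon, map_pow])
    rw [hx, hy, hsq j hj.le, hG₁] at h3
    exact S.tr (by omega) (by omega) (al_inj W h3)
  · -- inj
    intro j hj
    rw [injective_iff_map_eq_zero]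
    intro f hf
    obtain ⟨x, hx⟩ := ex_x hxL hj f
    have h1 := h.regx j hj f x hx
    rw [hf, map_zero] at h1
    have h2 := t_zero τ h1
    rw [hx] at h2
    have h3 := (map_eq_zero_iff _ (al_inj W)).1 h2
    exact Subtype.ext (hinj j hj f f.2 h3)
  · -- rel
    intro a ha j hj
    obtain ⟨z, hz⟩ := ex_x hxL hj z₀
    have h1 := tau_alg K L _ hKL (hKs a ha) τ ρF (fun f hf => h.onK ⟨f, hKL hf⟩ hf) z (halg z z.2)
    rw [h.regx j hj z₀ z hz] at h1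
    exact rel_core S h2N A₀ (hz₀ ▸ z₀.2) (hG₀ ▸ G₀.2) hDA R hle S' ρF h.rho ha (θ j z₀) h1

end

theorem KK_mem {M : Type} [Field M] [Algebra ℂ M] (D₁ D₂ : Derivation ℂ M M) (N : ℕ)
    (E k : ℕ → M) : E 0 ∈ KK D₁ D₂ N E k ∧ k 0 ∈ KK D₁ D₂ N E k ∧ E N ∈ KK D₁ D₂ N E k ∧
      k N ∈ KK D₁ D₂ N E k := by
  have h := DF389.subset_dfield ![D₁, D₂] ({E 0, k 0, E N, k N} : Set M)
  exact ⟨h (by simp), h (by simp), h (by simp), h (by simp)⟩

theorem KK_st {M : Type} [Field M] [Algebra ℂ M] (D₁ D₂ : Derivation ℂ M M) (N : ℕ)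
    (E k : ℕ → M) : (∀ f ∈ KK D₁ D₂ N E k, D₁ f ∈ KK D₁ D₂ N E k) ∧
      ∀ f ∈ KK D₁ D₂ N E k, D₂ f ∈ KK D₁ D₂ N E k :=
  ⟨fun f hf => DF389.dfield_stable ![D₁, D₂] _ 0 f hf,
    fun f hf => DF389.dfield_stable ![D₁, D₂] _ 1 f hf⟩

set_option maxHeartbeats 2000000 in
/-- **existence of the second chain** -/
theorem second : SecondStmt := by
  intro g c₀ P ρ β m k q q' r ρ₀ V W _ S N hN h2N A₀ z₀ G₀ G₁ hz₀ hG₀ hG₁ hfg hDA E hsq hrefl
    D₁ D₂ hD hinj halg hf0 U hUne hUW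
  have hNP : N ≤ P := by omega
  have hz : zH V ∈ A₀ := hz₀ ▸ z₀.2
  have hg : toH V g ∈ A₀ := hG₀ ▸ G₀.2
  obtain ⟨Ez, hE, R⟩ := exists_roots S hNP E hsq hrefl
  have hKL := KK_le_LLA S hNP hD A₀ hz hg hDA hE R
  obtain ⟨sL, hsL⟩ := LLA_FG (k := k) S hNP A₀ hfg (E 0)
  have hLfg : (LLA N β k W A₀ (E 0)).FG := ⟨sL, hsL.symm⟩
  have hKfg := KK_fg D₁ D₂ N E (fun j : ℕ => al W (mH k W j)) _ hLfg hKL
  have hst := LLA_stable' S hNP hD A₀ hz hg hDA hE R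
  have hline := fun (j : ℕ) (hj : j ≤ N) => line_mem_LLA S hNP hD A₀ hz hg hDA hE R hj
  have hxL : ∀ j : ℕ, j < N → ∀ a : A₀, al W (xH β W (j : ℤ) (a : Hol V)) ∈
      LLA N β k W A₀ (E 0) := fun j hj a => x_mem_LLA A₀ (E 0) hj a.2
  have hf0L : al W (bH β W 0) ∈ LLA N β k W A₀ (E 0) :=
    b_mem_LLA (k := k) S hNP A₀ hz (E 0) (j := 0) hN
  have hK := KK_st D₁ D₂ N E (fun j : ℕ => al W (mH k W j))
  obtain ⟨m1, m2, m3, m4⟩ := KK_mem D₁ D₂ N E (fun j : ℕ => al W (mH k W j))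
  obtain ⟨W', hle, hdom, hWU, hne, hpre, ρF, τ, D₁', D₂', θ, h⟩ :=
    exists_emb S hN hNP A₀ hfg hD _ _ hKL hKfg hLfg hK hst hxL hline halg hf0L hf0 U hUne hUW
  obtain ⟨m', k', hs⟩ := second_of_emb S hN h2N hDA z₀ G₀ G₁ hz₀ hG₀ hG₁ hsq hrefl R hD hst hxL
    hline hKL m1 m2 m3 m4 halg (fun a ha => KK_le_shift S hNP hD hE R (by omega)) hinj
    (S.res hle hne hpre) h
  exact ⟨W', θ, m', k', hWU, hne, hpre, hs⟩

end Crest.Agent.R102.RunSec201
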