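import Mathlib

/-!
Row 102, T1-B EDGE, slow regime (helper990): the self-consistent sawtooth.

For a closed set `F ⊆ ℝ` of positive measure there is a 1-Lipschitz function `H ≥ 0`,
`H ≥ infDist · F` near a point, vanishing on a set of positive measure, such that the truncated
Marcinkiewicz integral `∫ H x / (s² + (x - u)²)` is `≤ 40` for **all** `u` and all `s > 2 H u`.
Mathlib only.
-/

set_option autoImplicit false

open Set MeasureTheory Metric Filter Topology
open scoped ENNReal

noncomputable section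

namespace Crest.Agent.R102.Saw990

/-- truncated Marcinkiewicz integral -/
def Q (h : ℝ → ℝ) (u s : ℝ) : ℝ≥0∞ :=
  ∫⁻ x, ENNReal.ofReal (h x / (s ^ 2 + (x - u) ^ 2))

lemma Q_mono {h h' : ℝ → ℝ} (hh : ∀ x, h x ≤ h' x) (u s : ℝ) : Q h u s ≤ Q h' u s :=
  lintegral_mono fun x => ENNReal.ofReal_le_ofReal
    (div_le_div_of_nonneg_right (hh x) (by positivity))

/-- the integral of the kernel -/
lemma kernel {s : ℝ} (hs : 0 < s) (u : ℝ) :
    ∫⁻ x, ENNReal.ofReal (s / (s ^ 2 + (x - u) ^ 2)) = ENNReal.ofReal Real.pi := by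
  have hi : Integrable (fun x : ℝ => (1 + x ^ 2)⁻¹) := integrable_inv_one_add_sq
  have h1 : Integrable (fun x : ℝ => (1 + (x / s) ^ 2)⁻¹) := hi.comp_div hs.ne'
  have h2 : Integrable (fun x : ℝ => (1 + ((x - u) / s) ^ 2)⁻¹) := h1.comp_sub_right u
  have e : ∀ x : ℝ, s / (s ^ 2 + (x - u) ^ 2) = s⁻¹ * (1 + ((x - u) / s) ^ 2)⁻¹ := by
    intro x
    have h3 : s ^ 2 + (x - u) ^ 2 ≠ 0 := by positivity
    have h4 : 1 + ((x - u) / s) ^ 2 ≠ 0 := by positivity
    field_simp
  simp_rw [e]
  rw [← ofReal_integral_eq_lintegral_ofReal (h2.const_mul _)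
    (Filter.Eventually.of_forall fun x => by positivity)]
  congr 1
  rw [integral_const_mul]
  rw [integral_sub_right_eq_self (fun x : ℝ => (1 + (x / s) ^ 2)⁻¹) u]
  rw [Measure.integral_comp_div (fun x : ℝ => (1 + x ^ 2)⁻¹) s]
  rw [integral_univ_inv_one_add_sq]
  rw [abs_of_pos hs]
  simp only [smul_eq_mul]
  field_simp

/-- subsolutions -/
structure Sub (g0 h : ℝ → ℝ) : Prop where
  nn : ∀ x, 0 ≤ h x
  lip : ∀ x y, |h x - h y| ≤ |x - y|
  cpt : ∃ R, ∀ x, R < |x| → h x = 0
  sat : ∀ u, g0 u < h u → 20 ≤ Q h u (h u)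

lemma cont_of_lip {h : ℝ → ℝ} (hl : ∀ x y, |h x - h y| ≤ |x - y|) : Continuous h := by
  have : LipschitzWith 1 h := LipschitzWith.of_dist_le_mul fun x y => by
    simpa [Real.dist_eq] using hl x y
  exact this.continuous

lemma Sub.max {g0 h k : ℝ → ℝ} (hh : Sub g0 h) (hk : Sub g0 k) :
    Sub g0 (fun x => Max.max (h x) (k x)) := by
  refine ⟨fun x => le_max_of_le_left (hh.nn x), fun x y => ?_, ?_, fun u hu => ?_⟩
  · exact (abs_max_sub_max_le_max _ _ _ _).trans (max_le (hh.lip x y) (hk.lip x y))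
  · obtain ⟨R, hR⟩ := hh.cpt
    obtain ⟨R', hR'⟩ := hk.cpt
    refine ⟨Max.max R R', fun x hx => ?_⟩
    rw [hR x ((le_max_left _ _).trans_lt hx), hR' x ((le_max_right _ _).trans_lt hx)]
    simp
  · rcases le_total (h u) (k u) with hle | hle
    · simp only [max_eq_right hle] at hu ⊢
      exact (hk.sat u hu).trans (Q_mono (fun x => le_max_right _ _) _ _)
    · simp only [max_eq_left hle] at hu ⊢
      exact (hh.sat u hu).trans (Q_mono (fun x => le_max_left _ _) _ _)

/-- heights -/
lemma Sub.le {g0 h : ℝ → ℝ} (hh : Sub g0 h) {M : ℝ} (hM : 0 ≤ M) (hg : ∀ x, g0 x ≤ M) (x : ℝ) :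
    h x ≤ M := by
  by_contra hcon
  push Not at hcon
  obtain ⟨R, hR⟩ := hh.cpt
  have hxR : |x| ≤ R := by
    by_contra hx
    push Not at hx
    rw [hR x hx] at hcon
    linarith
  have hc := cont_of_lip hh.lip
  obtain ⟨u, hu, hmax⟩ := (isCompact_Icc (a := -R) (b := R)).exists_isMaxOn
    ⟨x, by rw [mem_Icc]; exact abs_le.mp hxR⟩ hc.continuousOn
  have hux : h x ≤ h u := hmax (by rw [mem_Icc]; exact abs_le.mp hxR)
  have hall : ∀ y, h y ≤ h u := by
    intro y
    rcases le_or_gt (|y|) R with hy | hy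
    · exact hmax (by rw [mem_Icc]; exact abs_le.mp hy)
    · rw [hR y hy]; exact hh.nn u
  have hupos : 0 < h u := by linarith
  have h20 := hh.sat u (by linarith [hg u])
  have hle : Q h u (h u) ≤ ENNReal.ofReal Real.pi := by
    rw [← kernel hupos u]
    exact lintegral_mono fun y => ENNReal.ofReal_le_ofReal
      (div_le_div_of_nonneg_right (hall y) (by positivity))
  have h3 : ENNReal.ofReal Real.pi < 20 := by
    rw [show (20 : ℝ≥0∞) = ENNReal.ofReal 20 by norm_num]
    rw [ENNReal.ofReal_lt_ofReal_iff (by norm_num)]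
    have := Real.pi_lt_four
    linarith
  exact absurd (h20.trans hle) (not_le.mpr h3)

/-- the measure of the support -/
lemma Sub.meas {g0 h : ℝ → ℝ} (hh : Sub g0 h) (hg : ∀ x, 0 ≤ g0 x)
    (hgc : Continuous g0) : volume {x | 0 < h x} ≤ 2 * volume {x | 0 < g0 x} := by
  have hc := cont_of_lip hh.lip
  set N : Set ℝ := {x | g0 x < h x} with hN
  have hNm : MeasurableSet N := measurableSet_lt hgc.measurable hc.measurable
  set P : Set ℝ := {x | 0 < h x} with hP
  have hPm : MeasurableSet P := measurableSet_lt measurable_const hc.measurable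
  have hPfin : volume P < ⊤ := by
    obtain ⟨R, hR⟩ := hh.cpt
    refine lt_of_le_of_lt (measure_mono (t := Icc (-R) R) fun x hx => ?_) (by simp)
    rw [mem_Icc, ← abs_le]
    by_contra hx'
    push Not at hx'
    have h0 : 0 < h x := hx
    rw [hR x hx'] at h0
    exact lt_irrefl _ h0
  have hNP : N ⊆ P := fun x hx => (hg x).trans_lt hx
  have hNfin : volume N < ⊤ := (measure_mono hNP).trans_lt hPfin
  have hsub : volume P ≤ volume {x | 0 < g0 x} + volume N := by
    refine (measure_mono (t := {x | 0 < g0 x} ∪ N) fun x hx => ?_).trans (measure_union_le _ _)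
    rcases lt_or_ge (g0 x) (h x) with h1 | h1
    · exact Or.inr h1
    · exact Or.inl (lt_of_lt_of_le hx h1)
  -- main estimate
  have key : 20 * volume N ≤ 10 * volume P := by
    have hmeas : Measurable (Function.uncurry fun (u x : ℝ) =>
        ENNReal.ofReal (3 * h x / (h x ^ 2 + (x - u) ^ 2))) := by
      have := hc.measurable
      unfold Function.uncurry
      fun_prop
    calc 20 * volume N = ∫⁻ _ in N, 20 := by rw [setLIntegral_const]
      _ ≤ ∫⁻ u in N, Q h u (h u) := setLIntegral_mono' hNm fun u hu => hh.sat u hu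
      _ ≤ ∫⁻ u in N, ∫⁻ x, ENNReal.ofReal (3 * h x / (h x ^ 2 + (x - u) ^ 2)) := by
          refine lintegral_mono fun u => lintegral_mono fun x => ENNReal.ofReal_le_ofReal ?_
          rcases (hh.nn x).eq_or_lt with h0 | h0
          · rw [← h0]; simp
          · have hl := hh.lip x u
            have h1 : h x ≤ h u + |x - u| := by
              have := (abs_le.mp hl).2; linarith
            have h2 : h x ^ 2 ≤ (h u + |x - u|) ^ 2 := by
              have := hh.nn x
              gcongr
            have h3 : (h u + |x - u|) ^ 2 ≤ 2 * h u ^ 2 + 2 * (x - u) ^ 2 := by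
              have := sq_abs (x - u)
              nlinarith [sq_nonneg (h u - |x - u|)]
            have h4 : 0 < h x ^ 2 + (x - u) ^ 2 := by positivity
            have h5 : 0 < h u ^ 2 + (x - u) ^ 2 := by nlinarith [sq_nonneg (h u), sq_nonneg (x - u)]
            rw [div_le_div_iff₀ h5 h4]
            nlinarith [sq_nonneg (h u), sq_nonneg (x - u)]
      _ ≤ ∫⁻ u, ∫⁻ x, ENNReal.ofReal (3 * h x / (h x ^ 2 + (x - u) ^ 2)) :=
          setLIntegral_le_lintegral _ _
      _ = ∫⁻ x, ∫⁻ u, ENNReal.ofReal (3 * h x / (h x ^ 2 + (x - u) ^ 2)) :=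
          lintegral_lintegral_swap hmeas.aemeasurable
      _ ≤ ∫⁻ x, P.indicator (fun _ => (10 : ℝ≥0∞)) x := by
          refine lintegral_mono fun x => ?_
          rcases (hh.nn x).eq_or_lt with h0 | h0
          · have : ∀ u : ℝ, ENNReal.ofReal (3 * h x / (h x ^ 2 + (x - u) ^ 2)) = 0 := by
              intro u; rw [← h0]; simp
            simp_rw [this]
            simp
          · rw [indicator_of_mem (show x ∈ P from h0)]
            have e : ∀ u : ℝ, ENNReal.ofReal (3 * h x / (h x ^ 2 + (x - u) ^ 2))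
                = 3 * ENNReal.ofReal (h x / (h x ^ 2 + (u - x) ^ 2)) := by
              intro u
              rw [show (3 : ℝ≥0∞) = ENNReal.ofReal 3 by norm_num, ← ENNReal.ofReal_mul (by norm_num)]
              congr 1
              rw [show (u - x) ^ 2 = (x - u) ^ 2 by ring]
              ring
            simp_rw [e]
            rw [lintegral_const_mul _ (by fun_prop)]
            rw [kernel h0 x]
            rw [show (3 : ℝ≥0∞) = ENNReal.ofReal 3 by norm_num,
              show (10 : ℝ≥0∞) = ENNReal.ofReal 10 by norm_num, ← ENNReal.ofReal_mul (by norm_num)]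
            refine ENNReal.ofReal_le_ofReal ?_
            have := Real.pi_lt_d2
            norm_num at this ⊢
            linarith
      _ = 10 * volume P := by
          rw [lintegral_indicator hPm, setLIntegral_const]
  have h1 : 20 * volume N ≤ 10 * volume {x | 0 < g0 x} + 10 * volume N := by
    calc 20 * volume N ≤ 10 * volume P := key
      _ ≤ 10 * (volume {x | 0 < g0 x} + volume N) := by gcongr
      _ = _ := by ring
  have h2 : 10 * volume N ≤ 10 * volume {x | 0 < g0 x} := by
    have e : (20 : ℝ≥0∞) * volume N = 10 * volume N + 10 * volume N := by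
      rw [← add_mul]; norm_num
    rw [e] at h1
    exact (ENNReal.add_le_add_iff_right (ENNReal.mul_lt_top (by norm_num) hNfin).ne).mp h1
  have h3 : volume N ≤ volume {x | 0 < g0 x} :=
    (ENNReal.mul_le_mul_iff_right (by norm_num) (by norm_num)).mp h2
  calc volume P ≤ volume {x | 0 < g0 x} + volume N := hsub
    _ ≤ volume {x | 0 < g0 x} + volume {x | 0 < g0 x} := by gcongr
    _ = 2 * volume {x | 0 < g0 x} := by ring

/-- adding a bump -/
lemma Sub.bump {g0 h : ℝ → ℝ} (hh : Sub g0 h) {u s : ℝ} (hs : 0 < s) (hQ : 40 < Q h u s) :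
    Sub g0 (fun x => Max.max (h x) (Max.max (s / 2 - |x - u|) 0)) := by
  refine ⟨fun x => le_max_of_le_left (hh.nn x), fun x y => ?_, ?_, fun x hx => ?_⟩
  · refine (abs_max_sub_max_le_max _ _ _ _).trans (max_le (hh.lip x y) ?_)
    refine (abs_max_sub_max_le_max _ _ _ _).trans (max_le ?_ (by simp))
    rw [show s / 2 - |x - u| - (s / 2 - |y - u|) = -(|x - u| - |y - u|) by ring, abs_neg]
    refine (abs_abs_sub_abs_le_abs_sub _ _).trans (le_of_eq ?_)
    congr 1; ring
  · obtain ⟨R, hR⟩ := hh.cpt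
    refine ⟨Max.max R (|u| + s), fun x hx => ?_⟩
    rw [hR x ((le_max_left _ _).trans_lt hx)]
    have h1 : |u| + s < |x| := (le_max_right _ _).trans_lt hx
    have h2 : |x| ≤ |x - u| + |u| := by
      have := abs_add_le (x - u) u
      simpa using this
    rw [max_eq_right (show s / 2 - |x - u| ≤ 0 by linarith)]
    simp
  · rcases le_total (Max.max (s / 2 - |x - u|) 0) (h x) with hle | hle
    · simp only [max_eq_left hle] at hx ⊢
      exact (hh.sat x hx).trans (Q_mono (fun x => le_max_left _ _) _ _)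
    · rcases le_total (s / 2 - |x - u|) 0 with hle0 | hle0
      · have h0 : h x = 0 := le_antisymm (by rw [max_eq_right hle0] at hle; exact hle) (hh.nn x)
        have e : Max.max (h x) (Max.max (s / 2 - |x - u|) 0) = h x := by
          rw [max_eq_right hle0, h0]; simp
        simp only [e] at hx ⊢
        exact (hh.sat x hx).trans (Q_mono (fun x => le_max_left _ _) _ _)
      · have e : Max.max (h x) (Max.max (s / 2 - |x - u|) 0) = s / 2 - |x - u| := by
          rw [max_eq_right hle, max_eq_left hle0]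
        simp only [e]
        set b : ℝ := s / 2 - |x - u| with hb
        have h20 : 20 ≤ Q h x b := by
          have hcmp : Q h u s ≤ 2 * Q h x b := by
            unfold Q
            rw [← lintegral_const_mul' _ _ (by norm_num)]
            refine lintegral_mono fun y => ?_
            rw [show (2 : ℝ≥0∞) = ENNReal.ofReal 2 by norm_num, ← ENNReal.ofReal_mul (by norm_num)]
            refine ENNReal.ofReal_le_ofReal ?_
            have hbs : b ≤ s / 2 := by rw [hb]; linarith [abs_nonneg (x - u)]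
            have hd : |x - u| ≤ s / 2 := by linarith
            have hd2 : (x - u) ^ 2 ≤ (s / 2) ^ 2 := by
              rw [← sq_abs (x - u)]
              have := abs_nonneg (x - u)
              gcongr
            have hb2 : b ^ 2 ≤ (s / 2) ^ 2 := by gcongr
            have h6 : (y - x) ^ 2 ≤ 2 * (y - u) ^ 2 + 2 * (x - u) ^ 2 := by
              nlinarith [sq_nonneg ((y - u) + (x - u))]
            have h7 : b ^ 2 + (y - x) ^ 2 ≤ 2 * (s ^ 2 + (y - u) ^ 2) := by
              nlinarith [sq_nonneg s]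
            have h8 : 0 < s ^ 2 + (y - u) ^ 2 := by positivity
            rcases (hh.nn y).eq_or_lt with h0 | h0
            · rw [← h0]; simp
            · have h9 : 0 ≤ b ^ 2 + (y - x) ^ 2 := by positivity
              rcases h9.eq_or_lt with h10 | h10
              · -- degenerate: b = 0, y = x
                exfalso
                have hb0 : b = 0 := by
                  have : b ^ 2 = 0 := by nlinarith [sq_nonneg b, sq_nonneg (y - x)]
                  exact pow_eq_zero_iff (two_ne_zero) |>.mp this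
                have hyx : y = x := by
                  have : (y - x) ^ 2 = 0 := by nlinarith [sq_nonneg b, sq_nonneg (y - x)]
                  have := pow_eq_zero_iff (two_ne_zero) |>.mp this
                  linarith
                rw [max_eq_left hle0, hb0] at hle
                rw [hyx] at h0
                linarith
              · rw [div_le_iff₀ h8]
                rw [mul_div_assoc', div_mul_eq_mul_div, le_div_iff₀ h10]
                nlinarith
          have h40 : 2 * 20 < 2 * Q h x b := by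
            have : (2 : ℝ≥0∞) * 20 = 40 := by norm_num
            rw [this]
            exact hQ.trans_le hcmp
          exact ((ENNReal.mul_lt_mul_iff_right (by norm_num) (by norm_num)).mp h40).le
        exact h20.trans (Q_mono (fun x => le_max_left _ _) _ _)

/-- the supremum of all subsolutions -/
def HH (g0 : ℝ → ℝ) (x : ℝ) : ℝ := ⨆ h : {h : ℝ → ℝ // Sub g0 h}, h.1 x

lemma sub_g0 {g0 : ℝ → ℝ} (nn : ∀ x, 0 ≤ g0 x) (lip : ∀ x y, |g0 x - g0 y| ≤ |x - y|)
    (cpt : ∃ R, ∀ x, R < |x| → g0 x = 0) : Sub g0 g0 :=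
  ⟨nn, lip, cpt, fun u hu => absurd hu (lt_irrefl _)⟩

lemma bdd {g0 : ℝ → ℝ} {M : ℝ} (hM : 0 ≤ M) (hg : ∀ x, g0 x ≤ M) (x : ℝ) :
    BddAbove (range fun h : {h : ℝ → ℝ // Sub g0 h} => h.1 x) := by
  refine ⟨M, ?_⟩
  rintro _ ⟨h, rfl⟩
  exact h.2.le hM hg x

lemma le_HH {g0 : ℝ → ℝ} {M : ℝ} (hM : 0 ≤ M) (hg : ∀ x, g0 x ≤ M) {h : ℝ → ℝ} (hh : Sub g0 h)
    (x : ℝ) : h x ≤ HH g0 x :=
  le_ciSup (bdd hM hg x) (⟨h, hh⟩ : {h : ℝ → ℝ // Sub g0 h})

lemma HH_le {g0 : ℝ → ℝ} {M : ℝ} (hM : 0 ≤ M) (hg : ∀ x, g0 x ≤ M) (hs : Sub g0 g0)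
    (x : ℝ) : HH g0 x ≤ M := by
  have : Nonempty {h : ℝ → ℝ // Sub g0 h} := ⟨⟨g0, hs⟩⟩
  exact ciSup_le fun h => h.2.le hM hg x

lemma HH_lip {g0 : ℝ → ℝ} {M : ℝ} (hM : 0 ≤ M) (hg : ∀ x, g0 x ≤ M) (hs : Sub g0 g0)
    (x y : ℝ) : |HH g0 x - HH g0 y| ≤ |x - y| := by
  have : Nonempty {h : ℝ → ℝ // Sub g0 h} := ⟨⟨g0, hs⟩⟩
  have key : ∀ x y, HH g0 x ≤ HH g0 y + |x - y| := by
    intro x y
    refine ciSup_le fun h => ?_
    have h1 := le_HH hM hg h.2 y
    have h2 := (abs_le.mp (h.2.lip x y)).2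
    linarith
  rw [abs_le]
  have h1 := key x y
  have h2 := key y x
  rw [abs_sub_comm y x] at h2
  constructor <;> linarith

/-- an increasing sequence of subsolutions converging to `HH` -/
lemma exists_seq {g0 : ℝ → ℝ} {M : ℝ} (hM : 0 ≤ M) (hg : ∀ x, g0 x ≤ M) (hs : Sub g0 g0) :
    ∃ f : ℕ → ℝ → ℝ, (∀ n, Sub g0 (f n)) ∧ Monotone f ∧
      ∀ x, Tendsto (fun n => f n x) atTop (𝓝 (HH g0 x)) := by
  have : Nonempty {h : ℝ → ℝ // Sub g0 h} := ⟨⟨g0, hs⟩⟩
  have hex : ∀ p : ℚ × ℕ, ∃ h : ℝ → ℝ, Sub g0 h ∧ HH g0 p.1 - 1 / ((p.2 : ℝ) + 1) < h p.1 := by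
    intro p
    have hlt : HH g0 p.1 - 1 / ((p.2 : ℝ) + 1) < HH g0 p.1 := by
      have : 0 < 1 / ((p.2 : ℝ) + 1) := by positivity
      linarith
    obtain ⟨h, hh⟩ := exists_lt_of_lt_ciSup hlt
    exact ⟨h.1, h.2, hh⟩
  choose c hc1 hc2 using hex
  obtain ⟨e, he⟩ := exists_surjective_nat (ℚ × ℕ)
  set f : ℕ → ℝ → ℝ := fun n => partialSups (fun k => c (e k)) n with hf
  have hmono : Monotone f := (partialSups (fun k => c (e k))).monotone
  have hsub : ∀ n, Sub g0 (f n) := by
    intro n
    induction n with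
    | zero => simpa [hf] using hc1 (e 0)
    | succ n ih =>
      have : f (n + 1) = fun x => Max.max (f n x) (c (e (n + 1)) x) := by
        simp only [hf]
        rw [partialSups_add_one]
        rfl
      rw [this]
      exact ih.max (hc1 _)
  refine ⟨f, hsub, hmono, fun x => ?_⟩
  rw [Metric.tendsto_atTop]
  intro ε hε
  obtain ⟨q, hq⟩ : ∃ q : ℚ, |x - q| < ε / 4 := by
    obtain ⟨q, hq1, hq2⟩ := exists_rat_btwn (show x - ε / 4 < x by linarith)
    refine ⟨q, ?_⟩
    rw [abs_lt]; constructor <;> linarith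
  obtain ⟨m, hm⟩ := exists_nat_one_div_lt (show 0 < ε / 4 by linarith)
  obtain ⟨k, hk⟩ := he (q, m)
  refine ⟨k, fun n hn => ?_⟩
  have h1 : c (e k) q ≤ f n q := by
    have : c (e k) ≤ f n := le_partialSups_of_le (fun k => c (e k)) hn
    exact this q
  have h2 := hc2 (q, m)
  rw [hk] at h1
  have h3 := (abs_le.mp ((hsub n).lip q x)).2
  have h4 := (abs_le.mp (HH_lip hM hg hs x q)).2
  have h5 := le_HH hM hg (hsub n) x
  rw [abs_sub_comm (q : ℝ) x] at h3
  simp only at h2
  rw [Real.dist_eq, abs_lt]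
  constructor <;> linarith

/-- self-consistency -/
lemma HH_Q {g0 : ℝ → ℝ} {M : ℝ} (hM : 0 ≤ M) (hg : ∀ x, g0 x ≤ M) (hs : Sub g0 g0)
    {u s : ℝ} (hus : 2 * HH g0 u < s) : Q (HH g0) u s ≤ 40 := by
  obtain ⟨f, hf, hmono, hlim⟩ := exists_seq hM hg hs
  have hH0 : 0 ≤ HH g0 u := (hs.nn u).trans (le_HH hM hg hs u)
  have hspos : 0 < s := by linarith
  have h40 : ∀ n, Q (f n) u s ≤ 40 := by
    intro n
    by_contra hcon
    push Not at hcon
    have h1 := le_HH hM hg ((hf n).bump hspos hcon) u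
    have h2 : s / 2 ≤ HH g0 u := by
      refine le_trans ?_ h1
      refine le_max_of_le_right (le_max_of_le_left ?_)
      simp
    linarith
  have hten : Tendsto (fun n => Q (f n) u s) atTop (𝓝 (Q (HH g0) u s)) := by
    refine lintegral_tendsto_of_tendsto_of_monotone (fun n => ?_) ?_ ?_
    · have := (cont_of_lip (hf n).lip).measurable
      fun_prop
    · refine Filter.Eventually.of_forall fun x => fun n m hnm => ?_
      exact ENNReal.ofReal_le_ofReal (div_le_div_of_nonneg_right (hmono hnm x) (by positivity))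
    · refine Filter.Eventually.of_forall fun x => ?_
      exact ENNReal.tendsto_ofReal ((hlim x).div_const _)
  exact le_of_tendsto' hten h40

/-- the measure of the support of `HH` -/
lemma HH_meas {g0 : ℝ → ℝ} {M : ℝ} (hM : 0 ≤ M) (hg : ∀ x, g0 x ≤ M) (hs : Sub g0 g0) :
    volume {x | 0 < HH g0 x} ≤ 2 * volume {x | 0 < g0 x} := by
  obtain ⟨f, hf, hmono, hlim⟩ := exists_seq hM hg hs
  have hU : {x | 0 < HH g0 x} = ⋃ n, {x | 0 < f n x} := by
    ext x
    simp only [mem_iUnion]
    constructor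
    · intro (hx : 0 < HH g0 x)
      exact ((hlim x).eventually (lt_mem_nhds hx)).exists
    · rintro ⟨n, hn⟩
      exact lt_of_lt_of_le hn (le_HH hM hg (hf n) x)
  have hm : Monotone (fun n => {x | 0 < f n x}) := fun n m hnm x (hx : 0 < f n x) =>
    lt_of_lt_of_le hx (hmono hnm x)
  rw [hU, Monotone.measure_iUnion hm]
  exact iSup_le fun n => (hf n).meas hs.nn (cont_of_lip hs.lip)

/-- **the self-consistent sawtooth** -/
theorem saw {F : Set ℝ} (hF : IsClosed F) (hv : 0 < volume F) {η : ℝ} (hη : 0 < η) :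
    ∃ x₀ ρ : ℝ, 0 < ρ ∧ ρ ≤ η ∧ ∃ H : ℝ → ℝ, (∀ x, 0 ≤ H x) ∧ (∀ x y, |H x - H y| ≤ |x - y|) ∧
      (∀ x, H x ≤ ρ) ∧ (∀ x, |x - x₀| ≤ ρ → infDist x F ≤ H x) ∧
      (∀ u s, 2 * H u < s → ∫⁻ x, ENNReal.ofReal (H x / (s ^ 2 + (x - u) ^ 2)) ≤ 40) ∧
      0 < volume ({x | H x = 0} ∩ Ioo (x₀ - ρ) (x₀ + ρ)) := by
  -- density point
  have hdens := Besicovitch.ae_tendsto_measure_inter_div (volume : Measure ℝ) F
  have hne : (volume.restrict F) ≠ 0 := by
    rw [Ne, Measure.restrict_eq_zero]; exact hv.ne'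
  have : (ae (volume.restrict F)).NeBot := ae_neBot.mpr hne
  obtain ⟨x₀, hx₀⟩ := hdens.exists
  have hev : ∀ᶠ r in 𝓝[>] (0 : ℝ), (7 / 8 : ℝ≥0∞) < volume (F ∩ closedBall x₀ r) / volume (closedBall x₀ r) :=
    hx₀.eventually (lt_mem_nhds (by
      rw [ENNReal.div_lt_iff (by norm_num) (by norm_num)]; norm_num))
  have hev2 : ∀ᶠ r in 𝓝[>] (0 : ℝ), r ≤ η ∧ 0 < r := by
    filter_upwards [Ioc_mem_nhdsGT hη] with r hr
    exact ⟨hr.2, hr.1⟩
  obtain ⟨r, hr1, hr2, hr0⟩ := (hev.and hev2).exists
  set I : Set ℝ := Ioo (x₀ - r) (x₀ + r) with hI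
  have hIF : volume (I \ F) ≤ ENNReal.ofReal (r / 4) := by
    have hcb : volume (closedBall x₀ r) = ENNReal.ofReal (2 * r) := Real.volume_closedBall x₀ r
    have h1 : volume (closedBall x₀ r) = volume (F ∩ closedBall x₀ r) + volume (closedBall x₀ r \ F) := by
      rw [inter_comm, measure_inter_add_sdiff _ hF.measurableSet]
    have h2 : (7 / 8 : ℝ≥0∞) * ENNReal.ofReal (2 * r) ≤ volume (F ∩ closedBall x₀ r) := by
      rw [hcb] at hr1
      rw [ENNReal.lt_div_iff_mul_lt (Or.inl (by simp [hr0])) (Or.inl ENNReal.ofReal_ne_top)] at hr1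
      exact hr1.le
    have h3 : (7 / 8 : ℝ≥0∞) = ENNReal.ofReal (7 / 8) := by
      rw [ENNReal.ofReal_div_of_pos (by norm_num)]; norm_num
    rw [h3, ← ENNReal.ofReal_mul (by norm_num)] at h2
    have h4 : ENNReal.ofReal (7 / 8 * (2 * r)) + volume (closedBall x₀ r \ F) ≤ ENNReal.ofReal (2 * r) := by
      rw [← hcb, h1]; gcongr
    have h5 : ENNReal.ofReal (2 * r) = ENNReal.ofReal (7 / 8 * (2 * r)) + ENNReal.ofReal (r / 4) := by
      rw [← ENNReal.ofReal_add (by positivity) (by positivity)]; congr 1; ring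
    rw [h5] at h4
    have h6 := (ENNReal.add_le_add_iff_left ENNReal.ofReal_ne_top).mp h4
    refine (measure_mono (sdiff_subset_sdiff_left ?_)).trans h6
    rw [hI, ← Real.ball_eq_Ioo]
    exact ball_subset_closedBall
  set G : Set ℝ := F ∪ Iᶜ with hG
  have hGne : G.Nonempty := ⟨x₀ + r, Or.inr (by rw [hI]; simp)⟩
  set g0 : ℝ → ℝ := fun x => infDist x G with hg0
  have hgnn : ∀ x, 0 ≤ g0 x := fun x => infDist_nonneg
  have hglip : ∀ x y, |g0 x - g0 y| ≤ |x - y| := by
    intro x y
    have := (lipschitz_infDist_pt G).dist_le_mul x y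
    simpa [Real.dist_eq, hg0] using this
  -- balls off `G`
  have hball : ∀ x t, ball x t ⊆ I \ F → t ≤ r / 8 := by
    intro x t hb
    by_contra hcon
    push Not at hcon
    have h1 : ENNReal.ofReal (2 * t) ≤ ENNReal.ofReal (r / 4) := by
      rw [← Real.volume_ball x t]
      exact (measure_mono hb).trans hIF
    rw [ENNReal.ofReal_le_ofReal_iff (by positivity)] at h1
    linarith
  have hGc : Gᶜ = I \ F := by
    rw [hG, compl_union, compl_compl, inter_comm]; rfl
  have hgle : ∀ x, g0 x ≤ r / 8 := by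
    intro x
    apply hball x
    rw [← hGc]
    exact ball_infDist_subset_compl
  have hsub : Sub g0 g0 := by
    refine sub_g0 hgnn hglip ⟨|x₀| + r, fun x hx => ?_⟩
    have hxI : x ∈ Iᶜ := by
      rw [hI]
      intro hx'
      rw [mem_Ioo] at hx'
      have h1 : |x| < |x₀| + r := by
        have h2 : |x - x₀| < r := by rw [abs_lt]; constructor <;> linarith
        have h3 : |x| ≤ |x - x₀| + |x₀| := by
          have := abs_add_le (x - x₀) x₀
          simpa using this
        linarith
      linarith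
    exact infDist_zero_of_mem (Or.inr hxI)
  have hM : (0 : ℝ) ≤ r / 8 := by positivity
  have hsupp : volume {x | 0 < g0 x} ≤ ENNReal.ofReal (r / 4) := by
    refine (measure_mono fun x hx => ?_).trans hIF
    rw [← hGc]
    intro hxG
    have h0 : 0 < g0 x := hx
    rw [hg0] at h0
    simp only [infDist_zero_of_mem hxG] at h0
    exact lt_irrefl _ h0
  refine ⟨x₀, r / 2, by positivity, by linarith, HH g0, fun x => (hgnn x).trans (le_HH hM hgle hsub x),
    HH_lip hM hgle hsub, fun x => (HH_le hM hgle hsub x).trans (by linarith), fun x hx => ?_,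
    fun u s hus => HH_Q hM hgle hsub hus, ?_⟩
  · refine le_trans ?_ (le_HH hM hgle hsub x)
    by_contra hcon
    push Not at hcon
    obtain ⟨y, hy, hxy⟩ := (infDist_lt_iff hGne).mp hcon
    have hyF : y ∉ F := fun hyF => absurd (infDist_le_dist_of_mem hyF) (not_le.mpr hxy)
    have hyI : y ∈ Iᶜ := by
      rcases hy with h | h
      · exact absurd h hyF
      · exact h
    have h1 : r / 2 ≤ dist x y := by
      rw [Real.dist_eq]
      have h2 : r ≤ |y - x₀| := by
        by_contra h3
        push Not at h3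
        apply hyI
        rw [hI, mem_Ioo]
        rw [abs_lt] at h3
        constructor <;> linarith
      have h3 : |y - x₀| ≤ |x - y| + |x - x₀| := by
        have := abs_add_le (y - x) (x - x₀)
        rw [abs_sub_comm x y]
        simpa using this
      linarith
    have h2 : ball x (r / 2) ⊆ I \ F := by
      intro z hz
      rw [mem_ball, Real.dist_eq] at hz
      refine ⟨?_, fun hzF => ?_⟩
      · rw [hI, mem_Ioo]
        have h3 := abs_lt.mp hz
        have h4 := abs_le.mp hx
        constructor <;> linarith [h3.1, h3.2, h4.1, h4.2]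
      · have h3 := infDist_le_dist_of_mem (x := x) hzF
        rw [Real.dist_eq, abs_sub_comm] at h3
        linarith
    have := hball x _ h2
    linarith
  · have hHm : volume {x | 0 < HH g0 x} ≤ ENNReal.ofReal (r / 2) := by
      refine (HH_meas hM hgle hsub).trans ?_
      calc 2 * volume {x | 0 < g0 x} ≤ 2 * ENNReal.ofReal (r / 4) := by gcongr
        _ = ENNReal.ofReal (r / 2) := by
          rw [show (2 : ℝ≥0∞) = ENNReal.ofReal 2 by norm_num, ← ENNReal.ofReal_mul (by norm_num)]
          congr 1; ring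
    by_contra hcon
    have h0 : volume ({x | HH g0 x = 0} ∩ Ioo (x₀ - r / 2) (x₀ + r / 2)) = 0 := by
      exact nonpos_iff_eq_zero.mp (not_lt.mp hcon)
    have h1 : volume (Ioo (x₀ - r / 2) (x₀ + r / 2)) ≤
        volume ({x | HH g0 x = 0} ∩ Ioo (x₀ - r / 2) (x₀ + r / 2)) + volume {x | 0 < HH g0 x} := by
      refine (measure_mono fun x hx => ?_).trans (measure_union_le _ _)
      rcases ((hgnn x).trans (le_HH hM hgle hsub x)).eq_or_lt with h | h
      · exact Or.inl ⟨h.symm, hx⟩
      · exact Or.inr h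
    rw [h0, zero_add, Real.volume_Ioo] at h1
    have h2 := h1.trans hHm
    rw [ENNReal.ofReal_le_ofReal_iff (by positivity)] at h2
    linarith

/-- real interval form at the base point `u` (ready for `discM`: `g x = τ * H (u + x)`) -/
theorem saw_int {H : ℝ → ℝ} (nn : ∀ x, 0 ≤ H x) (lip : ∀ x y, |H x - H y| ≤ |x - y|) {u s : ℝ}
    (hs : 0 < s) (hQ : ∫⁻ x, ENNReal.ofReal (H x / (s ^ 2 + (x - u) ^ 2)) ≤ 40) {τ : ℝ}
    (hτ : 0 ≤ τ) {R : ℝ} (hR : 0 ≤ R) :
    (∫ x in (-R)..R, τ * H (u + x) / (s ^ 2 + x ^ 2)) ≤ τ * 40 := by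
  have hc : Continuous H := cont_of_lip lip
  have hpos : ∀ x : ℝ, s ^ 2 + x ^ 2 ≠ 0 := fun x => by positivity
  have e : ∀ x : ℝ, τ * H (u + x) / (s ^ 2 + x ^ 2) = τ * (H (u + x) / (s ^ 2 + x ^ 2)) :=
    fun x => mul_div_assoc _ _ _
  simp_rw [e]
  rw [intervalIntegral.integral_const_mul]
  refine mul_le_mul_of_nonneg_left ?_ hτ
  rw [intervalIntegral.integral_of_le (by linarith)]
  rw [integral_eq_lintegral_of_nonneg_ae
    (Filter.Eventually.of_forall fun x => div_nonneg (nn _) (by positivity))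
    (Continuous.aestronglyMeasurable (by fun_prop (disch := exact hpos)))]
  have h1 : ∫⁻ x in Ioc (-R) R, ENNReal.ofReal (H (u + x) / (s ^ 2 + x ^ 2)) ≤ 40 := by
    refine (setLIntegral_le_lintegral _ _).trans (le_trans (le_of_eq ?_) hQ)
    rw [← lintegral_sub_right_eq_self (fun x : ℝ => ENNReal.ofReal (H (u + x) / (s ^ 2 + x ^ 2))) u]
    refine lintegral_congr fun x => ?_
    rw [show u + (x - u) = x by ring]
  have h2 := ENNReal.toReal_mono (by norm_num) h1
  simpa using h2

end Crest.Agent.R102.Saw990
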