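import Crest.Agent.R102.Schottky_948

/-! # Sharp (logarithmic) Schottky

`schottky_log`: if `F` is holomorphic on `ball c R` and omits `0` and `1`, then
`|log ‖F z‖| ≤ KS θ * (1 + |log ‖F c‖|)` on `closedBall c (θ R)`, `0 ≤ θ < 1`.
-/

open Set Filter Metric Complex Topology

namespace Crest.Agent.R102.G864

/-- the constant of `schottky_log` -/
noncomputable def KS (θ : ℝ) : ℝ :=
  2 * (Real.pi * Real.exp (Real.pi * (3 + 2 * Real.exp 1 + 128 * θ / (1 - θ))))

theorem KS_pos (θ : ℝ) : 0 < KS θ := by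
  unfold KS; positivity

theorem schottky_log {F : ℂ → ℂ} {c : ℂ} {R : ℝ} (hR : 0 < R)
    (hF : DifferentiableOn ℂ F (ball c R))
    (h0 : ∀ z ∈ ball c R, F z ≠ 0) (h1 : ∀ z ∈ ball c R, F z ≠ 1)
    {θ : ℝ} (hθ0 : 0 ≤ θ) (hθ1 : θ < 1) :
    ∀ z ∈ closedBall c (θ * R), |Real.log ‖F z‖| ≤ KS θ * (1 + |Real.log ‖F c‖|) := by
  obtain ⟨L, hL, hexp⟩ := M948.exists_log hF h0
  have hc : c ∈ ball c R := mem_ball_self hR
  set a : ℝ := |Real.log ‖F c‖| with ha
  have ha0 : 0 ≤ a := abs_nonneg _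
  obtain ⟨n, hn⟩ : ∃ n : ℕ, n = ⌈a⌉₊ + 1 := ⟨_, rfl⟩
  have hn1 : (1 : ℝ) ≤ n := by rw [hn]; push_cast; linarith [Nat.cast_nonneg (α := ℝ) ⌈a⌉₊]
  have hn0 : (0 : ℝ) < n := by linarith
  have hna : a ≤ n := by
    rw [hn]; push_cast; linarith [Nat.le_ceil a]
  have hn2 : (n : ℝ) ≤ a + 2 := by
    rw [hn]; push_cast; linarith [Nat.ceil_lt_add_one ha0]
  have hre : ∀ z ∈ ball c R, (L z).re = Real.log ‖F z‖ := by
    intro z hz
    rw [← hexp z hz, Complex.norm_exp, Real.log_exp]
  -- general statement for sign s = ± 1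
  have key : ∀ s : ℂ, (s = 1 ∨ s = -1) → ∀ z ∈ closedBall c (θ * R),
      (s * L z).re ≤ KS θ / 2 * n := by
    intro s hs z hz
    have hzb : z ∈ ball c R := by
      rw [mem_ball]; rw [mem_closedBall] at hz; nlinarith
    set g : ℂ → ℂ := fun z => Complex.exp (s * L z / n) with hg
    have hgd : DifferentiableOn ℂ g (ball c R) :=
      ((hL.const_mul s).div_const _).cexp
    have hnc : (n : ℂ) ≠ 0 := by
      have : n ≠ 0 := by rintro rfl; simp at hn0
      exact_mod_cast this
    have hg1 : ∀ z ∈ ball c R, g z ≠ 1 := by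
      intro z hz h
      have h2 : Complex.exp (s * L z) = 1 := by
        have : s * L z = n * (s * L z / n) := by field_simp
        rw [this, Complex.exp_nat_mul]
        have h3 : Complex.exp (s * L z / n) = 1 := h
        rw [h3, one_pow]
      rcases hs with rfl | rfl
      · rw [one_mul, hexp z hz] at h2; exact h1 z hz h2
      · rw [neg_one_mul, Complex.exp_neg, hexp z hz, inv_eq_one] at h2
        exact h1 z hz h2
    have hgc : ‖g c‖ ≤ Real.exp 1 := by
      rw [hg]; simp only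
      rw [Complex.norm_exp]
      apply Real.exp_le_exp.mpr
      have e1 : (s * L c / n).re = (s * L c).re / n := by
        rw [show (n : ℂ) = ((n : ℝ) : ℂ) by push_cast; rfl, Complex.div_ofReal_re]
      rw [e1, div_le_one hn0]
      refine le_trans ?_ hna
      rcases hs with rfl | rfl
      · rw [one_mul, hre c hc]; exact le_abs_self _
      · rw [neg_one_mul, Complex.neg_re, hre c hc]; exact neg_le_abs _
    have h3 := M948.schottky hR hgd (fun z _ => Complex.exp_ne_zero _) hg1 hgc hθ0 hθ1 z hz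
    have e1 : (s * L z / n).re = (s * L z).re / n := by
      rw [show (n : ℂ) = ((n : ℝ) : ℂ) by push_cast; rfl, Complex.div_ofReal_re]
    rw [hg] at h3
    simp only at h3
    rw [Complex.norm_exp, e1] at h3
    unfold M948.Psi at h3
    rw [Real.exp_le_exp, div_le_iff₀ hn0] at h3
    unfold KS
    calc (s * L z).re ≤ _ := h3
      _ = _ := by ring
  intro z hz
  have hzb : z ∈ ball c R := by
    rw [mem_ball]; rw [mem_closedBall] at hz; nlinarith
  have hK := KS_pos θ
  have k1 := key 1 (Or.inl rfl) z hz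
  have k2 := key (-1) (Or.inr rfl) z hz
  rw [one_mul, hre z hzb] at k1
  rw [neg_one_mul, Complex.neg_re, hre z hzb] at k2
  have h5 : |Real.log ‖F z‖| ≤ KS θ / 2 * n := abs_le.mpr ⟨by linarith, k1⟩
  calc |Real.log ‖F z‖| ≤ KS θ / 2 * n := h5
    _ ≤ KS θ / 2 * (a + 2) := by gcongr
    _ ≤ KS θ * (1 + a) := by nlinarith

end Crest.Agent.R102.G864
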