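import Crest.Agent.R102.T5P2_160
import Crest.Agent.R102.C1SecB_963

/-!
Row 102, MEL-SecAB (helper160), part 1: momentum function from the Lazutkin relation on a connected
set, transfer of leaf functions under affine maps.
-/

set_option autoImplicit false

open Set Filter Topology Metric
open scoped ComplexConjugate

noncomputable section

namespace Crest.Agent.R102.SecAB

open Crest.Agent.R102.T5 Crest.Agent.R102.A929 Crest.Agent.R102.B821
open Crest.Agent.R102.Spine Crest.Agent.R102.C0 Crest.Agent.R102.C1 Crest.Agent.R102.C1Sec963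
open Crest.Agent.R102.M948

/-! ### locality of `kk` -/

section congr
variable {θ θ' H H' : ℂ → ℂ} {U : Set ℂ}

theorem D2_congr {f g : ℂ → ℂ} (hU : IsOpen U) (h : EqOn f g U) {x y : ℂ} (hx : x ∈ U)
    (hy : y ∈ U) : D2 f (x, y) = D2 g (x, y) := by
  have he : f =ᶠ[𝓝 x] g := by filter_upwards [hU.mem_nhds hx] with z hz using h hz
  unfold D2
  simp only
  rcases eq_or_ne y x with hxy | hxy
  · subst hxy
    rw [dslope_same, dslope_same, he.deriv_eq]
  · rw [dslope_of_ne _ hxy, dslope_of_ne _ hxy]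
    unfold slope
    rw [h hx, h hy]

theorem deriv_congr {f g : ℂ → ℂ} (hU : IsOpen U) (h : EqOn f g U) : EqOn (deriv f) (deriv g) U := by
  intro x hx
  have he : f =ᶠ[𝓝 x] g := by filter_upwards [hU.mem_nhds hx] with z hz using h hz
  exact he.deriv_eq

theorem GG_congr (hU : IsOpen U) (h1 : EqOn θ θ' U) (h2 : EqOn H H' U) (c : ℂ) :
    EqOn (GG θ H c) (GG θ' H' c) U := by
  intro x hx
  unfold GG
  rw [h1 hx, h2 hx, deriv_congr hU h1 hx, deriv_congr hU h2 hx]

theorem kk_congr (hU : IsOpen U) (h1 : EqOn θ θ' U) (h2 : EqOn H H' U) {x y : ℂ} (hx : x ∈ U)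
    (hy : y ∈ U) : kk θ H (x, y - x) = kk θ' H' (x, y - x) := by
  have e1 := D2_congr hU (GG_congr hU h1 h2 1) hx hy
  have e2 := D2_congr hU (GG_congr hU h1 h2 (-1)) hx hy
  have e3 := D2_congr hU (deriv_congr hU h1) hx hy
  have e4 := GG_congr hU h1 h2 1 hx
  have e5 := GG_congr hU h1 h2 (-1) hx
  have e6 := deriv_congr hU h1 hx
  have a1 : As θ H 1 (x, y) = As θ' H' 1 (x, y) := by
    unfold As; simp only; rw [e1, e3, e4, e6]
  have a2 : As θ H (-1) (x, y) = As θ' H' (-1) (x, y) := by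
    unfold As; simp only; rw [e2, e3, e5, e6]
  have a3 : Wch θ H (x, y) = Wch θ' H' (x, y) := by
    unfold Wch; simp only; rw [a1, a2, h1 hx, h1 hy]
  have a4 : C1.Phi θ H (x, y) = C1.Phi θ' H' (x, y) := by
    unfold C1.Phi; simp only; rw [a3, h1 hx, h1 hy]
  have a5 : C1.DD θ H (x, y) = C1.DD θ' H' (x, y) := by
    unfold C1.DD; simp only; rw [e1, e2, e3, h1 hx, h2 hx]
  unfold kk
  simp only
  rw [add_sub_cancel]
  unfold kx
  simp only
  rw [a5, a4, a2, h1 hx]

end congr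

/-! ### the momentum function from `LZ` on a connected set -/

section
variable {V : Set ℂ} {θ H : ℂ → ℂ} (L : LZ V θ H)

include L

theorem exists_ball' {x : ℂ} (hx : x ∈ V) : ∃ s > 0, ball x s ×ˢ ball 0 s ⊆ NE θ H V := by
  obtain ⟨s, hs, h⟩ := Metric.isOpen_iff.1 L.openE (x, 0) (L.zero_mem hx)
  refine ⟨s, hs, ?_⟩
  rwa [ball_prod_same]

theorem coefk_diff' (n : ℕ) : DifferentiableOn ℂ (coefT (fk θ H) 0 n) V := by
  intro x hx
  obtain ⟨s, hs, h⟩ := exists_ball' L hx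
  have hf : DifferentiableOn ℂ (fk θ H) (ball x s ×ˢ ball 0 s) :=
    (L.kk_diff.mono h).sub differentiable_snd.differentiableOn
  exact ((differentiableOn_coefT isOpen_ball hs hf n).differentiableAt
    (isOpen_ball.mem_nhds (mem_ball_self hs))).differentiableWithinAt

theorem coefk_zero_pt {x : ℂ} (hx : x ∈ V) {C r : ℝ} (hC : 0 ≤ C) (hr : 0 < r)
    (hb : ∀ e : ℂ, ‖e‖ < r → ‖fk θ H (x, e)‖ ≤ C * ‖e‖ ^ 3) {n : ℕ} (hn : n ≤ 2) :
    coefT (fk θ H) 0 n x = 0 := by
  obtain ⟨s, hs, hsN⟩ := exists_ball' L hx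
  have key : ∀ ε : ℝ, 0 < ε → ε < min r (min s 1) → ‖coefT (fk θ H) 0 n x‖ ≤ C * ε := by
    intro ε hε hε'
    rw [lt_min_iff, lt_min_iff] at hε'
    have hcl : closedBall (0 : ℂ) ε ⊆ ball 0 s := closedBall_subset_ball hε'.2.1
    have hd : DifferentiableOn ℂ (fun t => fk θ H (x, t)) (closedBall 0 ε) := by
      have hf : DifferentiableOn ℂ (fk θ H) (ball x s ×ˢ ball 0 s) :=
        (L.kk_diff.mono hsN).sub differentiable_snd.differentiableOn
      exact (slice_differentiableOn hf (mem_ball_self hs)).mono hcl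
    have h1 := norm_coefT_le (f := fk θ H) (t0 := 0) (w := x) (r := ε) (M := C * ε ^ 3) hε
      (DifferentiableOn.diffContOnCl (by rw [closure_ball _ hε.ne']; exact hd))
      (fun t ht => by
        rw [mem_sphere, dist_zero_right] at ht
        have := hb t (by rw [ht]; exact hε'.1)
        rwa [ht] at this) n
    refine h1.trans ?_
    have h2 : ε ^ 3 * (1 / ε) ^ n ≤ ε := by
      have h3 : ε ^ 3 * (1 / ε) ^ n = ε ^ (3 - n) := by
        rw [one_div, inv_pow, ← div_eq_mul_inv, div_eq_iff (by positivity), ← pow_add]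
        congr 1
        omega
      rw [h3]
      calc ε ^ (3 - n) ≤ ε ^ 1 := pow_le_pow_of_le_one hε.le hε'.2.2.le (by omega)
        _ = ε := pow_one ε
    calc C * ε ^ 3 * (1 / ε) ^ n = C * (ε ^ 3 * (1 / ε) ^ n) := by ring
      _ ≤ C * ε := by gcongr
  have hlim : Tendsto (fun ε : ℝ => C * ε) (𝓝[>] 0) (𝓝 (C * 0)) :=
    ((continuous_const.mul continuous_id).tendsto 0).mono_left nhdsWithin_le_nhds
  rw [mul_zero] at hlim
  have hle : ‖coefT (fk θ H) 0 n x‖ ≤ 0 := by
    refine ge_of_tendsto hlim ?_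
    filter_upwards [Ioo_mem_nhdsGT (lt_min hr (lt_min hs one_pos))] with ε hε
    exact key ε hε.1 hε.2
  exact norm_le_zero_iff.1 hle

theorem kmap_of_coef (h0 : ∀ n ≤ 2, ∀ x ∈ V, coefT (fk θ H) 0 n x = 0) {Q : Set ℂ}
    (hQ : IsCompact Q) (hQV : Q ⊆ V) :
    ∃ ε C : ℝ, 0 < ε ∧ KMap Q ε C (kk θ H) := by
  obtain ⟨u, v, hu, hv, hQu, h0v, huv⟩ := generalized_tube_lemma hQ (isCompact_singleton (x := (0 : ℂ)))
    L.openE (by
      rintro ⟨x, e⟩ ⟨hx, he⟩
      simp only [mem_singleton_iff] at he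
      subst he
      exact L.zero_mem (hQV hx))
  obtain ⟨s, hs, hsv⟩ := Metric.isOpen_iff.1 hv 0 (h0v rfl)
  have hcl : closedBall (0 : ℂ) (s / 2) ⊆ v := (closedBall_subset_ball (by linarith)).trans hsv
  have hf : DifferentiableOn ℂ (fk θ H) (u ×ˢ v) :=
    (L.kk_diff.mono huv).sub differentiable_snd.differentiableOn
  obtain ⟨M, hM⟩ := (hQ.prod (isCompact_closedBall (0 : ℂ) (s / 2))).exists_bound_of_continuousOn
    (hf.continuousOn.mono (prod_mono hQu hcl))
  have hNE : Q ×ˢ ball 0 (s / 4) ⊆ NE θ H V :=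
    (prod_mono hQu ((ball_subset_ball (by linarith)).trans hsv)).trans huv
  refine ⟨s / 4, 2 * |M| * (2 / s) ^ 3, by positivity, ⟨?_, ?_⟩⟩
  · exact L.kk_diff.mono hNE
  · intro x hx e he
    have hd : DifferentiableOn ℂ (fun t => fk θ H (x, t)) v :=
      slice_differentiableOn hf (hQu hx)
    have hcoef : ∀ n : ℕ, ‖coefT (fk θ H) 0 n x‖ ≤ |M| * (1 / (s / 2)) ^ n := by
      intro n
      refine norm_coefT_le (by positivity) ?_ (fun t ht => ?_) n
      · refine DifferentiableOn.diffContOnCl ?_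
        rw [closure_ball _ (by positivity)]
        exact hd.mono hcl
      · exact (hM (x, t) ⟨hx, sphere_subset_closedBall ht⟩).trans (le_abs_self M)
    have hsum := Complex.hasSum_taylorSeries_on_ball (f := fun t => fk θ H (x, t)) (c := 0)
      (r := s) (z := e) (hd.mono hsv) (by rw [mem_ball, dist_zero_right]; linarith)
    have he' : (fun n : ℕ => (n.factorial : ℂ)⁻¹ • (e - 0) ^ n •
        iteratedDeriv n (fun t => fk θ H (x, t)) 0) = fun n => coefT (fk θ H) 0 n x * e ^ n := by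
      funext n
      unfold coefT; simp only [smul_eq_mul, sub_zero]; ring
    rw [he'] at hsum
    have hsum3 : HasSum (fun n => coefT (fk θ H) 0 (n + 3) x * e ^ (n + 3)) (fk θ H (x, e)) := by
      have := (hasSum_nat_add_iff' 3).2 hsum
      simp only [Finset.sum_range_succ, Finset.sum_range_zero] at this
      rw [h0 0 (by norm_num) x (hQV hx), h0 1 (by norm_num) x (hQV hx),
        h0 2 (by norm_num) x (hQV hx)] at this
      simpa using this
    have hx1 : 2 * ‖e‖ / s ≤ 1 / 2 := by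
      rw [div_le_iff₀ hs]; linarith
    have hgeo : HasSum (fun n : ℕ => (|M| * (2 * ‖e‖ / s) ^ 3) * (1 / 2 : ℝ) ^ n)
        ((|M| * (2 * ‖e‖ / s) ^ 3) * (1 - 1 / 2)⁻¹) :=
      (hasSum_geometric_of_lt_one (by norm_num) (by norm_num)).mul_left _
    have hb := tsum_of_norm_bounded hgeo (f := fun n => coefT (fk θ H) 0 (n + 3) x * e ^ (n + 3))
      (fun n => by
        rw [norm_mul, norm_pow]
        calc ‖coefT (fk θ H) 0 (n + 3) x‖ * ‖e‖ ^ (n + 3)
            ≤ (|M| * (1 / (s / 2)) ^ (n + 3)) * ‖e‖ ^ (n + 3) := by gcongr; exact hcoef _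
          _ = |M| * (2 * ‖e‖ / s) ^ 3 * (2 * ‖e‖ / s) ^ n := by
              rw [mul_assoc, ← mul_pow, mul_assoc, ← pow_add]
              congr 1
              rw [show 1 / (s / 2) * ‖e‖ = 2 * ‖e‖ / s by field_simp, add_comm]
          _ ≤ |M| * (2 * ‖e‖ / s) ^ 3 * (1 / 2) ^ n := by gcongr)
    rw [hsum3.tsum_eq] at hb
    show ‖kk θ H (x, e) - e‖ ≤ _
    refine hb.trans (le_of_eq ?_)
    rw [div_pow, mul_pow, div_pow]
    norm_num
    ring

/-- **`KLoc` from `LZ` on a connected set** -/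
theorem kloc_of_LZ (hV : IsPreconnected V) {z₀ : ℂ} (hz₀ : z₀ ∈ V) {s ε C : ℝ} (hs : 0 < s)
    (hε : 0 < ε) (hk : KMap (ball z₀ s) ε C (kk θ H)) : KLoc V (kk θ H) := by
  have h0 : ∀ n ≤ 2, ∀ x ∈ V, coefT (fk θ H) 0 n x = 0 := by
    intro n hn
    have := ((coefk_diff' L n).analyticOnNhd L.op).eqOn_zero_of_preconnected_of_eventuallyEq_zero
      hV hz₀ (by
        filter_upwards [ball_mem_nhds z₀ hs, L.op.mem_nhds hz₀] with x hx hxV
        exact coefk_zero_pt L hxV (abs_nonneg C) hε (fun e he =>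
          (hk.near x hx e he).trans (by gcongr; exact le_abs_self C)) hn)
    intro x hx
    exact this hx
  intro x hx
  obtain ⟨s, hs, hsV⟩ := Metric.isOpen_iff.1 L.op x hx
  have hcl : closedBall x (s / 2) ⊆ V := (closedBall_subset_ball (by linarith)).trans hsV
  obtain ⟨ε, C, hε, hk⟩ := kmap_of_coef L h0 (isCompact_closedBall x (s / 2)) hcl
  exact ⟨s / 2, by positivity, ε, hε, C, KMap.mono' hk ball_subset_closedBall le_rfl le_rfl⟩

end

/-! ### change of the momentum function -/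

theorem LeafLoc.congr_k {k k' X : ℂ × ℂ → ℂ} {K : Set ℂ} (h : LeafLoc k K X)
    (hk : ∀ c ∈ K, ∃ s > 0, ∀ x ∈ ball c s, ∀ y ∈ ball c s, k (x, y - x) = k' (x, y - x)) :
    LeafLoc k' K X := by
  intro c hc
  obtain ⟨s, hs, r, hr, B, hB⟩ := h c hc
  obtain ⟨s', hs', hkk⟩ := hk c hc
  set s₁ := min s (s' / 2) with hs₁
  have hs₁p : 0 < s₁ := by positivity
  set r₁ := min r (min 1 (s' / (2 * (|B| + 1)))) with hr₁
  have hr₁p : 0 < r₁ := by positivity
  refine ⟨s₁, hs₁p, r₁, hr₁p, B, ?_⟩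
  have hB' := hB.mono (ball_subset_ball (min_le_left s (s' / 2)) : ball c s₁ ⊆ ball c s)
    (min_le_left _ _ : r₁ ≤ r) (le_refl B)
  refine ⟨hB'.diff, hB'.near, ?_⟩
  intro t w hw h1 h2 h3
  have hl := hB'.law t w hw h1 h2 h3
  have hin : ∀ u ∈ ball c s₁, X (u, w) ∈ ball c s' := by
    intro u hu
    have n1 := hB'.near u hu w hw
    have w1 : ‖w‖ < 1 := hw.trans_le ((min_le_right _ _).trans (min_le_left _ _))
    have w2 : ‖w‖ < s' / (2 * (|B| + 1)) :=
      hw.trans_le ((min_le_right _ _).trans (min_le_right _ _))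
    rw [lt_div_iff₀ (by positivity)] at w2
    have w3 : B * ‖w‖ ^ 2 < s' / 2 := by
      have a1 : B * ‖w‖ ^ 2 ≤ |B| * ‖w‖ ^ 2 := by gcongr; exact le_abs_self B
      have a2 : ‖w‖ ^ 2 ≤ ‖w‖ := by
        have := norm_nonneg w
        nlinarith
      have a3 : |B| * ‖w‖ ^ 2 ≤ |B| * ‖w‖ := by gcongr
      have := norm_nonneg w
      nlinarith [abs_nonneg B]
    have hu' : dist u c < s' / 2 := lt_of_lt_of_le (mem_ball.1 hu) (min_le_right _ _)
    rw [mem_ball, dist_eq_norm]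
    rw [dist_eq_norm] at hu'
    have e : X (u, w) - c = (X (u, w) - u) + (u - c) := by ring
    rw [e]
    refine (norm_add_le _ _).trans_lt ?_
    linarith
  rw [← hkk _ (hin _ h2) _ (hin _ h3), ← hkk _ (hin _ h2) _ (hin _ h1)]
  exact hl

/-! ### affine maps -/

section affine
variable {k X : ℂ × ℂ → ℂ} {K : Set ℂ} {s μ : ℂ}

/-- transported momentum function -/
def kA (s μ : ℂ) (k : ℂ × ℂ → ℂ) (p : ℂ × ℂ) : ℂ := k (s + μ * p.1, μ * p.2) / μ

/-- transported leaf function -/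
def xA (s μ : ℂ) (X : ℂ × ℂ → ℂ) (p : ℂ × ℂ) : ℂ := (X (s + μ * p.1, μ * p.2) - s) / μ

theorem xA_xA (hμ : μ ≠ 0) : xA (-s / μ) μ⁻¹ (xA s μ X) = X := by
  funext p
  unfold xA
  simp only
  have e1 : s + μ * (-s / μ + μ⁻¹ * p.1) = p.1 := by field_simp; ring
  have e2 : μ * (μ⁻¹ * p.2) = p.2 := by field_simp
  rw [e1, e2]
  field_simp
  ring

theorem kA_kA (hμ : μ ≠ 0) : kA (-s / μ) μ⁻¹ (kA s μ k) = k := by
  funext p
  unfold kA
  simp only
  have e1 : s + μ * (-s / μ + μ⁻¹ * p.1) = p.1 := by field_simp; ring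
  have e2 : μ * (μ⁻¹ * p.2) = p.2 := by field_simp
  rw [e1, e2]
  field_simp

theorem leafLoc_aff (hμ : μ ≠ 0) (h : LeafLoc k K X) :
    LeafLoc (kA s μ k) ((fun t => s + μ * t) ⁻¹' K) (xA s μ X) := by
  have hμn : 0 < ‖μ‖ := norm_pos_iff.2 hμ
  intro c hc
  obtain ⟨σ, hσ, r, hr, B, hB⟩ := h _ hc
  have hb : ∀ t ∈ ball c (σ / ‖μ‖), s + μ * t ∈ ball (s + μ * c) σ := by
    intro t ht
    rw [mem_ball, dist_eq_norm] at ht ⊢
    rw [lt_div_iff₀ hμn] at ht
    have e : s + μ * t - (s + μ * c) = μ * (t - c) := by ring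
    rw [e, norm_mul]; linarith
  have hw' : ∀ w : ℂ, ‖w‖ < r / ‖μ‖ → ‖μ * w‖ < r := by
    intro w hw
    rw [lt_div_iff₀ hμn] at hw
    rw [norm_mul]; linarith
  refine ⟨σ / ‖μ‖, by positivity, r / ‖μ‖, by positivity, B * ‖μ‖, ?_, ?_, ?_⟩
  · have h1 : DifferentiableOn ℂ (fun p : ℂ × ℂ => X (s + μ * p.1, μ * p.2))
        (ball c (σ / ‖μ‖) ×ˢ ball 0 (r / ‖μ‖)) := by
      refine hB.diff.comp (by fun_prop) ?_
      rintro ⟨t, w⟩ ⟨ht, hw⟩
      refine ⟨hb t ht, ?_⟩
      rw [mem_ball, dist_zero_right] at hw ⊢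
      exact hw' w hw
    refine ((h1.sub_const s).mul_const μ⁻¹).congr fun p _ => ?_
    unfold xA
    rw [div_eq_mul_inv]
  · intro t ht w hw
    have h1 := hB.near _ (hb t ht) _ (hw' w hw)
    unfold xA
    simp only
    have e : (X (s + μ * t, μ * w) - s) / μ - t = (X (s + μ * t, μ * w) - (s + μ * t)) / μ := by
      field_simp; ring
    rw [e, norm_div, div_le_iff₀ hμn]
    refine h1.trans (le_of_eq ?_)
    rw [norm_mul]; ring
  · intro t w hw h1 h2 h3
    have h4 := hB.law (s + μ * t) (μ * w) (hw' w hw)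
      (by have := hb _ h1; rwa [mul_sub, ← add_sub_assoc] at this) (hb _ h2)
      (by have := hb _ h3; rwa [mul_add, ← add_assoc] at this)
    unfold kA xA
    simp only
    have e1 : s + μ * ((X (s + μ * t, μ * w) - s) / μ) = X (s + μ * t, μ * w) := by
      field_simp; ring
    have e2 : μ * ((X (s + μ * (t + w), μ * w) - s) / μ - (X (s + μ * t, μ * w) - s) / μ) =
        X (s + μ * t + μ * w, μ * w) - X (s + μ * t, μ * w) := by
      have : s + μ * (t + w) = s + μ * t + μ * w := by ring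
      rw [this]; field_simp; ring
    have e3 : μ * ((X (s + μ * (t - w), μ * w) - s) / μ - (X (s + μ * t, μ * w) - s) / μ) =
        X (s + μ * t - μ * w, μ * w) - X (s + μ * t, μ * w) := by
      have : s + μ * (t - w) = s + μ * t - μ * w := by ring
      rw [this]; field_simp; ring
    rw [e1, e2, e3, h4]
    ring

theorem kloc_aff (hμ : μ ≠ 0) (h : KLoc K k) : KLoc ((fun t => s + μ * t) ⁻¹' K) (kA s μ k) := by
  have hμn : 0 < ‖μ‖ := norm_pos_iff.2 hμ
  intro c hc
  obtain ⟨σ, hσ, ε, hε, C, hk⟩ := h _ hc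
  have hb : ∀ t ∈ ball c (σ / ‖μ‖), s + μ * t ∈ ball (s + μ * c) σ := by
    intro t ht
    rw [mem_ball, dist_eq_norm] at ht ⊢
    rw [lt_div_iff₀ hμn] at ht
    have e : s + μ * t - (s + μ * c) = μ * (t - c) := by ring
    rw [e, norm_mul]; linarith
  have hw' : ∀ w : ℂ, ‖w‖ < ε / ‖μ‖ → ‖μ * w‖ < ε := by
    intro w hw
    rw [lt_div_iff₀ hμn] at hw
    rw [norm_mul]; linarith
  refine ⟨σ / ‖μ‖, by positivity, ε / ‖μ‖, by positivity, C * ‖μ‖ ^ 2, ?_, ?_⟩
  · have h1 : DifferentiableOn ℂ (fun p : ℂ × ℂ => k (s + μ * p.1, μ * p.2))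
        (ball c (σ / ‖μ‖) ×ˢ ball 0 (ε / ‖μ‖)) := by
      refine hk.diff.comp (by fun_prop) ?_
      rintro ⟨t, w⟩ ⟨ht, hw⟩
      refine ⟨hb t ht, ?_⟩
      rw [mem_ball, dist_zero_right] at hw ⊢
      exact hw' w hw
    refine (h1.mul_const μ⁻¹).congr fun p _ => ?_
    unfold kA
    rw [div_eq_mul_inv]
  · intro y hy e he
    have h1 := hk.near _ (hb y hy) _ (hw' e he)
    unfold kA
    simp only
    have e1 : k (s + μ * y, μ * e) / μ - e = (k (s + μ * y, μ * e) - μ * e) / μ := by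
      field_simp
    rw [e1, norm_div, div_le_iff₀ hμn]
    refine h1.trans (le_of_eq ?_)
    rw [norm_mul]; ring

end affine

/-! ### sectors -/

theorem Sct_conn {ρ α β : ℝ} (hα : -Real.pi ≤ α) (hβ : β ≤ Real.pi) :
    IsPreconnected (Sct ρ α β) := by
  have hcv : Convex ℝ {x : ℂ | x.re < Real.log ρ ∧ α < x.im ∧ x.im < β} := by
    have h1 : Convex ℝ {x : ℂ | x.re < Real.log ρ} := convex_halfSpace_re_lt _
    have h2 : Convex ℝ {x : ℂ | α < x.im} := convex_halfSpace_im_gt _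
    have h3 : Convex ℝ {x : ℂ | x.im < β} := convex_halfSpace_im_lt _
    exact h1.inter (h2.inter h3)
  rcases le_or_gt ρ 0 with hρ | hρ
  · have : Sct ρ α β = ∅ := by
      ext t
      simp only [Sct, Set.mem_ofPred_eq, mem_empty_iff_false, iff_false]
      rintro ⟨h1, h2, -⟩
      linarith
    rw [this]
    exact isPreconnected_empty
  have himg : Sct ρ α β = Complex.exp '' {x : ℂ | x.re < Real.log ρ ∧ α < x.im ∧ x.im < β} := by
    ext t
    constructor
    · rintro ⟨h1, h2, h3, h4⟩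
      have ht : t ≠ 0 := norm_pos_iff.1 h1
      refine ⟨Complex.log t, ⟨?_, ?_, ?_⟩, Complex.exp_log ht⟩
      · rw [Complex.log_re]; exact Real.log_lt_log h1 h2
      · rw [Complex.log_im]; exact h3
      · rw [Complex.log_im]; exact h4
    · rintro ⟨x, ⟨h1, h2, h3⟩, rfl⟩
      have harg : Complex.arg (Complex.exp x) = x.im := by
        rw [← Complex.log_im, Complex.log_exp (by linarith) (by linarith)]
      refine ⟨?_, ?_, ?_, ?_⟩
      · rw [Complex.norm_exp]; positivity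
      · rw [Complex.norm_exp]
        calc Real.exp x.re < Real.exp (Real.log ρ) := Real.exp_lt_exp.2 h1
          _ = ρ := Real.exp_log hρ
      · rw [harg]; exact h2
      · rw [harg]; exact h3
  rw [himg]
  exact hcv.isPreconnected.image _ Complex.continuous_exp.continuousOn

end Crest.Agent.R102.SecAB
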