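import Crest.Agent.R102.VCont_88

/-!
Row 102, part (C) (helper88): (A2) = the lines are meromorphic at the points `(t, w)`, `w` in a
sector, between two regular zones (from `RatCont`).
-/

set_option autoImplicit false

open Set Filter Topology Metric

noncomputable section

namespace Crest.Agent.R102.AMer88

open Crest.Agent.R102.Mer88 Crest.Agent.R102.LeviM88 Crest.Agent.R102.Spine
open Crest.Agent.R102.C0 Crest.Agent.R102.VC88

/-- zone at the regular point `g` -/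
def Zone (h0 : ℝ) (g : ℂ) (c r1 : ℝ) : Set (ℂ × ℂ) :=
  {x | |x.1.re - g.re| < c ∧ -c < x.1.im ∧ x.1.im < h0 + c ∧ ‖x.2‖ < r1}

theorem Zone_mono {h0 : ℝ} {g : ℂ} {c c' r1 r1' : ℝ} (hc : c ≤ c') (hr : r1 ≤ r1') :
    Zone h0 g c r1 ⊆ Zone h0 g c' r1' := fun _ hx =>
  ⟨hx.1.trans_le hc, by linarith [hx.2.1], by linarith [hx.2.2.1], hx.2.2.2.trans_le hr⟩

/-- the lines extend to the zone at `g` -/
structure ZoneExt (ρ r : ℝ) (φ p : ℂ × ℂ → ℂ) (h0 : ℝ) (g : ℂ) (c r1 : ℝ)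
    (φ' p' : ℂ × ℂ → ℂ) : Prop where
  φ_an : AnalyticOnNhd ℂ φ' (Zone h0 g c r1)
  p_an : AnalyticOnNhd ℂ p' (Zone h0 g c r1)
  φ_eq : ∀ x ∈ Zone h0 g c r1, x ∈ PD ρ r → φ' x = φ x
  p_eq : ∀ x ∈ Zone h0 g c r1, x ∈ PD ρ r → p' x = p x

theorem ZoneExt.mono {ρ r : ℝ} {φ p : ℂ × ℂ → ℂ} {h0 : ℝ} {g : ℂ} {c r1 c' r1' : ℝ}
    {φ' p' : ℂ × ℂ → ℂ} (h : ZoneExt ρ r φ p h0 g c' r1' φ' p') (hc : c ≤ c') (hr : r1 ≤ r1') :
    ZoneExt ρ r φ p h0 g c r1 φ' p' :=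
  ⟨fun x hx => h.φ_an x (Zone_mono hc hr hx), fun x hx => h.p_an x (Zone_mono hc hr hx),
    fun x hx => h.φ_eq x (Zone_mono hc hr hx), fun x hx => h.p_eq x (Zone_mono hc hr hx)⟩

theorem zone_mem {h0 c r1 e : ℝ} {N : ℕ} {g t w : ℂ} {y : ℂ × ℂ} (_hc : 0 < c)
    (he : (N + 1) * e ≤ c / 16) (her : e ≤ r1 / 2) (he0 : 0 < e) {s : ℝ} (hs : |s| ≤ N)
    (h1 : |t.re + s * w.re - g.re| < c / 4) (h3 : N * |w.im| ≤ c / 4)
    (h5 : t.im < h0 + c / 2) (h6 : ‖w‖ < r1 / 2) (hy : y ∈ Tube t w e) :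
    (y.1 + (s : ℂ) * y.2, y.2) ∈ Zone h0 g c r1 := by
  obtain ⟨y1, y2, y3, y4⟩ := hy
  have hN : (0 : ℝ) ≤ N := Nat.cast_nonneg N
  have a1 := (Complex.abs_re_le_norm (y.2 - w)).trans y4.le
  have a2 := (Complex.abs_im_le_norm (y.2 - w)).trans y4.le
  rw [Complex.sub_re] at a1
  rw [Complex.sub_im] at a2
  have b1 : |s * (y.2.re - w.re)| ≤ N * e := by
    rw [abs_mul]; exact mul_le_mul hs a1 (abs_nonneg _) hN
  have b2 : |s * (y.2.im - w.im)| ≤ N * e := by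
    rw [abs_mul]; exact mul_le_mul hs a2 (abs_nonneg _) hN
  have b3 : |s * w.im| ≤ c / 4 := by
    rw [abs_mul]
    exact (mul_le_mul_of_nonneg_right hs (abs_nonneg _)).trans h3
  have e1 : (y.1 + (s : ℂ) * y.2).re = y.1.re + s * y.2.re := by simp
  have e2 : (y.1 + (s : ℂ) * y.2).im = y.1.im + s * y.2.im := by simp
  have he' : N * e + e ≤ c / 16 := by linarith
  rw [abs_lt] at y1 h1
  rw [abs_le] at b1 b2 b3
  refine ⟨?_, ?_, ?_, ?_⟩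
  · show |(y.1 + (s : ℂ) * y.2).re - g.re| < c
    rw [e1, abs_lt]
    constructor <;> nlinarith
  · show -c < (y.1 + (s : ℂ) * y.2).im
    rw [e2]; nlinarith
  · show (y.1 + (s : ℂ) * y.2).im < h0 + c
    rw [e2]; nlinarith
  · show ‖y.2‖ < r1
    calc ‖y.2‖ = ‖(y.2 - w) + w‖ := by congr 1; ring
      _ ≤ ‖y.2 - w‖ + ‖w‖ := norm_add_le _ _
      _ < r1 := by linarith

variable {q : C(ℂ, ℂ)} {η ρ r B : ℝ} {b φ p : ℂ × ℂ → ℂ} {m₀ : ℂ → ℂ}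

/-- **(A2)**, core -/
theorem sec_core (hR : RatCont) (hL : LineFam q η ρ r B b φ p m₀) (hna : ¬ AlgC q)
    {h0 c r1 : ℝ} (hc : 0 < c) (hcρ : c ≤ ρ) (hr1 : 0 < r1) (hr1r : r1 ≤ r) {ga gb : ℂ}
    {φa pa φb pb : ℂ × ℂ → ℂ} (Za : ZoneExt ρ r φ p h0 ga c r1 φa pa)
    (Zb : ZoneExt ρ r φ p h0 gb c r1 φb pb) {t w : ℂ} {j j' : ℕ}
    (h1 : |t.re - j * w.re - ga.re| < c / 4) (h2 : |t.re + j' * w.re - gb.re| < c / 4)
    (h3 : ((j : ℝ) + j') * |w.im| ≤ c / 4) (h4 : 0 < t.im) (h5 : t.im < h0 + c / 2)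
    (h6 : ‖w‖ < r1 / 2) :
    ∃ (e : ℝ) (E P : ℂ × ℂ → ℂ), VM ρ r (fun x => Complex.exp (Complex.I * φ x)) (t, w) e E ∧
      VM ρ r p (t, w) e P := by
  set N : ℕ := j + j' with hN
  have hNr : (N : ℝ) = j + j' := by rw [hN]; push_cast; ring
  have hNc : (N : ℂ) = j + j' := by rw [hN]; push_cast; ring
  have hρ := hL.ρ_pos
  set e : ℝ := min (c / (16 * (N + 1))) (r1 / 2) with he
  have hN1 : (0 : ℝ) < N + 1 := by positivity
  have he0 : 0 < e := lt_min (by positivity) (by linarith)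
  have hee : (N + 1) * e ≤ c / 16 := by
    have : e ≤ c / (16 * (N + 1)) := min_le_left _ _
    calc (N + 1) * e ≤ (N + 1) * (c / (16 * (N + 1))) := by gcongr
      _ = c / 16 := by field_simp
  have her : e ≤ r1 / 2 := min_le_right _ _
  have h3' : (N : ℝ) * |w.im| ≤ c / 4 := by rw [hNr]; exact h3
  -- the change of variables
  set Φ : ℂ × ℂ → ℂ × ℂ := fun y => (y.1 - (j : ℂ) * y.2, y.2) with hΦ
  set Ψ : ℂ × ℂ → ℂ × ℂ := fun x => (x.1 + (j : ℂ) * x.2, x.2) with hΨ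
  have hΦc : Continuous Φ := by fun_prop
  have hΨc : Continuous Ψ := by fun_prop
  have hΦΨ : ∀ x, Φ (Ψ x) = x := fun x => by simp [hΦ, hΨ]
  have hΨΦ : ∀ y, Ψ (Φ y) = y := fun y => by simp [hΦ, hΨ]
  set Ω : Set (ℂ × ℂ) := Ψ ⁻¹' Tube t w e with hΩ
  have hΩo : IsOpen Ω := (isOpen_Tube t w e).preimage hΨc
  have hΩi : Ω = Φ '' Tube t w e :=
    (Set.image_eq_preimage_of_inverse (f := Φ) (g := Ψ) hΨΦ hΦΨ ▸ rfl)
  have hΩc : IsPreconnected Ω := by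
    rw [hΩi]
    exact (convex_Tube t w e).isPreconnected.image _ hΦc.continuousOn
  have hzA : ∀ x ∈ Ω, x ∈ Zone h0 ga c r1 := by
    intro x hx
    have h := zone_mem (g := ga) (h0 := h0) (s := -(j : ℝ)) hc hee her he0 (by
      rw [abs_neg, abs_of_nonneg (Nat.cast_nonneg j), hNr]
      linarith [(Nat.cast_nonneg j' : (0 : ℝ) ≤ j')])
      (by convert h1 using 2; ring) h3' h5 h6 hx
    have h7 : ((Ψ x).1 + ((-(j : ℝ) : ℝ) : ℂ) * (Ψ x).2, (Ψ x).2) = x := by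
      simp [hΨ]
    rwa [h7] at h
  have hzB : ∀ x ∈ Ω, (x.1 + (N : ℂ) * x.2, x.2) ∈ Zone h0 gb c r1 := by
    intro x hx
    have h := zone_mem (g := gb) (h0 := h0) (s := (j' : ℝ)) hc hee her he0 (by
      rw [abs_of_nonneg (Nat.cast_nonneg j'), hNr]
      linarith [(Nat.cast_nonneg j : (0 : ℝ) ≤ j)]) h2 h3' h5 h6 hx
    have h7 : ((Ψ x).1 + ((j' : ℝ) : ℂ) * (Ψ x).2, (Ψ x).2) = (x.1 + (N : ℂ) * x.2, x.2) := by
      simp only [hΨ, hNc, Complex.ofReal_natCast]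
      congr 1
      ring
    rwa [h7] at h
  -- base point
  set x0 : ℂ × ℂ := ((t.re : ℂ) - (j : ℂ) * w, w) with hx0
  have hy0 : ((t.re : ℂ), w) ∈ Tube t w e := base_mem_Tube (x := (t, w)) he0 h4
  have hΨx0 : Ψ x0 = ((t.re : ℂ), w) := by simp [hΨ, hx0]
  have hΦy0 : Φ ((t.re : ℂ), w) = x0 := rfl
  have hx0Ω : x0 ∈ Ω := by
    rw [hΩ, mem_preimage, hΨx0]; exact hy0
  have hwr : ‖w‖ < r := by linarith
  have hj0 : (0 : ℝ) ≤ j := Nat.cast_nonneg j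
  have hj0' : (0 : ℝ) ≤ j' := Nat.cast_nonneg j'
  have hwim : 0 ≤ |w.im| := abs_nonneg _
  have hx0P : x0 ∈ PD ρ r := by
    refine ⟨?_, hwr⟩
    have : x0.1.im = -(j * w.im) := by simp [hx0]
    rw [this, abs_neg, abs_mul, abs_of_nonneg hj0]
    nlinarith
  have hx0P' : (x0.1 + (N : ℂ) * x0.2, x0.2) ∈ PD ρ r := by
    refine ⟨?_, hwr⟩
    have : (x0.1 + (N : ℂ) * x0.2).im = j' * w.im := by
      simp only [hx0, hNc, Complex.add_im, Complex.sub_im, Complex.mul_im, Complex.ofReal_im,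
        Complex.natCast_re, Complex.natCast_im, Complex.add_re]
      ring
    show |(x0.1 + (N : ℂ) * x0.2).im| < ρ
    rw [this, abs_mul, abs_of_nonneg hj0']
    nlinarith
  have hsh : Continuous fun x : ℂ × ℂ => (x.1 + (N : ℂ) * x.2, x.2) := by fun_prop
  have hsha : ∀ x : ℂ × ℂ, AnalyticAt ℂ (fun x : ℂ × ℂ => (x.1 + (N : ℂ) * x.2, x.2)) x :=
    fun x => (analyticAt_fst.add (analyticAt_const.mul analyticAt_snd)).prod analyticAt_snd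
  have hexp : ∀ {f : ℂ × ℂ → ℂ} {x : ℂ × ℂ}, AnalyticAt ℂ f x →
      AnalyticAt ℂ (fun x => Complex.exp (Complex.I * f x)) x := fun {f x} hf =>
    (analyticAt_const.mul hf).cexp
  obtain ⟨E0, P0, hEP, hev⟩ := hR q η ρ r B b φ p m₀ hL hna N Ω x0
    ![fun x => Complex.exp (Complex.I * φa x), pa,
      fun x => Complex.exp (Complex.I * φb (x.1 + (N : ℂ) * x.2, x.2)),
      fun x => pb (x.1 + (N : ℂ) * x.2, x.2)] hΩo hΩc hx0Ω hx0P hx0P'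
    (by
      intro i x hx
      have hb1 := hzB x hx
      fin_cases i
      · exact merAt_of_analyticAt (hexp (Za.φ_an x (hzA x hx)))
      · exact merAt_of_analyticAt (Za.p_an x (hzA x hx))
      · exact merAt_of_analyticAt (hexp ((Zb.φ_an _ hb1).comp
          (f := fun x : ℂ × ℂ => (x.1 + (N : ℂ) * x.2, x.2)) (hsha x)))
      · exact merAt_of_analyticAt ((Zb.p_an _ hb1).comp
          (f := fun x : ℂ × ℂ => (x.1 + (N : ℂ) * x.2, x.2)) (hsha x)))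
    (by
      have k1 : ∀ᶠ x in 𝓝 x0, x ∈ Ω := hΩo.mem_nhds hx0Ω
      have k2 : ∀ᶠ x in 𝓝 x0, x ∈ PD ρ r := (isOpen_PD ρ r).mem_nhds hx0P
      have k3 : ∀ᶠ x : ℂ × ℂ in 𝓝 x0, (x.1 + (N : ℂ) * x.2, x.2) ∈ PD ρ r :=
        hsh.continuousAt.eventually ((isOpen_PD ρ r).mem_nhds hx0P')
      filter_upwards [k1, k2, k3] with x m1 m2 m3
      refine ⟨?_, ?_, ?_, ?_⟩
      · show Complex.exp (Complex.I * φa x) = _
        rw [Za.φ_eq x (hzA x m1) m2]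
      · exact Za.p_eq x (hzA x m1) m2
      · show Complex.exp (Complex.I * φb (x.1 + (N : ℂ) * x.2, x.2)) = _
        rw [Zb.φ_eq _ (hzB x m1) m3]
      · exact Zb.p_eq _ (hzB x m1) m3) j (by omega)
  have hLB : ∀ y, LBih Φ Ψ y := fun y =>
    ⟨(analyticAt_fst.sub (analyticAt_const.mul analyticAt_snd)).prod analyticAt_snd,
      hΨc.continuousAt, hΨΦ y, Eventually.of_forall hΦΨ⟩
  have hmem : ∀ y ∈ Tube t w e, Φ y ∈ Ω := fun y hy => by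
    rw [hΩ, mem_preimage, hΨΦ]; exact hy
  have hev' : ∀ᶠ y in 𝓝 (((t.re : ℂ), w) : ℂ × ℂ),
      E0 (Φ y) = Complex.exp (Complex.I * φ y) ∧ P0 (Φ y) = p y := by
    have h7 : Tendsto Φ (𝓝 (((t.re : ℂ), w) : ℂ × ℂ)) (𝓝 x0) := by
      rw [← hΦy0]; exact hΦc.continuousAt
    filter_upwards [h7.eventually hev] with y hy
    have h8 : ((Φ y).1 + (j : ℂ) * (Φ y).2, (Φ y).2) = y := hΨΦ y
    rw [h8] at hy
    exact hy
  have hTP : IsPreconnected (Tube t w e ∩ PD ρ r) :=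
    ((convex_Tube t w e).inter (convex_PD ρ r)).isPreconnected
  have hy0P : ((t.re : ℂ), w) ∈ PD ρ r := ⟨by simpa using hρ, hwr⟩
  have hφa : ∀ y ∈ PD ρ r, AnalyticAt ℂ φ y := fun y hy =>
    Crest.Agent.R266.SCV.analyticOnNhd_of_differentiableOn (isOpen_PD ρ r) hL.φ_diff y hy
  have hpa : ∀ y ∈ PD ρ r, AnalyticAt ℂ p y := fun y hy =>
    Crest.Agent.R266.SCV.analyticOnNhd_of_differentiableOn (isOpen_PD ρ r) hL.p_diff y hy
  refine ⟨e, fun y => E0 (Φ y), fun y => P0 (Φ y), ⟨he0, h4, hwr, ?_, ?_⟩,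
    ⟨he0, h4, hwr, ?_, ?_⟩⟩
  · exact fun y hy => MerAt.comp (hLB y) (hEP _ (hmem y hy)).1
  · intro y hy hyP
    refine rep1_of_preconnected hTP
      (fun z hz => MerAt.comp (hLB z) (hEP _ (hmem z hz.1)).1)
      (fun z hz => merAt_of_analyticAt (hexp (hφa z hz.2))) ⟨hy0, hy0P⟩ ?_ y ⟨hy, hyP⟩
    refine rep_of_analytic ?_
    filter_upwards [hev'] with z hz
    rw [one_mul]; exact hz.1
  · exact fun y hy => MerAt.comp (hLB y) (hEP _ (hmem y hy)).2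
  · intro y hy hyP
    refine rep1_of_preconnected hTP
      (fun z hz => MerAt.comp (hLB z) (hEP _ (hmem z hz.1)).2)
      (fun z hz => merAt_of_analyticAt (hpa z hz.2)) ⟨hy0, hy0P⟩ ?_ y ⟨hy, hyP⟩
    refine rep_of_analytic ?_
    filter_upwards [hev'] with z hz
    rw [one_mul]; exact hz.2

end Crest.Agent.R102.AMer88
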