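import Mathlib
import Crest.Agent.R102.SupDefs_115
import Crest.Agent.R102.Marc_295

/-!
Row 102, T1-B, EDGE / SLOW: selection of a compact `F` with UNIFORM Part II (`E2`) which meets the
(non measurable) mixture set (helper292).

* `e2_closed` : `{e | E2 X L a g ρ η e}` is closed when `X` is open (same constants);
* `E2.mono'`  : change of level, gap, precision, scale;
* **`e2_sel`** : from a non-null set `M` of good widths, ONE level `a`, ONE gap `g`, and for every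
  precision `ρ` an arc `|s - s₁| < δ` and a compact `F` of positive measure with `E2` at all
  `(s, u)`, `u ∈ F`, such that every measurable `A ⊆ F` of positive measure meets `M`;
* **`e2_marc`** : the same with the Marcinkiewicz part `K ⊆ F` of `Marc_295`.
-/

set_option autoImplicit false

open Set Filter Topology Metric Complex MeasureTheory
open scoped ENNReal

noncomputable section

namespace Crest.Agent.R102.Sel292

open Crest.Agent.R102.End613 Crest.Agent.R102.S5 Crest.Agent.R102.Sup115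

variable {X L : Set (ℂ × ℂ)} {a g ρ η : ℝ}

/-- `Half` is open in the base point -/
theorem half_ev {m : ℝ} {e : ℝ × ℝ} {q : ℂ × ℂ} (hq : q ∈ Half e η m) :
    ∀ᶠ e' in 𝓝 e, q ∈ Half e' η m := by
  obtain ⟨h1, h2, h3, h4, h5⟩ := hq
  have c1 : Continuous fun e' : ℝ × ℝ => |q.1.re - e'.1| := by fun_prop
  have c2 : Continuous fun e' : ℝ × ℝ => ‖q.2 - (e'.2 : ℂ)‖ := by fun_prop
  filter_upwards [c1.continuousAt.eventually_lt continuousAt_const h1,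
    c2.continuousAt.eventually_lt continuousAt_const h3] with e' a1 a2
  exact ⟨a1, h2, a2, h4, h5⟩

/-- **Part II at a point is a closed condition in the point** -/
theorem e2_closed (hX : IsOpen X) : IsClosed {e : ℝ × ℝ | E2 X L a g ρ η e} := by
  refine IsSeqClosed.isClosed fun en e hen hlim => ?_
  have half : ∀ {m : ℝ} {Y : Set (ℂ × ℂ)}, (∀ n, Half (en n) η m ⊆ Y) → Half e η m ⊆ Y := by
    intro m Y h q hq
    obtain ⟨n, hn⟩ := (hlim.eventually (half_ev hq)).exists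
    exact h n hn
  refine ⟨half fun n => (hen n).low, half fun n => (hen n).line, ?_⟩
  intro x hx z hz hz0 hzρ
  have c1 : Continuous fun e' : ℝ × ℝ => |x - e'.1| := by fun_prop
  have ev : ∀ᶠ n in atTop, |x - (en n).1| < η :=
    hlim.eventually (c1.continuousAt.eventually_lt continuousAt_const hx)
  obtain ⟨N, hN⟩ := eventually_atTop.1 ev
  have hex : ∀ n : ℕ, ∃ q : ℂ × ℂ, q ∉ X ∧ |q.1.re - (x + a * z.re)| ≤ ρ * ‖z‖ ∧
      ‖q.2 - (((en (n + N)).2 : ℂ) + z)‖ ≤ ρ * ‖z‖ ∧ (a - ρ) * q.2.im ≤ q.1.im ∧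
      q.1.im ≤ (a + ρ) * q.2.im := fun n => (hen (n + N)).dense x (hN _ (by omega)) z hz hz0 hzρ
  choose q q1 q2 q3 q4 q5 using hex
  have hlim' : Tendsto (fun n => en (n + N)) atTop (𝓝 e) := hlim.comp (tendsto_add_atTop_nat N)
  obtain ⟨R, hR⟩ : ∃ R : ℝ, ∀ n, ‖((en (n + N)).2 : ℂ)‖ ≤ R := by
    obtain ⟨R, hR⟩ := (Metric.isBounded_range_of_tendsto _ hlim').exists_norm_le
    refine ⟨R, fun n => ?_⟩
    rw [Complex.norm_real]
    exact (norm_snd_le _).trans (hR _ ⟨n, rfl⟩)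
  -- bounds
  have b2 : ∀ n, ‖(q n).2‖ ≤ R + ‖z‖ + ρ * ‖z‖ := by
    intro n
    calc ‖(q n).2‖ = ‖((q n).2 - (((en (n + N)).2 : ℂ) + z)) + (((en (n + N)).2 : ℂ) + z)‖ := by
          congr 1; ring
      _ ≤ ‖(q n).2 - (((en (n + N)).2 : ℂ) + z)‖ + ‖((en (n + N)).2 : ℂ) + z‖ := norm_add_le _ _
      _ ≤ ρ * ‖z‖ + (‖((en (n + N)).2 : ℂ)‖ + ‖z‖) := add_le_add (q3 n) (norm_add_le _ _)
      _ ≤ R + ‖z‖ + ρ * ‖z‖ := by linarith [hR n]
  set R2 : ℝ := R + ‖z‖ + ρ * ‖z‖ with hR2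
  have hR2' : 0 ≤ R2 := (norm_nonneg _).trans (b2 0)
  have b1 : ∀ n, ‖(q n).1‖ ≤ (|x + a * z.re| + ρ * ‖z‖) + (|a - ρ| + |a + ρ|) * R2 := by
    intro n
    have e1 : |(q n).1.re| ≤ |x + a * z.re| + ρ * ‖z‖ := by
      have h1 := abs_add_le ((q n).1.re - (x + a * z.re)) (x + a * z.re)
      rw [sub_add_cancel] at h1
      linarith [q2 n]
    have e2 : |(q n).1.im| ≤ (|a - ρ| + |a + ρ|) * R2 := by
      have hw : |(q n).2.im| ≤ R2 := (Complex.abs_im_le_norm _).trans (b2 n)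
      have h1 : |(a - ρ) * (q n).2.im| ≤ |a - ρ| * R2 := by
        rw [abs_mul]; exact mul_le_mul_of_nonneg_left hw (abs_nonneg _)
      have h2 : |(a + ρ) * (q n).2.im| ≤ |a + ρ| * R2 := by
        rw [abs_mul]; exact mul_le_mul_of_nonneg_left hw (abs_nonneg _)
      have h3 : 0 ≤ |a - ρ| * R2 := mul_nonneg (abs_nonneg _) hR2'
      have h4 : 0 ≤ |a + ρ| * R2 := mul_nonneg (abs_nonneg _) hR2'
      rw [abs_le]
      constructor
      · linarith [q4 n, neg_abs_le ((a - ρ) * (q n).2.im)]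
      · linarith [q5 n, le_abs_self ((a + ρ) * (q n).2.im)]
    exact (Complex.norm_le_abs_re_add_abs_im _).trans (add_le_add e1 e2)
  have hb : ∀ n, q n ∈ closedBall (0 : ℂ × ℂ)
      (max ((|x + a * z.re| + ρ * ‖z‖) + (|a - ρ| + |a + ρ|) * R2) R2) := by
    intro n
    rw [mem_closedBall_zero_iff]
    exact max_le_max (b1 n) (b2 n)
  obtain ⟨p, -, φ, hφ, hp⟩ := tendsto_subseq_of_bounded isBounded_closedBall hb
  have hφ' : Tendsto (fun n => en (φ n + N)) atTop (𝓝 e) := hlim'.comp hφ.tendsto_atTop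
  have k1 : Continuous fun y : (ℂ × ℂ) × (ℝ × ℝ) => |y.1.1.re - (x + a * z.re)| := by fun_prop
  have k2 : Continuous fun y : (ℂ × ℂ) × (ℝ × ℝ) => ‖y.1.2 - ((y.2.2 : ℂ) + z)‖ := by fun_prop
  have k3 : Continuous fun y : (ℂ × ℂ) × (ℝ × ℝ) => (a - ρ) * y.1.2.im := by fun_prop
  have k4 : Continuous fun y : (ℂ × ℂ) × (ℝ × ℝ) => (a + ρ) * y.1.2.im := by fun_prop
  have k5 : Continuous fun y : (ℂ × ℂ) × (ℝ × ℝ) => y.1.1.im := by fun_prop
  have hpair : Tendsto (fun n => (q (φ n), en (φ n + N))) atTop (𝓝 (p, e)) :=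
    (show Tendsto (fun n => q (φ n)) atTop (𝓝 p) from hp).prodMk_nhds hφ'
  refine ⟨p, ?_, ?_, ?_, ?_, ?_⟩
  · exact hX.isClosed_compl.mem_of_tendsto (show Tendsto (fun n => q (φ n)) atTop (𝓝 p) from hp)
      (Eventually.of_forall fun n => q1 (φ n))
  · exact le_of_tendsto ((k1.tendsto (p, e)).comp hpair) (Eventually.of_forall fun n => q2 (φ n))
  · exact le_of_tendsto ((k2.tendsto (p, e)).comp hpair) (Eventually.of_forall fun n => q3 (φ n))
  · exact le_of_tendsto_of_tendsto ((k3.tendsto (p, e)).comp hpair) ((k5.tendsto (p, e)).comp hpair)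
      (Eventually.of_forall fun n => q4 (φ n))
  · exact le_of_tendsto_of_tendsto ((k5.tendsto (p, e)).comp hpair) ((k4.tendsto (p, e)).comp hpair)
      (Eventually.of_forall fun n => q5 (φ n))

/-- smaller scale -/
theorem half_mono {e : ℝ × ℝ} {η η' m m' : ℝ} (h : η ≤ η') (hm : m ≤ m') :
    Half e η m ⊆ Half e η' m' := by
  rintro q ⟨h1, h2, h3, h4, h5⟩
  exact ⟨by linarith, by linarith, by linarith, h4,
    h5.trans_le (mul_le_mul_of_nonneg_right hm h4.le)⟩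

/-- change of level, gap, precision and scale -/
theorem e2_mono {a' g' ρ' η' : ℝ} {e : ℝ × ℝ} (h : E2 X L a' g' ρ' η' e) (hρ' : 0 ≤ ρ')
    (hρ : 4 * ρ' ≤ ρ) (ha : |a' - a| ≤ ρ') (hg : a + g ≤ a' + g') (hη : η ≤ η') :
    E2 X L a g ρ η e := by
  rw [abs_le] at ha
  refine ⟨(half_mono hη (by linarith)).trans h.low, (half_mono hη hg).trans h.line, ?_⟩
  intro x hx z hz hz0 hzρ
  have hn := norm_nonneg z
  have h1 : ρ' * ‖z‖ ≤ z.im / 4 := by nlinarith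
  obtain ⟨q, q1, q2, q3, q4, q5⟩ := h.dense x (by linarith) z (by linarith) hz0 (by linarith)
  have hq : 0 < q.2.im := by
    have h2 : |(q.2 - ((e.2 : ℂ) + z)).im| ≤ ρ' * ‖z‖ := (Complex.abs_im_le_norm _).trans q3
    rw [abs_le] at h2
    simp only [sub_im, add_im, ofReal_im, zero_add] at h2
    linarith [h2.1]
  refine ⟨q, q1, ?_, q3.trans (by nlinarith), ?_, ?_⟩
  · have h3 : |(a' - a) * z.re| ≤ ρ' * ‖z‖ := by
      rw [abs_mul]
      exact mul_le_mul (abs_le.2 ha) (Complex.abs_re_le_norm z) (abs_nonneg _) hρ'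
    have h4 : q.1.re - (x + a * z.re) = (q.1.re - (x + a' * z.re)) + (a' - a) * z.re := by ring
    rw [h4]
    refine (abs_add_le _ _).trans ?_
    nlinarith
  · refine le_trans ?_ q4
    exact mul_le_mul_of_nonneg_right (by linarith) hq.le
  · refine q5.trans ?_
    exact mul_le_mul_of_nonneg_right (by linarith) hq.le

/-- a non-null set covered by countably many pieces has a non-null piece -/
theorem exists_piece {M : Set ℝ} (hM : volume M ≠ 0) {ι : Type*} [Countable ι] {N : ι → Set ℝ}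
    (h : M ⊆ ⋃ i, N i) : ∃ i, volume (M ∩ N i) ≠ 0 := by
  by_contra hcon
  push Not at hcon
  apply hM
  have h1 : M = ⋃ i, M ∩ N i := by
    rw [← inter_iUnion]
    exact (inter_eq_left.2 h).symm
  rw [h1]
  exact measure_iUnion_null hcon

/-- a level all of whose neighbourhoods are non-null -/
theorem exists_level {M : Set ℝ} (hM : volume M ≠ 0) {f : ℝ → ℝ} {A : ℝ}
    (hf : ∀ u ∈ M, f u ∈ Icc 0 A) :
    ∃ a ∈ Icc 0 A, ∀ ε > 0, volume (M ∩ {u | |f u - a| < ε}) ≠ 0 := by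
  by_contra hcon
  push Not at hcon
  apply hM
  have h : volume (M ∩ {u | f u ∈ Icc 0 A}) = 0 := by
    refine (isCompact_Icc (a := (0 : ℝ)) (b := A)).induction_on
      (p := fun t => volume (M ∩ {u | f u ∈ t}) = 0) (by simp) ?_ ?_ ?_
    · intro s t hst ht
      refine measure_mono_null ?_ ht
      exact fun u hu => ⟨hu.1, hst hu.2⟩
    · intro s t hs ht
      refine measure_mono_null ?_ (measure_union_null hs ht)
      rintro u ⟨hu, hu2 | hu2⟩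
      · exact Or.inl ⟨hu, hu2⟩
      · exact Or.inr ⟨hu, hu2⟩
    · intro x hx
      obtain ⟨ε, hε, h0⟩ := hcon x hx
      refine ⟨ball x ε, mem_nhdsWithin_of_mem_nhds (ball_mem_nhds x hε), ?_⟩
      refine measure_mono_null ?_ h0
      rintro u ⟨hu, hu2⟩
      refine ⟨hu, ?_⟩
      simpa [Real.dist_eq] using hu2
  refine measure_mono_null ?_ h
  exact fun u hu => ⟨hu, hf u hu⟩

/-- inside the measurable hull of a non-null set `N` : a compact set of positive measure in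
`closure N`, all of whose measurable parts of positive measure meet `N` -/
theorem exists_core {N O : Set ℝ} (hN : volume N ≠ 0) (hO : MeasurableSet O) (hNO : N ⊆ O) :
    ∃ F, IsCompact F ∧ 0 < volume F ∧ F ⊆ closure N ∧ F ⊆ O ∧
      ∀ A ⊆ F, MeasurableSet A → 0 < volume A → (A ∩ N).Nonempty := by
  set H := toMeasurable volume N with hH
  have hm : MeasurableSet (H ∩ closure N ∩ O) :=
    ((measurableSet_toMeasurable _ _).inter isClosed_closure.measurableSet).inter hO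
  have hpos : 0 < volume (H ∩ closure N ∩ O) := by
    refine lt_of_lt_of_le (pos_iff_ne_zero.2 hN) (measure_mono fun x hx => ?_)
    exact ⟨⟨subset_toMeasurable _ _ hx, subset_closure hx⟩, hNO hx⟩
  obtain ⟨F, hF, hFc, hFp⟩ := hm.exists_lt_isCompact hpos
  refine ⟨F, hFc, hFp, fun x hx => (hF hx).1.2, fun x hx => (hF hx).2, fun A hA hAm hAp => ?_⟩
  have h1 : volume (H ∩ A) = volume (N ∩ A) := Measure.measure_toMeasurable_inter_of_sFinite hAm N
  have h2 : H ∩ A = A := inter_eq_right.2 fun x hx => (hF (hA hx)).1.1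
  rw [h2] at h1
  rw [h1] at hAp
  obtain ⟨x, hx⟩ := nonempty_of_measure_ne_zero hAp.ne'
  exact ⟨x, hx.2, hx.1⟩

/-- **selection** -/
theorem e2_sel (hX : IsOpen X) {M O : Set ℝ} (hM : volume M ≠ 0) (hO : MeasurableSet O)
    (hMO : M ⊆ O) {Q : ℝ → ℝ → Prop}
    (hgood : ∀ u ∈ M, ∃ s₀ a₀ g₀ : ℝ, GoodU X L u s₀ a₀ g₀ ∧ Q u s₀) :
    ∃ a g : ℝ, 0 ≤ a ∧ 0 < g ∧ ∀ ρ > 0, ∃ s₁ δ : ℝ, 0 < δ ∧ ∃ F : Set ℝ, IsCompact F ∧
      0 < volume F ∧ F ⊆ O ∧ (∀ u ∈ F, ∀ s : ℝ, |s - s₁| < δ → E2 X L a g ρ δ (s, u)) ∧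
      ∀ A ⊆ F, MeasurableSet A → 0 < volume A →
        ∃ u ∈ A ∩ M, ∃ s₀ : ℝ, |s₀ - s₁| < δ / 2 ∧ Q u s₀ := by
  choose! s0 a0 g0 hG hQ using hgood
  -- bounded level, gap bounded below
  obtain ⟨n, hn⟩ := exists_piece (N := fun n : ℕ => {u | 1 / ((n : ℝ) + 1) ≤ g0 u ∧ a0 u ≤ n}) hM
    (by
      intro u hu
      obtain ⟨n1, hn1⟩ := exists_nat_one_div_lt (hG u hu).2.1
      obtain ⟨n2, hn2⟩ := exists_nat_ge (a0 u)
      refine mem_iUnion.2 ⟨max n1 n2, ?_, ?_⟩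
      · refine le_trans ?_ hn1.le
        apply one_div_le_one_div_of_le (by positivity)
        have : (n1 : ℝ) ≤ ((max n1 n2 : ℕ) : ℝ) := by exact_mod_cast le_max_left _ _
        linarith
      · refine hn2.trans ?_
        exact_mod_cast le_max_right _ _)
  set M1 : Set ℝ := M ∩ {u | 1 / ((n : ℝ) + 1) ≤ g0 u ∧ a0 u ≤ n} with hM1
  obtain ⟨a, ha, hlev⟩ := exists_level (f := a0) (A := n) hn
    (fun u hu => ⟨(hG u hu.1).1, hu.2.2⟩)
  set γ : ℝ := 1 / ((n : ℝ) + 1) with hγ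
  have hγ0 : 0 < γ := by positivity
  refine ⟨a, γ / 2, ha.1, by positivity, fun ρ hρ => ?_⟩
  set ρ' : ℝ := min ρ γ / 4 with hρ'
  have hρ'0 : 0 < ρ' := by rw [hρ']; positivity
  have hρ'1 : 4 * ρ' ≤ ρ := by rw [hρ']; linarith [min_le_left ρ γ]
  have hρ'2 : ρ' ≤ γ / 4 := by rw [hρ']; linarith [min_le_right ρ γ]
  have hM2 := hlev ρ' hρ'0
  set M2 : Set ℝ := M1 ∩ {u | |a0 u - a| < ρ'} with hM2d
  have hδ : ∀ u ∈ M2, ∃ δ > 0, ∀ s : ℝ, |s - s0 u| < δ → E2 X L (a0 u) (g0 u) ρ' δ (s, u) :=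
    fun u hu => (hG u hu.1.1).2.2 ρ' hρ'0
  choose! dl dl0 dlE using hδ
  obtain ⟨⟨k, s₁⟩, hk⟩ := exists_piece (ι := ℕ × ℚ)
    (N := fun i : ℕ × ℚ => {u | 2 / ((i.1 : ℝ) + 1) ≤ dl u ∧
      |s0 u - i.2| < 1 / ((i.1 : ℝ) + 1) / 2}) hM2
    (by
      intro u hu
      obtain ⟨k, hk⟩ := exists_nat_one_div_lt (show (0 : ℝ) < dl u / 2 from half_pos (dl0 u hu))
      have hk0 : (0 : ℝ) < 1 / ((k : ℝ) + 1) / 2 := by positivity
      obtain ⟨q, hq1, hq2⟩ := exists_rat_btwn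
        (show s0 u - 1 / ((k : ℝ) + 1) / 2 < s0 u + 1 / ((k : ℝ) + 1) / 2 by linarith)
      refine mem_iUnion.2 ⟨(k, q), ?_, ?_⟩
      · have h1 : 2 / ((k : ℝ) + 1) = 2 * (1 / ((k : ℝ) + 1)) := by ring
        rw [h1]
        linarith
      · rw [abs_lt]
        constructor <;> linarith)
  set N : Set ℝ := M2 ∩ {u | 2 / ((k : ℝ) + 1) ≤ dl u ∧ |s0 u - s₁| < 1 / ((k : ℝ) + 1) / 2}
    with hN
  have hNM : ∀ u ∈ N, u ∈ M := fun u hu => hu.1.1.1
  obtain ⟨F, hFc, hFp, hFN, hFO, hFA⟩ := exists_core hk hO (fun u hu => hMO (hNM u hu))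
  have hδ0 : (0 : ℝ) < 1 / ((k : ℝ) + 1) := by positivity
  refine ⟨s₁, 1 / ((k : ℝ) + 1), hδ0, F, hFc, hFp, hFO, ?_, ?_⟩
  · intro u hu s hs
    have hcl : IsClosed {u : ℝ | E2 X L a (γ / 2) ρ (1 / ((k : ℝ) + 1)) (s, u)} :=
      (e2_closed hX).preimage (by fun_prop : Continuous fun u : ℝ => (s, u))
    refine closure_minimal (fun v hv => ?_) hcl (hFN hu)
    have h1 : 2 / ((k : ℝ) + 1) = 2 * (1 / ((k : ℝ) + 1)) := by ring
    have h2 := hv.2.1
    rw [h1] at h2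
    have h3 := abs_lt.1 hv.2.2
    have h4 := abs_lt.1 hs
    have h5 := dlE v hv.1 s (by rw [abs_lt]; constructor <;> linarith)
    have h6 : |a0 v - a| < ρ' := hv.1.2
    have h7 := abs_lt.1 h6
    have h8 : γ ≤ g0 v := hv.1.1.2.1
    exact e2_mono h5 hρ'0.le hρ'1 h6.le (by linarith) (by linarith)
  · intro A hA hAm hAp
    obtain ⟨u, hu, huN⟩ := hFA A hA hAm hAp
    exact ⟨u, ⟨hu, hNM u huN⟩, s0 u, huN.2.2, hQ u (hNM u huN)⟩

/-- **selection with the Marcinkiewicz part** -/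
theorem e2_marc (hX : IsOpen X) {M O : Set ℝ} (hM : volume M ≠ 0) (hO : MeasurableSet O)
    (hMO : M ⊆ O) {Q : ℝ → ℝ → Prop}
    (hgood : ∀ u ∈ M, ∃ s₀ a₀ g₀ : ℝ, GoodU X L u s₀ a₀ g₀ ∧ Q u s₀) :
    ∃ a g : ℝ, 0 ≤ a ∧ 0 < g ∧ ∀ ρ > 0, ∀ ε > 0, ∃ s₁ δ : ℝ, 0 < δ ∧ ∃ F K : Set ℝ,
      IsCompact F ∧ IsCompact K ∧ K ⊆ F ∧ 0 < volume K ∧ F ⊆ O ∧
      (∀ u ∈ F, ∀ s : ℝ, |s - s₁| < δ → E2 X L a g ρ δ (s, u)) ∧
      (∃ r₁ > 0, ∀ u ∈ K, ∫⁻ t in Ioo (-r₁) r₁,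
        ENNReal.ofReal (infDist (u + t) F / t ^ 2) ≤ ENNReal.ofReal ε) ∧
      ∃ u ∈ K ∩ M, ∃ s₀ : ℝ, |s₀ - s₁| < δ / 2 ∧ Q u s₀ := by
  obtain ⟨a, g, ha, hg, h⟩ := e2_sel hX hM hO hMO hgood
  refine ⟨a, g, ha, hg, fun ρ hρ ε hε => ?_⟩
  obtain ⟨s₁, δ, hδ, F, hFc, hFp, hFO, hE, hA⟩ := h ρ hρ
  obtain ⟨K, hKF, hKc, hKp, r₁, hr₁, hK⟩ := Marc295.marc hFc.isClosed hFp hε
  exact ⟨s₁, δ, hδ, F, K, hFc, hKc, hKF, hKp, hFO, hE, ⟨r₁, hr₁, hK⟩,
    hA K hKF hKc.isClosed.measurableSet hKp⟩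

end Crest.Agent.R102.Sel292
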