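import Crest.Agent.R102.Blow_971
import Crest.Agent.R102.RootSch_909
import Crest.Agent.R102.ChainGen_864

/-!
Row 102, T1-B, EDGE, SIDE (helper669), one-variable part 1: zero count, quotients, lower bounds of
`sup |Y|` on small balls, chains of balls.
-/

set_option autoImplicit false

open Set Filter Metric Complex Topology

namespace Crest.Agent.R102.Side669

/-- division by a zero: sup bound on the sphere -/
theorem dslope_sphere {Y : ℂ → ℂ} {c z1 : ℂ} {R M : ℝ} (hR : 0 < R) (hz1 : ‖z1 - c‖ ≤ R / 4)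
    (hY0 : Y z1 = 0) (hM : ∀ z ∈ sphere c R, ‖Y z‖ ≤ M) :
    ∀ z ∈ sphere c R, ‖dslope Y z1 z‖ ≤ M / (3 * R / 4) := by
  intro z hz
  have hzc : ‖z - c‖ = R := by rwa [mem_sphere, dist_eq_norm] at hz
  have h1 : 3 * R / 4 ≤ ‖z - z1‖ := by
    have : ‖z - c‖ ≤ ‖z - z1‖ + ‖z1 - c‖ := by
      calc ‖z - c‖ = ‖(z - z1) + (z1 - c)‖ := by congr 1; ring
        _ ≤ _ := norm_add_le _ _
    linarith
  have h2 : (z - z1) * dslope Y z1 z = Y z := by
    have := sub_smul_dslope Y z1 z
    rw [smul_eq_mul, hY0, sub_zero] at this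
    exact this
  have h3 : ‖z - z1‖ * ‖dslope Y z1 z‖ = ‖Y z‖ := by rw [← norm_mul, h2]
  have h4 := hM z hz
  rw [le_div_iff₀ (by positivity)]
  nlinarith [norm_nonneg (dslope Y z1 z)]

theorem dslope_center {Y : ℂ → ℂ} {c z1 : ℂ} {R m : ℝ} (hR : 0 < R) (hz1 : ‖z1 - c‖ ≤ R / 4)
    (hY0 : Y z1 = 0) (hm : m ≤ ‖Y c‖) : m / (R / 4) ≤ ‖dslope Y z1 c‖ := by
  have h2 : (c - z1) * dslope Y z1 c = Y c := by
    have := sub_smul_dslope Y z1 c
    rw [smul_eq_mul, hY0, sub_zero] at this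
    exact this
  have h3 : ‖c - z1‖ * ‖dslope Y z1 c‖ = ‖Y c‖ := by rw [← norm_mul, h2]
  rw [norm_sub_rev] at h3
  rw [div_le_iff₀ (by positivity)]
  nlinarith [norm_nonneg (dslope Y z1 c)]

theorem dslope_diff {Y : ℂ → ℂ} {c z1 : ℂ} {R' : ℝ} (hz1 : z1 ∈ ball c R')
    (hY : DifferentiableOn ℂ Y (ball c R')) : DifferentiableOn ℂ (dslope Y z1) (ball c R') :=
  (Complex.differentiableOn_dslope (isOpen_ball.mem_nhds hz1)).2 hY

theorem le_of_sphere {Y : ℂ → ℂ} {c : ℂ} {R R' M : ℝ} (hR : 0 < R) (hRR : R < R')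
    (hY : DifferentiableOn ℂ Y (ball c R')) (hM : ∀ z ∈ sphere c R, ‖Y z‖ ≤ M) :
    ∀ z ∈ closedBall c R, ‖Y z‖ ≤ M := by
  intro z hz
  have h1 : DiffContOnCl ℂ Y (ball c R) :=
    DifferentiableOn.diffContOnCl (by
      rw [closure_ball c hR.ne']
      exact hY.mono (closedBall_subset_ball hRR))
  refine Complex.norm_le_of_forall_mem_frontier_norm_le isBounded_ball h1 ?_ ?_
  · intro w hw
    rw [frontier_ball c hR.ne'] at hw
    exact hM w hw
  · rwa [closure_ball c hR.ne']

/-- **zero count** -/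
theorem zero_count {c : ℂ} {R R' : ℝ} (hR : 0 < R) (hRR : R < R') :
    ∀ (n : ℕ) (Y : ℂ → ℂ) (M m : ℝ) (Zs : Finset ℂ), DifferentiableOn ℂ Y (ball c R') →
      (∀ z ∈ sphere c R, ‖Y z‖ ≤ M) → m ≤ ‖Y c‖ → 
      (∀ z ∈ Zs, ‖z - c‖ ≤ R / 4 ∧ Y z = 0) → Zs.card = n → 3 ^ n * m ≤ M := by
  intro n
  induction n with
  | zero =>
    intro Y M m Zs hY hM hm _ _
    rw [pow_zero, one_mul]
    exact hm.trans (le_of_sphere hR hRR hY hM c (mem_closedBall_self hR.le))
  | succ n ih =>
    intro Y M m Zs hY hM hm hZ hc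
    obtain ⟨z1, hz1⟩ : Zs.Nonempty := by
      rw [← Finset.card_pos]; omega
    obtain ⟨hz1c, hz10⟩ := hZ z1 hz1
    have hz1b : z1 ∈ ball c R' := by
      rw [mem_ball, dist_eq_norm]; linarith
    have h := ih (dslope Y z1) (M / (3 * R / 4)) (m / (R / 4)) (Zs.erase z1)
      (dslope_diff hz1b hY) (dslope_sphere hR hz1c hz10 hM) (dslope_center hR hz1c hz10 hm) ?_ ?_
    · have e1 : (3 : ℝ) ^ n * (m / (R / 4)) = (3 ^ (n + 1) * m) / (3 * R / 4) := by
        rw [pow_succ]; field_simp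
      rw [e1, div_le_div_iff_of_pos_right (by positivity)] at h
      exact h
    · intro z hz
      obtain ⟨hne, hzZ⟩ := Finset.mem_erase.1 hz
      refine ⟨(hZ z hzZ).1, ?_⟩
      have h2 : (z - z1) * dslope Y z1 z = Y z := by
        have := sub_smul_dslope Y z1 z
        rw [smul_eq_mul, hz10, sub_zero] at this
        exact this
      rw [(hZ z hzZ).2] at h2
      exact (mul_eq_zero.1 h2).resolve_left (sub_ne_zero.2 hne)
    · rw [Finset.card_erase_of_mem hz1, hc]; rfl

/-- the zeros in a ball as a finset -/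
theorem zeros_finset {Y : ℂ → ℂ} {c : ℂ} {R R' M m : ℝ} (hR : 0 < R) (hRR : R < R')
    (hY : DifferentiableOn ℂ Y (ball c R')) (hM : ∀ z ∈ sphere c R, ‖Y z‖ ≤ M) (hm0 : 0 < m)
    (hm : m ≤ ‖Y c‖) {N : ℕ} (hN : M < 3 ^ (N + 1) * m) :
    ∃ Zs : Finset ℂ, Zs.card ≤ N ∧ ∀ z, ‖z - c‖ ≤ R / 4 → Y z = 0 → z ∈ Zs := by
  classical
  set S : Set ℂ := {z | ‖z - c‖ ≤ R / 4 ∧ Y z = 0} with hS
  have key : ∀ Zs : Finset ℂ, (Zs : Set ℂ) ⊆ S → Zs.card ≤ N := by
    intro Zs hZ
    by_contra hcon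
    push Not at hcon
    have h1 := zero_count hR hRR Zs.card Y M m Zs hY hM hm (fun z hz => hZ hz) rfl
    have h2 : (3 : ℝ) ^ (N + 1) ≤ 3 ^ Zs.card := pow_le_pow_right₀ (by norm_num) hcon
    have h3 := mul_le_mul_of_nonneg_right h2 hm0.le
    linarith
  have hfin : S.Finite := by
    by_contra hinf
    obtain ⟨t, ht, htc⟩ := Set.Infinite.exists_subset_card_eq hinf (N + 1)
    have := key t ht
    omega
  refine ⟨hfin.toFinset, key _ (by simp), ?_⟩
  intro z h1 h2
  simp [hS, h1, h2]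

/-- **Harnack for a zero free bounded function** -/
theorem harnack_low {Y : ℂ → ℂ} {c : ℂ} {r M m : ℝ} (hr : 0 < r)
    (hY : DifferentiableOn ℂ Y (ball c r)) (h0 : ∀ z ∈ ball c r, Y z ≠ 0)
    (hM : ∀ z ∈ ball c r, ‖Y z‖ ≤ M) (hm0 : 0 < m) (hm : m ≤ ‖Y c‖) :
    ∀ z, ‖z - c‖ ≤ r / 2 → M * (m / M) ^ 3 ≤ ‖Y z‖ := by
  intro z hz
  have hcb : c ∈ ball c r := mem_ball_self hr
  have hMp : 0 < M := hm0.trans_le (hm.trans (hM c hcb))
  obtain ⟨L, hL, hexp⟩ := M948.exists_log hY h0
  have hre : ∀ w ∈ ball c r, (L w).re = Real.log ‖Y w‖ := by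
    intro w hw
    rw [← hexp w hw, Complex.norm_exp, Real.log_exp]
  have hzb : z ∈ ball c r := by rw [mem_ball, dist_eq_norm]; linarith
  have key : ∀ ε : ℝ, 0 < ε → Real.log M + ε - (L z).re ≤ 3 * (Real.log M + ε - (L c).re) := by
    intro ε hε
    have hd : DifferentiableOn ℂ (fun w => I * (((Real.log M + ε : ℝ) : ℂ) - L w)) (ball c r) :=
      (hL.const_sub _).const_mul I
    have him : ∀ w, (I * (((Real.log M + ε : ℝ) : ℂ) - L w)).im = Real.log M + ε - (L w).re := by
      intro w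
      rw [Complex.I_mul_im, Complex.sub_re, Complex.ofReal_re]
    have hpos : ∀ w ∈ ball c r, 0 < (I * (((Real.log M + ε : ℝ) : ℂ) - L w)).im := by
      intro w hw
      rw [him, hre w hw]
      have h1 : Real.log ‖Y w‖ ≤ Real.log M :=
        Real.log_le_log (norm_pos_iff.2 (h0 w hw)) (hM w hw)
      linarith
    have h := Chain864.step_im hd hpos c z r hr le_rfl hz
    simp only [him] at h
    exact h
  have h2 : Real.log M - (L z).re ≤ 3 * (Real.log M - (L c).re) := by
    refine le_of_forall_pos_le_add fun ε hε => ?_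
    have := key (ε / 2) (by positivity)
    linarith
  rw [hre z hzb, hre c hcb] at h2
  have h3 : Real.log m ≤ Real.log ‖Y c‖ := Real.log_le_log hm0 hm
  have h4 : Real.log (M * (m / M) ^ 3) ≤ Real.log ‖Y z‖ := by
    rw [Real.log_mul hMp.ne' (by positivity), Real.log_pow, Real.log_div hm0.ne' hMp.ne']
    push_cast
    linarith
  exact (Real.log_le_log_iff (by positivity) (norm_pos_iff.2 (h0 z hzb))).1 h4

/-- **quotient lemma** -/
theorem quot {c : ℂ} {R R' : ℝ} (hR : 0 < R) (hRR : R < R') {F : ℂ → ℂ}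
    (hF : DifferentiableOn ℂ F (ball c R')) :
    ∀ (n : ℕ) (Y G : ℂ → ℂ) (M M' m : ℝ), DifferentiableOn ℂ Y (ball c R') →
      DifferentiableOn ℂ G (ball c R') → (∀ z ∈ ball c R', F z * Y z = G z) →
      (∀ z ∈ sphere c R, ‖Y z‖ ≤ M) → (∀ z ∈ sphere c R, ‖G z‖ ≤ M') → 0 < m → m ≤ ‖Y c‖ →
      M < 3 ^ n * m → ∀ z, ‖z - c‖ ≤ R / 8 → ‖F z‖ ≤ M' / M * (M / m) ^ 3 := by
  intro n
  induction n with
  | zero =>
    intro Y G M M' m hY hG hFY hM hM' hm0 hm hn
    exfalso
    rw [pow_zero, one_mul] at hn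
    have := hm.trans (le_of_sphere hR hRR hY hM c (mem_closedBall_self hR.le))
    linarith
  | succ n ih =>
    intro Y G M M' m hY hG hFY hM hM' hm0 hm hn z hz
    have hMcl := le_of_sphere hR hRR hY hM
    have hM'cl := le_of_sphere hR hRR hG hM'
    have hmM : m ≤ M := hm.trans (hMcl c (mem_closedBall_self hR.le))
    have hMp : 0 < M := hm0.trans_le hmM
    have hM'0 : 0 ≤ M' := (norm_nonneg _).trans (hM'cl c (mem_closedBall_self hR.le))
    by_cases hzero : ∃ z1, ‖z1 - c‖ < R / 4 ∧ Y z1 = 0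
    · obtain ⟨z1, hz1c, hz10⟩ := hzero
      have hz1b : z1 ∈ ball c R' := by
        rw [mem_ball, dist_eq_norm]; linarith
      have hG0 : G z1 = 0 := by rw [← hFY z1 hz1b, hz10, mul_zero]
      have hFd : ∀ w ∈ ball c R', F w * dslope Y z1 w = dslope G z1 w := by
        intro w hw
        by_cases hne : w = z1
        · subst hne
          rw [dslope_same, dslope_same]
          have h1 : DifferentiableAt ℂ F w := (hF w hw).differentiableAt (isOpen_ball.mem_nhds hw)
          have h2 : DifferentiableAt ℂ Y w := (hY w hw).differentiableAt (isOpen_ball.mem_nhds hw)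
          have h3 : G =ᶠ[𝓝 w] fun x => F x * Y x := by
            filter_upwards [isOpen_ball.mem_nhds hw] with x hx
            exact (hFY x hx).symm
          rw [h3.deriv_eq]
          have h4 := (h1.hasDerivAt.mul h2.hasDerivAt).deriv
          rw [hz10, mul_zero, zero_add] at h4
          exact h4.symm
        · rw [dslope_of_ne _ hne, dslope_of_ne _ hne, slope_def_field, slope_def_field, hz10, hG0,
            sub_zero, sub_zero, ← hFY w hw]
          ring
      have h := ih (dslope Y z1) (dslope G z1) (M / (3 * R / 4)) (M' / (3 * R / 4)) (m / (R / 4))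
        (dslope_diff hz1b hY) (dslope_diff hz1b hG) hFd (dslope_sphere hR hz1c.le hz10 hM)
        (dslope_sphere hR hz1c.le hG0 hM') (by positivity) (dslope_center hR hz1c.le hz10 hm) ?_ z hz
      · refine h.trans ?_
        have e1 : M' / (3 * R / 4) / (M / (3 * R / 4)) = M' / M := by
          field_simp
        have e2 : M / (3 * R / 4) / (m / (R / 4)) = M / m / 3 := by
          field_simp
        rw [e1, e2]
        have h5 : M / m / 3 ≤ M / m := by
          have : 0 ≤ M / m := by positivity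
          linarith
        gcongr
      · have e1 : (3 : ℝ) ^ n * (m / (R / 4)) = (3 ^ (n + 1) * m) / (3 * R / 4) := by
          rw [pow_succ]; field_simp
        rw [e1]
        exact div_lt_div_of_pos_right hn (by positivity)
    · push Not at hzero
      have hsub : ball c (R / 4) ⊆ ball c R' := ball_subset_ball (by linarith)
      have h := harnack_low (by positivity : (0 : ℝ) < R / 4) (hY.mono hsub)
        (fun w hw => hzero w (by rwa [mem_ball, dist_eq_norm] at hw))
        (fun w hw => hMcl w (ball_subset_closedBall (ball_subset_ball (by linarith) hw)))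
        hm0 hm z (by linarith)
      have hzb : z ∈ ball c R' := by rw [mem_ball, dist_eq_norm]; linarith
      have hzcl : z ∈ closedBall c R := by rw [mem_closedBall, dist_eq_norm]; linarith
      have h1 : ‖F z‖ * ‖Y z‖ ≤ M' := by
        rw [← norm_mul, hFY z hzb]; exact hM'cl z hzcl
      have h2 : 0 < M * (m / M) ^ 3 := by positivity
      have h3 : ‖F z‖ ≤ M' / (M * (m / M) ^ 3) := by
        rw [le_div_iff₀ h2]
        exact (mul_le_mul_of_nonneg_left h (norm_nonneg _)).trans h1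
      refine h3.trans (le_of_eq ?_)
      field_simp

end Crest.Agent.R102.Side669
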