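import Crest.Agent.R102.SideA_669

/-!
Row 102, T1-B, EDGE, SIDE (helper669), one-variable part 2: chains of balls along a segment.
-/

set_option autoImplicit false

open Set Filter Metric Complex Topology

namespace Crest.Agent.R102.Side669

open Crest.Agent.R102.G864

/-- **lower bounds propagate** (three circles) -/
theorem lower_step {Y : ℂ → ℂ} {c a : ℂ} {R M ℓ : ℝ} (hR : 0 < R)
    (hY : DifferentiableOn ℂ Y (ball c R)) (hM : ∀ z ∈ ball c R, ‖Y z‖ ≤ M) (hℓ : 1 ≤ ℓ)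
    (ha : ‖a - c‖ ≤ R / 2) (hMp : 0 < M) (hlow : M * Real.exp (-ℓ) ≤ ‖Y a‖) :
    ∃ a', ‖a' - c‖ ≤ R / 100 ∧ M * Real.exp (-(26 * ℓ)) ≤ ‖Y a'‖ := by
  by_contra hcon
  push Not at hcon
  obtain ⟨n, hn⟩ : ∃ n : ℕ, n = ⌈ℓ⌉₊ := ⟨_, rfl⟩
  have hn1 : ℓ ≤ n := by rw [hn]; exact Nat.le_ceil ℓ
  have hn2 : (n : ℝ) ≤ ℓ + 1 := by rw [hn]; exact (Nat.ceil_lt_add_one (by linarith)).le
  have h := Blow971.three_circle (f := Y) (c := c) (r0 := R / 100) (r := R / 2) (R := R)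
    (m := M * Real.exp (-(26 * ℓ))) (M := M) (by positivity) (by linarith) (by linarith) hY hM
    (fun z hz => (hcon z (by rwa [mem_closedBall, dist_eq_norm] at hz)).le) (3 * n) ha
  have e1 : R / 2 / (R / 100) = 50 := by field_simp; norm_num
  have e2 : 2 * (R / 2) / (R / 2 + R) = 2 / 3 := by field_simp; norm_num
  rw [e1, e2, pow_mul, pow_mul] at h
  have he1 : Real.exp 1 < 2.72 := lt_trans Real.exp_one_lt_d9 (by norm_num)
  have he2 : 2.7 < Real.exp 1 := lt_trans (by norm_num) Real.exp_one_gt_d9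
  have h50 : ((50 : ℝ) ^ 3) ≤ Real.exp 12 := by
    have : Real.exp 12 = Real.exp 1 ^ 12 := by
      rw [← Real.exp_nat_mul]; norm_num
    rw [this]
    calc (50 : ℝ) ^ 3 ≤ 2.7 ^ 12 := by norm_num
      _ ≤ Real.exp 1 ^ 12 := pow_le_pow_left₀ (by norm_num) he2.le 12
  have h23 : ((2 / 3 : ℝ) ^ 3) < Real.exp (-1) := by
    rw [Real.exp_neg, lt_inv_comm₀ (by norm_num) (Real.exp_pos 1)]
    calc Real.exp 1 < 2.72 := he1
      _ < _ := by norm_num
  have a1 : M * Real.exp (-(26 * ℓ)) * (50 ^ 3) ^ n < M * Real.exp (-ℓ) := by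
    have s1 : ((50 : ℝ) ^ 3) ^ n ≤ Real.exp (12 * (ℓ + 1)) := by
      calc ((50 : ℝ) ^ 3) ^ n ≤ (Real.exp 12) ^ n := pow_le_pow_left₀ (by norm_num) h50 n
        _ = Real.exp (n * 12) := by rw [← Real.exp_nat_mul]
        _ ≤ _ := Real.exp_le_exp.2 (by linarith)
    calc M * Real.exp (-(26 * ℓ)) * (50 ^ 3) ^ n
        ≤ M * Real.exp (-(26 * ℓ)) * Real.exp (12 * (ℓ + 1)) :=
          mul_le_mul_of_nonneg_left s1 (by positivity)
      _ = M * Real.exp (-(26 * ℓ) + 12 * (ℓ + 1)) := by rw [mul_assoc, ← Real.exp_add]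
      _ < M * Real.exp (-ℓ) := by
          apply mul_lt_mul_of_pos_left _ hMp
          apply Real.exp_lt_exp.2
          linarith
  have a2 : M * ((2 / 3) ^ 3) ^ n < M * Real.exp (-ℓ) := by
    apply mul_lt_mul_of_pos_left _ hMp
    have hn0 : n ≠ 0 := by
      rintro rfl
      simp at hn1; linarith
    calc ((2 / 3 : ℝ) ^ 3) ^ n < (Real.exp (-1)) ^ n := pow_lt_pow_left₀ h23 (by norm_num) hn0
      _ = Real.exp (n * (-1)) := by rw [← Real.exp_nat_mul]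
      _ ≤ _ := Real.exp_le_exp.2 (by linarith)
  exact absurd (hlow.trans h) (not_le.2 (max_lt a1 a2))

/-- **abstract chain** -/
theorem chain {δ a C : ℝ} (hδ : 0 < δ) (hδ1 : δ < 1) (ha : 0 < a) (ha1 : a ≤ 1) (hC : 1 ≤ C) :
    ∃ K : ℝ, 1 ≤ K ∧ ∃ p : ℕ, ∀ b : ℝ, 0 < b → b ≤ a → ∀ P : ℝ → ℝ → Prop,
      (∀ x x' Λ : ℝ, 0 ≤ x → x ≤ x' → x' ≤ 1 → x' - x ≤ δ * ((1 - x) * a + x * b) → 1 ≤ Λ →
        P x Λ → P x' (C * Λ)) →
      (∀ x Λ Λ' : ℝ, Λ ≤ Λ' → P x Λ → P x Λ') →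
      ∀ Λ0 : ℝ, 1 ≤ Λ0 → P 0 Λ0 → ∀ x : ℝ, 0 ≤ x → x ≤ 1 → P x (K * (1 / b) ^ p * Λ0) := by
  set κ : ℝ := δ * a with hκ
  have hκ0 : 0 < κ := by positivity
  have hκ1 : κ < 1 := by rw [hκ]; nlinarith
  set p : ℕ := ⌈Real.log C / κ⌉₊ with hp
  have hC0 : 0 < C := by linarith
  refine ⟨C ^ 2 * (1 / δ) ^ p, ?_, p, ?_⟩
  · have h1 : (1 : ℝ) ≤ C ^ 2 := one_le_pow₀ hC
    have h2 : (1 : ℝ) ≤ (1 / δ) ^ p := one_le_pow₀ (by rw [le_div_iff₀ hδ]; linarith)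
    nlinarith
  intro b hb hba P hstep hmono Λ0 hΛ0 hP0
  have hpow1 : ∀ J : ℕ, 1 ≤ C ^ J * Λ0 := fun J => by
    have h1 : (1 : ℝ) ≤ C ^ J := one_le_pow₀ hC
    nlinarith
  have claim : ∀ (J : ℕ) (x : ℝ), 0 ≤ x → x ≤ 1 → (1 - κ) ^ J ≤ 1 - x → P x (C ^ J * Λ0) := by
    intro J
    induction J with
    | zero =>
      intro x hx0 hx1 hx
      rw [pow_zero] at hx
      have : x = 0 := by linarith
      rw [this, pow_zero, one_mul]; exact hP0
    | succ J ih =>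
      intro x hx0 hx1 hx
      have e1 : C ^ (J + 1) * Λ0 = C * (C ^ J * Λ0) := by ring
      rw [e1]
      by_cases hxκ : x ≤ κ
      · refine hstep 0 x (C ^ J * Λ0) le_rfl hx0 hx1 ?_ (hpow1 J) ?_
        · rw [hκ] at hxκ; linarith
        · refine hmono 0 Λ0 _ ?_ hP0
          have h1 : (1 : ℝ) ≤ C ^ J := one_le_pow₀ hC
          nlinarith
      · push Not at hxκ
        have h1κ : 0 < 1 - κ := by linarith
        obtain ⟨y, hy⟩ : ∃ y, y = 1 - (1 - x) / (1 - κ) := ⟨_, rfl⟩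
        have hy1 : (1 - y) * (1 - κ) = 1 - x := by
          rw [hy]; field_simp; ring
        have hy0 : 0 ≤ y := by
          by_contra hneg
          push Not at hneg
          nlinarith
        have hyx : y ≤ x := by nlinarith
        have hyJ : (1 - κ) ^ J ≤ 1 - y := by
          rw [pow_succ] at hx
          have : (1 - κ) ^ J * (1 - κ) ≤ (1 - y) * (1 - κ) := by rw [hy1]; exact hx
          exact le_of_mul_le_mul_right this h1κ
        refine hstep y x (C ^ J * Λ0) hy0 hyx hx1 ?_ (hpow1 J) (ih y hy0 (by linarith) hyJ)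
        have e2 : x - y = κ * (1 - y) := by linarith
        rw [e2, hκ]
        have : 0 ≤ δ * (y * b) := by positivity
        nlinarith
  obtain ⟨J, hJ⟩ : ∃ J : ℕ, J = ⌈Real.log (1 / (δ * b)) / κ⌉₊ := ⟨_, rfl⟩
  have hδb : 0 < δ * b := by positivity
  have hδb1 : δ * b ≤ 1 := by nlinarith
  have hlog0 : 0 ≤ Real.log (1 / (δ * b)) := Real.log_nonneg (by rw [le_div_iff₀ hδb]; linarith)
  have hJ1 : Real.log (1 / (δ * b)) ≤ κ * J := by
    have := Nat.le_ceil (Real.log (1 / (δ * b)) / κ)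
    rw [← hJ, div_le_iff₀ hκ0] at this
    linarith
  have hJ2 : (J : ℝ) ≤ Real.log (1 / (δ * b)) / κ + 1 := by
    rw [hJ]; exact (Nat.ceil_lt_add_one (by positivity)).le
  have hsmall : (1 - κ) ^ J ≤ δ * b := by
    calc (1 - κ) ^ J ≤ (Real.exp (-κ)) ^ J :=
          pow_le_pow_left₀ (by linarith) (by linarith [Real.add_one_le_exp (-κ)]) J
      _ = Real.exp (J * (-κ)) := by rw [← Real.exp_nat_mul]
      _ ≤ Real.exp (-Real.log (1 / (δ * b))) := Real.exp_le_exp.2 (by linarith)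
      _ = δ * b := by
          rw [Real.exp_neg, Real.exp_log (by positivity)]
          field_simp
  have hCJ : C ^ (J + 1) ≤ C ^ 2 * (1 / δ) ^ p * (1 / b) ^ p := by
    have hlC : 0 ≤ Real.log C := Real.log_nonneg hC
    have h1 : Real.log C * J ≤ p * Real.log (1 / (δ * b)) + Real.log C := by
      have h2 : Real.log C / κ ≤ p := Nat.le_ceil _
      have h3 : Real.log C * J ≤ Real.log C * (Real.log (1 / (δ * b)) / κ + 1) :=
        mul_le_mul_of_nonneg_left hJ2 hlC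
      have h4 : Real.log C * (Real.log (1 / (δ * b)) / κ) =
          Real.log C / κ * Real.log (1 / (δ * b)) := by ring
      have h5 := mul_le_mul_of_nonneg_right h2 hlog0
      nlinarith
    have e1 : C ^ (J + 1) = Real.exp (Real.log C * J + Real.log C) := by
      rw [Real.exp_add, Real.exp_log hC0, mul_comm (Real.log C), Real.exp_nat_mul,
        Real.exp_log hC0, pow_succ]
    have e2 : C ^ 2 * (1 / δ) ^ p * (1 / b) ^ p =
        Real.exp (2 * Real.log C + p * Real.log (1 / (δ * b))) := by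
      rw [Real.exp_add, Real.exp_nat_mul, Real.exp_log (by positivity),
        show (2 : ℝ) * Real.log C = (2 : ℕ) * Real.log C by norm_num, Real.exp_nat_mul,
        Real.exp_log hC0, mul_assoc, ← mul_pow]
      congr 2
      field_simp
    rw [e1, e2]
    apply Real.exp_le_exp.2
    linarith
  intro x hx0 hx1
  have hfin : C ^ (J + 1) * Λ0 ≤ C ^ 2 * (1 / δ) ^ p * (1 / b) ^ p * Λ0 :=
    mul_le_mul_of_nonneg_right hCJ (by linarith)
  refine hmono x _ _ hfin ?_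
  by_cases hxJ : (1 - κ) ^ J ≤ 1 - x
  · refine hmono x _ _ ?_ (claim J x hx0 hx1 hxJ)
    apply mul_le_mul_of_nonneg_right _ (by linarith)
    exact pow_le_pow_right₀ hC (Nat.le_succ J)
  · push Not at hxJ
    have h1κ : (0 : ℝ) ≤ (1 - κ) ^ J := pow_nonneg (by linarith) J
    have h1κ' : (1 - κ) ^ J ≤ 1 := pow_le_one₀ (by linarith) (by linarith)
    obtain ⟨y, hy⟩ : ∃ y, y = 1 - (1 - κ) ^ J := ⟨_, rfl⟩
    have hy0 : 0 ≤ y := by linarith
    have hy1 : y ≤ 1 := by linarith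
    have e1 : C ^ (J + 1) * Λ0 = C * (C ^ J * Λ0) := by ring
    rw [e1]
    refine hstep y x (C ^ J * Λ0) hy0 (by linarith) hx1 ?_ (hpow1 J)
      (claim J y hy0 hy1 (by linarith))
    have h2 : x - y ≤ δ * b := by linarith
    have h3 : b ≤ (1 - y) * a + y * b := by nlinarith
    calc x - y ≤ δ * b := h2
      _ ≤ _ := mul_le_mul_of_nonneg_left h3 hδ.le

/-- the width along the segment -/
def wd (a b x : ℝ) : ℝ := (1 - x) * a + x * b

theorem wd_ge {a b x : ℝ} (hba : b ≤ a) (hx0 : 0 ≤ x) (hx1 : x ≤ 1) : b ≤ wd a b x := by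
  unfold wd; nlinarith

theorem wd_le {a b x : ℝ} (hba : b ≤ a) (hx0 : 0 ≤ x) (hx1 : x ≤ 1) : wd a b x ≤ a := by
  unfold wd; nlinarith

theorem wd_step {a b x x' δ : ℝ} (hb : 0 < b) (ha1 : a ≤ 1) (hx : x ≤ x')
    (h : x' - x ≤ δ * wd a b x) : (1 - δ) * wd a b x ≤ wd a b x' := by
  have e : wd a b x' = wd a b x - (x' - x) * (a - b) := by unfold wd; ring
  have h1 : (x' - x) * (a - b) ≤ (x' - x) * 1 :=
    mul_le_mul_of_nonneg_left (by linarith) (by linarith)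
  rw [e]
  linarith

/-- data on a segment -/
structure Seg (δ0 a b : ℝ) (Y L : ℂ → ℂ) (M : ℝ) : Prop where
  Yd : ∀ x : ℝ, 0 ≤ x → x ≤ 1 → DifferentiableOn ℂ Y (ball (x : ℂ) (δ0 * wd a b x))
  Ld : ∀ x : ℝ, 0 ≤ x → x ≤ 1 → DifferentiableOn ℂ L (ball (x : ℂ) (δ0 * wd a b x))
  YM : ∀ x : ℝ, 0 ≤ x → x ≤ 1 → ∀ z ∈ ball (x : ℂ) (δ0 * wd a b x), ‖Y z‖ ≤ M
  LY : ∀ x : ℝ, 0 ≤ x → x ≤ 1 → ∀ z ∈ ball (x : ℂ) (δ0 * wd a b x), cexp (L z) = 1 → Y z = 0

theorem seg_low {δ0 a : ℝ} (hδ0 : 0 < δ0) (hδ1 : δ0 ≤ 1) (ha : 0 < a) (ha1 : a ≤ 1) :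
    ∃ K : ℝ, 1 ≤ K ∧ ∃ p : ℕ, ∀ b : ℝ, 0 < b → b ≤ a → ∀ (Y L : ℂ → ℂ) (M : ℝ), 0 < M →
      Seg δ0 a b Y L M → ∀ ℓ : ℝ, 1 ≤ ℓ → M * Real.exp (-ℓ) ≤ ‖Y 0‖ → ∀ x : ℝ, 0 ≤ x → x ≤ 1 →
        ∃ a' : ℂ, ‖a' - x‖ ≤ δ0 * wd a b x / 100 ∧
          M * Real.exp (-(K * (1 / b) ^ p * ℓ)) ≤ ‖Y a'‖ := by
  obtain ⟨K, hK, p, H⟩ := chain (δ := δ0 / 10) (a := a) (C := 26) (by positivity) (by linarith) ha
    ha1 (by norm_num)
  refine ⟨K, hK, p, fun b hb hba Y L M hM hS ℓ hℓ h0 => ?_⟩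
  refine H b hb hba (fun x Λ => ∃ a' : ℂ, ‖a' - x‖ ≤ δ0 * wd a b x / 100 ∧
    M * Real.exp (-Λ) ≤ ‖Y a'‖) ?_ ?_ ℓ hℓ ?_
  · rintro x x' Λ hx0 hxx hx1 hst hΛ ⟨a', ha', hYa⟩
    change x' - x ≤ δ0 / 10 * wd a b x at hst
    have hw : 0 < wd a b x := hb.trans_le (wd_ge hba hx0 (by linarith))
    have hw' : 0 < wd a b x' := hb.trans_le (wd_ge hba (by linarith) hx1)
    have hws := wd_step hb ha1 hxx hst
    have h9 : 9 / 10 * wd a b x ≤ wd a b x' := by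
      refine le_trans ?_ hws
      exact mul_le_mul_of_nonneg_right (by linarith) hw.le
    have hR : 0 < δ0 * wd a b x' := by positivity
    have hx'0 : 0 ≤ x' := by linarith
    refine lower_step hR (hS.Yd x' hx'0 hx1) (hS.YM x' hx'0 hx1) hΛ ?_ hM hYa
    have e1 : a' - (x' : ℂ) = (a' - x) - ((x' - x : ℝ) : ℂ) := by push_cast; ring
    rw [e1]
    refine (norm_sub_le _ _).trans ?_
    rw [Complex.norm_real, Real.norm_eq_abs, abs_of_nonneg (by linarith)]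
    have h10 : δ0 * wd a b x ≤ 10 / 9 * (δ0 * wd a b x') := by
      have := mul_le_mul_of_nonneg_left h9 hδ0.le
      linarith
    linarith
  · rintro x Λ Λ' hΛ ⟨a', ha', hYa⟩
    refine ⟨a', ha', le_trans ?_ hYa⟩
    exact mul_le_mul_of_nonneg_left (Real.exp_le_exp.2 (by linarith)) hM.le
  · refine ⟨0, ?_, h0⟩
    have hw : 0 < wd a b 0 := hb.trans_le (wd_ge hba le_rfl zero_le_one)
    simp only [Complex.ofReal_zero, sub_zero, norm_zero]
    positivity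

end Crest.Agent.R102.Side669
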