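import Crest.Agent.R102.SideB_669

/-!
Row 102, T1-B, EDGE, SIDE (helper669), one-variable part 3: two sided bound of `Re L` and of the
oscillation of `L` along a segment, quotient at the end of the segment.
-/

set_option autoImplicit false
set_option linter.unusedVariables false

open Set Filter Metric Complex Topology

namespace Crest.Agent.R102.Side669

open Crest.Agent.R102.G864

/-- zeros of `Y` near `x` -/
theorem seg_zeros {δ0 a b : ℝ} (hδ0 : 0 < δ0) (hb : 0 < b) (hba : b ≤ a) {Y L : ℂ → ℂ} {M : ℝ}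
    (hM : 0 < M) (hS : Seg δ0 a b Y L M) {x ℓ : ℝ} (hx0 : 0 ≤ x) (hx1 : x ≤ 1)
    {a' : ℂ} (ha' : ‖a' - x‖ ≤ δ0 * wd a b x / 100) (hY : M * Real.exp (-ℓ) ≤ ‖Y a'‖)
    {N : ℕ} (hN : ℓ ≤ N) :
    ∃ Zs : Finset ℂ, Zs.card ≤ N ∧ ∀ z ∈ ball (x : ℂ) (δ0 * wd a b x / 10), Y z = 0 → z ∈ Zs := by
  have hw : 0 < wd a b x := hb.trans_le (wd_ge hba hx0 hx1)
  set r : ℝ := δ0 * wd a b x with hr
  have hr0 : 0 < r := by positivity
  have hsub : ball a' (9 / 10 * r) ⊆ ball (x : ℂ) r := by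
    intro z hz
    rw [mem_ball, dist_eq_norm] at hz ⊢
    calc ‖z - x‖ = ‖(z - a') + (a' - x)‖ := by congr 1; ring
      _ ≤ ‖z - a'‖ + ‖a' - x‖ := norm_add_le _ _
      _ < r := by linarith
  have hlt : M < 3 ^ (N + 1) * (M * Real.exp (-ℓ)) := by
    have h1 : Real.exp ℓ < 3 ^ (N + 1) := by
      calc Real.exp ℓ ≤ Real.exp (N * 1) := Real.exp_le_exp.2 (by linarith)
        _ = Real.exp 1 ^ N := by rw [Real.exp_nat_mul]
        _ ≤ 3 ^ N := pow_le_pow_left₀ (Real.exp_pos 1).le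
            (le_trans Real.exp_one_lt_d9.le (by norm_num)) N
        _ < 3 ^ (N + 1) := by
            rw [pow_succ]; nlinarith [pow_pos (by norm_num : (0 : ℝ) < 3) N]
    have h2 : (3 : ℝ) ^ (N + 1) * (M * Real.exp (-ℓ)) = M * (3 ^ (N + 1) / Real.exp ℓ) := by
      rw [Real.exp_neg]; ring
    rw [h2]
    have h3 : 1 < 3 ^ (N + 1) / Real.exp ℓ := by
      rw [one_lt_div (Real.exp_pos ℓ)]; exact h1
    nlinarith
  obtain ⟨Zs, hc, hZ⟩ := zeros_finset (c := a') (R := r / 2) (R' := 9 / 10 * r) (by positivity)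
    (by linarith) ((hS.Yd x hx0 hx1).mono hsub)
    (fun z hz => hS.YM x hx0 hx1 z (hsub (by
      rw [mem_sphere, dist_eq_norm] at hz
      rw [mem_ball, dist_eq_norm, hz]; linarith)))
    (by positivity) hY hlt
  refine ⟨Zs, hc, fun z hz hz0 => hZ z ?_ hz0⟩
  rw [mem_ball, dist_eq_norm] at hz
  calc ‖z - a'‖ = ‖(z - x) - (a' - x)‖ := by congr 1; ring
    _ ≤ ‖z - x‖ + ‖a' - x‖ := norm_sub_le _ _
    _ ≤ r / 2 / 4 := by linarith

/-- one Schottky step on a segment -/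
theorem seg_sch {δ0 a b : ℝ} (hδ0 : 0 < δ0) (hb : 0 < b) (hba : b ≤ a) {Y L : ℂ → ℂ} {M : ℝ}
    (hM : 0 < M) (hS : Seg δ0 a b Y L M) {N : ℕ}
    (hZ : ∀ x : ℝ, 0 ≤ x → x ≤ 1 → ∃ Zs : Finset ℂ, Zs.card ≤ N ∧
      ∀ z ∈ ball (x : ℂ) (δ0 * wd a b x / 10), Y z = 0 → z ∈ Zs) {x : ℝ} (hx0 : 0 ≤ x)
    (hx1 : x ≤ 1) : ∀ z : ℂ, ‖z - x‖ ≤ δ0 * wd a b x / 20 →
      |(L z).re| ≤ KS (1 / 2) * (N + 1 + |(L x).re|) := by
  intro z hz
  have hw : 0 < wd a b x := hb.trans_le (wd_ge hba hx0 hx1)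
  set r : ℝ := δ0 * wd a b x with hr
  have hr0 : 0 < r := by positivity
  obtain ⟨Zs, hc, hZs⟩ := hZ x hx0 hx1
  have hsub : ball (x : ℂ) (r / 10) ⊆ ball (x : ℂ) r := ball_subset_ball (by linarith)
  have h := RootSch909.root_schottky (F := fun w => cexp (L w)) (c := (x : ℂ)) (R := r / 10)
    (by positivity) (((hS.Ld x hx0 hx1).mono hsub).cexp) (fun w _ => Complex.exp_ne_zero _) hc
    (fun w hw1 hw2 => hZs w hw1 (hS.LY x hx0 hx1 w (hsub hw1) hw2)) (θ := 1 / 2) (by norm_num)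
    (by norm_num) z (by
      rw [mem_closedBall, dist_eq_norm]; linarith)
  simp only [Complex.norm_exp, Real.log_exp] at h
  exact h

theorem seg_osc {δ0 a b : ℝ} (hδ0 : 0 < δ0) (hb : 0 < b) (hba : b ≤ a) {Y L : ℂ → ℂ} {M : ℝ}
    (hM : 0 < M) (hS : Seg δ0 a b Y L M) {N : ℕ}
    (hZ : ∀ x : ℝ, 0 ≤ x → x ≤ 1 → ∃ Zs : Finset ℂ, Zs.card ≤ N ∧
      ∀ z ∈ ball (x : ℂ) (δ0 * wd a b x / 10), Y z = 0 → z ∈ Zs) {x : ℝ} (hx0 : 0 ≤ x)
    (hx1 : x ≤ 1) : ∀ z : ℂ, ‖z - x‖ ≤ δ0 * wd a b x / 40 →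
      ‖L z - L x‖ ≤ 2 * (KS (1 / 2) + 1) * (N + 1 + |(L x).re|) := by
  intro z hz
  have hw : 0 < wd a b x := hb.trans_le (wd_ge hba hx0 hx1)
  set r : ℝ := δ0 * wd a b x with hr
  have hr0 : 0 < r := by positivity
  have hKS := KS_pos (1 / 2)
  have hsch := seg_sch hδ0 hb hba hM hS hZ hx0 hx1
  rw [← hr] at hsch
  set S : ℝ := (KS (1 / 2) + 1) * (N + 1 + |(L x).re|) with hSdef
  have hS0 : 0 < S := by positivity
  have hmap : ∀ w ∈ ball (0 : ℂ) (r / 20), (x : ℂ) + w ∈ ball (x : ℂ) r := by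
    intro w hw
    rw [mem_ball, dist_eq_norm, sub_zero] at hw
    rw [mem_ball, dist_eq_norm]
    have : (x : ℂ) + w - x = w := by ring
    rw [this]; linarith
  have hd : DifferentiableOn ℂ (fun w => L ((x : ℂ) + w) - L x) (ball 0 (r / 20)) := by
    have h1 : DifferentiableOn ℂ (fun w : ℂ => (x : ℂ) + w) (ball 0 (r / 20)) := by fun_prop
    exact ((hS.Ld x hx0 hx1).comp h1 hmap).sub_const _
  have hre : MapsTo (fun w => L ((x : ℂ) + w) - L x) (ball 0 (r / 20)) {z | z.re ≤ S} := by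
    intro w hw
    rw [mem_ball, dist_eq_norm, sub_zero] at hw
    have h1 := hsch ((x : ℂ) + w) (by
      have : (x : ℂ) + w - x = w := by ring
      rw [this]; linarith)
    change (L ((x : ℂ) + w) - L x).re ≤ S
    rw [Complex.sub_re]
    have h2 := le_abs_self (L ((x : ℂ) + w)).re
    have h3 := neg_abs_le (L x).re
    have h4 : S = KS (1 / 2) * (N + 1 + |(L x).re|) + (N + 1 + |(L x).re|) := by
      rw [hSdef]; ring
    have h5 : (0 : ℝ) ≤ N := Nat.cast_nonneg N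
    linarith
  have hzz : z - x ∈ ball (0 : ℂ) (r / 20) := by
    rw [mem_ball, dist_eq_norm, sub_zero]; linarith
  have h := Complex.borelCaratheodory_zero hS0 hd hre (by positivity) hzz (by simp)
  have e1 : (x : ℂ) + (z - x) = z := by ring
  simp only [e1] at h
  refine h.trans ?_
  rw [div_le_iff₀ (by linarith)]
  have h6 : ‖z - (x : ℂ)‖ ≤ r / 20 - ‖z - (x : ℂ)‖ := by linarith
  have h7 : 2 * (KS (1 / 2) + 1) * (N + 1 + |(L x).re|) = 2 * S := by rw [hSdef]; ring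
  rw [h7]
  exact mul_le_mul_of_nonneg_left h6 (by positivity)

/-- **main theorem on a segment** -/
theorem seg_main {δ0 a : ℝ} (hδ0 : 0 < δ0) (hδ1 : δ0 ≤ 1) (ha : 0 < a) (ha1 : a ≤ 1) :
    ∃ K : ℝ, 1 ≤ K ∧ ∃ p : ℕ, ∀ b : ℝ, 0 < b → b ≤ a → ∀ (Y L : ℂ → ℂ) (M : ℝ), 0 < M →
      Seg δ0 a b Y L M → ∀ ℓ : ℝ, 1 ≤ ℓ → M * Real.exp (-ℓ) ≤ ‖Y 0‖ →
        (1 + |(L 1).re| + ‖L 1 - L 0‖ ≤ K * (1 / b) ^ p * ℓ * (1 + |(L 0).re|)) ∧
        1 + |(L 0).re| ≤ K * (1 / b) ^ p * ℓ * (1 + |(L 1).re|) := by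
  obtain ⟨K1, hK1, p1, H1⟩ := seg_low hδ0 hδ1 ha ha1
  have hKS := KS_pos (1 / 2)
  obtain ⟨C, hCdef⟩ : ∃ C : ℝ, C = 3 + 3 * KS (1 / 2) := ⟨_, rfl⟩
  obtain ⟨K2, hK2, p2, H2⟩ := chain (δ := δ0 / 40) (a := a) (C := C) (by positivity) (by linarith)
    ha ha1 (by rw [hCdef]; linarith)
  refine ⟨3 * K1 * K2, by nlinarith, p1 + p2, fun b hb hba Y L M hM hS ℓ hℓ h0 => ?_⟩
  have hb1 : b ≤ 1 := hba.trans ha1
  have hib : 1 ≤ 1 / b := by rw [le_div_iff₀ hb]; linarith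
  obtain ⟨ℓ1, hℓ1⟩ : ∃ ℓ1 : ℝ, ℓ1 = K1 * (1 / b) ^ p1 * ℓ := ⟨_, rfl⟩
  have hpp1 : (1 : ℝ) ≤ (1 / b) ^ p1 := one_le_pow₀ hib
  have hpp2 : (1 : ℝ) ≤ (1 / b) ^ p2 := one_le_pow₀ hib
  have hℓ11 : 1 ≤ ℓ1 := by
    rw [hℓ1]
    calc (1 : ℝ) = 1 * 1 * 1 := by norm_num
      _ ≤ _ := by gcongr
  obtain ⟨N, hN⟩ : ∃ N : ℕ, N = ⌈ℓ1⌉₊ := ⟨_, rfl⟩
  have hN1 : ℓ1 ≤ N := by rw [hN]; exact Nat.le_ceil _
  have hN2 : (N : ℝ) ≤ ℓ1 + 1 := by rw [hN]; exact (Nat.ceil_lt_add_one (by linarith)).le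
  have hZ : ∀ x : ℝ, 0 ≤ x → x ≤ 1 → ∃ Zs : Finset ℂ, Zs.card ≤ N ∧
      ∀ z ∈ ball (x : ℂ) (δ0 * wd a b x / 10), Y z = 0 → z ∈ Zs := by
    intro x hx0 hx1
    obtain ⟨a', ha', hYa⟩ := H1 b hb hba Y L M hM hS ℓ hℓ h0 x hx0 hx1
    rw [← hℓ1] at hYa
    exact seg_zeros hδ0 hb hba hM hS hx0 hx1 ha' hYa hN1
  obtain ⟨f, hf⟩ : ∃ f : ℝ → ℝ, f = fun x : ℝ => (N : ℝ) + 1 + |(L x).re| := ⟨_, rfl⟩
  have hf0 : ∀ x, 0 < f x := fun x => by rw [hf]; positivity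
  -- the two one step estimates
  have st1 : ∀ x x' : ℝ, 0 ≤ x → x ≤ x' → x' ≤ 1 → x' - x ≤ δ0 / 40 * wd a b x →
      f x' ≤ (1 + KS (1 / 2)) * f x ∧ ‖L x' - L x‖ ≤ 2 * (KS (1 / 2) + 1) * f x ∧
      f x ≤ (1 + KS (1 / 2)) * f x' := by
    intro x x' hx0 hxx hx1 hst
    have hx01 : x ≤ 1 := hxx.trans hx1
    have hx'0 : 0 ≤ x' := hx0.trans hxx
    have hw : 0 < wd a b x := hb.trans_le (wd_ge hba hx0 hx01)
    have hw' : 0 < wd a b x' := hb.trans_le (wd_ge hba hx'0 hx1)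
    have hws := wd_step hb ha1 hxx hst
    have h9 : 1 / 2 * wd a b x ≤ wd a b x' := by
      refine le_trans ?_ hws
      exact mul_le_mul_of_nonneg_right (by linarith) hw.le
    have e1 : ‖((x' : ℝ) : ℂ) - x‖ = x' - x := by
      rw [← Complex.ofReal_sub, Complex.norm_real, Real.norm_eq_abs, abs_of_nonneg (by linarith)]
    have e2 : ‖((x : ℝ) : ℂ) - x'‖ = x' - x := by rw [norm_sub_rev, e1]
    have hp1 : 0 < δ0 * wd a b x := by positivity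
    have h10 : δ0 * wd a b x ≤ 2 * (δ0 * wd a b x') := by
      have := mul_le_mul_of_nonneg_left h9 hδ0.le
      linarith
    have A := seg_sch hδ0 hb hba hM hS hZ hx0 hx01 (x' : ℂ) (by rw [e1]; linarith)
    have B := seg_osc hδ0 hb hba hM hS hZ hx0 hx01 (x' : ℂ) (by rw [e1]; linarith)
    have D := seg_sch hδ0 hb hba hM hS hZ hx'0 hx1 (x : ℂ) (by rw [e2]; linarith)
    have hN0 : (0 : ℝ) ≤ N := Nat.cast_nonneg N
    rw [hf]
    simp only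
    have a1 := abs_nonneg (L x).re
    have a2 := abs_nonneg (L x').re
    refine ⟨by nlinarith, B, by nlinarith⟩
  have hf1 : f 1 = (N : ℝ) + 1 + |(L 1).re| := by rw [hf]; simp
  have hf00 : f 0 = (N : ℝ) + 1 + |(L 0).re| := by rw [hf]; simp
  have hN3 : (N : ℝ) + 1 ≤ 3 * ℓ1 := by linarith
  have fin0 : ∀ t : ℝ, 0 ≤ t → (N : ℝ) + 1 + t ≤ 3 * ℓ1 * (1 + t) := by
    intro t ht
    have : t ≤ 3 * ℓ1 * t := by nlinarith
    nlinarith
  have e0 : 3 * K1 * K2 * (1 / b) ^ (p1 + p2) * ℓ = K2 * (1 / b) ^ p2 * (3 * ℓ1) := by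
    rw [hℓ1, pow_add]; ring
  constructor
  · have h := H2 b hb hba (fun x Λ => f x + ‖L x - L 0‖ ≤ Λ * f 0) ?_ ?_ 1 le_rfl ?_ 1 zero_le_one
      le_rfl
    · simp only [Complex.ofReal_one, mul_one] at h
      rw [e0]
      have h1 : 1 + |(L 1).re| + ‖L 1 - L 0‖ ≤ f 1 + ‖L 1 - L 0‖ := by
        rw [hf1]; have : (0 : ℝ) ≤ N := Nat.cast_nonneg N
        linarith
      refine h1.trans (h.trans ?_)
      rw [mul_assoc (K2 * (1 / b) ^ p2)]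
      refine mul_le_mul_of_nonneg_left ?_ (by positivity)
      rw [hf00]
      exact fin0 _ (abs_nonneg _)
    · intro x x' Λ hx0 hxx hx1 hst hΛ hP
      obtain ⟨s1, s2, s3⟩ := st1 x x' hx0 hxx hx1 hst
      have h3 : ‖L x' - L 0‖ ≤ ‖L x' - L x‖ + ‖L x - L 0‖ := by
        calc ‖L x' - L 0‖ = ‖(L x' - L x) + (L x - L 0)‖ := by congr 1; ring
          _ ≤ _ := norm_add_le _ _
      have h4 : C * (f x + ‖L x - L 0‖) ≤ C * (Λ * f 0) :=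
        mul_le_mul_of_nonneg_left hP (by rw [hCdef]; positivity)
      have h5 : f x' + ‖L x' - L 0‖ ≤ C * (f x + ‖L x - L 0‖) := by
        rw [hCdef]
        have := norm_nonneg (L x - L 0)
        nlinarith [hf0 x]
      rw [mul_assoc]
      exact h5.trans h4
    · intro x Λ Λ' hΛ hP
      exact hP.trans (mul_le_mul_of_nonneg_right hΛ (hf0 0).le)
    · simp
  · have h := H2 b hb hba (fun x Λ => f 0 ≤ Λ * f x) ?_ ?_ 1 le_rfl ?_ 1 zero_le_one le_rfl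
    · rw [e0]
      have h1 : 1 + |(L 0).re| ≤ f 0 := by
        rw [hf00]; have : (0 : ℝ) ≤ N := Nat.cast_nonneg N
        linarith
      refine h1.trans (h.trans ?_)
      rw [mul_one, mul_assoc (K2 * (1 / b) ^ p2)]
      refine mul_le_mul_of_nonneg_left ?_ (by positivity)
      rw [hf1]
      exact fin0 _ (abs_nonneg _)
    · intro x x' Λ hx0 hxx hx1 hst hΛ hP
      obtain ⟨s1, s2, s3⟩ := st1 x x' hx0 hxx hx1 hst
      have h4 : Λ * f x ≤ Λ * ((1 + KS (1 / 2)) * f x') :=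
        mul_le_mul_of_nonneg_left s3 (by linarith)
      have h5 : Λ * ((1 + KS (1 / 2)) * f x') ≤ C * Λ * f x' := by
        have h6 : (1 + KS (1 / 2)) ≤ C := by rw [hCdef]; linarith
        have h7 : 0 ≤ Λ * f x' := mul_nonneg (by linarith) (hf0 x').le
        calc Λ * ((1 + KS (1 / 2)) * f x') = (1 + KS (1 / 2)) * (Λ * f x') := by ring
          _ ≤ C * (Λ * f x') := mul_le_mul_of_nonneg_right h6 h7
          _ = _ := by ring
      exact hP.trans (h4.trans h5)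
    · intro x Λ Λ' hΛ hP
      exact hP.trans (mul_le_mul_of_nonneg_right hΛ (hf0 x).le)
    · simp

/-- **quotient at the end of the segment** -/
theorem seg_quot {δ0 a : ℝ} (hδ0 : 0 < δ0) (hδ1 : δ0 ≤ 1) (ha : 0 < a) (ha1 : a ≤ 1) :
    ∃ K : ℝ, 1 ≤ K ∧ ∃ p : ℕ, ∀ b : ℝ, 0 < b → b ≤ a → ∀ (Y L : ℂ → ℂ) (M : ℝ), 0 < M →
      Seg δ0 a b Y L M → ∀ ℓ : ℝ, 1 ≤ ℓ → M * Real.exp (-ℓ) ≤ ‖Y 0‖ →
      ∀ (F G : ℂ → ℂ) (M' : ℝ), DifferentiableOn ℂ F (ball 1 (δ0 * b)) →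
        DifferentiableOn ℂ G (ball 1 (δ0 * b)) → (∀ z ∈ ball (1 : ℂ) (δ0 * b), F z * Y z = G z) →
        (∀ z ∈ ball (1 : ℂ) (δ0 * b), ‖G z‖ ≤ M') →
        ‖F 1‖ ≤ M' / M * Real.exp (K * (1 / b) ^ p * ℓ) := by
  obtain ⟨K1, hK1, p1, H1⟩ := seg_low hδ0 hδ1 ha ha1
  refine ⟨3 * K1, by linarith, p1, fun b hb hba Y L M hM hS ℓ hℓ h0 F G M' hF hG hFG hM' => ?_⟩
  obtain ⟨a', ha', hYa⟩ := H1 b hb hba Y L M hM hS ℓ hℓ h0 1 zero_le_one le_rfl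
  obtain ⟨ℓ1, hℓ1⟩ : ∃ ℓ1 : ℝ, ℓ1 = K1 * (1 / b) ^ p1 * ℓ := ⟨_, rfl⟩
  rw [← hℓ1] at hYa
  have ew : wd a b 1 = b := by unfold wd; ring
  have hYd := hS.Yd 1 zero_le_one le_rfl
  have hYM := hS.YM 1 zero_le_one le_rfl
  rw [ew] at ha' hYd hYM
  rw [Complex.ofReal_one] at ha' hYd hYM
  have hr : 0 < δ0 * b := by positivity
  set r : ℝ := δ0 * b with hrdef
  have hsub : ball a' (9 / 10 * r) ⊆ ball (1 : ℂ) r := by
    intro z hz
    rw [mem_ball, dist_eq_norm] at hz ⊢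
    calc ‖z - 1‖ = ‖(z - a') + (a' - 1)‖ := by congr 1; ring
      _ ≤ ‖z - a'‖ + ‖a' - 1‖ := norm_add_le _ _
      _ < r := by linarith
  have hsph : ∀ z ∈ sphere a' (r / 2), z ∈ ball (1 : ℂ) r := by
    intro z hz
    apply hsub
    rw [mem_sphere, dist_eq_norm] at hz
    rw [mem_ball, dist_eq_norm, hz]; linarith
  obtain ⟨n, hn⟩ : ∃ n : ℕ, Real.exp ℓ1 < 3 ^ n := pow_unbounded_of_one_lt _ (by norm_num)
  have h := quot (c := a') (R := r / 2) (R' := 9 / 10 * r) (by positivity) (by linarith)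
    (hF.mono hsub) n Y G M M' (M * Real.exp (-ℓ1)) (hYd.mono hsub) (hG.mono hsub)
    (fun z hz => hFG z (hsub hz)) (fun z hz => hYM z (hsph z hz)) (fun z hz => hM' z (hsph z hz))
    (by positivity) hYa ?_ 1 ?_
  · refine h.trans (le_of_eq ?_)
    have e1 : M / (M * Real.exp (-ℓ1)) = Real.exp ℓ1 := by
      rw [Real.exp_neg]; field_simp
    rw [e1, ← Real.exp_nat_mul, hℓ1]
    congr 2
    push_cast
    ring
  · have e2 : (3 : ℝ) ^ n * (M * Real.exp (-ℓ1)) = M * (3 ^ n / Real.exp ℓ1) := by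
      rw [Real.exp_neg]; ring
    rw [e2]
    have h3 : 1 < 3 ^ n / Real.exp ℓ1 := by
      rw [one_lt_div (Real.exp_pos ℓ1)]; exact hn
    nlinarith
  · rw [norm_sub_rev]; linarith

end Crest.Agent.R102.Side669
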