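import Crest.Agent.R102.Chain_859

/-!
# R102/SideCut_249: side windows of a kernel record, below the cut radius (pure real analysis)

`side_cut` : at a window `(p, s)` which is a record for the kernel of 859, all windows `(p', s')`
with `s, s', dist p p' ≤ T` and `e p s * (T/s)^(1/2) * (T/s')^2` small are in `V` and their label is
within `6 Cl A * e p s * (T/s)^(1/2) * (T/s')^2` of the label of `(p, s)`.
`hside_cut` : the hypothesis `hside` of the disc estimate, with the cut radius `r = s / e p s`.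
-/

set_option autoImplicit false

open Set Filter Topology Metric

namespace Crest.Agent.R102.SideCut249

open Crest.Agent.R102.Chain859

variable {E : Type*} [NormedAddCommGroup E]

/-- record inequality in the form used below -/
lemma e_le {b : ℝ × ℝ → ℝ → E} {b0 : E} {e : ℝ × ℝ → ℝ → ℝ} {A k s1 : ℝ} {p0 p : ℝ × ℝ} {s : ℝ}
    (he : ∀ p s, 0 ≤ e p s) (hs : 0 < s)
    (hrec : ∀ p' s', V b b0 s1 p0 k p' s' → rho (1 / 2) p s p' s' * e p' s' ≤ A * e p s)
    {p' : ℝ × ℝ} {t T : ℝ} (hV : V b b0 s1 p0 k p' t) (hsT : s ≤ T) (htT : t ≤ T)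
    (hd : dist p p' ≤ T) :
    e p' t ≤ A * e p s * (T / s) ^ (1 / 2 : ℝ) * (T / t) ^ 2 := by
  have t0 : 0 < t := hV.1
  have T0 : 0 < T := hs.trans_le hsT
  have h1 := hrec p' t hV
  have h2 := le_rho (th := 1 / 2) (p := p) (p' := p') (by norm_num) hs t0
    (max_le (max_le hsT htT) hd)
  have h3 : (s / T) ^ (1 / 2 : ℝ) * (t / T) ^ 2 * e p' t ≤ A * e p s :=
    (mul_le_mul_of_nonneg_right h2 (he p' t)).trans h1
  have h4 : (s / T) ^ (1 / 2 : ℝ) * (T / s) ^ (1 / 2 : ℝ) = 1 := by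
    rw [← Real.mul_rpow (by positivity) (by positivity)]
    have : s / T * (T / s) = 1 := by field_simp
    rw [this, Real.one_rpow]
  have h5 : (t / T) ^ 2 * (T / t) ^ 2 = 1 := by
    rw [← mul_pow]
    have : t / T * (T / t) = 1 := by field_simp
    rw [this, one_pow]
  have h6 : 0 ≤ (T / s) ^ (1 / 2 : ℝ) * (T / t) ^ 2 := by positivity
  calc e p' t = ((s / T) ^ (1 / 2 : ℝ) * (T / s) ^ (1 / 2 : ℝ)) * ((t / T) ^ 2 * (T / t) ^ 2) *
        e p' t := by rw [h4, h5]; ring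
    _ = ((s / T) ^ (1 / 2 : ℝ) * (t / T) ^ 2 * e p' t) * ((T / s) ^ (1 / 2 : ℝ) * (T / t) ^ 2) := by
        ring
    _ ≤ (A * e p s) * ((T / s) ^ (1 / 2 : ℝ) * (T / t) ^ 2) := mul_le_mul_of_nonneg_right h3 h6
    _ = _ := by ring

lemma half_rpow_le : ((1 : ℝ) / 2) ^ (1 / 2 : ℝ) ≤ 5 / 7 := by
  rw [← Real.sqrt_eq_rpow]
  rw [show (5 : ℝ) / 7 = Real.sqrt ((5 / 7) ^ 2) by rw [Real.sqrt_sq (by norm_num)]]
  exact Real.sqrt_le_sqrt (by norm_num)

/-- vertical displacement above the record window -/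
lemma up {b : ℝ → E} {e : ℝ → ℝ} {Cl M s T : ℝ} (hCl : 0 ≤ Cl) (hM : 0 ≤ M) (hs : 0 < s)
    (hv : ∀ t t', s ≤ t → t ≤ T → t / 2 ≤ t' → t' ≤ t → ‖b t - b t'‖ ≤ Cl * e t)
    (he : ∀ t, s ≤ t → t ≤ T → e t ≤ M * (t / s) ^ (1 / 2 : ℝ)) :
    ∀ n : ℕ, ∀ t, s ≤ t → t ≤ T → t ≤ 2 ^ n * s →
      ‖b t - b s‖ ≤ 4 * (Cl * M) * (t / s) ^ (1 / 2 : ℝ) := by
  intro n
  induction n with
  | zero =>
    intro t h1 h2 h3
    have : t = s := le_antisymm (by simpa using h3) h1
    subst this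
    rw [sub_self, norm_zero]
    positivity
  | succ n ih =>
    intro t h1 h2 h3
    have t0 : 0 < t := hs.trans_le h1
    have h4 : Cl * e t ≤ Cl * M * (t / s) ^ (1 / 2 : ℝ) := by
      rw [mul_assoc]
      exact mul_le_mul_of_nonneg_left (he t h1 h2) hCl
    have h0 : 0 ≤ Cl * M * (t / s) ^ (1 / 2 : ℝ) := by positivity
    rcases le_total t (2 * s) with h | h
    · have h5 := hv t s h1 h2 (by linarith) h1
      linarith
    · have h5 := hv t (t / 2) h1 h2 le_rfl (by linarith)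
      have h6 := ih (t / 2) (by linarith) (by linarith) (by rw [pow_succ] at h3; linarith)
      have h7 : (t / 2 / s) ^ (1 / 2 : ℝ) = (1 / 2 : ℝ) ^ (1 / 2 : ℝ) * (t / s) ^ (1 / 2 : ℝ) := by
        rw [← Real.mul_rpow (by norm_num) (by positivity)]
        congr 1
        field_simp
      rw [h7] at h6
      have h8 : (1 / 2 : ℝ) ^ (1 / 2 : ℝ) * (t / s) ^ (1 / 2 : ℝ) ≤
          5 / 7 * (t / s) ^ (1 / 2 : ℝ) :=
        mul_le_mul_of_nonneg_right half_rpow_le (by positivity)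
      have h9 : 4 * (Cl * M) * ((1 / 2 : ℝ) ^ (1 / 2 : ℝ) * (t / s) ^ (1 / 2 : ℝ)) ≤
          4 * (Cl * M) * (5 / 7 * (t / s) ^ (1 / 2 : ℝ)) :=
        mul_le_mul_of_nonneg_left h8 (by positivity)
      calc ‖b t - b s‖ ≤ ‖b t - b (t / 2)‖ + ‖b (t / 2) - b s‖ := norm_sub_le_norm_sub_add_norm_sub _ _ _
        _ ≤ Cl * M * (t / s) ^ (1 / 2 : ℝ) + 4 * (Cl * M) * (5 / 7 * (t / s) ^ (1 / 2 : ℝ)) := by
            linarith
        _ ≤ _ := by nlinarith

/-- **side windows of a record** -/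
theorem side_cut {b : ℝ × ℝ → ℝ → E} {b0 : E} {e : ℝ × ℝ → ℝ → ℝ} {Cl A k s1 : ℝ}
    {p0 p : ℝ × ℝ} {s : ℝ} (hCl : 0 ≤ Cl) (hA : 0 ≤ A) (hk : 0 ≤ k)
    (he : ∀ p s, 0 ≤ e p s)
    (hvert : ∀ p s s', V b b0 s1 p0 k p s → e p s < 1 → s / 2 ≤ s' → s' ≤ s →
      ‖b p s - b p s'‖ ≤ Cl * e p s)
    (hlat : ∀ p p' s, V b b0 s1 p0 k p s → e p s < 1 → dist p p' ≤ s →
      ‖b p s - b p' s‖ ≤ Cl * (dist p p' / s) * e p s)
    (hW : V b b0 s1 p0 (3 * k / 4) p s) (hp : dist p p0 ≤ s1 / 2)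
    (hcol : ∀ t, s ≤ t → t ≤ s1 → e p t < 1)
    (hrec : ∀ p' s', V b b0 s1 p0 k p' s' → rho (1 / 2) p s p' s' * e p' s' ≤ A * e p s)
    {p' : ℝ × ℝ} {s' T : ℝ} (hsT : s ≤ T) (hs' : 0 < s') (hs'T : s' ≤ T) (hd : dist p p' ≤ T)
    (hT1 : 2 * T ≤ s1)
    (hsm1 : Cl * A * e p s * (T / s) ^ (1 / 2 : ℝ) * (T / s') ^ 2 ≤ k / 8)
    (hsm2 : A * e p s * (T / s) ^ (1 / 2 : ℝ) * (T / s') ^ 2 < 1) :
    V b b0 s1 p0 k p' s' ∧
      ‖b p' s' - b p s‖ ≤ 6 * (Cl * A * e p s * (T / s) ^ (1 / 2 : ℝ) * (T / s') ^ 2) := by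
  have s0 : 0 < s := hW.1
  have T0 : 0 < T := s0.trans_le hsT
  have es := he p s
  have hk34 : 3 * k / 4 ≤ k := by linarith
  set G : ℝ := A * e p s * (T / s) ^ (1 / 2 : ℝ) with hG
  have hG0 : 0 ≤ G := by positivity
  have hG1 : Cl * A * e p s * (T / s) ^ (1 / 2 : ℝ) = Cl * G := by rw [hG]; ring
  rw [hG1] at hsm1 ⊢
  have hTs' : 1 ≤ T / s' := by rw [one_le_div hs']; exact hs'T
  have hCG : 0 ≤ Cl * G := by positivity
  have hCGk : Cl * G ≤ k / 8 := by
    refine le_trans ?_ hsm1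
    have : 1 ≤ (T / s') ^ 2 := one_le_pow₀ hTs'
    nlinarith
  -- the column over `p`
  have colV : ∀ t, s ≤ t → t ≤ s1 → V b b0 s1 p0 k p t := fun t h1 h2 => V_up hW hk34 h1 h2
  have cole : ∀ t, s ≤ t → t ≤ s1 → e p t ≤ A * e p s * (t / s) ^ (1 / 2 : ℝ) := by
    intro t h1 h2
    have t0 : 0 < t := s0.trans_le h1
    have h3 := e_le he s0 hrec (colV t h1 h2) h1 le_rfl (by rw [dist_self]; exact t0.le)
    rw [div_self t0.ne', one_pow, mul_one] at h3
    exact h3
  have hup : ‖b p T - b p s‖ ≤ 4 * (Cl * G) := by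
    obtain ⟨n, hn⟩ := pow_unbounded_of_one_lt (T / s) (show (1 : ℝ) < 2 by norm_num)
    have h1 := up (b := b p) (e := e p) (M := A * e p s) (T := T) hCl (by positivity) s0
      (fun t t' h1 h2 h3 h4 => hvert p t t' (colV t h1 (by linarith)) (hcol t h1 (by linarith)) h3 h4)
      (fun t h1 h2 => cole t h1 (by linarith)) n T hsT le_rfl
      (by rw [div_lt_iff₀ s0] at hn; exact hn.le)
    refine h1.trans (le_of_eq ?_)
    rw [hG]; ring
  -- lateral displacement at the scales above `T`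
  have lat : ∀ t, T ≤ t → t ≤ s1 → ‖b p t - b p' t‖ ≤ Cl * G := by
    intro t h1 h2
    have t0 : 0 < t := T0.trans_le h1
    have h3 := hlat p p' t (colV t (hsT.trans h1) h2) (hcol t (hsT.trans h1) h2) (hd.trans h1)
    have h4 := cole t (hsT.trans h1) h2
    have h5 : dist p p' / t ≤ T / t := by gcongr
    have h6 : T / t * (t / s) ^ (1 / 2 : ℝ) ≤ (T / s) ^ (1 / 2 : ℝ) := by
      have q1 : t / s = (t / T) * (T / s) := by field_simp
      rw [q1, Real.mul_rpow (by positivity) (by positivity)]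
      have q2 : T / t * (t / T) ^ (1 / 2 : ℝ) ≤ 1 := by
        have q : 1 ≤ t / T := by rw [one_le_div T0]; exact h1
        have q3 : (t / T) ^ (1 / 2 : ℝ) ≤ (t / T) ^ (1 : ℝ) :=
          Real.rpow_le_rpow_of_exponent_le q (by norm_num)
        rw [Real.rpow_one] at q3
        calc T / t * (t / T) ^ (1 / 2 : ℝ) ≤ T / t * (t / T) := by gcongr
          _ = 1 := by field_simp
      have q4 : 0 ≤ (T / s) ^ (1 / 2 : ℝ) := by positivity
      nlinarith
    calc ‖b p t - b p' t‖ ≤ Cl * (dist p p' / t) * e p t := h3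
      _ ≤ Cl * (T / t) * (A * e p s * (t / s) ^ (1 / 2 : ℝ)) := by
          have := he p t
          gcongr
      _ = Cl * (A * e p s) * (T / t * (t / s) ^ (1 / 2 : ℝ)) := by ring
      _ ≤ Cl * (A * e p s) * (T / s) ^ (1 / 2 : ℝ) := by gcongr
      _ = Cl * G := by rw [hG]; ring
  have hTs1 : T ≤ s1 := by linarith
  have hdp0 : dist p' p0 ≤ s1 := by
    calc dist p' p0 ≤ dist p' p + dist p p0 := dist_triangle _ _ _
      _ ≤ T + s1 / 2 := by rw [dist_comm p' p]; linarith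
      _ ≤ s1 := by linarith
  have high : ∀ t, T ≤ t → t ≤ s1 → ‖b p' t - b0‖ ≤ 7 * k / 8 := by
    intro t h1 h2
    have h3 := lat t h1 h2
    have h4 := hW.2.2.2 t (hsT.trans h1) h2
    have h5 : ‖b p' t - b0‖ ≤ ‖b p' t - b p t‖ + ‖b p t - b0‖ := norm_sub_le_norm_sub_add_norm_sub _ _ _
    rw [norm_sub_rev] at h3
    linarith
  -- downwards over `p'`
  have down : ∀ n : ℕ, ∀ t, s' ≤ t → t ≤ T → T ≤ 2 ^ n * t →
      ‖b p' T - b p' t‖ ≤ Cl * G * (T / t) ^ 2 ∧ V b b0 s1 p0 k p' t := by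
    intro n
    induction n with
    | zero =>
      intro t h1 h2 h3
      have : t = T := le_antisymm h2 (by simpa using h3)
      subst this
      rw [sub_self, norm_zero]
      refine ⟨by positivity, T0, hTs1, hdp0, fun t' h4 h5 => (high t' h4 h5).trans (by linarith)⟩
    | succ n ih =>
      -- the bound for all `t` of the layer
      have key : ∀ t, s' ≤ t → t ≤ T → T ≤ 2 ^ (n + 1) * t →
          ‖b p' T - b p' t‖ ≤ Cl * G * (T / t) ^ 2 := by
        intro t h1 h2 h3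
        have t0 : 0 < t := hs'.trans_le h1
        rcases le_total T (2 * t) with h | h
        · have hVT : V b b0 s1 p0 k p' T :=
            ⟨T0, hTs1, hdp0, fun t' h4 h5 => (high t' h4 h5).trans (by linarith)⟩
          have h5 := e_le he s0 hrec hVT hsT le_rfl hd
          rw [div_self T0.ne', one_pow, mul_one] at h5
          have h6 : 1 ≤ (T / s') ^ 2 := one_le_pow₀ hTs'
          have h7 : e p' T < 1 := by
            refine lt_of_le_of_lt h5 (lt_of_le_of_lt ?_ hsm2)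
            show G ≤ G * (T / s') ^ 2
            nlinarith
          have h8 := hvert p' T t hVT h7 (by linarith) h2
          have h9 : 1 ≤ (T / t) ^ 2 := one_le_pow₀ (by rw [one_le_div t0]; exact h2)
          calc ‖b p' T - b p' t‖ ≤ Cl * e p' T := h8
            _ ≤ Cl * G := mul_le_mul_of_nonneg_left h5 hCl
            _ ≤ Cl * G * (T / t) ^ 2 := by nlinarith
        · obtain ⟨h4, hV2⟩ := ih (2 * t) (by linarith) h (by rw [pow_succ] at h3; linarith)
          have h5 := e_le he s0 hrec hV2 hsT h hd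
          have h6 : (T / (2 * t)) ^ 2 = (T / t) ^ 2 / 4 := by field_simp; ring
          have h7 : (T / t) ^ 2 ≤ (T / s') ^ 2 := by
            apply pow_le_pow_left₀ (by positivity)
            gcongr
          have h70 : 0 ≤ (T / t) ^ 2 := by positivity
          have h8 : e p' (2 * t) < 1 := by
            refine lt_of_le_of_lt h5 (lt_of_le_of_lt ?_ hsm2)
            show G * (T / (2 * t)) ^ 2 ≤ G * (T / s') ^ 2
            rw [h6]
            apply mul_le_mul_of_nonneg_left _ hG0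
            linarith
          have h9 := hvert p' (2 * t) t hV2 h8 (by linarith) (by linarith)
          have h10 : Cl * e p' (2 * t) ≤ Cl * (G * (T / (2 * t)) ^ 2) :=
            mul_le_mul_of_nonneg_left h5 hCl
          rw [h6] at h4 h10
          calc ‖b p' T - b p' t‖ ≤ ‖b p' T - b p' (2 * t)‖ + ‖b p' (2 * t) - b p' t‖ :=
                norm_sub_le_norm_sub_add_norm_sub _ _ _
            _ ≤ Cl * G * ((T / t) ^ 2 / 4) + Cl * (G * ((T / t) ^ 2 / 4)) := by linarith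
            _ ≤ _ := by nlinarith [mul_nonneg hCG h70]
      intro t h1 h2 h3
      have t0 : 0 < t := hs'.trans_le h1
      refine ⟨key t h1 h2 h3, t0, h2.trans hTs1, hdp0, fun t' h4 h5 => ?_⟩
      rcases le_total T t' with h | h
      · exact (high t' h h5).trans (by linarith)
      · have h6 := key t' (h1.trans h4) h (h3.trans (by gcongr))
        have h7 := high T le_rfl hTs1
        have t'0 : 0 < t' := t0.trans_le h4
        have h8 : (T / t') ^ 2 ≤ (T / s') ^ 2 := by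
          apply pow_le_pow_left₀ (by positivity)
          have := h1.trans h4
          gcongr
        have h9 : Cl * G * (T / t') ^ 2 ≤ k / 8 :=
          (mul_le_mul_of_nonneg_left h8 hCG).trans hsm1
        have h10 : ‖b p' t' - b0‖ ≤ ‖b p' t' - b p' T‖ + ‖b p' T - b0‖ :=
          norm_sub_le_norm_sub_add_norm_sub _ _ _
        rw [norm_sub_rev] at h6
        linarith
  obtain ⟨n, hn⟩ := pow_unbounded_of_one_lt (T / s') (show (1 : ℝ) < 2 by norm_num)
  obtain ⟨h1, h2⟩ := down n s' le_rfl hs'T (by rw [div_lt_iff₀ hs'] at hn; exact hn.le)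
  refine ⟨h2, ?_⟩
  have h3 := lat T le_rfl hTs1
  rw [norm_sub_rev] at h1 h3
  have h4 : 1 ≤ (T / s') ^ 2 := one_le_pow₀ hTs'
  calc ‖b p' s' - b p s‖ = ‖(b p' s' - b p' T) + (b p' T - b p T) + (b p T - b p s)‖ := by
        congr 1; abel
    _ ≤ ‖b p' s' - b p' T‖ + ‖b p' T - b p T‖ + ‖b p T - b p s‖ := norm_add₃_le
    _ ≤ Cl * G * (T / s') ^ 2 + Cl * G + 4 * (Cl * G) := by linarith
    _ ≤ _ := by nlinarith

end Crest.Agent.R102.SideCut249
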