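import Crest.Agent.R102.SideC_669
import Crest.Agent.R102.SideLab_426

/-!
Row 102, T1-B, EDGE, SIDE (helper669), two-variable part: two point estimate and quotient on the
product windows `DW e A d s`, through a point `q0` where `Y` is bounded below.
-/

set_option autoImplicit false

open Set Filter Metric Complex Topology

noncomputable section

namespace Crest.Agent.R102.Side669

open Crest.Agent.R102.Side426 (PB)

/-- product window, relative depth `d` -/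
def DW (e : ℝ × ℝ) (A d s : ℝ) : Set (ℂ × ℂ) :=
  {q | ‖q.1 - (e.1 : ℂ)‖ ≤ A * s ∧ ‖q.2 - (e.2 : ℂ)‖ ≤ A * s ∧ d * s ≤ -q.1.im ∧ d * s ≤ q.2.im}

theorem DW_sub {e : ℝ × ℝ} {A d s ρ : ℝ} (hs : 0 < s) (hd : 0 < d) (h : A * s < ρ) :
    DW e A d s ⊆ PB e ρ := by
  rintro q ⟨h1, h2, h3, h4⟩
  have : 0 < d * s := by positivity
  exact ⟨by linarith, by linarith, by linarith, by linarith⟩

theorem DW_mono {e : ℝ × ℝ} {A A' d d' s : ℝ} (hs : 0 < s) (hA : A ≤ A') (hd : d' ≤ d) :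
    DW e A d s ⊆ DW e A' d' s := by
  rintro q ⟨h1, h2, h3, h4⟩
  have e1 := mul_le_mul_of_nonneg_right hA hs.le
  have e2 := mul_le_mul_of_nonneg_right hd hs.le
  exact ⟨by linarith, by linarith, by linarith, by linarith⟩

theorem DW_convex {e : ℝ × ℝ} {A d s : ℝ} : Convex ℝ (DW e A d s) := by
  intro q hq q' hq' a b ha hb hab
  obtain ⟨h1, h2, h3, h4⟩ := hq
  obtain ⟨k1, k2, k3, k4⟩ := hq'
  have e1 : (a • q + b • q').1 - (e.1 : ℂ) = (a : ℂ) * (q.1 - e.1) + (b : ℂ) * (q'.1 - e.1) := by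
    simp only [Prod.fst_add, Prod.smul_fst, Complex.real_smul]
    have : ((a + b : ℝ) : ℂ) = 1 := by rw [hab]; simp
    push_cast at this
    linear_combination (e.1 : ℂ) * this
  have e2 : (a • q + b • q').2 - (e.2 : ℂ) = (a : ℂ) * (q.2 - e.2) + (b : ℂ) * (q'.2 - e.2) := by
    simp only [Prod.snd_add, Prod.smul_snd, Complex.real_smul]
    have : ((a + b : ℝ) : ℂ) = 1 := by rw [hab]; simp
    push_cast at this
    linear_combination (e.2 : ℂ) * this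
  have e3 : (a • q + b • q').1.im = a * q.1.im + b * q'.1.im := by
    simp [Prod.fst_add, Prod.smul_fst]
  have e4 : (a • q + b • q').2.im = a * q.2.im + b * q'.2.im := by
    simp [Prod.snd_add, Prod.smul_snd]
  have nn : ∀ (x y : ℂ), ‖x‖ ≤ A * s → ‖y‖ ≤ A * s → ‖(a : ℂ) * x + (b : ℂ) * y‖ ≤ A * s := by
    intro x y hx hy
    refine (norm_add_le _ _).trans ?_
    rw [norm_mul, norm_mul, Complex.norm_real, Complex.norm_real, Real.norm_eq_abs,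
      Real.norm_eq_abs, abs_of_nonneg ha, abs_of_nonneg hb]
    have a1 := mul_le_mul_of_nonneg_left hx ha
    have a2 := mul_le_mul_of_nonneg_left hy hb
    have a3 : a * (A * s) + b * (A * s) = A * s := by rw [← add_mul, hab, one_mul]
    linarith
  have a4 : a * (d * s) + b * (d * s) = d * s := by rw [← add_mul, hab, one_mul]
  refine ⟨?_, ?_, ?_, ?_⟩
  · rw [e1]; exact nn _ _ h1 k1
  · rw [e2]; exact nn _ _ h2 k2
  · rw [e3]
    have a1 := mul_le_mul_of_nonneg_left h3 ha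
    have a2 := mul_le_mul_of_nonneg_left k3 hb
    linarith
  · rw [e4]
    have a1 := mul_le_mul_of_nonneg_left h4 ha
    have a2 := mul_le_mul_of_nonneg_left k4 hb
    linarith

/-- the complex line through `q0` and `q` -/
def ln2 (q0 q : ℂ × ℂ) (z : ℂ) : ℂ × ℂ := q0 + z • (q - q0)

theorem ln2_mem {e : ℝ × ℝ} {A a d s : ℝ} (hA : 1 ≤ A) (hs : 0 < s) (hd : 0 < d)
    (hda : d ≤ a) (ha1 : a ≤ 1) {q0 q : ℂ × ℂ} (hq0 : q0 ∈ DW e A a s) (hq : q ∈ DW e A d s) {x : ℝ}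
    (hx0 : 0 ≤ x) (hx1 : x ≤ 1) {z : ℂ} (hz : z ∈ ball (x : ℂ) (1 / (4 * A) * wd a d x)) :
    ln2 q0 q z ∈ DW e (2 * A) (d / 2) s := by
  obtain ⟨h1, h2, h3, h4⟩ := hq0
  obtain ⟨k1, k2, k3, k4⟩ := hq
  rw [mem_ball, dist_eq_norm] at hz
  have hA0 : 0 < A := by linarith
  have hw1 : wd a d x ≤ 1 := (wd_le hda hx0 hx1).trans ha1
  have hwd : d ≤ wd a d x := wd_ge hda hx0 hx1
  have dd : ∀ (u0 u c : ℂ), ‖u0 - c‖ ≤ A * s → ‖u - c‖ ≤ A * s →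
      ‖(z - x) * (u - u0)‖ ≤ wd a d x * s / 2 ∧ ‖u0 + z * (u - u0) - c‖ ≤ 2 * A * s := by
    intro u0 u c hu0 hu
    have e1 : ‖u - u0‖ ≤ 2 * A * s := by
      calc ‖u - u0‖ = ‖(u - c) - (u0 - c)‖ := by congr 1; ring
        _ ≤ ‖u - c‖ + ‖u0 - c‖ := norm_sub_le _ _
        _ ≤ 2 * A * s := by linarith
    have e2 : ‖(z - x) * (u - u0)‖ ≤ wd a d x * s / 2 := by
      rw [norm_mul]
      calc ‖z - x‖ * ‖u - u0‖ ≤ (1 / (4 * A) * wd a d x) * (2 * A * s) := by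
            apply mul_le_mul hz.le e1 (norm_nonneg _)
            exact mul_nonneg (by positivity) (hd.le.trans hwd)
        _ = wd a d x * s / 2 := by field_simp; ring
    refine ⟨e2, ?_⟩
    have e3 : u0 + z * (u - u0) - c = (((1 - x : ℝ) : ℂ) * (u0 - c) + ((x : ℝ) : ℂ) * (u - c)) +
        (z - x) * (u - u0) := by push_cast; ring
    rw [e3]
    refine (norm_add_le _ _).trans ?_
    have e4 : ‖((1 - x : ℝ) : ℂ) * (u0 - c) + ((x : ℝ) : ℂ) * (u - c)‖ ≤ A * s := by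
      refine (norm_add_le _ _).trans ?_
      rw [norm_mul, norm_mul, Complex.norm_real, Complex.norm_real, Real.norm_eq_abs,
        Real.norm_eq_abs, abs_of_nonneg (by linarith : (0 : ℝ) ≤ 1 - x), abs_of_nonneg hx0]
      have a1 := mul_le_mul_of_nonneg_left hu0 (by linarith : (0 : ℝ) ≤ 1 - x)
      have a2 := mul_le_mul_of_nonneg_left hu hx0
      nlinarith
    have e5 : wd a d x * s / 2 ≤ A * s := by nlinarith
    linarith
  have im1 : ∀ u0 u : ℂ, (u0 + z * (u - u0)).im = (1 - x) * u0.im + x * u.im +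
      ((z - x) * (u - u0)).im := by
    intro u0 u
    have : u0 + z * (u - u0) = (((1 - x : ℝ) : ℂ) * u0 + ((x : ℝ) : ℂ) * u) +
        (z - x) * (u - u0) := by push_cast; ring
    rw [this, Complex.add_im, Complex.add_im, Complex.im_ofReal_mul, Complex.im_ofReal_mul]
  have p1 := dd q0.1 q.1 e.1 h1 k1
  have p2 := dd q0.2 q.2 e.2 h2 k2
  have c1 : (ln2 q0 q z).1 = q0.1 + z * (q.1 - q0.1) := by simp [ln2]
  have c2 : (ln2 q0 q z).2 = q0.2 + z * (q.2 - q0.2) := by simp [ln2]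
  have hwe : wd a d x = (1 - x) * a + x * d := rfl
  have m1 : (1 - x) * (a * s) ≤ (1 - x) * (-q0.1.im) := mul_le_mul_of_nonneg_left h3 (by linarith)
  have m2 : x * (d * s) ≤ x * (-q.1.im) := mul_le_mul_of_nonneg_left k3 hx0
  have m3 : (1 - x) * (a * s) ≤ (1 - x) * q0.2.im := mul_le_mul_of_nonneg_left h4 (by linarith)
  have m4 : x * (d * s) ≤ x * q.2.im := mul_le_mul_of_nonneg_left k4 hx0
  have m5 : wd a d x * s = (1 - x) * (a * s) + x * (d * s) := by rw [hwe]; ring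
  have m6 : d * s ≤ wd a d x * s := mul_le_mul_of_nonneg_right hwd hs.le
  have n1 := (abs_le.1 (Complex.abs_im_le_norm ((z - x) * (q.1 - q0.1)))).2
  have n2 := (abs_le.1 (Complex.abs_im_le_norm ((z - x) * (q.2 - q0.2)))).1
  refine ⟨?_, ?_, ?_, ?_⟩
  · rw [c1]; exact p1.2
  · rw [c2]; exact p2.2
  · rw [c1, im1]; linarith [p1.1]
  · rw [c2, im1]; linarith [p2.1]

theorem ln2_diff (q0 q : ℂ × ℂ) : Differentiable ℂ (ln2 q0 q) := by
  unfold ln2; fun_prop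

theorem ln2_zero (q0 q : ℂ × ℂ) : ln2 q0 q 0 = q0 := by simp [ln2]

theorem ln2_one (q0 q : ℂ × ℂ) : ln2 q0 q 1 = q := by simp [ln2]

/-- the data on the line -/
theorem seg_of {e : ℝ × ℝ} {A a d s ρ : ℝ} (hA : 1 ≤ A) (hs : 0 < s) (hd : 0 < d)
    (hda : d ≤ a) (ha1 : a ≤ 1) (hρ : 2 * A * s < ρ) {Y L : ℂ × ℂ → ℂ}
    (hY : DifferentiableOn ℂ Y (PB e ρ)) (hL : DifferentiableOn ℂ L (PB e ρ)) {M : ℝ}
    (hM : ∀ x ∈ DW e (2 * A) (d / 2) s, ‖Y x‖ ≤ M)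
    (hLY : ∀ x ∈ DW e (2 * A) (d / 2) s, cexp (L x) = 1 → Y x = 0)
    {q0 q : ℂ × ℂ} (hq0 : q0 ∈ DW e A a s) (hq : q ∈ DW e A d s) :
    Seg (1 / (4 * A)) a d (fun z => Y (ln2 q0 q z)) (fun z => L (ln2 q0 q z)) M := by
  have hmem : ∀ x : ℝ, 0 ≤ x → x ≤ 1 → ∀ z ∈ ball (x : ℂ) (1 / (4 * A) * wd a d x),
      ln2 q0 q z ∈ DW e (2 * A) (d / 2) s := fun x hx0 hx1 z hz =>
    ln2_mem hA hs hd hda ha1 hq0 hq hx0 hx1 hz
  have hsub : DW e (2 * A) (d / 2) s ⊆ PB e ρ := DW_sub hs (by positivity) (by linarith)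
  exact
    { Yd := fun x hx0 hx1 => hY.comp (ln2_diff q0 q).differentiableOn
        (fun z hz => hsub (hmem x hx0 hx1 z hz))
      Ld := fun x hx0 hx1 => hL.comp (ln2_diff q0 q).differentiableOn
        (fun z hz => hsub (hmem x hx0 hx1 z hz))
      YM := fun x hx0 hx1 z hz => hM _ (hmem x hx0 hx1 z hz)
      LY := fun x hx0 hx1 z hz h => hLY _ (hmem x hx0 hx1 z hz) h }

/-- **two point estimate** -/
theorem two_pt {A a : ℝ} (hA : 1 ≤ A) (ha : 0 < a) (ha1 : a ≤ 1) :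
    ∃ K : ℝ, 1 ≤ K ∧ ∃ p : ℕ, ∀ d : ℝ, 0 < d → d ≤ a → ∀ (e : ℝ × ℝ) (s ρ : ℝ), 0 < s →
      2 * A * s < ρ → ∀ Y L : ℂ × ℂ → ℂ, DifferentiableOn ℂ Y (PB e ρ) →
      DifferentiableOn ℂ L (PB e ρ) → ∀ M : ℝ, 0 < M →
      (∀ x ∈ DW e (2 * A) (d / 2) s, ‖Y x‖ ≤ M) →
      (∀ x ∈ DW e (2 * A) (d / 2) s, cexp (L x) = 1 → Y x = 0) →
      ∀ ℓ : ℝ, 1 ≤ ℓ → ∀ q0 ∈ DW e A a s, M * Real.exp (-ℓ) ≤ ‖Y q0‖ →
      ∀ q ∈ DW e A d s, ∀ q' ∈ DW e A d s,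
        1 + |(L q).re| + ‖L q - L q'‖ ≤ K * (1 / d) ^ p * ℓ ^ 2 * (1 + |(L q').re|) := by
  have hA0 : 0 < A := by linarith
  obtain ⟨K, hK, p, H⟩ := seg_main (δ0 := 1 / (4 * A)) (a := a) (by positivity)
    (by rw [div_le_iff₀ (by positivity)]; linarith) ha ha1
  refine ⟨3 * K ^ 2, by nlinarith, 2 * p, ?_⟩
  intro d hd hda e s ρ hs hρ Y L hY hL M hM hYM hLY ℓ hℓ q0 hq0 hY0 q hq q' hq'
  have S1 := seg_of hA hs hd hda ha1 hρ hY hL hYM hLY hq0 hq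
  have S2 := seg_of hA hs hd hda ha1 hρ hY hL hYM hLY hq0 hq'
  obtain ⟨a1, _⟩ := H d hd hda _ _ M hM S1 ℓ hℓ (by simp only [ln2_zero]; exact hY0)
  obtain ⟨b1, b2⟩ := H d hd hda _ _ M hM S2 ℓ hℓ (by simp only [ln2_zero]; exact hY0)
  simp only [ln2_zero, ln2_one] at a1 b1 b2
  obtain ⟨T, hT⟩ : ∃ T : ℝ, T = K * (1 / d) ^ p * ℓ := ⟨_, rfl⟩
  rw [← hT] at a1 b1 b2
  have hid : 1 ≤ 1 / d := by rw [le_div_iff₀ hd]; linarith
  have hT1 : 1 ≤ T := by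
    rw [hT]
    have : (1 : ℝ) ≤ (1 / d) ^ p := one_le_pow₀ hid
    calc (1 : ℝ) = 1 * 1 * 1 := by norm_num
      _ ≤ _ := by gcongr
  have e1 : 3 * K ^ 2 * (1 / d) ^ (2 * p) * ℓ ^ 2 = 3 * T ^ 2 := by
    rw [hT]; ring
  rw [e1]
  have h3 : ‖L q - L q'‖ ≤ ‖L q - L q0‖ + ‖L q' - L q0‖ := by
    calc ‖L q - L q'‖ = ‖(L q - L q0) - (L q' - L q0)‖ := by congr 1; ring
      _ ≤ _ := norm_sub_le _ _
  have n1 := abs_nonneg (L q).re
  have n2 := abs_nonneg (L q0).re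
  have n3 := abs_nonneg (L q').re
  have n4 := norm_nonneg (L q - L q0)
  have h4 : T * (1 + |(L q0).re|) ≤ T * (T * (1 + |(L q').re|)) :=
    mul_le_mul_of_nonneg_left b2 (by linarith)
  have h5 : 1 + |(L q).re| + ‖L q - L q'‖ ≤ 2 * (T * (1 + |(L q0).re|)) := by linarith
  nlinarith

/-- **quotient on the window** -/
theorem quot2 {A a : ℝ} (hA : 1 ≤ A) (ha : 0 < a) (ha1 : a ≤ 1) :
    ∃ K : ℝ, 1 ≤ K ∧ ∃ p : ℕ, ∀ d : ℝ, 0 < d → d ≤ a → ∀ (e : ℝ × ℝ) (s ρ : ℝ), 0 < s →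
      2 * A * s < ρ → ∀ Y L : ℂ × ℂ → ℂ, DifferentiableOn ℂ Y (PB e ρ) →
      DifferentiableOn ℂ L (PB e ρ) → ∀ M : ℝ, 0 < M →
      (∀ x ∈ DW e (2 * A) (d / 2) s, ‖Y x‖ ≤ M) →
      (∀ x ∈ DW e (2 * A) (d / 2) s, cexp (L x) = 1 → Y x = 0) →
      ∀ ℓ : ℝ, 1 ≤ ℓ → ∀ q0 ∈ DW e A a s, M * Real.exp (-ℓ) ≤ ‖Y q0‖ →
      ∀ (F G : ℂ × ℂ → ℂ) (M' : ℝ), DifferentiableOn ℂ F (PB e ρ) →
        DifferentiableOn ℂ G (PB e ρ) → (∀ x ∈ DW e (2 * A) (d / 2) s, F x * Y x = G x) →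
        (∀ x ∈ DW e (2 * A) (d / 2) s, ‖G x‖ ≤ M') →
      ∀ q ∈ DW e A d s, ‖F q‖ ≤ M' / M * Real.exp (K * (1 / d) ^ p * ℓ) := by
  have hA0 : 0 < A := by linarith
  obtain ⟨K, hK, p, H⟩ := seg_quot (δ0 := 1 / (4 * A)) (a := a) (by positivity)
    (by rw [div_le_iff₀ (by positivity)]; linarith) ha ha1
  refine ⟨K, hK, p, ?_⟩
  intro d hd hda e s ρ hs hρ Y L hY hL M hM hYM hLY ℓ hℓ q0 hq0 hY0 F G M' hF hG hFG hM' q hq
  have S1 := seg_of hA hs hd hda ha1 hρ hY hL hYM hLY hq0 hq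
  have hsub : DW e (2 * A) (d / 2) s ⊆ PB e ρ := DW_sub hs (by positivity) (by linarith)
  have ew : wd a d 1 = d := by unfold wd; ring
  have hmem : ∀ z ∈ ball (1 : ℂ) (1 / (4 * A) * d), ln2 q0 q z ∈ DW e (2 * A) (d / 2) s := by
    intro z hz
    refine ln2_mem hA hs hd hda ha1 hq0 hq zero_le_one le_rfl ?_
    rw [ew, Complex.ofReal_one]; exact hz
  have h := H d hd hda _ _ M hM S1 ℓ hℓ (by simp only [ln2_zero]; exact hY0)
    (fun z => F (ln2 q0 q z)) (fun z => G (ln2 q0 q z)) M'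
    (hF.comp (ln2_diff q0 q).differentiableOn (fun z hz => hsub (hmem z hz)))
    (hG.comp (ln2_diff q0 q).differentiableOn (fun z hz => hsub (hmem z hz)))
    (fun z hz => hFG _ (hmem z hz)) (fun z hz => hM' _ (hmem z hz))
  simp only [ln2_one] at h
  exact h

end Crest.Agent.R102.Side669
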