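import Mathlib

/-!
Row 102, T1-B, EDGE / SLOW v2 (909 #30674), pure SIDE on the planar dyadic tree (helper289).

From the conclusion of the mean record lemma (MR) at the record square `(k, z0)` to the bound of the
function `val` (= `φ_-` at the centre of the window) at every square `(m', z')` whose ancestor of
generation `m` is at lattice distance `≤ A` of the ancestor of `z0`.
-/

set_option autoImplicit false

open Finset

noncomputable section

namespace Crest.Agent.R102.SideMR289

/-- ancestor of order `j` -/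
def anc (j : ℕ) (z : ℤ × ℤ) : ℤ × ℤ := (z.1 / 2 ^ j, z.2 / 2 ^ j)

/-- lattice distance -/
def dd (z z' : ℤ × ℤ) : ℝ := |(z.1 : ℝ) - z'.1| + |(z.2 : ℝ) - z'.2|

theorem dd_nonneg (z z' : ℤ × ℤ) : 0 ≤ dd z z' := by unfold dd; positivity

theorem dd_self (z : ℤ × ℤ) : dd z z = 0 := by simp [dd]

theorem anc_zero (z : ℤ × ℤ) : anc 0 z = z := by simp [anc]

theorem anc_anc (i j : ℕ) (z : ℤ × ℤ) : anc i (anc j z) = anc (i + j) z := by
  unfold anc
  ext1
  · simp only
    rw [Int.ediv_ediv_of_nonneg (by positivity), ← pow_add, add_comm]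
  · simp only
    rw [Int.ediv_ediv_of_nonneg (by positivity), ← pow_add, add_comm]

theorem div_dist (N a b : ℤ) (hN : 0 < N) :
    |(a : ℝ) - b| ≤ N * (|((a / N : ℤ) : ℝ) - ((b / N : ℤ) : ℝ)| + 1) := by
  have ha := Int.emod_add_mul_ediv a N
  have hb := Int.emod_add_mul_ediv b N
  have ha1 := Int.emod_nonneg a hN.ne'
  have ha2 := Int.emod_lt_of_pos a hN
  have hb1 := Int.emod_nonneg b hN.ne'
  have hb2 := Int.emod_lt_of_pos b hN
  have hNr : (0 : ℝ) < N := by exact_mod_cast hN
  have e1 : (a : ℝ) = ((a % N : ℤ) : ℝ) + N * ((a / N : ℤ) : ℝ) := by exact_mod_cast ha.symm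
  have e2 : (b : ℝ) = ((b % N : ℤ) : ℝ) + N * ((b / N : ℤ) : ℝ) := by exact_mod_cast hb.symm
  have f1 : (0 : ℝ) ≤ ((a % N : ℤ) : ℝ) := by exact_mod_cast ha1
  have f2 : ((a % N : ℤ) : ℝ) < N := by exact_mod_cast ha2
  have f3 : (0 : ℝ) ≤ ((b % N : ℤ) : ℝ) := by exact_mod_cast hb1
  have f4 : ((b % N : ℤ) : ℝ) < N := by exact_mod_cast hb2
  have e3 : (a : ℝ) - b = (((a % N : ℤ) : ℝ) - ((b % N : ℤ) : ℝ)) +
      N * (((a / N : ℤ) : ℝ) - ((b / N : ℤ) : ℝ)) := by rw [e1, e2]; push_cast; ring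
  rw [e3]
  refine (abs_add_le _ _).trans ?_
  rw [abs_mul, abs_of_pos hNr, mul_add, mul_one, add_comm]
  gcongr
  rw [abs_le]
  constructor <;> linarith

theorem dd_le_anc (j : ℕ) (z z' : ℤ × ℤ) : dd z z' ≤ 2 ^ j * (dd (anc j z) (anc j z') + 2) := by
  unfold dd anc
  have h1 := div_dist (2 ^ j) z.1 z'.1 (by positivity)
  have h2 := div_dist (2 ^ j) z.2 z'.2 (by positivity)
  push_cast at h1 h2 ⊢
  linarith


theorem lat {V : Type*} [NormedAddCommGroup V] {val : ℤ × ℤ → V} {P : ℤ × ℤ → Prop} {M : ℝ}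
    (y : ℤ × ℤ) (n : ℕ) (hM : 0 ≤ M)
    (hP : ∀ p, dd p y ≤ n → P p)
    (hst : ∀ p p', P p → dd p p' ≤ 1 → ‖val p' - val p‖ ≤ M) :
    ∀ m : ℕ, m ≤ n → ∀ x, dd x y ≤ m → ‖val x - val y‖ ≤ m * M := by
  intro m
  induction m with
  | zero =>
    intro _ x hx
    have h0 : dd x y = 0 := le_antisymm (by simpa using hx) (dd_nonneg _ _)
    unfold dd at h0
    have h1 : |(x.1 : ℝ) - y.1| = 0 := by
      have := abs_nonneg ((x.1 : ℝ) - y.1); have := abs_nonneg ((x.2 : ℝ) - y.2); linarith
    have h2 : |(x.2 : ℝ) - y.2| = 0 := by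
      have := abs_nonneg ((x.1 : ℝ) - y.1); have := abs_nonneg ((x.2 : ℝ) - y.2); linarith
    rw [abs_eq_zero, sub_eq_zero] at h1 h2
    have e : x = y := Prod.ext (by exact_mod_cast h1) (by exact_mod_cast h2)
    subst e
    simp
  | succ m ih =>
    intro hm x hx
    by_cases hle : dd x y ≤ m
    · have := ih (by omega) x hle
      push_cast
      nlinarith
    · -- a neighbour closer to `y`
      obtain ⟨p, hp1, hp2⟩ : ∃ p : ℤ × ℤ, dd p y ≤ m ∧ dd p x ≤ 1 := by
        push Not at hle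
        have hint : ∀ (a b : ℤ), a ≠ b → ∃ c : ℤ, |(c : ℝ) - a| ≤ 1 ∧
            |(c : ℝ) - b| = |(a : ℝ) - b| - 1 := by
          intro a b hab
          rcases lt_or_gt_of_ne hab with h | h
          · refine ⟨a + 1, by simp, ?_⟩
            have h' : (a : ℝ) + 1 ≤ b := by exact_mod_cast h
            push_cast
            rw [abs_of_nonpos (by linarith), abs_of_nonpos (by linarith)]; ring
          · refine ⟨a - 1, by simp, ?_⟩
            have h' : (b : ℝ) + 1 ≤ a := by exact_mod_cast h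
            push_cast
            rw [abs_of_nonneg (by linarith), abs_of_nonneg (by linarith)]; ring
        by_cases h1 : x.1 = y.1
        · have h2 : x.2 ≠ y.2 := by
            intro h2
            have : dd x y = 0 := by unfold dd; rw [h1, h2]; simp
            rw [this] at hle
            have : (0 : ℝ) ≤ m := Nat.cast_nonneg m
            linarith
          obtain ⟨c, hc1, hc2⟩ := hint _ _ h2
          refine ⟨(x.1, c), ?_, ?_⟩
          · unfold dd at hx ⊢
            simp only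
            rw [hc2]
            push_cast at hx
            linarith
          · unfold dd
            simp only [sub_self, abs_zero, zero_add]
            exact hc1
        · obtain ⟨c, hc1, hc2⟩ := hint _ _ h1
          refine ⟨(c, x.2), ?_, ?_⟩
          · unfold dd at hx ⊢
            simp only
            rw [hc2]
            push_cast at hx
            linarith
          · unfold dd
            simp only [sub_self, abs_zero, add_zero]
            exact hc1
      have hPp : P p := hP p (hp1.trans (by exact_mod_cast (by omega : m ≤ n)))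
      have h1 := ih (by omega) p hp1
      have h2 := hst p x hPp hp2
      have h3 : val x - val y = (val x - val p) + (val p - val y) := by abel
      rw [h3]
      refine (norm_add_le _ _).trans ?_
      push_cast
      linarith

/-- geometric sums -/
theorem geo_up {q : ℝ} (hq : 1 < q) (n : ℕ) :
    ∑ i ∈ range n, q ^ (n - i) ≤ q ^ n * (1 / (1 - q⁻¹)) := by
  have hq0 : 0 < q := by linarith
  have hqi : q⁻¹ < 1 := inv_lt_one_of_one_lt₀ hq
  have hqi0 : 0 ≤ q⁻¹ := by positivity
  have h1 : ∑ i ∈ range n, q ^ (n - i) = q ^ n * ∑ i ∈ range n, (q⁻¹) ^ i := by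
    rw [mul_sum]
    refine sum_congr rfl fun i hi => ?_
    have hi' : i ≤ n := (mem_range.1 hi).le
    rw [inv_pow, ← div_eq_mul_inv, eq_div_iff (by positivity), ← pow_add]
    congr 1
    omega
  rw [h1]
  refine mul_le_mul_of_nonneg_left ?_ (by positivity)
  rw [one_div]
  calc ∑ i ∈ range n, (q⁻¹) ^ i ≤ ∑' i : ℕ, (q⁻¹) ^ i :=
        Summable.sum_le_tsum _ (fun i _ => by positivity) (summable_geometric_of_lt_one hqi0 hqi)
    _ = (1 - q⁻¹)⁻¹ := tsum_geometric_of_lt_one hqi0 hqi

theorem geo64 (n : ℕ) : ∑ i ∈ range n, (64 : ℝ) ^ i ≤ 64 ^ n := by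
  induction n with
  | zero => simp
  | succ n ih =>
    rw [sum_range_succ, pow_succ]
    have : (0 : ℝ) < 64 ^ n := by positivity
    linarith

/-- the constant -/
def CC (th : ℝ) : ℝ := 2 + 1 / (1 - ((2 : ℝ) ^ th)⁻¹)

/-- vertical path: from `(m + n, z)` up to its ancestor of generation `m` -/
theorem vert {V : Type*} [NormedAddCommGroup V] {Tr : ℕ → ℤ × ℤ → Prop} {E : ℕ → ℤ × ℤ → ℝ}
    {val : ℕ → ℤ × ℤ → V}
    (hpar : ∀ i z z', Tr i z → anc 1 z' = z → ‖val (i + 1) z' - val i z‖ ≤ E i z) (m : ℕ) :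
    ∀ (n : ℕ) (z : ℤ × ℤ), (∀ i, i < n → Tr (m + i) (anc (n - i) z)) →
      ‖val (m + n) z - val m (anc n z)‖ ≤ ∑ i ∈ range n, E (m + i) (anc (n - i) z) := by
  intro n
  induction n with
  | zero => intro z _; simp [anc_zero]
  | succ n ih =>
    intro z hT
    have h1 : Tr (m + n) (anc 1 z) := by
      have := hT n (by omega)
      simpa using this
    have h2 := hpar (m + n) (anc 1 z) z h1 rfl
    have h3 := ih (anc 1 z) (fun i hi => by
      have := hT i (by omega)
      rw [anc_anc]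
      have e : n - i + 1 = n + 1 - i := by omega
      rw [e]
      exact this)
    rw [anc_anc] at h3
    have e4 : ∑ i ∈ range n, E (m + i) (anc (n - i) (anc 1 z)) =
        ∑ i ∈ range n, E (m + i) (anc (n + 1 - i) z) := by
      refine sum_congr rfl fun i hi => ?_
      rw [anc_anc]
      have hi' := mem_range.1 hi
      have e : n - i + 1 = n + 1 - i := by omega
      rw [e]
    rw [e4] at h3
    rw [sum_range_succ]
    have e5 : n + 1 - n = 1 := by omega
    rw [e5]
    have e6 : val (m + (n + 1)) z - val m (anc (n + 1) z) =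
        (val (m + n) (anc 1 z) - val m (anc (n + 1) z)) +
          (val (m + n + 1) z - val (m + n) (anc 1 z)) := by
      rw [← add_assoc]; abel
    rw [e6]
    refine (norm_add_le _ _).trans (add_le_add h3 h2)

/-- **SIDE of SLOW v2 on the lattice** -/
theorem side_mr {V : Type*} [NormedAddCommGroup V] {th K Es A : ℝ} {k : ℕ} {z0 : ℤ × ℤ}
    {Tr : ℕ → ℤ × ℤ → Prop} {E : ℕ → ℤ × ℤ → ℝ} {val : ℕ → ℤ × ℤ → V}
    (hth : 0 < th) (hK : 1 ≤ K) (hEs : 0 ≤ Es) (hA : 1 ≤ A)
    (hpar : ∀ i z z', Tr i z → anc 1 z' = z → ‖val (i + 1) z' - val i z‖ ≤ E i z)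
    (hlat : ∀ i z z', Tr i z → dd z z' ≤ 1 → ‖val i z' - val i z‖ ≤ E i z)
    (hE : ∀ j ≤ k, ∀ z', Tr (k - j) z' →
      E (k - j) z' ≤ K * 2 ^ (th * (j : ℝ)) * (1 + dd z' (anc j z0)) ^ 6 * Es)
    (hN : ∀ j ≤ k, ∀ z', ¬ Tr (k - j) z' →
      1 ≤ K * 2 ^ (th * (j : ℝ)) * (1 + dd z' (anc j z0)) ^ 6 * Es) :
    ∀ m m' : ℕ, m ≤ m' → m' ≤ k → ∀ z', dd (anc (m' - m) z') (anc (k - m) z0) ≤ A →
      K * 2 ^ (th * ((k - m : ℕ) : ℝ)) * (1 + (A + 4) * 2 ^ (m' - m)) ^ 6 * Es < 1 →
      (∀ i, m ≤ i → i ≤ m' → Tr i (anc (m' - i) z')) ∧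
        ‖val m' z' - val k z0‖ ≤
          CC th * A * K * 2 ^ (th * ((k - m : ℕ) : ℝ)) * ((A + 4) * 2 ^ (m' - m)) ^ 6 * Es := by
  intro m m' hmm hmk z' hd hsm
  have hK0 : 0 < K := by linarith
  set q : ℝ := (2 : ℝ) ^ th with hq
  have hq1 : 1 < q := Real.one_lt_rpow (by norm_num) hth
  have hq0 : 0 < q := by linarith
  have hpow : ∀ j : ℕ, (2 : ℝ) ^ (th * (j : ℝ)) = q ^ j := by
    intro j
    rw [hq, ← Real.rpow_natCast, ← Real.rpow_mul (by norm_num)]
  simp only [hpow] at hE hN hsm ⊢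
  set n := m' - m with hn
  have hm' : m' = m + n := by omega
  -- distance of ancestors, generation `i`
  have hdist : ∀ i, m ≤ i → i ≤ m' → dd (anc (m' - i) z') (anc (k - i) z0) ≤
      (A + 2) * 2 ^ (i - m) := by
    intro i h1 h2
    have h3 := dd_le_anc (i - m) (anc (m' - i) z') (anc (k - i) z0)
    rw [anc_anc, anc_anc] at h3
    have e1 : i - m + (m' - i) = n := by omega
    have e2 : i - m + (k - i) = k - m := by omega
    rw [e1, e2] at h3
    refine h3.trans ?_
    rw [mul_comm]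
    gcongr
  have hpw1 : ∀ j : ℕ, (1 : ℝ) ≤ 2 ^ j := fun j => one_le_pow₀ (by norm_num)
  have hgen : ∀ i x, m ≤ i → i ≤ k → dd x (anc (k - i) z0) ≤ (A + 4) * 2 ^ n → Tr i x := by
    intro i x h1 h2 h3
    by_contra hnot
    have h4 := hN (k - i) (by omega) x (by
      have e : k - (k - i) = i := by omega
      rw [e]; exact hnot)
    have h5 : q ^ (k - i) ≤ q ^ (k - m) := pow_le_pow_right₀ hq1.le (by omega)
    have h6 : K * q ^ (k - i) * (1 + dd x (anc (k - i) z0)) ^ 6 * Es ≤
        K * q ^ (k - m) * (1 + (A + 4) * 2 ^ n) ^ 6 * Es := by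
      have := dd_nonneg x (anc (k - i) z0)
      gcongr
    linarith
  have hge : ∀ i x, m ≤ i → i ≤ k → dd x (anc (k - i) z0) ≤ (A + 4) * 2 ^ n →
      E i x ≤ K * q ^ (k - i) * (1 + dd x (anc (k - i) z0)) ^ 6 * Es := by
    intro i x h1 h2 h3
    have h4 := hE (k - i) (by omega) x
    have e : k - (k - i) = i := by omega
    rw [e] at h4
    exact h4 (hgen i x h1 h2 h3)
  have hpn : (1 : ℝ) ≤ 2 ^ n := hpw1 n
  have hTr : ∀ i, m ≤ i → i ≤ m' → Tr i (anc (m' - i) z') := by
    intro i h1 h2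
    refine hgen i _ h1 (h2.trans hmk) ((hdist i h1 h2).trans ?_)
    have : (2 : ℝ) ^ (i - m) ≤ 2 ^ n := pow_le_pow_right₀ (by norm_num) (by omega)
    have h0 : (0 : ℝ) < 2 ^ (i - m) := by positivity
    nlinarith
  refine ⟨hTr, ?_⟩
  -- common factor
  set F : ℝ := K * q ^ (k - m) * Es with hF
  have hF0 : 0 ≤ F := by positivity
  set W : ℝ := ((A + 4) * 2 ^ n) ^ 6 with hW
  have hW1 : 1 ≤ W := one_le_pow₀ (by nlinarith)
  have hqi : q⁻¹ < 1 := inv_lt_one_of_one_lt₀ hq1
  have hG0 : 0 < 1 / (1 - q⁻¹) := by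
    rw [one_div]; exact inv_pos.2 (by linarith)
  -- (U) up from `z0`
  have hU : ‖val k z0 - val m (anc (k - m) z0)‖ ≤ F * (1 / (1 - q⁻¹)) := by
    have hk : k = m + (k - m) := by omega
    have h1 := vert (val := val) hpar m (k - m) z0 (fun i hi => by
      have := hgen (m + i) (anc (k - m - i) z0) (by omega) (by omega) (by
        have e : k - (m + i) = k - m - i := by omega
        rw [e, dd_self]; positivity)
      exact this)
    rw [← hk] at h1
    refine h1.trans ?_
    have h2 : ∑ i ∈ range (k - m), E (m + i) (anc (k - m - i) z0) ≤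
        ∑ i ∈ range (k - m), K * Es * q ^ (k - m - i) := by
      refine sum_le_sum fun i hi => ?_
      have hi' := mem_range.1 hi
      have e : k - (m + i) = k - m - i := by omega
      have h3 := hge (m + i) (anc (k - m - i) z0) (by omega) (by omega) (by
        rw [e, dd_self]; positivity)
      rw [e, dd_self] at h3
      have e2 : K * q ^ (k - m - i) * (1 + 0) ^ 6 * Es = K * Es * q ^ (k - m - i) := by ring
      rw [e2] at h3
      exact h3
    refine h2.trans ?_
    rw [← mul_sum]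
    have h4 := geo_up hq1 (k - m)
    calc K * Es * ∑ i ∈ range (k - m), q ^ (k - m - i)
        ≤ K * Es * (q ^ (k - m) * (1 / (1 - q⁻¹))) := by gcongr
      _ = F * (1 / (1 - q⁻¹)) := by rw [hF]; ring
  -- (L) lateral
  have hL : ‖val m (anc n z') - val m (anc (k - m) z0)‖ ≤ A * (F * W) := by
    set y := anc (k - m) z0 with hy
    set x := anc n z' with hx
    -- integer distance
    set d : ℕ := (|x.1 - y.1| + |x.2 - y.2|).toNat with hdn
    have hdr : (d : ℝ) = dd x y := by
      have h0 : 0 ≤ |x.1 - y.1| + |x.2 - y.2| := by positivity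
      have h1 : ((d : ℕ) : ℤ) = |x.1 - y.1| + |x.2 - y.2| := Int.toNat_of_nonneg h0
      have h2 : ((d : ℤ) : ℝ) = ((|x.1 - y.1| + |x.2 - y.2| : ℤ) : ℝ) := by rw [h1]
      unfold dd
      push_cast at h2
      exact h2
    have hdA : (d : ℝ) ≤ A := by rw [hdr]; exact hd
    have key := lat (val := val m) (P := fun p => Tr m p ∧ E m p ≤ F * W) (M := F * W) y d
      (by positivity)
      (fun p hp => by
        have hpA : dd p y ≤ A := hp.trans hdA
        have h1 : dd p (anc (k - m) z0) ≤ (A + 4) * 2 ^ n := by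
          rw [← hy]; nlinarith
        refine ⟨hgen m p le_rfl (by omega) h1, ?_⟩
        have h2 := hge m p le_rfl (by omega) h1
        refine h2.trans ?_
        rw [← hy]
        have h3 : (1 + dd p y) ^ 6 ≤ W := by
          rw [hW]
          have := dd_nonneg p y
          gcongr
          nlinarith
        calc K * q ^ (k - m) * (1 + dd p y) ^ 6 * Es = F * (1 + dd p y) ^ 6 := by rw [hF]; ring
          _ ≤ F * W := by gcongr)
      (fun p p' hp hpp => (hlat m p p' hp.1 hpp).trans hp.2) d le_rfl x (by rw [hdr])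
    refine key.trans ?_
    have : 0 ≤ F * W := by positivity
    nlinarith
  -- (D) down to `z'`
  have hD : ‖val m' z' - val m (anc n z')‖ ≤ F * W := by
    have h1 := vert (val := val) hpar m n z' (fun i hi => by
      have := hTr (m + i) (by omega) (by omega)
      have e : m' - (m + i) = n - i := by omega
      rw [e] at this
      exact this)
    rw [← hm'] at h1
    refine h1.trans ?_
    have h2 : ∑ i ∈ range n, E (m + i) (anc (n - i) z') ≤
        ∑ i ∈ range n, F * (A + 4) ^ 6 * 64 ^ i := by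
      refine sum_le_sum fun i hi => ?_
      have hi' := mem_range.1 hi
      have e : m' - (m + i) = n - i := by omega
      have e0 : m + i - m = i := by omega
      have h3 := hdist (m + i) (by omega) (by omega)
      rw [e, e0] at h3
      have h2i : (1 : ℝ) ≤ 2 ^ i := hpw1 i
      have h2n : (2 : ℝ) ^ i ≤ 2 ^ n := pow_le_pow_right₀ (by norm_num) (by omega)
      have h4 := hge (m + i) (anc (n - i) z') (by omega) (by omega) (by nlinarith)
      refine h4.trans ?_
      have h5 : q ^ (k - (m + i)) ≤ q ^ (k - m) := pow_le_pow_right₀ hq1.le (by omega)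
      have h6 : (1 + dd (anc (n - i) z') (anc (k - (m + i)) z0)) ^ 6 ≤ ((A + 4) * 2 ^ i) ^ 6 := by
        have := dd_nonneg (anc (n - i) z') (anc (k - (m + i)) z0)
        gcongr
        nlinarith
      have h7 : ((A + 4) * (2 : ℝ) ^ i) ^ 6 = (A + 4) ^ 6 * 64 ^ i := by
        rw [mul_pow, ← pow_mul, mul_comm i 6, pow_mul]; norm_num
      calc K * q ^ (k - (m + i)) * (1 + dd (anc (n - i) z') (anc (k - (m + i)) z0)) ^ 6 * Es
          ≤ K * q ^ (k - m) * ((A + 4) * 2 ^ i) ^ 6 * Es := by gcongr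
        _ = F * (A + 4) ^ 6 * 64 ^ i := by rw [h7, hF]; ring
    refine h2.trans ?_
    rw [← mul_sum]
    have h8 := geo64 n
    have h9 : W = (A + 4) ^ 6 * 64 ^ n := by
      rw [hW, mul_pow, ← pow_mul, mul_comm n 6, pow_mul]; norm_num
    rw [h9]
    calc F * (A + 4) ^ 6 * ∑ i ∈ range n, (64 : ℝ) ^ i ≤ F * (A + 4) ^ 6 * 64 ^ n := by gcongr
      _ = F * ((A + 4) ^ 6 * 64 ^ n) := by ring
  have e1 : val m' z' - val k z0 = (val m' z' - val m (anc n z')) +
      ((val m (anc n z') - val m (anc (k - m) z0)) +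
        (val m (anc (k - m) z0) - val k z0)) := by abel
  rw [e1]
  refine (norm_add_le _ _).trans ?_
  have h3 := norm_add_le (val m (anc n z') - val m (anc (k - m) z0))
    (val m (anc (k - m) z0) - val k z0)
  rw [norm_sub_rev (val m (anc (k - m) z0)) (val k z0)] at h3
  have hFW : 0 ≤ F * W := by positivity
  have hFW' : F ≤ F * W := by nlinarith
  have h10 : F * (1 / (1 - q⁻¹)) ≤ (1 / (1 - q⁻¹)) * (A * (F * W)) := by
    rw [mul_comm]
    refine mul_le_mul_of_nonneg_left ?_ hG0.le
    nlinarith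
  have h11 : F * W ≤ A * (F * W) := by nlinarith
  have h12 : CC th * A * K * q ^ (k - m) * W * Es =
      (2 + 1 / (1 - q⁻¹)) * (A * (F * W)) := by
    unfold CC
    rw [hF]; ring
  rw [h12]
  nlinarith

end Crest.Agent.R102.SideMR289
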