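import Mathlib

/-!
Row 102, T1-B EDGE, slow regime (helper174): **SIDE** = control of the normalised function at the
real side of the disc, from the picking inequality, over the two-dimensional tree of windows
`(x, u, s)`, `(x, u) ∈ P`.  Mathlib only.
-/

set_option autoImplicit false

open Set Filter Topology

noncomputable section

namespace Crest.Agent.R102.SideP174

/-- tree of windows `(x, u, s)`, `(x, u) ∈ P`: the tracked quantity `b` stays within `κ` of `b0` at
all ancestors -/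
def V (P : Set (ℝ × ℝ)) (b : ℝ → ℝ → ℝ → ℝ) (b0 s1 κ : ℝ) (x u s : ℝ) : Prop :=
  (x, u) ∈ P ∧ ∀ s', s ≤ s' → s' ≤ s1 → |b x u s' - b0| ≤ κ

/-- the constant -/
def K (C θ : ℝ) : ℝ := 4 * C + 2 * C / (1 - (2 : ℝ) ^ (-θ))

lemma two_rpow_neg_lt {θ : ℝ} (hθ : 0 < θ) : (2 : ℝ) ^ (-θ) < 1 :=
  Real.rpow_lt_one_of_one_lt_of_neg (by norm_num) (by linarith)

lemma V.mono_s {P : Set (ℝ × ℝ)} {b : ℝ → ℝ → ℝ → ℝ} {b0 s1 κ x u s t : ℝ}
    (h : V P b b0 s1 κ x u s) (hst : s ≤ t) : V P b b0 s1 κ x u t :=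
  ⟨h.1, fun s' h1 h2 => h.2 s' (hst.trans h1) h2⟩

lemma V.mono_κ {P : Set (ℝ × ℝ)} {b : ℝ → ℝ → ℝ → ℝ} {b0 s1 κ κ' x u s : ℝ}
    (h : V P b b0 s1 κ x u s) (hκ : κ ≤ κ') : V P b b0 s1 κ' x u s :=
  ⟨h.1, fun s' h1 h2 => (h.2 s' h1 h2).trans hκ⟩

lemma lat_factor {θ T t s0 : ℝ} (hθ1 : θ < 1) (hs0 : 0 < s0) (hT : s0 ≤ T)
    (ht : T ≤ t) : (T / t) * (t / s0) ^ θ ≤ (T / s0) ^ θ := by
  have hTp : 0 < T := by linarith
  have htp : 0 < t := by linarith
  have e1 : (t / s0) ^ θ = (t / T) ^ θ * (T / s0) ^ θ := by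
    rw [← Real.mul_rpow (by positivity) (by positivity)]
    congr 1
    field_simp
  have e2 : (t / T) ^ θ ≤ t / T := by
    have h1 : 1 ≤ t / T := by rw [le_div_iff₀ hTp]; linarith
    calc (t / T) ^ θ ≤ (t / T) ^ (1 : ℝ) := Real.rpow_le_rpow_of_exponent_le h1 hθ1.le
      _ = t / T := Real.rpow_one _
  rw [e1]
  have h3 : 0 ≤ (T / s0) ^ θ := by positivity
  calc (T / t) * ((t / T) ^ θ * (T / s0) ^ θ) ≤ (T / t) * ((t / T) * (T / s0) ^ θ) := by
        gcongr
    _ = (T / s0) ^ θ := by field_simp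

set_option maxHeartbeats 2000000 in
/-- **SIDE** -/
theorem side {E : Type*} [NormedAddCommGroup E] {P : Set (ℝ × ℝ)} {b : ℝ → ℝ → ℝ → ℝ}
    {f : ℝ → ℝ → ℝ → E} {e : ℝ → ℝ → ℝ → ℝ} {b0 C θ s1 s0 Es κ r x0 u0 : ℝ}
    (hC : 1 ≤ C) (hθ0 : 0 < θ) (hθ1 : θ < 1) (hs0 : 0 < s0) (hEs : 0 ≤ Es)
    (hvert : ∀ x u s s', 0 < s → s ≤ s1 → s / 2 ≤ s' → s' ≤ s → V P b b0 s1 (κ + r) x u s →
      |b x u s - b x u s'| ≤ C * e x u s ∧ ‖f x u s - f x u s'‖ ≤ C * e x u s)
    (hlat : ∀ x u x' u' s, 0 < s → s ≤ s1 → (x', u') ∈ P → |x - x'| + |u - u'| ≤ s →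
      V P b b0 s1 (κ + r) x u s →
      |b x u s - b x' u' s| ≤ C * ((|x - x'| + |u - u'|) / s) * e x u s ∧
      ‖f x u s - f x' u' s‖ ≤ C * ((|x - x'| + |u - u'|) / s) * e x u s)
    (hE : ∀ x u s, 0 < s → s ≤ s1 → V P b b0 s1 (κ + r) x u s →
      e x u s ≤ 2 * (max s s0 / s0) ^ θ * Es)
    (hW : V P b b0 s1 κ x0 u0 s0) :
    ∀ x' u' T s', (x', u') ∈ P → |x' - x0| + |u' - u0| ≤ T → s0 ≤ T → T ≤ s1 → 0 < s' → s' ≤ T →
      K C θ * (T / s0) ^ θ * (1 + Real.log (T / s')) * Es ≤ r →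
      V P b b0 s1 (κ + r) x' u' s' ∧
        ‖f x' u' s' - f x0 u0 s0‖ ≤ K C θ * (T / s0) ^ θ * (1 + Real.log (T / s')) * Es := by
  intro x' u' T s' hu' hd hsT hT1 hs' hsT' hr
  have hTp : 0 < T := by linarith
  have hCp : 0 < C := by linarith
  set M : ℝ := (T / s0) ^ θ * Es with hM
  have hM0 : 0 ≤ M := by rw [hM]; positivity
  have h2θ := two_rpow_neg_lt hθ0
  set A : ℝ := 2 * C / (1 - (2 : ℝ) ^ (-θ)) with hA
  have hA0 : 0 ≤ A := by
    rw [hA]; apply div_nonneg (by positivity); linarith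
  have hlog : 0 ≤ Real.log (T / s') := Real.log_nonneg (by rw [le_div_iff₀ hs']; linarith)
  have hKM : K C θ * (T / s0) ^ θ * (1 + Real.log (T / s')) * Es
      = (4 * C + A) * M * (1 + Real.log (T / s')) := by
    rw [K, hM]; ring
  rw [hKM] at hr ⊢
  have hr4 : 4 * C * M * (1 + Real.log (T / s')) ≤ r := by
    refine le_trans ?_ hr
    have : 0 ≤ A * M * (1 + Real.log (T / s')) := by positivity
    nlinarith
  have hr0 : 0 ≤ r := le_trans (by positivity) hr4
  -- centre column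
  have hW' : ∀ t, s0 ≤ t → V P b b0 s1 (κ + r) x0 u0 t := fun t ht =>
    (hW.mono_s ht).mono_κ (by linarith)
  have hdist : |x0 - x'| + |u0 - u'| = |x' - x0| + |u' - u0| := by
    rw [abs_sub_comm x0, abs_sub_comm u0]
  -- bound of `C * (d/t) * e x0 u0 t`
  have hlatb : ∀ t, T ≤ t → t ≤ s1 →
      C * ((|x0 - x'| + |u0 - u'|) / t) * e x0 u0 t ≤ 2 * C * M := by
    intro t ht1 ht2
    have htp : 0 < t := by linarith
    have he := hE x0 u0 t htp ht2 (hW' t (by linarith))
    rw [max_eq_left (by linarith : s0 ≤ t)] at he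
    have h1 : (|x0 - x'| + |u0 - u'|) / t ≤ T / t := by
      rw [hdist]; gcongr
    have h0 : 0 ≤ (|x0 - x'| + |u0 - u'|) / t := by positivity
    have h2 := lat_factor hθ1 hs0 hsT ht1
    have h3 : 0 ≤ 2 * (t / s0) ^ θ * Es := by positivity
    calc C * ((|x0 - x'| + |u0 - u'|) / t) * e x0 u0 t
        ≤ C * ((|x0 - x'| + |u0 - u'|) / t) * (2 * (t / s0) ^ θ * Es) := by gcongr
      _ ≤ C * (T / t) * (2 * (t / s0) ^ θ * Es) := by gcongr
      _ = 2 * C * (((T / t) * (t / s0) ^ θ) * Es) := by ring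
      _ ≤ 2 * C * ((T / s0) ^ θ * Es) := by gcongr
      _ = 2 * C * M := by rw [hM]
  have hlat' : ∀ t, T ≤ t → t ≤ s1 → |b x0 u0 t - b x' u' t| ≤ 2 * C * M ∧
      ‖f x0 u0 t - f x' u' t‖ ≤ 2 * C * M := by
    intro t ht1 ht2
    have htp : 0 < t := by linarith
    obtain ⟨h1, h2⟩ := hlat x0 u0 x' u' t htp ht2 hu' (by rw [hdist]; linarith)
      (hW' t (by linarith))
    exact ⟨h1.trans (hlatb t ht1 ht2), h2.trans (hlatb t ht1 ht2)⟩
  have hcol : ∀ t, T ≤ t → t ≤ s1 → |b x' u' t - b0| ≤ κ + 2 * C * M := by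
    intro t ht1 ht2
    have h1 := (hlat' t ht1 ht2).1
    have h2 := hW.2 t (by linarith) ht2
    have h3 : b x' u' t - b0 = -(b x0 u0 t - b x' u' t) + (b x0 u0 t - b0) := by ring
    rw [h3]
    refine (abs_add_le _ _).trans ?_
    rw [abs_neg]; linarith
  -- the vertical chain over `(x', u')`
  have hchain : ∀ n : ℕ, 2 * C * M * (n + 1) ≤ r → ∀ t, 0 < t → T / 2 ^ n ≤ t → t ≤ T →
      V P b b0 s1 (κ + r) x' u' t ∧ |b x' u' t - b x' u' T| ≤ 2 * C * M * n ∧
        ‖f x' u' t - f x' u' T‖ ≤ 2 * C * M * n := by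
    intro n
    induction n with
    | zero =>
      intro hn t ht0 ht1 ht2
      have htT : t = T := le_antisymm ht2 (by simpa using ht1)
      subst htT
      refine ⟨⟨hu', fun s'' h1 h2 => ?_⟩, by simp, by simp⟩
      have := hcol s'' h1 h2
      simp only [CharP.cast_eq_zero, zero_add, mul_one] at hn
      linarith
    | succ n ih =>
      intro hn t ht0 ht1 ht2
      push_cast at hn
      have hn' : 2 * C * M * (n + 1) ≤ r := by
        have : 0 ≤ 2 * C * M := by positivity
        nlinarith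
      rcases le_or_gt (T / 2 ^ n) t with hcase | hcase
      · obtain ⟨h1, h2, h3⟩ := ih hn' t ht0 hcase ht2
        have : 0 ≤ 2 * C * M := by positivity
        refine ⟨h1, ?_, ?_⟩
        · push_cast; nlinarith
        · push_cast; nlinarith
      · set a : ℝ := T / 2 ^ n with ha
        have hap : 0 < a := by rw [ha]; positivity
        have haT : a ≤ T := by
          rw [ha]; exact div_le_self hTp.le (one_le_pow₀ (by norm_num))
        obtain ⟨hVa, hba, hfa⟩ := ih hn' a hap le_rfl haT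
        have hea : C * e x' u' a ≤ 2 * C * M := by
          have h1 := hE x' u' a hap (by linarith) hVa
          have h2 : max a s0 ≤ T := max_le haT hsT
          have h3 : (max a s0 / s0) ^ θ ≤ (T / s0) ^ θ := by
            apply Real.rpow_le_rpow (by positivity) _ hθ0.le
            gcongr
          calc C * e x' u' a ≤ C * (2 * (max a s0 / s0) ^ θ * Es) := by gcongr
            _ ≤ C * (2 * (T / s0) ^ θ * Es) := by gcongr
            _ = 2 * C * M := by rw [hM]; ring
        have hstep : ∀ s'', a / 2 ≤ s'' → s'' ≤ a →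
            |b x' u' s'' - b x' u' T| ≤ 2 * C * M * (n + 1) ∧
            ‖f x' u' s'' - f x' u' T‖ ≤ 2 * C * M * (n + 1) := by
          intro s'' h1 h2
          obtain ⟨h3, h4⟩ := hvert x' u' a s'' hap (by linarith) h1 h2 hVa
          constructor
          · have h5 : b x' u' s'' - b x' u' T
                = -(b x' u' a - b x' u' s'') + (b x' u' a - b x' u' T) := by ring
            rw [h5]
            refine (abs_add_le _ _).trans ?_
            rw [abs_neg]; nlinarith
          · have h5 : f x' u' s'' - f x' u' T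
                = -(f x' u' a - f x' u' s'') + (f x' u' a - f x' u' T) := by abel
            rw [h5]
            refine (norm_add_le _ _).trans ?_
            rw [norm_neg]; nlinarith
        have ha2 : a / 2 ≤ t := by
          refine le_trans (le_of_eq ?_) ht1
          rw [ha, pow_succ]; field_simp
        refine ⟨⟨hu', fun s'' h1 h2 => ?_⟩, ?_, ?_⟩
        · rcases le_or_gt a s'' with hc | hc
          · exact hVa.2 s'' hc h2
          · have h3 := (hstep s'' (ha2.trans h1) hc.le).1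
            have h4 := hcol T le_rfl hT1
            have h5 : b x' u' s'' - b0 = (b x' u' s'' - b x' u' T) + (b x' u' T - b0) := by ring
            rw [h5]
            refine (abs_add_le _ _).trans ?_
            nlinarith
        · have := (hstep t ha2 hcase.le).1
          push_cast; exact this
        · have := (hstep t ha2 hcase.le).2
          push_cast; exact this
  -- the centre column upwards
  have hup : ∀ n : ℕ, ∀ t, s0 ≤ t → t ≤ s0 * 2 ^ n → t ≤ s1 →
      ‖f x0 u0 t - f x0 u0 s0‖ ≤ A * (t / s0) ^ θ * Es := by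
    intro n
    induction n with
    | zero =>
      intro t h1 h2 _
      have : t = s0 := le_antisymm (by simpa using h2) h1
      subst this
      simp only [sub_self, norm_zero]
      positivity
    | succ n ih =>
      intro t h1 h2 h3
      have htp : 0 < t := by linarith
      have hm1 : t / 2 ≤ max (t / 2) s0 := le_max_left _ _
      have hm2 : max (t / 2) s0 ≤ t := max_le (by linarith) h1
      have hv := (hvert x0 u0 t (max (t / 2) s0) htp h3 hm1 hm2 (hW' t h1)).2
      have he := hE x0 u0 t htp h3 (hW' t h1)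
      rw [max_eq_left h1] at he
      have hv' : ‖f x0 u0 t - f x0 u0 (max (t / 2) s0)‖ ≤ 2 * C * ((t / s0) ^ θ * Es) := by
        refine hv.trans ?_
        calc C * e x0 u0 t ≤ C * (2 * (t / s0) ^ θ * Es) := by gcongr
          _ = _ := by ring
      have hN : 0 ≤ (t / s0) ^ θ * Es := by positivity
      have hAeq : 2 * C + A * (2 : ℝ) ^ (-θ) = A := by
        have : (1 : ℝ) - (2 : ℝ) ^ (-θ) ≠ 0 := by linarith
        rw [hA]; field_simp; ring
      have h2C : 2 * C ≤ A := by
        have : 0 ≤ A * (2 : ℝ) ^ (-θ) := by positivity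
        linarith
      rcases le_or_gt (t / 2) s0 with hc | hc
      · rw [max_eq_right hc] at hv'
        calc ‖f x0 u0 t - f x0 u0 s0‖ ≤ 2 * C * ((t / s0) ^ θ * Es) := hv'
          _ ≤ A * ((t / s0) ^ θ * Es) := by gcongr
          _ = _ := by ring
      · rw [max_eq_left hc.le] at hv'
        have h5 := ih (t / 2) hc.le (by rw [pow_succ] at h2; linarith) (by linarith)
        have h6 : (t / 2 / s0) ^ θ = (2 : ℝ) ^ (-θ) * (t / s0) ^ θ := by
          rw [Real.rpow_neg (by norm_num), ← Real.inv_rpow (by norm_num),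
            ← Real.mul_rpow (by positivity) (by positivity)]
          congr 1
          field_simp
        rw [h6] at h5
        have h7 : f x0 u0 t - f x0 u0 s0
            = (f x0 u0 t - f x0 u0 (t / 2)) + (f x0 u0 (t / 2) - f x0 u0 s0) := by abel
        rw [h7]
        refine (norm_add_le _ _).trans ?_
        calc _ ≤ 2 * C * ((t / s0) ^ θ * Es) + A * ((2 : ℝ) ^ (-θ) * (t / s0) ^ θ) * Es := by
              gcongr
          _ = (2 * C + A * (2 : ℝ) ^ (-θ)) * ((t / s0) ^ θ * Es) := by ring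
          _ = A * (t / s0) ^ θ * Es := by rw [hAeq]; ring
  have hupT : ‖f x0 u0 T - f x0 u0 s0‖ ≤ A * M := by
    obtain ⟨n, hn⟩ : ∃ n : ℕ, T / s0 ≤ 2 ^ n := by
      obtain ⟨n, hn⟩ := pow_unbounded_of_one_lt (T / s0) (by norm_num : (1 : ℝ) < 2)
      exact ⟨n, hn.le⟩
    have := hup n T hsT (by rw [div_le_iff₀ hs0] at hn; linarith) hT1
    rw [hM]; linarith [this, mul_assoc A ((T / s0) ^ θ) Es]
  -- the number of steps
  obtain ⟨n, hn1, hn2⟩ : ∃ n : ℕ, T / 2 ^ n ≤ s' ∧ (n : ℝ) ≤ Real.log (T / s') / Real.log 2 + 1 := by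
    refine ⟨⌈Real.log (T / s') / Real.log 2⌉₊, ?_, ?_⟩
    · have hl2 : 0 < Real.log 2 := Real.log_pos (by norm_num)
      have h1 : Real.log (T / s') / Real.log 2 ≤ (⌈Real.log (T / s') / Real.log 2⌉₊ : ℝ) :=
        Nat.le_ceil _
      rw [div_le_iff₀ hl2] at h1
      have h2 : T / s' ≤ 2 ^ ⌈Real.log (T / s') / Real.log 2⌉₊ := by
        rw [← Real.log_le_log_iff (by positivity) (by positivity), Real.log_pow]
        exact h1
      rw [div_le_iff₀ (by positivity)]
      rw [div_le_iff₀ hs'] at h2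
      linarith
    · exact (Nat.ceil_lt_add_one (div_nonneg hlog (Real.log_nonneg (by norm_num)))).le
  have hl2 : (1 : ℝ) / 2 < Real.log 2 := by
    have := Real.log_two_gt_d9; linarith
  have hn3 : (n : ℝ) ≤ 2 * Real.log (T / s') + 1 := by
    refine hn2.trans ?_
    have : Real.log (T / s') / Real.log 2 ≤ 2 * Real.log (T / s') := by
      rw [div_le_iff₀ (by linarith)]; nlinarith
    linarith
  have hCM : 0 ≤ 2 * C * M := by positivity
  have hnr : 2 * C * M * (n + 1) ≤ r := by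
    refine le_trans ?_ hr4
    nlinarith
  obtain ⟨hV, _, hf⟩ := hchain n hnr s' hs' hn1 hsT'
  refine ⟨hV, ?_⟩
  have h1 := (hlat' T le_rfl hT1).2
  have h2 : f x' u' s' - f x0 u0 s0 = (f x' u' s' - f x' u' T) + -(f x0 u0 T - f x' u' T)
      + (f x0 u0 T - f x0 u0 s0) := by abel
  rw [h2]
  refine (norm_add_le _ _).trans ?_
  refine (add_le_add (norm_add_le _ _) le_rfl).trans ?_
  rw [norm_neg]
  have h3 : 2 * C * M * n + 2 * C * M ≤ 4 * C * M * (1 + Real.log (T / s')) := by nlinarith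
  have h4 : A * M ≤ A * M * (1 + Real.log (T / s')) := by
    have : 0 ≤ A * M := by positivity
    nlinarith
  nlinarith

end Crest.Agent.R102.SideP174
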