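import Crest.Agent.R102.SideK_201

/-!
# R102/SideY_201: the side hypothesis of the disc at a kernel record (slow label regime, N2)

`sideY`: near range (`SideK201.sideK`) + far range (any crude bound `exp (Q * x ^ (1/2))`), uniform
in the scale factor `y ≥ 1`; kernel exponent `1/2`.
-/

set_option autoImplicit false

open Set Metric

noncomputable section

namespace Crest.Agent.R102.SideY201

open Crest.Agent.R102.Chain859

variable {E : Type*} [NormedAddCommGroup E]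

lemma log_le_sqrt {x : ℝ} (hx : 1 ≤ x) : 1 + Real.log x ≤ 2 * x ^ (1 / 2 : ℝ) := by
  have x0 : 0 < x := by linarith
  have h1 : Real.log (x ^ (1 / 2 : ℝ)) ≤ x ^ (1 / 2 : ℝ) - 1 :=
    Real.log_le_sub_one_of_pos (by positivity)
  rw [Real.log_rpow x0] at h1
  linarith

lemma exp_ge_self (x : ℝ) : x ≤ Real.exp x := by
  linarith [Real.add_one_le_exp x]

/-- absorption of powers of the logarithm -/
lemma absorb {M c₀ Q : ℝ} (hM : 1 ≤ M) (hc₀ : 0 < c₀) (hQ : 0 ≤ Q) :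
    ∃ B : ℝ, 0 ≤ B ∧ ∀ x : ℝ, 1 ≤ x →
      M * (1 + Real.log x) ^ 4 * x ^ (1 / 2 : ℝ) ≤ Real.exp (B * x ^ (1 / 2 : ℝ)) ∧
      M * (1 + Real.log x) ^ 4 * x ^ (1 / 2 : ℝ) * Real.exp (Q * x ^ (1 / 2 : ℝ)) ≤
        c₀ * Real.exp (B * x ^ (1 / 2 : ℝ)) := by
  set c₁ : ℝ := min c₀ 1 with hc₁
  have hc₁0 : 0 < c₁ := lt_min hc₀ one_pos
  have hc₁1 : c₁ ≤ 1 := min_le_right _ _
  have hMc : 1 ≤ M / c₁ := by
    rw [le_div_iff₀ hc₁0]; linarith
  have hL : 0 ≤ Real.log (M / c₁) := Real.log_nonneg hMc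
  refine ⟨Real.log (M / c₁) + 9 + Q, by positivity, ?_⟩
  intro x hx
  have x0 : 0 < x := by linarith
  set w : ℝ := x ^ (1 / 2 : ℝ) with hw
  have w1 : 1 ≤ w := Real.one_le_rpow hx (by norm_num)
  have w0 : 0 < w := by linarith
  have h1 : 1 + Real.log x ≤ 2 * w := log_le_sqrt hx
  have hl0 : 0 ≤ Real.log x := Real.log_nonneg hx
  have h2 : 2 * w ≤ Real.exp (2 * w) := exp_ge_self _
  have h3 : (1 + Real.log x) ^ 4 ≤ Real.exp (8 * w) := by
    calc (1 + Real.log x) ^ 4 ≤ Real.exp (2 * w) ^ 4 := by gcongr; linarith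
      _ = Real.exp (8 * w) := by rw [← Real.exp_nat_mul]; congr 1; push_cast; ring
  have h4 : w ≤ Real.exp w := exp_ge_self _
  have h5 : M / c₁ ≤ Real.exp (Real.log (M / c₁) * w) := by
    calc M / c₁ = Real.exp (Real.log (M / c₁)) := by rw [Real.exp_log (by positivity)]
      _ ≤ Real.exp (Real.log (M / c₁) * w) := by
          apply Real.exp_le_exp.2
          nlinarith
  have h6 : M / c₁ * (1 + Real.log x) ^ 4 * w ≤ Real.exp ((Real.log (M / c₁) + 9) * w) := by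
    calc M / c₁ * (1 + Real.log x) ^ 4 * w
        ≤ Real.exp (Real.log (M / c₁) * w) * Real.exp (8 * w) * Real.exp w := by gcongr
      _ = Real.exp ((Real.log (M / c₁) + 9) * w) := by
          rw [← Real.exp_add, ← Real.exp_add]; congr 1; ring
  have h7 : M * (1 + Real.log x) ^ 4 * w * Real.exp (Q * w) ≤
      c₁ * Real.exp ((Real.log (M / c₁) + 9 + Q) * w) := by
    have h8 : Real.exp ((Real.log (M / c₁) + 9 + Q) * w) =
        Real.exp ((Real.log (M / c₁) + 9) * w) * Real.exp (Q * w) := by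
      rw [← Real.exp_add]; congr 1; ring
    rw [h8]
    calc M * (1 + Real.log x) ^ 4 * w * Real.exp (Q * w)
        = c₁ * ((M / c₁ * (1 + Real.log x) ^ 4 * w) * Real.exp (Q * w)) := by field_simp
      _ ≤ c₁ * (Real.exp ((Real.log (M / c₁) + 9) * w) * Real.exp (Q * w)) := by gcongr
  have hexp : 0 < Real.exp ((Real.log (M / c₁) + 9 + Q) * w) := Real.exp_pos _
  have hQw : 1 ≤ Real.exp (Q * w) := Real.one_le_exp (by positivity)
  constructor
  · have h9 : 0 ≤ M * (1 + Real.log x) ^ 4 * w := by positivity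
    calc M * (1 + Real.log x) ^ 4 * w ≤ M * (1 + Real.log x) ^ 4 * w * Real.exp (Q * w) := by
          nlinarith
      _ ≤ c₁ * Real.exp ((Real.log (M / c₁) + 9 + Q) * w) := h7
      _ ≤ 1 * Real.exp ((Real.log (M / c₁) + 9 + Q) * w) := by gcongr
      _ = _ := one_mul _
  · exact h7.trans (by gcongr; exact min_le_left _ _)

set_option maxHeartbeats 2000000 in
/-- **the side hypothesis of the disc at a kernel record** -/
theorem sideY {Cl A C ν k Q : ℝ} (hCl : 0 ≤ Cl) (hA : 1 ≤ A) (hC : 1 ≤ C) (hν : 0 < ν)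
    (hk : 0 < k) (hQ : 0 ≤ Q) :
    ∃ B : ℝ, 0 ≤ B ∧ ∀ (e : ℝ × ℝ → ℝ → ℝ) (b : ℝ × ℝ → ℝ → E) (b0 : E) (ε s1 : ℝ)
      (p0 p : ℝ × ℝ) (s : ℝ), (∀ p s, 0 ≤ e p s) →
      (∀ p s s', V b b0 s1 p0 k p s → e p s < 1 → s / 2 ≤ s' → s' ≤ s →
        ‖b p s - b p s'‖ ≤ Cl * e p s) →
      (∀ p p' s, V b b0 s1 p0 k p s → e p s < 1 → dist p p' ≤ s →
        ‖b p s - b p' s‖ ≤ Cl * (dist p p' / s) * e p s) →
      V b b0 s1 p0 (3 * k / 4) p s → dist p p0 ≤ s1 / 2 →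
      (∀ s'', s ≤ s'' → s'' ≤ s1 → e p s'' ≤ ε) → 8 * Cl * ε ≤ k → ε < 1 →
      (∀ p' s', V b b0 s1 p0 k p' s' → rho (1 / 2) p s p' s' * e p' s' ≤ A * e p s) →
      ∀ (y T x' v' s' : ℝ), 1 ≤ y → y * s ≤ T → 2 * (C * T) ≤ s1 →
        |x' - p.1| ≤ C * T → |v' - p.2| ≤ C * T →
        ν * T / (1 + Real.log (T / (y * s))) ^ 2 ≤ s' → s' ≤ C * T →
        ‖b (x', v') s' - b p s‖ ≤ Real.exp (Q * (T / (y * s)) ^ (1 / 2 : ℝ)) →
        ‖b (x', v') s' - b p s‖ ≤
          e p s * y ^ (1 / 2 : ℝ) * Real.exp (B * (T / (y * s)) ^ (1 / 2 : ℝ)) := by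
  obtain ⟨M, hM, H⟩ := SideK201.sideK (E := E) (th := 1 / 2) (Cl := Cl) (A := A) (by norm_num) hCl hA
  have hM0 : 0 < M := by linarith
  set c₀ : ℝ := min (k / 8) (1 / 2) with hc₀
  have hc₀0 : 0 < c₀ := lt_min (by positivity) (by norm_num)
  set M1 : ℝ := max 1 (M * C * (C / ν) ^ 2) with hM1
  have hM11 : 1 ≤ M1 := le_max_left _ _
  obtain ⟨B, hB, hab⟩ := absorb hM11 hc₀0 hQ
  refine ⟨B, hB, ?_⟩
  intro e b b0 ε s1 p0 p s he hvert hlat hW hd hε hεk hε1 hrec y T x' v' s' hy hyT hTs1 hx' hv'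
    hs'l hs'u hcr
  have s0 : 0 < s := hW.1
  have y0 : 0 < y := by linarith
  have ys : 0 < y * s := by positivity
  have T0 : 0 < T := lt_of_lt_of_le ys hyT
  have hx1 : 1 ≤ T / (y * s) := by rw [one_le_div ys]; exact hyT
  set x : ℝ := T / (y * s) with hx
  have x0 : 0 < x := by linarith
  have hl0 : 0 ≤ Real.log x := Real.log_nonneg hx1
  set l : ℝ := 1 + Real.log x with hl
  have l1 : 1 ≤ l := by linarith
  have l0 : 0 < l := by linarith
  have hs' : 0 < s' := lt_of_lt_of_le (by positivity) hs'l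
  have he0 := he p s
  have hTC : T ≤ C * T := by nlinarith
  have hsT : s ≤ T := by nlinarith
  have hdp : dist p (x', v') ≤ C * T := by
    rw [Prod.dist_eq, Real.dist_eq, Real.dist_eq]
    refine max_le ?_ ?_
    · rw [abs_sub_comm]; exact hx'
    · rw [abs_sub_comm]; exact hv'
  have hTs : C * T / s = C * (y * x) := by
    rw [hx]; field_simp
  have h1 : (C * T / s) ^ (1 / 2 : ℝ) ≤ C * (y ^ (1 / 2 : ℝ) * x ^ (1 / 2 : ℝ)) := by
    rw [hTs, Real.mul_rpow (by positivity) (by positivity),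
      Real.mul_rpow (by positivity) (by positivity)]
    have : C ^ (1 / 2 : ℝ) ≤ C ^ (1 : ℝ) := Real.rpow_le_rpow_of_exponent_le hC (by norm_num)
    rw [Real.rpow_one] at this
    gcongr
  have h2 : C * T / s' ≤ C / ν * l ^ 2 := by
    rw [div_le_iff₀ hs']
    have h3 : ν * T ≤ s' * l ^ 2 := by
      rw [div_le_iff₀ (by positivity)] at hs'l
      exact hs'l
    calc C * T = C / ν * (ν * T) := by field_simp
      _ ≤ C / ν * (s' * l ^ 2) := by gcongr
      _ = C / ν * l ^ 2 * s' := by ring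
  set yy : ℝ := y ^ (1 / 2 : ℝ) with hyy
  set xx : ℝ := x ^ (1 / 2 : ℝ) with hxx
  have yy0 : 0 < yy := by rw [hyy]; positivity
  have xx0 : 0 < xx := by rw [hxx]; positivity
  have h3 : M * (C * T / s) ^ (1 / 2 : ℝ) * (C * T / s') ^ 2 * e p s ≤
      yy * e p s * (M1 * l ^ 4 * xx) := by
    calc M * (C * T / s) ^ (1 / 2 : ℝ) * (C * T / s') ^ 2 * e p s
        ≤ M * (C * (yy * xx)) * (C / ν * l ^ 2) ^ 2 * e p s := by gcongr
      _ = (M * C * (C / ν) ^ 2) * (yy * e p s * (l ^ 4 * xx)) := by ring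
      _ ≤ M1 * (yy * e p s * (l ^ 4 * xx)) := by gcongr; exact le_max_right _ _
      _ = _ := by ring
  obtain ⟨a1, a2⟩ := hab x hx1
  rcases le_or_gt (M * (C * T / s) ^ (1 / 2 : ℝ) * (C * T / s') ^ 2 * e p s) c₀ with hN | hN
  · have r := (H e b b0 k ε s1 p0 p s he hvert hlat hk.le hW hd hε hεk hε1 hrec (C * T) (x', v') s'
      (hsT.trans hTC) hTs1 hdp hs' hs'u (hN.trans (min_le_left _ _))
      (hN.trans (min_le_right _ _))).2
    calc ‖b (x', v') s' - b p s‖ ≤ yy * e p s * (M1 * l ^ 4 * xx) := r.trans h3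
      _ ≤ yy * e p s * Real.exp (B * xx) := by gcongr
      _ = e p s * yy * Real.exp (B * xx) := by ring
  · have h4 : c₀ ≤ yy * e p s * (M1 * l ^ 4 * xx) := hN.le.trans h3
    have hE : 0 < Real.exp (Q * xx) := Real.exp_pos _
    have h5 : c₀ * Real.exp (Q * xx) ≤ yy * e p s * (c₀ * Real.exp (B * xx)) := by
      calc c₀ * Real.exp (Q * xx) ≤ yy * e p s * (M1 * l ^ 4 * xx) * Real.exp (Q * xx) := by gcongr
        _ = yy * e p s * (M1 * l ^ 4 * xx * Real.exp (Q * xx)) := by ring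
        _ ≤ yy * e p s * (c₀ * Real.exp (B * xx)) := by gcongr
    have h6 : c₀ * Real.exp (Q * xx) ≤ c₀ * (e p s * yy * Real.exp (B * xx)) := by
      calc c₀ * Real.exp (Q * xx) ≤ yy * e p s * (c₀ * Real.exp (B * xx)) := h5
        _ = _ := by ring
    exact hcr.trans (le_of_mul_le_mul_left h6 hc₀0)

end Crest.Agent.R102.SideY201
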