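import Crest.Agent.R102.OmitX_262
import Crest.Agent.R102.Chain_559

/-!
Row 102, EDGE, field `sin_ne` of `Edge255.ED` on the official sheets (helper262): on `X ∩ L` the
label is never a double root of the incidence (`dφ ∧ dp ≠ 0`), 3 lines from `OmitX262.omitX_obj`.
-/

set_option autoImplicit false

open Set Filter Topology Metric MeasureTheory Complex

noncomputable section

namespace Crest.Agent.R102.SinNe262

open Crest.Agent.R102.Sup115 (HDu)
open Crest.Agent.R102.GlueII559 Crest.Agent.R102.PartII150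
open Crest.Agent.R102.K669 Crest.Agent.R102.Out559

/-- `sin z = 0 → e^{2 i z} = 1` -/
theorem cexp_of_sin {z : ℂ} (hz : sin z = 0) : cexp (2 * I * (-z)) = 1 := by
  obtain ⟨n, hn⟩ := Complex.sin_eq_zero_iff.1 hz
  rw [hn, Complex.exp_eq_one_iff]
  exact ⟨-n, by push_cast; ring⟩

/-- **field `sin_ne` of `ED`** on the official sheets -/
theorem sin_ne {q : C(ℂ, ℂ)} {η ρ r Bc : ℝ} {b φ p : ℂ × ℂ → ℂ} {m₀ : ℂ → ℂ} {h : ℝ} {ψ H : ℂ → ℂ}
    (D : Sh982.Dat q η ρ r Bc b φ p m₀ h ψ H) {u0 R d : ℝ} {g : ℂ → ℂ}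
    (S : Chain559.Shift b φ p h ρ r u0 R d g) :
    ∀ x ∈ Xe u0 R d g (OX b h ρ r) ∩ Le u0 R d g (OL φ p ρ r),
      deriv ψ (Bx b h ρ r g x) ≠ 0 → sin (φx φ p ρ r g x - ψ (Bx b h ρ r g x)) ≠ 0 := by
  intro x hx hy h0
  have hB : |(Bx b h ρ r g x).im| < h :=
    D.be_mem (ex_mem_SB D S.im_nonneg S.d_le hx.1.1.1 hx.1.1.2 hx.1.2)
  have hw : ∀ w ∈ HDu u0 R, w ∈ ball (0 : ℂ) r := fun w hw => S.ball_sub hw.1
  refine OmitX262.omitX_obj D S.R_pos S.d_pos S.d_le S.ball_sub S.diff S.im_nonneg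
    (fun w hw' t ht => (mem_of_lt_VV D (hw w hw') (ht.trans_le (S.im_le w hw'))).1)
    (fun w hw' t ht => (mem_of_lt_VV D (hw w hw') (ht.trans_le (S.im_le w hw'))).2) hx ⟨hB, hy⟩ ?_
  have h1 := cexp_of_sin h0
  rwa [neg_sub] at h1

end Crest.Agent.R102.SinNe262
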