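import Crest.Agent.R102.HartR_948

/-!
Row 102, T1-B (D4) (helper948): slice-regular ⟹ jointly regular, for a.e. real `u`.
-/

set_option autoImplicit false
set_option linter.unusedSectionVars false
set_option linter.unusedVariables false

open Set Filter Topology Metric MeasureTheory
open scoped Real ENNReal

noncomputable section

namespace Crest.Agent.R102.SJ948

open Crest.Agent.R102.M948

theorem exists_rat_near (x : ℝ) {ε : ℝ} (hε : 0 < ε) : ∃ q : ℚ, |(q : ℝ) - x| < ε := by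
  obtain ⟨q, hq1, hq2⟩ := exists_rat_btwn (show x < x + ε by linarith)
  exact ⟨q, by rw [abs_lt]; constructor <;> linarith⟩

theorem exists_ratC_near (z : ℂ) {ε : ℝ} (hε : 0 < ε) :
    ∃ a b : ℚ, dist (((a : ℝ) : ℂ) + ((b : ℝ) : ℂ) * Complex.I) z < ε := by
  obtain ⟨a, ha⟩ := exists_rat_near z.re (show 0 < ε / 2 by positivity)
  obtain ⟨b, hb⟩ := exists_rat_near z.im (show 0 < ε / 2 by positivity)
  refine ⟨a, b, ?_⟩
  rw [dist_eq_norm]
  refine (Complex.norm_le_abs_re_add_abs_im _).trans_lt ?_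
  simp only [Complex.sub_re, Complex.add_re, Complex.ofReal_re, Complex.mul_re, Complex.I_re,
    Complex.ofReal_im, Complex.I_im, Complex.sub_im, Complex.add_im, Complex.mul_im]
  ring_nf at ha hb ⊢
  linarith

/-- **slice-regular implies jointly regular** for a.e. real `u`, one null set for all discs. -/
theorem slice_joint {Om : Set (ℂ × ℂ)} (hOm : IsOpen Om) {f : ℂ × ℂ → ℂ}
    (hf : DifferentiableOn ℂ f Om) :
    ∀ᵐ u : ℝ, ∀ (t0 : ℂ) (R : ℝ), (t0, (u : ℂ)) ∈ Om →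
      (∃ g : ℂ → ℂ, DifferentiableOn ℂ g (ball t0 R) ∧ ∀ᶠ t in 𝓝 t0, g t = f (t, u)) →
      ∀ R' < R, ∃ d > 0, ∃ G : ℂ × ℂ → ℂ,
        DifferentiableOn ℂ G (ball t0 R' ×ˢ ball (u : ℂ) d) ∧
        ∀ᶠ q in 𝓝 (t0, (u : ℂ)), G q = f q := by
  have key : ∀ i : (ℚ × ℚ) × ℚ × ℚ × ℚ × ℚ, ∀ᵐ u : ℝ,
      (0 < (i.2.1 : ℝ)) →
      (ball (((i.1.1 : ℝ) : ℂ) + ((i.1.2 : ℝ) : ℂ) * Complex.I) (i.2.1 : ℝ) ×ˢ
        ball ((i.2.2.1 : ℝ) : ℂ) (i.2.2.2.1 : ℝ) ⊆ Om) →
      (u : ℂ) ∈ ball ((i.2.2.1 : ℝ) : ℂ) (i.2.2.2.1 : ℝ) →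
      (∃ g : ℂ → ℂ, DifferentiableOn ℂ g
        (ball (((i.1.1 : ℝ) : ℂ) + ((i.1.2 : ℝ) : ℂ) * Complex.I) (i.2.2.2.2 : ℝ)) ∧
        ∀ᶠ t in 𝓝 (((i.1.1 : ℝ) : ℂ) + ((i.1.2 : ℝ) : ℂ) * Complex.I), g t = f (t, u)) →
      ∀ R' < (i.2.2.2.2 : ℝ), ∃ d > 0, ∃ G : ℂ × ℂ → ℂ,
        DifferentiableOn ℂ G
          (ball (((i.1.1 : ℝ) : ℂ) + ((i.1.2 : ℝ) : ℂ) * Complex.I) R' ×ˢ ball (u : ℂ) d) ∧
        ∀ t ∈ ball (((i.1.1 : ℝ) : ℂ) + ((i.1.2 : ℝ) : ℂ) * Complex.I) (min (i.2.1 : ℝ) R'),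
          ∀ w ∈ ball (u : ℂ) d, G (t, w) = f (t, w) := by
    rintro ⟨⟨a, b⟩, r0, q, ρ, R⟩
    by_cases hr0 : 0 < (r0 : ℝ)
    swap
    · exact Eventually.of_forall (fun u h => absurd h hr0)
    by_cases hsub : ball (((a : ℝ) : ℂ) + ((b : ℝ) : ℂ) * Complex.I) (r0 : ℝ) ×ˢ
        ball ((q : ℝ) : ℂ) (ρ : ℝ) ⊆ Om
    swap
    · exact Eventually.of_forall (fun u _ h => absurd h hsub)
    set c : ℂ := ((a : ℝ) : ℂ) + ((b : ℝ) : ℂ) * Complex.I with hc
    have hf' : DifferentiableOn ℂ (fun p : ℂ × ℂ => f (p.2, p.1))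
        (ball ((q : ℝ) : ℂ) (ρ : ℝ) ×ˢ ball c (r0 : ℝ)) := by
      refine hf.comp (by fun_prop) (fun p hp => hsub ⟨hp.2, hp.1⟩)
    have h := extend_ae (f := fun p : ℂ × ℂ => f (p.2, p.1)) (W := ball ((q : ℝ) : ℂ) (ρ : ℝ))
      isOpen_ball (t0 := c) (r0 := (r0 : ℝ)) hr0 hf' (R := (R : ℝ))
      (F := {u : ℝ | (u : ℂ) ∈ ball ((q : ℝ) : ℂ) (ρ : ℝ) ∧ ∃ g : ℂ → ℂ,
        DifferentiableOn ℂ g (ball c (R : ℝ)) ∧ ∀ᶠ t in 𝓝 c, g t = f (t, u)})
      (fun u hu => hu)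
    filter_upwards [h] with u hu _ _ hmem hg R' hR'
    obtain ⟨d, hd, -, -, G, hG, hGf⟩ := hu ⟨hmem, hg⟩ R' hR' 1 one_pos
    refine ⟨d, hd, fun p => G (p.2, p.1), ?_, fun t ht w hw => hGf w hw t ht⟩
    exact hG.differentiableOn.comp (by fun_prop) (fun p hp => ⟨hp.2, hp.1⟩)
  filter_upwards [ae_all_iff.2 key] with u hu t0 R ht0 hg R' hR'
  rcases le_or_gt R' 0 with hR'0 | hR'0
  · refine ⟨1, one_pos, f, ?_, Eventually.of_forall (fun _ => rfl)⟩
    rw [ball_eq_empty.2 hR'0, empty_prod]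
    exact fun x hx => absurd hx (notMem_empty _)
  obtain ⟨g, hgd, hgf⟩ := hg
  -- product neighbourhood of (t0,u) in Om
  obtain ⟨ε, hε, hεOm⟩ := Metric.isOpen_iff.1 hOm _ ht0
  obtain ⟨δ, hδ, hδg⟩ := Metric.eventually_nhds_iff_ball.1 hgf
  obtain ⟨η, hη0, hη⟩ : ∃ η : ℝ, 0 < η ∧ η < ε / 4 ∧ η < δ ∧ η < (R - R') / 4 ∧ η < R' :=
    ⟨min (min (ε / 8) (δ / 2)) (min ((R - R') / 8) (R' / 2)), by
      have : 0 < R - R' := by linarith
      positivity, by
      have h1 : 0 < R - R' := by linarith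
      have ha := min_le_left (min (ε / 8) (δ / 2)) (min ((R - R') / 8) (R' / 2))
      have hb := min_le_right (min (ε / 8) (δ / 2)) (min ((R - R') / 8) (R' / 2))
      have hc := min_le_left (ε / 8) (δ / 2)
      have hd := min_le_right (ε / 8) (δ / 2)
      have he := min_le_left ((R - R') / 8) (R' / 2)
      have hf := min_le_right ((R - R') / 8) (R' / 2)
      refine ⟨?_, ?_, ?_, ?_⟩ <;> linarith⟩
  obtain ⟨hη1, hη2, hη3, hη4⟩ := hη
  obtain ⟨a, b, hab⟩ := exists_ratC_near t0 hη0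
  obtain ⟨r0, hr01, hr02⟩ := exists_rat_btwn (show 2 * η < ε / 2 by linarith)
  obtain ⟨q, hq⟩ := exists_rat_near u hη0
  obtain ⟨RR, hRR1, hRR2⟩ := exists_rat_btwn (show R' + 2 * η < R - η by linarith)
  set c : ℂ := ((a : ℝ) : ℂ) + ((b : ℝ) : ℂ) * Complex.I with hc
  have hsub : ball c (r0 : ℝ) ×ˢ ball ((q : ℝ) : ℂ) (r0 : ℝ) ⊆ Om := by
    rintro ⟨t, w⟩ ⟨ht, hw⟩
    apply hεOm
    rw [mem_ball, Prod.dist_eq, max_lt_iff]
    rw [mem_ball] at ht hw
    constructor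
    · calc dist t t0 ≤ dist t c + dist c t0 := dist_triangle _ _ _
        _ < ε := by linarith
    · have h1 : dist ((q : ℝ) : ℂ) (u : ℂ) < η := by
        rw [dist_eq_norm, ← Complex.ofReal_sub, Complex.norm_real]; exact hq
      calc dist w (u : ℂ) ≤ dist w ((q : ℝ) : ℂ) + dist ((q : ℝ) : ℂ) (u : ℂ) :=
            dist_triangle _ _ _
        _ < ε := by linarith
  have hmem : (u : ℂ) ∈ ball ((q : ℝ) : ℂ) (r0 : ℝ) := by
    rw [mem_ball, dist_comm, dist_eq_norm, ← Complex.ofReal_sub, Complex.norm_real]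
    exact hq.trans (by linarith)
  have hg' : ∃ g : ℂ → ℂ, DifferentiableOn ℂ g (ball c (RR : ℝ)) ∧
      ∀ᶠ t in 𝓝 c, g t = f (t, u) := by
    refine ⟨g, hgd.mono (fun t ht => ?_), ?_⟩
    · rw [mem_ball] at ht ⊢
      calc dist t t0 ≤ dist t c + dist c t0 := dist_triangle _ _ _
        _ < R := by linarith
    · refine Filter.eventually_of_mem (isOpen_ball.mem_nhds ?_) hδg
      rw [mem_ball]; exact hab.trans hη2
  obtain ⟨d, hd, G, hG, hGf⟩ := hu ⟨⟨a, b⟩, r0, q, r0, RR⟩ (by linarith : (0:ℝ) < (r0 : ℝ))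
    hsub hmem hg' (R' + η) (by linarith : R' + η < (RR : ℝ))
  refine ⟨d, hd, G, hG.mono (prod_mono (fun t ht => ?_) subset_rfl), ?_⟩
  · rw [mem_ball] at ht ⊢
    calc dist t c ≤ dist t t0 + dist t0 c := dist_triangle _ _ _
      _ < R' + η := by rw [dist_comm t0 c]; linarith
  · have hU : ball c (min (r0 : ℝ) (R' + η)) ×ˢ ball (u : ℂ) d ∈ 𝓝 (t0, (u : ℂ)) := by
      refine (isOpen_ball.prod isOpen_ball).mem_nhds ⟨?_, mem_ball_self hd⟩
      rw [mem_ball, dist_comm]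
      exact lt_min (by linarith) (by linarith)
    filter_upwards [hU] with p hp
    exact hGf p.1 hp.1 p.2 hp.2

/-! ### vertical-star sets -/

/-- thin box around `(t1,u)` -/
def Q (t1 : ℂ) (u : ℝ) (b η : ℝ) : Set (ℂ × ℂ) :=
  {q | |q.1.re - t1.re| < η ∧ |q.1.im - t1.im| < b ∧ dist q.2 (u : ℂ) < η}

theorem isOpen_Q (t1 : ℂ) (u b η : ℝ) : IsOpen (Q t1 u b η) := by
  have h1 : Continuous fun q : ℂ × ℂ => |q.1.re - t1.re| := by fun_prop
  have h2 : Continuous fun q : ℂ × ℂ => |q.1.im - t1.im| := by fun_prop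
  have h3 : Continuous fun q : ℂ × ℂ => dist q.2 (u : ℂ) := by fun_prop
  exact (isOpen_lt h1 continuous_const).inter
    ((isOpen_lt h2 continuous_const).inter (isOpen_lt h3 continuous_const))

theorem center_mem_Q (t1 : ℂ) (u : ℝ) {b η : ℝ} (hb : 0 < b) (hη : 0 < η) :
    (t1, (u : ℂ)) ∈ Q t1 u b η := by
  refine ⟨?_, ?_, ?_⟩ <;> simp [hb, hη]

/-- the lower half of thin boxes lies in `Om` -/
theorem lower_mem {Om : Set (ℂ × ℂ)} (hOm : IsOpen Om) {t1 : ℂ} {u : ℝ}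
    (hlow : ∀ y : ℝ, 0 < y → (t1 - y * Complex.I, (u : ℂ)) ∈ Om) {b : ℝ} (hb : 0 < b) :
    ∀ᶠ η in 𝓝[>] (0:ℝ), ∀ q ∈ Q t1 u b η, q.1.im < t1.im - b / 2 → q ∈ Om := by
  have hK : IsCompact ((fun y : ℝ => (t1 - y * Complex.I, (u : ℂ))) '' Icc (b / 2) b) :=
    isCompact_Icc.image (by fun_prop)
  have hKO : (fun y : ℝ => (t1 - y * Complex.I, (u : ℂ))) '' Icc (b / 2) b ⊆ Om := by
    rintro _ ⟨y, hy, rfl⟩
    exact hlow y (by linarith [hy.1])
  obtain ⟨ε, hε, hεO⟩ := hK.exists_thickening_subset_open hOm hKO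
  filter_upwards [Ioo_mem_nhdsGT hε] with η hη q hq him
  apply hεO
  rw [mem_thickening_iff]
  refine ⟨_, ⟨t1.im - q.1.im, ⟨by linarith, ?_⟩, rfl⟩, ?_⟩
  · have := (abs_lt.1 hq.2.1).1
    linarith
  · rw [Prod.dist_eq, max_lt_iff]
    refine ⟨?_, hq.2.2.trans hη.2⟩
    show dist q.1 (t1 - ((t1.im - q.1.im : ℝ) : ℂ) * Complex.I) < ε
    have h1 : q.1 - (t1 - ((t1.im - q.1.im : ℝ) : ℂ) * Complex.I) =
        ((q.1.re - t1.re : ℝ) : ℂ) := by
      apply Complex.ext <;> simp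
    rw [dist_eq_norm, h1, Complex.norm_real]
    exact hq.1.trans hη.2

/-- the part of a vertical-star set in a thin box is connected in every slice -/
theorem slice_preconnected {Om : Set (ℂ × ℂ)}
    (hstar : ∀ (t w : ℂ) (y : ℝ), (t, w) ∈ Om → 0 ≤ y → (t - y * Complex.I, w) ∈ Om)
    {t1 : ℂ} {u b η : ℝ} (hb : 0 < b)
    (hlow : ∀ q ∈ Q t1 u b η, q.1.im < t1.im - b / 2 → q ∈ Om) {w : ℂ}
    (hw : dist w (u : ℂ) < η) :
    IsPreconnected {t : ℂ | (t, w) ∈ Q t1 u b η ∧ (t, w) ∈ Om} := by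
  have hη : 0 < η := lt_of_le_of_lt dist_nonneg hw
  set L : Set ℂ := {t | |t.re - t1.re| < η ∧ t1.im - b < t.im ∧ t.im < t1.im - b / 2} with hL
  have hLc : Convex ℝ L := by
    have h1 : L = (Complex.reCLM ⁻¹' (Ioo (t1.re - η) (t1.re + η))) ∩
        (Complex.imCLM ⁻¹' (Ioo (t1.im - b) (t1.im - b / 2))) := by
      ext t
      simp only [hL, mem_ofPred_eq, mem_inter_iff, mem_preimage, mem_Ioo, abs_lt,
        Complex.reCLM_apply, Complex.imCLM_apply]
      constructor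
      · rintro ⟨⟨h1, h2⟩, h3, h4⟩
        exact ⟨⟨by linarith, by linarith⟩, h3, h4⟩
      · rintro ⟨⟨h1, h2⟩, h3, h4⟩
        exact ⟨⟨by linarith, by linarith⟩, h3, h4⟩
    rw [h1]
    exact ((convex_Ioo _ _).linear_preimage Complex.reCLM.toLinearMap).inter
      ((convex_Ioo _ _).linear_preimage Complex.imCLM.toLinearMap)
  have hLsub : ∀ t ∈ L, (t, w) ∈ Q t1 u b η ∧ (t, w) ∈ Om := by
    intro t ht
    have h1 : (t, w) ∈ Q t1 u b η :=
      ⟨ht.1, by rw [abs_lt]; constructor <;> linarith [ht.2.1, ht.2.2], hw⟩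
    exact ⟨h1, hlow _ h1 ht.2.2⟩
  refine isPreconnected_of_forall (t1 - ((3 * b / 4 : ℝ) : ℂ) * Complex.I) (fun p hp => ?_)
  have ht0L : (t1 - ((3 * b / 4 : ℝ) : ℂ) * Complex.I) ∈ L := by
    refine ⟨?_, ?_, ?_⟩ <;> simp <;> linarith
  by_cases hpL : p.im < t1.im - b / 2
  · refine ⟨L, fun t ht => hLsub t ht, ht0L, ?_, hLc.isPreconnected⟩
    exact ⟨hp.1.1, by linarith [(abs_lt.1 hp.1.2.1).1], hpL⟩
  · push Not at hpL
    set p' : ℂ := p - ((p.im - (t1.im - 3 * b / 4) : ℝ) : ℂ) * Complex.I with hp'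
    have hp're : p'.re = p.re := by simp [hp']
    have hp'im : p'.im = t1.im - 3 * b / 4 := by simp [hp']
    have hp'L : p' ∈ L := by
      refine ⟨by rw [hp're]; exact hp.1.1, ?_, ?_⟩ <;> rw [hp'im] <;> linarith
    refine ⟨L ∪ segment ℝ p' p, ?_, Or.inl ht0L, Or.inr (right_mem_segment ℝ _ _), ?_⟩
    · rintro t (ht | ht)
      · exact hLsub t ht
      · rw [segment_eq_image] at ht
        obtain ⟨s, hs, rfl⟩ := ht
        have hts : (1 - s) • p' + s • p =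
            p - (((1 - s) * (p.im - (t1.im - 3 * b / 4)) : ℝ) : ℂ) * Complex.I := by
          simp only [hp', Complex.real_smul]
          push_cast
          ring
        have hy0 : 0 ≤ (1 - s) * (p.im - (t1.im - 3 * b / 4)) :=
          mul_nonneg (by linarith [hs.2]) (by linarith)
        have hy1 : (1 - s) * (p.im - (t1.im - 3 * b / 4)) ≤ p.im - (t1.im - 3 * b / 4) := by
          have : 0 ≤ p.im - (t1.im - 3 * b / 4) := by linarith
          nlinarith [hs.1]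
        show ((1 - s) • p' + s • p, w) ∈ Q t1 u b η ∧ ((1 - s) • p' + s • p, w) ∈ Om
        rw [hts]
        refine ⟨⟨?_, ?_, hw⟩, hstar _ _ _ hp.2 hy0⟩
        · simpa using hp.1.1
        · have h1 := abs_lt.1 hp.1.2.1
          simp only [Complex.sub_im, Complex.mul_im, Complex.ofReal_re, Complex.I_im, mul_one,
            Complex.ofReal_im, Complex.I_re, mul_zero, add_zero]
          rw [abs_lt]
          simp only at h1
          constructor <;> linarith [h1.1, h1.2]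
    · refine IsPreconnected.union p' hp'L (left_mem_segment ℝ _ _) hLc.isPreconnected
        (convex_segment _ _).isPreconnected

/-- **slice-regular implies jointly regular, vertical-star version**, finite families:
for a.e. real `u`, if the slices `f i (·,u)` extend analytically to a neighbourhood of a top
point `t1`, then the family extends to a larger vertical-star open set containing `(t1,u)`. -/
theorem slice_joint_star {ι : Type*} [Finite ι] {Om : Set (ℂ × ℂ)} (hOm : IsOpen Om)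
    (hstar : ∀ (t w : ℂ) (y : ℝ), (t, w) ∈ Om → 0 ≤ y → (t - y * Complex.I, w) ∈ Om)
    {f : ι → ℂ × ℂ → ℂ} (hf : ∀ i, DifferentiableOn ℂ (f i) Om) :
    ∀ᵐ u : ℝ, ∀ t1 : ℂ, (∀ y : ℝ, 0 < y → (t1 - y * Complex.I, (u : ℂ)) ∈ Om) →
      (∀ i, ∃ r > 0, ∃ g : ℂ → ℂ, DifferentiableOn ℂ g (ball t1 r) ∧
        ∀ t ∈ ball t1 r, t.im < t1.im → (t, (u : ℂ)) ∈ Om → g t = f i (t, u)) →
      ∃ b > 0, ∃ η > 0, (∀ q ∈ Q t1 u b η, q.1.im < t1.im - b / 2 → q ∈ Om) ∧
        ∃ F : ι → ℂ × ℂ → ℂ, (∀ i, DifferentiableOn ℂ (F i) (Om ∪ Q t1 u b η)) ∧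
          ∀ i, EqOn (F i) (f i) Om := by
  classical
  have hall := ae_all_iff.2 (fun i => slice_joint hOm (hf i))
  filter_upwards [hall] with u hu t1 hlow hg
  -- choose b
  choose r hr g hgd hgf using hg
  obtain ⟨b, hb, hbr⟩ : ∃ b : ℝ, 0 < b ∧ ∀ i, 3 * b < r i := by
    rcases isEmpty_or_nonempty ι with he | hne
    · exact ⟨1, one_pos, fun i => (he.false i).elim⟩
    · obtain ⟨i0, hi0⟩ := Finite.exists_min r
      exact ⟨r i0 / 4, by linarith [hr i0], fun i => by linarith [hi0 i, hr i0]⟩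
  set t0 : ℂ := t1 - ((3 * b / 4 : ℝ) : ℂ) * Complex.I with ht0
  have ht0Om : (t0, (u : ℂ)) ∈ Om := hlow _ (by linarith)
  have ht01 : dist t0 t1 = 3 * b / 4 := by
    rw [dist_eq_norm, ht0, sub_sub_cancel_left, norm_neg, norm_mul, Complex.norm_real,
      Complex.norm_I, mul_one, Real.norm_of_nonneg (by linarith)]
  have hpt : ∀ i, ∀ᶠ η in 𝓝[>] (0:ℝ), ∃ G : ℂ × ℂ → ℂ,
      DifferentiableOn ℂ G (Q t1 u b η) ∧ ∀ q ∈ Q t1 u b η, q ∈ Om → G q = f i q := by
    intro i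
    have hsl : ∃ gg : ℂ → ℂ, DifferentiableOn ℂ gg (ball t0 (r i - 3 * b / 4)) ∧
        ∀ᶠ t in 𝓝 t0, gg t = f i (t, u) := by
      refine ⟨g i, (hgd i).mono (fun t ht => ?_), ?_⟩
      · rw [mem_ball] at ht ⊢
        calc dist t t1 ≤ dist t t0 + dist t0 t1 := dist_triangle _ _ _
          _ < r i := by rw [ht01]; linarith
      · have h1 : ∀ᶠ t in 𝓝 t0, t ∈ ball t1 (r i) := by
          refine isOpen_ball.mem_nhds ?_
          rw [mem_ball, ht01]; linarith [hbr i]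
        have h2 : ∀ᶠ t in 𝓝 t0, t.im < t1.im := by
          refine (isOpen_lt Complex.continuous_im continuous_const).mem_nhds ?_
          show t0.im < t1.im
          simp [ht0]; linarith
        have h3 : ∀ᶠ t in 𝓝 t0, (t, (u : ℂ)) ∈ Om :=
          (hOm.preimage (by fun_prop : Continuous fun t : ℂ => (t, (u : ℂ)))).mem_nhds ht0Om
        filter_upwards [h1, h2, h3] with t a1 a2 a3
        exact hgf i t a1 a2 a3
    obtain ⟨d, hd, G, hG, hGf⟩ := hu i t0 (r i - 3 * b / 4) ht0Om hsl (2 * b)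
      (by linarith [hbr i])
    obtain ⟨ρ, hρ, hρG⟩ := Metric.eventually_nhds_iff_ball.1 hGf
    have hη0 : 0 < min (min d ρ) (b / 8) := by positivity
    filter_upwards [Ioo_mem_nhdsGT hη0, lower_mem hOm hlow hb] with η hη hlowη
    have hηd : η < d := hη.2.trans_le ((min_le_left _ _).trans (min_le_left _ _))
    have hηρ : η < ρ := hη.2.trans_le ((min_le_left _ _).trans (min_le_right _ _))
    have hηb : η < b / 8 := hη.2.trans_le (min_le_right _ _)
    have hQsub : Q t1 u b η ⊆ ball t0 (2 * b) ×ˢ ball (u : ℂ) d := by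
      rintro ⟨t, w⟩ ⟨h1, h2, h3⟩
      refine ⟨?_, ?_⟩
      · rw [mem_ball, dist_eq_norm]
        refine (Complex.norm_le_abs_re_add_abs_im _).trans_lt ?_
        have hre : (t - t0).re = t.re - t1.re := by simp [ht0]
        have him : (t - t0).im = (t.im - t1.im) + 3 * b / 4 := by simp [ht0]; ring
        rw [hre, him]
        have h4 : |t.im - t1.im + 3 * b / 4| ≤ |t.im - t1.im| + 3 * b / 4 := by
          refine (abs_add_le _ _).trans ?_
          rw [abs_of_nonneg (show (0:ℝ) ≤ 3 * b / 4 by linarith)]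
        simp only at h1 h2
        linarith
      · rw [mem_ball]; exact h3.trans hηd
    refine ⟨G, hG.mono hQsub, ?_⟩
    rintro ⟨t, w⟩ hq hqO
    have hw : dist w (u : ℂ) < η := hq.2.2
    set S : Set ℂ := {t : ℂ | (t, w) ∈ Q t1 u b η ∧ (t, w) ∈ Om} with hS
    have hSo : IsOpen S := by
      have hc : Continuous fun t : ℂ => (t, w) := by fun_prop
      exact ((isOpen_Q t1 u b η).preimage hc).inter (hOm.preimage hc)
    have hSc : IsPreconnected S := slice_preconnected hstar hb hlowη hw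
    have hGa : AnalyticOnNhd ℂ (fun t => G (t, w)) S := by
      refine DifferentiableOn.analyticOnNhd ?_ hSo
      exact (hG.mono hQsub).comp (by fun_prop) (fun t ht => ht.1)
    have hfa : AnalyticOnNhd ℂ (fun t => f i (t, w)) S := by
      refine DifferentiableOn.analyticOnNhd ?_ hSo
      exact (hf i).comp (by fun_prop) (fun t ht => ht.2)
    have ht0Q : (t0, w) ∈ Q t1 u b η := by
      have hη0' := hη.1
      refine ⟨?_, ?_, hw⟩
      · simpa [ht0] using hη0'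
      · have : t0.im - t1.im = -(3 * b / 4) := by simp [ht0]
        show |t0.im - t1.im| < b
        rw [this, abs_neg, abs_of_nonneg (by linarith)]
        linarith
    have ht0S : t0 ∈ S := by
      refine ⟨ht0Q, hlowη _ ht0Q ?_⟩
      show t0.im < t1.im - b / 2
      simp [ht0]; linarith
    have hev : (fun t => G (t, w)) =ᶠ[𝓝 t0] (fun t => f i (t, w)) := by
      have h1 : ball t0 ρ ∈ 𝓝 t0 := ball_mem_nhds _ hρ
      filter_upwards [h1] with t ht
      apply hρG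
      rw [mem_ball, Prod.dist_eq, max_lt_iff]
      exact ⟨ht, hw.trans hηρ⟩
    exact hGa.eqOn_of_preconnected_of_eventuallyEq hfa hSc ht0S hev ⟨hq, hqO⟩
  have hfin : ∀ᶠ η in 𝓝[>] (0:ℝ), ∀ i, ∃ G : ℂ × ℂ → ℂ,
      DifferentiableOn ℂ G (Q t1 u b η) ∧ ∀ q ∈ Q t1 u b η, q ∈ Om → G q = f i q :=
    eventually_all.2 hpt
  obtain ⟨η, hη1, hη2, hη3⟩ :=
    (hfin.and ((lower_mem hOm hlow hb).and (self_mem_nhdsWithin : Ioi (0:ℝ) ∈ 𝓝[>] (0:ℝ)))).exists
  choose G hG hGf using hη1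
  refine ⟨b, hb, η, hη3, hη2, fun i q => if q ∈ Om then f i q else G i q, fun i => ?_,
    fun i q hq => if_pos hq⟩
  rintro q (hq | hq)
  · have h1 : (fun q => if q ∈ Om then f i q else G i q) =ᶠ[𝓝 q] f i := by
      filter_upwards [hOm.mem_nhds hq] with p hp
      exact if_pos hp
    exact ((((hf i) q hq).differentiableAt (hOm.mem_nhds hq)).congr_of_eventuallyEq
      h1).differentiableWithinAt
  · have h1 : (fun q => if q ∈ Om then f i q else G i q) =ᶠ[𝓝 q] G i := by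
      filter_upwards [(isOpen_Q t1 u b η).mem_nhds hq] with p hp
      by_cases hpO : p ∈ Om
      · rw [if_pos hpO, hGf i p hp hpO]
      · rw [if_neg hpO]
    exact ((((hG i) q hq).differentiableAt ((isOpen_Q t1 u b η).mem_nhds hq)).congr_of_eventuallyEq
      h1).differentiableWithinAt

/-- the union with a thin box is again a vertical-star set -/
theorem star_union {Om : Set (ℂ × ℂ)}
    (hstar : ∀ (t w : ℂ) (y : ℝ), (t, w) ∈ Om → 0 ≤ y → (t - y * Complex.I, w) ∈ Om)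
    {t1 : ℂ} {u b η : ℝ} (hb : 0 < b)
    (hlow : ∀ q ∈ Q t1 u b η, q.1.im < t1.im - b / 2 → q ∈ Om) :
    ∀ (t w : ℂ) (y : ℝ), (t, w) ∈ Om ∪ Q t1 u b η → 0 ≤ y →
      (t - y * Complex.I, w) ∈ Om ∪ Q t1 u b η := by
  rintro t w y (h | h) hy
  · exact Or.inl (hstar t w y h hy)
  · by_cases h1 : t1.im - b < t.im - y
    · right
      refine ⟨by simpa using h.1, ?_, h.2.2⟩
      have h2 := abs_lt.1 h.2.1
      simp only [Complex.sub_im, Complex.mul_im, Complex.ofReal_re, Complex.I_im, mul_one,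
        Complex.ofReal_im, Complex.I_re, mul_zero, add_zero]
      simp only at h2
      rw [abs_lt]; constructor <;> linarith [h2.1, h2.2]
    · left
      push Not at h1
      by_cases h2 : t.im < t1.im - b / 2
      · exact hstar t w y (hlow _ h h2) hy
      · push Not at h2
        have hy' : 0 ≤ t.im - (t1.im - 3 * b / 4) := by linarith
        have hp : (t - ((t.im - (t1.im - 3 * b / 4) : ℝ) : ℂ) * Complex.I, w) ∈ Q t1 u b η := by
          refine ⟨by simpa using h.1, ?_, h.2.2⟩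
          have : (t - ((t.im - (t1.im - 3 * b / 4) : ℝ) : ℂ) * Complex.I).im - t1.im =
              -(3 * b / 4) := by simp
          show |(t - ((t.im - (t1.im - 3 * b / 4) : ℝ) : ℂ) * Complex.I).im - t1.im| < b
          rw [this, abs_neg, abs_of_nonneg (by linarith)]; linarith
        have hpO := hlow _ hp (by
          show (t - ((t.im - (t1.im - 3 * b / 4) : ℝ) : ℂ) * Complex.I).im < t1.im - b / 2
          simp; linarith)
        have h3 := hstar _ _ (y - (t.im - (t1.im - 3 * b / 4))) hpO (by linarith)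
        have h4 : t - ((t.im - (t1.im - 3 * b / 4) : ℝ) : ℂ) * Complex.I -
            ((y - (t.im - (t1.im - 3 * b / 4)) : ℝ) : ℂ) * Complex.I = t - y * Complex.I := by
          push_cast; ring
        rwa [h4] at h3

end Crest.Agent.R102.SJ948
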