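import Crest.Agent.R102.Fatou_472

/-!
# Superharmonic functions: minimum principle
-/

namespace Crest.Agent.R102.Slope246

open MeasureTheory Set Filter Topology Complex Metric LP472
open scoped Real

/-- superharmonic: lower semicontinuous with super mean value property on all closed discs -/
def SH (V : ℂ → ℝ) (Ω : Set ℂ) : Prop :=
  LowerSemicontinuousOn V Ω ∧ ∀ z r, 0 < r → closedBall z r ⊆ Ω → Real.circleAverage V z r ≤ V z

/-- **Minimum principle.** -/
theorem min_principle {G : Set ℂ} (hG : IsOpen G) (hb : Bornology.IsBounded G) {s : ℂ → ℝ}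
    (hs : LowerSemicontinuousOn s (closure G))
    (hm : ∀ z ∈ G, ∃ r > 0, closedBall z r ⊆ G ∧ CircleIntegrable s z r ∧
      Real.circleAverage s z r ≤ s z)
    (h0 : ∀ z ∈ frontier G, 0 ≤ s z) : ∀ z ∈ closure G, 0 ≤ s z := by
  by_contra hcon
  push Not at hcon
  obtain ⟨w, hw, hwneg⟩ := hcon
  have hcomp : IsCompact (closure G) := hb.isCompact_closure
  obtain ⟨z0, hz0, hmin⟩ := hs.exists_isMinOn ⟨w, hw⟩ hcomp
  have hm0 : s z0 < 0 := lt_of_le_of_lt (hmin hw) hwneg
  obtain ⟨u, hu, hu2⟩ := lowerSemicontinuousOn_iff_preimage_Ioi.1 hs (s z0)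
  set K : Set ℂ := closure G \ u with hK
  have hKc : IsCompact K := hcomp.diff hu
  have hKmem : ∀ z, z ∈ K ↔ z ∈ closure G ∧ s z ≤ s z0 := by
    intro z
    constructor
    · rintro ⟨h1, h2⟩
      refine ⟨h1, ?_⟩
      by_contra h3
      push Not at h3
      have : z ∈ closure G ∩ u := by
        rw [← hu2]; exact ⟨h1, h3⟩
      exact h2 this.2
    · rintro ⟨h1, h2⟩
      refine ⟨h1, fun h3 => ?_⟩
      have : z ∈ closure G ∩ s ⁻¹' Ioi (s z0) := by rw [hu2]; exact ⟨h1, h3⟩
      exact absurd this.2 (not_lt.2 h2)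
  have hz0K : z0 ∈ K := (hKmem z0).2 ⟨hz0, le_rfl⟩
  obtain ⟨z1, hz1, hmax⟩ := hKc.exists_isMaxOn ⟨z0, hz0K⟩ Complex.continuous_re.continuousOn
  have hz1' := (hKmem z1).1 hz1
  have hz1G : z1 ∈ G := by
    by_contra h
    have : z1 ∈ frontier G := by
      rw [hG.frontier_eq]; exact ⟨hz1'.1, h⟩
    linarith [h0 z1 this]
  obtain ⟨r, hr, hball, hint, havg⟩ := hm z1 hz1G
  have hge : ∀ θ : ℝ, s z0 ≤ s (circleMap z1 r θ) := fun θ =>
    hmin (subset_closure (hball (circleMap_mem_closedBall z1 hr.le θ)))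
  -- the integral of `s - m` is nonpositive
  have hI : IntervalIntegrable (fun θ => s (circleMap z1 r θ)) volume 0 (2 * π) := hint
  have hle : ∫ θ in (0 : ℝ)..2 * π, (s (circleMap z1 r θ) - s z0) ≤ 0 := by
    rw [intervalIntegral.integral_sub hI intervalIntegrable_const,
      intervalIntegral.integral_const, sub_zero, smul_eq_mul]
    rw [Real.circleAverage_def, smul_eq_mul] at havg
    have hp : (0 : ℝ) < 2 * π := by positivity
    rw [inv_mul_le_iff₀ hp] at havg
    have : s z1 ≤ s z0 := hz1'.2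
    nlinarith
  have h2pi : (0 : ℝ) ≤ 2 * π := by positivity
  have hzero : ∫ θ in (0 : ℝ)..2 * π, (s (circleMap z1 r θ) - s z0) = 0 :=
    le_antisymm hle (intervalIntegral.integral_nonneg h2pi fun θ _ => by linarith [hge θ])
  rw [intervalIntegral.integral_of_le h2pi] at hzero
  have hI2 : IntegrableOn (fun θ => s (circleMap z1 r θ) - s z0) (Ioc 0 (2 * π)) volume :=
    (hI.sub intervalIntegrable_const).1
  have hae := (setIntegral_eq_zero_iff_of_nonneg_ae
    (Eventually.of_forall fun θ => by simpa using (hge θ)) hI2).1 hzero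
  -- a point with positive cosine
  have hpos : ∀ θ ∈ Ioo 0 (π / 2), 0 < s (circleMap z1 r θ) - s z0 := by
    intro θ hθ
    have hcos : 0 < Real.cos θ := Real.cos_pos_of_mem_Ioo ⟨by linarith [hθ.1, Real.pi_pos], hθ.2⟩
    have hre : (circleMap z1 r θ).re = z1.re + r * Real.cos θ := by
      simp [circleMap, Complex.exp_re]
    by_contra hneg
    push Not at hneg
    have hmemK : circleMap z1 r θ ∈ K := (hKmem _).2
      ⟨subset_closure (hball (circleMap_mem_closedBall z1 hr.le θ)), by linarith⟩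
    have h5 := hmax hmemK
    simp only [mem_ofPred_eq] at h5
    rw [hre] at h5
    nlinarith [mul_pos hr hcos]
  have hsub : Ioo 0 (π / 2) ⊆ Ioc 0 (2 * π) := fun θ hθ => ⟨hθ.1, by
    have := hθ.2; have := Real.pi_pos; linarith⟩
  have hae2 : ∀ᵐ θ ∂(volume.restrict (Ioo 0 (π / 2))), s (circleMap z1 r θ) - s z0 = 0 :=
    ae_restrict_of_ae_restrict_of_subset hsub hae
  rw [ae_restrict_iff' measurableSet_Ioo] at hae2
  have hvol : volume (Ioo (0 : ℝ) (π / 2)) = 0 := by
    apply measure_mono_null _ (ae_iff.1 hae2)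
    intro θ hθ
    simp only [mem_ofPred_eq, Classical.not_imp]
    exact ⟨hθ, (hpos θ hθ).ne'⟩
  rw [Real.volume_Ioo] at hvol
  have := Real.pi_pos
  simp only [sub_zero, ENNReal.ofReal_eq_zero] at hvol
  linarith

end Crest.Agent.R102.Slope246
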