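import Crest.Agent.R102.SlopeA_231

/-!
# Poisson integrals of semicontinuous functions, harmonic minorant of a superharmonic function
-/

namespace Crest.Agent.R102.Slope231

open MeasureTheory Set Filter Topology Complex Metric
open scoped Real NNReal
open Crest.Agent.R102.LP472

/-- real Poisson integral -/
noncomputable def PR (f : ℝ → ℝ) (z : ℂ) : ℝ := ∫ t, pk z.re z.im t * f t

theorem integrable_PR {f : ℝ → ℝ} (hf : AEStronglyMeasurable f volume) {B : ℝ}
    (hB : ∀ t, |f t| ≤ B) {z : ℂ} (hz : 0 < z.im) :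
    Integrable fun t => pk z.re z.im t * f t :=
  (integrable_pk hz z.re).mul_bdd (c := B) hf (Eventually.of_forall hB)

theorem PR_mono {f g : ℝ → ℝ} (hf : AEStronglyMeasurable f volume)
    (hg : AEStronglyMeasurable g volume) {B : ℝ} (hfB : ∀ t, |f t| ≤ B) (hgB : ∀ t, |g t| ≤ B)
    (hfg : ∀ t, f t ≤ g t) {z : ℂ} (hz : 0 < z.im) : PR f z ≤ PR g z := by
  unfold PR
  refine integral_mono (integrable_PR hf hfB hz) (integrable_PR hg hgB hz) fun t => ?_
  exact mul_le_mul_of_nonneg_left (hfg t) (pk_nonneg hz _ _)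

theorem PR_const (a : ℝ) {z : ℂ} (hz : 0 < z.im) : PR (fun _ => a) z = a := by
  unfold PR
  rw [integral_mul_const, integral_pk hz, one_mul]

theorem pk_tail {v δ : ℝ} (hv : 0 < v) (hδ : 0 < δ) {x u : ℝ} (hu : |u - x| ≤ δ / 2) :
    ∫ t in {t : ℝ | |t - x| < δ}ᶜ, pk u v t ≤ 1 - 2 / π * Real.arctan (δ / 2 / v) := by
  apply setIntegral_pk_le_of_disjoint hv (by positivity)
  intro t ht
  have h1 : ¬ |t - x| < δ := ht
  push Not at h1
  rw [div_mul_cancel₀ _ hv.ne']
  have h2 := abs_sub_abs_le_abs_sub (t - x) (u - x)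
  have h3 : t - x - (u - x) = t - u := by ring
  rw [h3] at h2
  first
    | linarith
    | (rw [abs_sub_comm]; linarith)

/-- upper bound of the Poisson integral near a real point -/
theorem PR_limsup {f : ℝ → ℝ} (hf : AEStronglyMeasurable f volume) {B : ℝ}
    (hB : ∀ t, |f t| ≤ B) {x a δ : ℝ} (hδ : 0 < δ) (h : ∀ t, |t - x| < δ → f t ≤ a) {ε : ℝ}
    (hε : 0 < ε) : ∀ᶠ z in 𝓝[{z : ℂ | 0 < z.im}] (x : ℂ), PR f z < a + ε := by
  have hB0 : 0 ≤ B := (abs_nonneg _).trans (hB 0)
  have hlim : Tendsto (fun v : ℝ => (B + |a|) * (1 - 2 / π * Real.arctan (δ / 2 / v))) (𝓝[>] 0)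
      (𝓝 0) := by
    have h0 : Tendsto (fun v : ℝ => δ / 2 / v) (𝓝[>] 0) atTop := by
      simp only [div_eq_mul_inv (δ / 2)]
      exact Tendsto.const_mul_atTop (by positivity) tendsto_inv_nhdsGT_zero
    have h1 : Tendsto Real.arctan atTop (𝓝 (π / 2)) :=
      tendsto_nhds_of_tendsto_nhdsWithin Real.tendsto_arctan_atTop
    have h2 := (((h1.comp h0).const_mul (2 / π)).const_sub 1).const_mul (B + |a|)
    have h3 : (B + |a|) * (1 - 2 / π * (π / 2)) = 0 := by
      have := Real.pi_ne_zero
      field_simp; ring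
    rw [h3] at h2
    exact h2
  have him : Tendsto (fun z : ℂ => z.im) (𝓝[{z : ℂ | 0 < z.im}] (x : ℂ)) (𝓝[>] 0) := by
    rw [tendsto_nhdsWithin_iff]
    refine ⟨?_, ?_⟩
    · have := Complex.continuous_im.tendsto (x : ℂ)
      simp only [ofReal_im] at this
      exact this.mono_left nhdsWithin_le_nhds
    · filter_upwards [self_mem_nhdsWithin] with z hz
      exact hz
  have h1 := (hlim.comp him).eventually (gt_mem_nhds hε)
  have h2 : ∀ᶠ z in 𝓝[{z : ℂ | 0 < z.im}] (x : ℂ), |z.re - x| ≤ δ / 2 := by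
    apply mem_nhdsWithin_of_mem_nhds
    have hc : Continuous fun z : ℂ => |z.re - x| := by fun_prop
    have := hc.tendsto (x : ℂ)
    simp only [ofReal_re, sub_self, abs_zero] at this
    exact (this.eventually (gt_mem_nhds (show (0 : ℝ) < δ / 2 by positivity))).mono
      fun z hz => le_of_lt hz
  filter_upwards [h1, h2, self_mem_nhdsWithin] with z hz1 hz2 hz3
  have hz3' : 0 < z.im := hz3
  simp only [Function.comp] at hz1
  set S : Set ℝ := {t : ℝ | |t - x| < δ} with hS
  have hSm : MeasurableSet S := by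
    have : S = (fun t => |t - x|) ⁻¹' Iio δ := rfl
    rw [this]
    exact (by fun_prop : Continuous fun t : ℝ => |t - x|).measurable measurableSet_Iio
  have hI := integrable_PR hf hB hz3'
  have hpk := integrable_pk hz3' z.re
  have e1 : PR f z = (∫ t in S, pk z.re z.im t * f t) + ∫ t in Sᶜ, pk z.re z.im t * f t :=
    (integral_add_compl hSm hI).symm
  have e2 : (∫ t in S, pk z.re z.im t * f t) ≤ ∫ t in S, pk z.re z.im t * a := by
    refine setIntegral_mono_on hI.integrableOn (hpk.mul_const _).integrableOn hSm ?_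
    intro t ht
    exact mul_le_mul_of_nonneg_left (h t ht) (pk_nonneg hz3' _ _)
  have e3 : (∫ t in Sᶜ, pk z.re z.im t * f t) ≤ ∫ t in Sᶜ, pk z.re z.im t * B := by
    refine setIntegral_mono_on hI.integrableOn (hpk.mul_const _).integrableOn hSm.compl ?_
    intro t ht
    exact mul_le_mul_of_nonneg_left ((le_abs_self _).trans (hB t)) (pk_nonneg hz3' _ _)
  have e4 : (∫ t in S, pk z.re z.im t) + ∫ t in Sᶜ, pk z.re z.im t = 1 := by
    rw [integral_add_compl hSm hpk, integral_pk hz3']
  have e5 := pk_tail hz3' hδ hz2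
  have e6 : 0 ≤ ∫ t in Sᶜ, pk z.re z.im t :=
    setIntegral_nonneg hSm.compl fun t _ => pk_nonneg hz3' _ _
  rw [integral_mul_const] at e2 e3
  set p := ∫ t in Sᶜ, pk z.re z.im t with hp
  have e7 : (∫ t in S, pk z.re z.im t) = 1 - p := by linarith
  rw [e7] at e2
  have e8 : PR f z ≤ a + (B + |a|) * p := by
    have : -a ≤ |a| := neg_le_abs a
    nlinarith
  have e9 : (B + |a|) * p ≤ (B + |a|) * (1 - 2 / π * Real.arctan (δ / 2 / z.im)) := by
    gcongr
  linarith

theorem PR_neg (f : ℝ → ℝ) (z : ℂ) : PR (fun t => - f t) z = - PR f z := by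
  unfold PR
  rw [← integral_neg]
  congr 1; ext t; ring

/-- usc upper limit -/
theorem PR_usc {f : ℝ → ℝ} (hf : AEStronglyMeasurable f volume) {B : ℝ}
    (hB : ∀ t, |f t| ≤ B) {x : ℝ} (hx : UpperSemicontinuousAt f x) {ε : ℝ}
    (hε : 0 < ε) : ∀ᶠ z in 𝓝[{z : ℂ | 0 < z.im}] (x : ℂ), PR f z < f x + ε := by
  have h1 := hx (f x + ε / 2) (by linarith)
  obtain ⟨δ, hδ, h2⟩ := Metric.eventually_nhds_iff.1 h1
  have h3 := PR_limsup hf hB (x := x) (a := f x + ε / 2) hδ (fun t ht => (h2 (by
    simpa [Real.dist_eq] using ht)).le) (ε := ε / 2) (by positivity)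
  filter_upwards [h3] with z hz
  linarith

/-- lsc lower limit -/
theorem PR_lsc {f : ℝ → ℝ} (hf : AEStronglyMeasurable f volume) {B : ℝ}
    (hB : ∀ t, |f t| ≤ B) {x : ℝ} (hx : LowerSemicontinuousAt f x) {ε : ℝ}
    (hε : 0 < ε) : ∀ᶠ z in 𝓝[{z : ℂ | 0 < z.im}] (x : ℂ), f x - ε < PR f z := by
  have h1 := PR_usc (f := fun t => - f t) hf.neg (B := B) (fun t => by simpa using hB t)
    (x := x) (by
      intro y hy
      have h2 := hx (-y) (by have : - f x < y := hy; linarith)
      filter_upwards [h2] with t ht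
      have : -y < f t := ht
      change - f t < y
      linarith) hε
  filter_upwards [h1] with z hz
  rw [PR_neg] at hz
  linarith

/-- mean value of the real part of a holomorphic function -/
theorem mean_re {F : ℂ → ℂ} {z : ℂ} {r : ℝ} (hr : 0 < r)
    (hF : ∀ w ∈ closedBall z r, DifferentiableAt ℂ F w) :
    IntervalIntegrable (fun θ : ℝ => (F (circleMap z r θ)).re) volume 0 (2 * π) ∧
    (2 * π)⁻¹ * ∫ θ in (0 : ℝ)..(2 * π), (F (circleMap z r θ)).re = (F z).re := by
  have hcont : Continuous fun θ : ℝ => F (circleMap z r θ) := by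
    rw [continuous_iff_continuousAt]
    intro θ
    have h1 := (hF _ (circleMap_mem_closedBall z hr.le θ)).continuousAt
    exact h1.comp (f := circleMap z r) (continuous_circleMap z r).continuousAt
  refine ⟨(Complex.continuous_re.comp hcont).intervalIntegrable _ _, ?_⟩
  have h1 : Real.circleAverage F z r = F z := by
    apply DiffContOnCl.circleAverage
    rw [abs_of_pos hr]
    refine ⟨fun w hw => (hF w (ball_subset_closedBall hw)).differentiableWithinAt, ?_⟩
    rw [closure_ball z hr.ne']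
    exact fun w hw => (hF w hw).continuousAt.continuousWithinAt
  rw [Real.circleAverage_def] at h1
  have h2 : (∫ θ in (0 : ℝ)..(2 * π), (F (circleMap z r θ)).re) =
      (∫ θ in (0 : ℝ)..(2 * π), F (circleMap z r θ)).re := by
    have := Complex.reCLM.intervalIntegral_comp_comm (hcont.intervalIntegrable (μ := volume) 0 (2 * π))
    simpa using this
  rw [h2, ← h1]
  simp

/-- the reflected function is superharmonic -/
theorem SuperH.conj {V : ℂ → ℝ} {W : Set ℂ} (hV : SuperH V W) :
    SuperH (fun z => V (starRingEnd ℂ z)) ((starRingEnd ℂ) ⁻¹' W) := by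
  have hcm : ∀ (c : ℂ) (r θ : ℝ), starRingEnd ℂ (circleMap c r θ) =
      circleMap (starRingEnd ℂ c) r (-θ) := by
    intro c r θ
    simp only [circleMap, map_add, map_mul, conj_ofReal]
    congr 2
    rw [← Complex.exp_conj]
    simp
  have hball : ∀ (c : ℂ) (r : ℝ), closedBall c r ⊆ (starRingEnd ℂ) ⁻¹' W →
      closedBall (starRingEnd ℂ c) r ⊆ W := by
    intro c r h z hz
    have h1 : starRingEnd ℂ z ∈ closedBall c r := by
      rw [mem_closedBall, dist_eq_norm] at hz ⊢
      have : starRingEnd ℂ z - c = starRingEnd ℂ (z - starRingEnd ℂ c) := by simp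
      rw [this, RCLike.norm_conj]; exact hz
    have := h h1
    simpa using this
  have hper : ∀ (c : ℂ) (r : ℝ), Function.Periodic (fun θ : ℝ => V (circleMap c r θ)) (2 * π) := by
    intro c r θ
    simp only [circleMap]
    congr 3
    push_cast
    rw [add_mul]
    exact Complex.exp_periodic _
  refine ⟨?_, ?_, ?_⟩
  · intro z hz y hy
    have h1 := hV.lsc (starRingEnd ℂ z) hz y hy
    have h2 : Tendsto (starRingEnd ℂ) (𝓝[(starRingEnd ℂ) ⁻¹' W] z) (𝓝[W] (starRingEnd ℂ z)) := by
      rw [tendsto_nhdsWithin_iff]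
      refine ⟨(Complex.continuous_conj.tendsto z).mono_left nhdsWithin_le_nhds, ?_⟩
      filter_upwards [self_mem_nhdsWithin] with w hw
      exact hw
    exact h2.eventually h1
  · intro c r hr hc
    have h1 := hV.int _ r hr (hball c r hc)
    have h2 : IntervalIntegrable (fun θ : ℝ => V (circleMap (starRingEnd ℂ c) r θ)) volume
        (-(2 * π)) 0 := by
      have := (hper (starRingEnd ℂ c) r).intervalIntegrable₀ (by positivity) h1 (-(2 * π)) 0
      exact this
    have h3 := (IntervalIntegrable.iff_comp_neg (by finiteness)).1 h2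
    simp only [hcm]
    simpa using h3.symm
  · intro c r hr hc
    have h1 := hV.mean _ r hr (hball c r hc)
    simp only [hcm]
    have h2 : (∫ θ in (0 : ℝ)..(2 * π), V (circleMap (starRingEnd ℂ c) r (-θ))) =
        ∫ θ in (0 : ℝ)..(2 * π), V (circleMap (starRingEnd ℂ c) r θ) := by
      rw [intervalIntegral.integral_comp_neg (fun θ => V (circleMap (starRingEnd ℂ c) r θ))]
      have := (hper (starRingEnd ℂ c) r).intervalIntegral_add_eq (-(2 * π)) 0
      simpa using this
    rw [h2]
    exact h1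

end Crest.Agent.R102.Slope231
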