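import Crest.Agent.R102.SlopeA_811

/-!
# Row 102, T1-B leaf (c), part B: half-disc lower bound for positive superharmonic functions
-/

namespace Crest.Agent.R102.Slope811

open MeasureTheory Set Filter Topology Complex Metric
open scoped Real ENNReal ComplexConjugate

/-- upper half disc -/
def HD (u ρ : ℝ) : Set ℂ := {z | 0 < z.im ∧ ‖z - u‖ < ρ}

theorem isOpen_HD (u ρ : ℝ) : IsOpen (HD u ρ) := by
  apply IsOpen.inter
  · exact isOpen_lt continuous_const continuous_im
  · exact isOpen_lt (show Continuous fun z : ℂ => ‖z - u‖ by fun_prop) continuous_const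

theorem HD_mono {u r ρ : ℝ} (h : r ≤ ρ) : HD u r ⊆ HD u ρ := fun _ hz => ⟨hz.1, hz.2.trans_le h⟩

/-- the points of the upper half circle -/
noncomputable def pt (u r θ : ℝ) : ℂ := circleMap u r θ

theorem pt_im (u r θ : ℝ) : (pt u r θ).im = r * Real.sin θ := by
  simp [pt, circleMap, Complex.exp_im]

theorem pt_re (u r θ : ℝ) : (pt u r θ).re = u + r * Real.cos θ := by
  simp [pt, circleMap, Complex.exp_re]

theorem norm_pt {r : ℝ} (hr : 0 < r) (u θ : ℝ) : ‖pt u r θ - u‖ = r := by
  simp [pt, circleMap, abs_of_pos hr]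

/-- The kernel of the half disc. -/
noncomputable def ker (r : ℝ) (z : ℂ) (u θ : ℝ) : ℝ :=
  poissonKernel u z (pt u r θ) - poissonKernel u z (pt u r (-θ))

theorem ker_lower {r : ℝ} (hr : 0 < r) {z : ℂ} {u : ℝ} (hz : 0 < z.im) (hzr : ‖z - u‖ < r)
    {θ : ℝ} (hθ : θ ∈ Icc 0 π) :
    4 * (1 - 4 * (‖z - u‖ / r)) * (z.im / r) * Real.sin θ ≤ ker r z u θ ∧ 0 ≤ ker r z u θ := by
  have hs : 0 ≤ Real.sin θ := Real.sin_nonneg_of_mem_Icc hθ
  set ϱ := ‖z - u‖ with hϱ
  have hϱ0 : 0 ≤ ϱ := norm_nonneg _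
  set y := z.im with hy
  have h1 : ∀ φ, ‖(pt u r φ - u) - (z - u)‖ ^ 2 =
      r ^ 2 + ϱ ^ 2 - 2 * r * ((z.re - u) * Real.cos φ + y * Real.sin φ) := by
    intro φ
    rw [hϱ]
    simp only [← Complex.normSq_eq_norm_sq, Complex.normSq_apply, sub_re, sub_im, pt_re, pt_im,
      ofReal_re, ofReal_im]
    have := Real.sin_sq_add_cos_sq φ
    nlinarith
  have hN1 := h1 θ
  have hN2 := h1 (-θ)
  rw [Real.cos_neg, Real.sin_neg] at hN2
  have hpos : ∀ φ, 0 < ‖(pt u r φ - u) - (z - u)‖ := by
    intro φ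
    have e1 : ‖pt u r φ - u‖ ≤ ‖(pt u r φ - u) - (z - u)‖ + ‖z - u‖ := by
      simpa using norm_add_le ((pt u r φ - u) - (z - u)) (z - u)
    rw [norm_pt hr] at e1
    linarith
  have hup : ∀ φ, ‖(pt u r φ - u) - (z - u)‖ ≤ r + ϱ := by
    intro φ
    have e1 := norm_sub_le (pt u r φ - u) (z - u)
    rwa [norm_pt hr] at e1
  set N1 := ‖(pt u r θ - u) - (z - u)‖ with hN1d
  set N2 := ‖(pt u r (-θ) - u) - (z - u)‖ with hN2d
  have hN1p : 0 < N1 := hpos θ
  have hN2p : 0 < N2 := hpos (-θ)
  have hN1u : N1 ≤ r + ϱ := hup θ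
  have hN2u : N2 ≤ r + ϱ := hup (-θ)
  have hker : ker r z u θ = (r ^ 2 - ϱ ^ 2) * (4 * r * y * Real.sin θ) / (N1 ^ 2 * N2 ^ 2) := by
    rw [ker, poissonKernel_def, poissonKernel_def, norm_pt hr, norm_pt hr, ← hN1d, ← hN2d, ← hϱ]
    field_simp
    rw [hN1, hN2]
    ring
  have hnum : 0 ≤ (r ^ 2 - ϱ ^ 2) * (4 * r * y * Real.sin θ) := by
    have : 0 ≤ r ^ 2 - ϱ ^ 2 := by nlinarith
    positivity
  refine ⟨?_, by rw [hker]; positivity⟩
  rw [hker, le_div_iff₀ (by positivity)]
  have hNN : N1 ^ 2 * N2 ^ 2 ≤ (r + ϱ) ^ 4 := by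
    calc N1 ^ 2 * N2 ^ 2 ≤ (r + ϱ) ^ 2 * (r + ϱ) ^ 2 := by gcongr
      _ = (r + ϱ) ^ 4 := by ring
  by_cases hq : 1 - 4 * (ϱ / r) ≤ 0
  · calc 4 * (1 - 4 * (ϱ / r)) * (y / r) * Real.sin θ * (N1 ^ 2 * N2 ^ 2) ≤ 0 := by
          have : 0 ≤ (y / r) * Real.sin θ * (N1 ^ 2 * N2 ^ 2) := by positivity
          nlinarith
      _ ≤ _ := hnum
  · rw [not_le] at hq
    have hq' : 4 * ϱ < r := by
      have : 4 * (ϱ / r) < 1 := by linarith
      rw [← mul_div_assoc, div_lt_one hr] at this
      exact this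
    calc 4 * (1 - 4 * (ϱ / r)) * (y / r) * Real.sin θ * (N1 ^ 2 * N2 ^ 2)
        ≤ 4 * (1 - 4 * (ϱ / r)) * (y / r) * Real.sin θ * (r + ϱ) ^ 4 := by
          gcongr
      _ = ((r - 4 * ϱ) * (r + ϱ) ^ 3) * (r + ϱ) * (4 * y * Real.sin θ) / r ^ 2 := by
          field_simp
      _ ≤ (r ^ 3 * (r - ϱ)) * (r + ϱ) * (4 * y * Real.sin θ) / r ^ 2 := by
          have h5 : (r - 4 * ϱ) * (r + ϱ) ^ 3 ≤ r ^ 3 * (r - ϱ) := by
            have : r ^ 3 * (r - ϱ) - (r - 4 * ϱ) * (r + ϱ) ^ 3 =
              9 * r ^ 2 * ϱ ^ 2 + 11 * r * ϱ ^ 3 + 4 * ϱ ^ 4 := by ring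
            have : 0 ≤ 9 * r ^ 2 * ϱ ^ 2 + 11 * r * ϱ ^ 3 + 4 * ϱ ^ 4 := by positivity
            linarith
          gcongr
      _ = (r ^ 2 - ϱ ^ 2) * (4 * r * y * Real.sin θ) := by
          field_simp
          ring

theorem continuous_ker {r : ℝ} (hr : 0 < r) {z : ℂ} {u : ℝ} (hzr : ‖z - u‖ < r) :
    Continuous (ker r z u) := by
  have hne : ∀ φ, ‖(pt u r φ - u) - (z - u)‖ ^ 2 ≠ 0 := by
    intro φ
    have e1 : ‖pt u r φ - u‖ ≤ ‖(pt u r φ - u) - (z - u)‖ + ‖z - u‖ := by
      simpa using norm_add_le ((pt u r φ - u) - (z - u)) (z - u)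
    rw [norm_pt hr] at e1
    have : 0 < ‖(pt u r φ - u) - (z - u)‖ := by linarith
    positivity
  have hc : Continuous (pt u r) := continuous_circleMap _ _
  have h1 : Continuous fun φ => poissonKernel u z (pt u r φ) := by
    simp only [poissonKernel_def]
    exact Continuous.div (by fun_prop) (by fun_prop) hne
  exact h1.sub (h1.comp continuous_neg)

/-- Poisson formula for an odd real part. -/
theorem odd_formula {q : ℂ → ℂ} (hq : Differentiable ℂ q) {u r : ℝ} (hr : 0 < r)
    (hodd : ∀ w, (q (conj w)).re = -(q w).re) {z : ℂ} (hz : ‖z - u‖ < r) :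
    (q z).re = (2 * π)⁻¹ * ∫ θ in (0 : ℝ)..π, ker r z u θ * (q (pt u r θ)).re := by
  have hne : ∀ φ, ‖(pt u r φ - u) - (z - u)‖ ^ 2 ≠ 0 := by
    intro φ
    have e1 : ‖pt u r φ - u‖ ≤ ‖(pt u r φ - u) - (z - u)‖ + ‖z - u‖ := by
      simpa using norm_add_le ((pt u r φ - u) - (z - u)) (z - u)
    rw [norm_pt hr] at e1
    have : 0 < ‖(pt u r φ - u) - (z - u)‖ := by linarith
    positivity
  have hc : Continuous (pt u r) := continuous_circleMap _ _
  have hP : Continuous fun φ => poissonKernel u z (pt u r φ) := by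
    simp only [poissonKernel_def]
    exact Continuous.div (by fun_prop) (by fun_prop) hne
  have hqc : Continuous fun φ => (q (pt u r φ)).re :=
    continuous_re.comp (hq.continuous.comp hc)
  have h1 := DiffContOnCl.circleAverage_poissonKernel_smul (R := r) (c := (u : ℂ)) (w := z)
    (f := q) hq.diffContOnCl (by rw [mem_ball, dist_eq_norm]; exact hz)
  have h2 : (q z).re = (2 * π)⁻¹ * ∫ θ in (0 : ℝ)..2 * π,
      poissonKernel u z (pt u r θ) * (q (pt u r θ)).re := by
    rw [← h1, Real.circleAverage_def]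
    simp only [Complex.real_smul, Complex.re_ofReal_mul]
    congr 1
    have hint : IntervalIntegrable (fun θ => ((poissonKernel (u : ℂ) z • q) (circleMap (u : ℂ) r θ)))
        volume 0 (2 * π) := by
      apply Continuous.intervalIntegrable
      have : (fun θ => ((poissonKernel (u : ℂ) z • q) (circleMap (u : ℂ) r θ))) =
          fun θ => ((poissonKernel u z (pt u r θ) : ℝ) : ℂ) * q (pt u r θ) := by
        ext θ
        simp [pt]
      rw [this]
      exact (continuous_ofReal.comp hP).mul (hq.continuous.comp hc)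
    have h3 := (reCLM.intervalIntegral_comp_comm hint)
    simp only [reCLM_apply] at h3
    rw [← h3]
    apply intervalIntegral.integral_congr
    intro θ _
    simp [pt]
  rw [h2]
  congr 1
  have hsplit : (∫ θ in (0 : ℝ)..2 * π, poissonKernel u z (pt u r θ) * (q (pt u r θ)).re) =
      (∫ θ in (0 : ℝ)..π, poissonKernel u z (pt u r θ) * (q (pt u r θ)).re) +
      ∫ θ in π..2 * π, poissonKernel u z (pt u r θ) * (q (pt u r θ)).re :=
    (intervalIntegral.integral_add_adjacent_intervals
      ((hP.mul hqc).intervalIntegrable _ _) ((hP.mul hqc).intervalIntegrable _ _)).symm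
  have hsub : (∫ θ in π..2 * π, poissonKernel u z (pt u r θ) * (q (pt u r θ)).re) =
      ∫ θ in (0 : ℝ)..π, poissonKernel u z (pt u r (-θ)) * -(q (pt u r θ)).re := by
    have h4 := intervalIntegral.integral_comp_sub_left
      (fun θ => poissonKernel u z (pt u r θ) * (q (pt u r θ)).re) (2 * π) (a := 0) (b := π)
    have h5 : 2 * π - π = π := by ring
    rw [sub_zero, h5] at h4
    rw [← h4]
    apply intervalIntegral.integral_congr
    intro θ _
    have h6 : pt u r (2 * π - θ) = pt u r (-θ) := by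
      apply Complex.ext
      · rw [pt_re, pt_re, Real.cos_two_pi_sub, Real.cos_neg]
      · rw [pt_im, pt_im, Real.sin_two_pi_sub, Real.sin_neg]
    have h7 : pt u r (-θ) = conj (pt u r θ) := by
      apply Complex.ext
      · rw [pt_re, conj_re, pt_re, Real.cos_neg]
      · rw [pt_im, conj_im, pt_im, Real.sin_neg]; ring
    simp only [h6]
    rw [h7, hodd]
  have hI1 : IntervalIntegrable (fun θ => poissonKernel u z (pt u r θ) * (q (pt u r θ)).re)
      volume 0 π := (hP.mul hqc).intervalIntegrable _ _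
  have hI2 : IntervalIntegrable (fun θ => poissonKernel u z (pt u r (-θ)) * -(q (pt u r θ)).re)
      volume 0 π := ((hP.comp continuous_neg).mul hqc.neg).intervalIntegrable _ _
  rw [hsplit, hsub, ← intervalIntegral.integral_add hI1 hI2]
  apply intervalIntegral.integral_congr
  intro θ _
  simp only [ker]
  ring

/-- Comparison with a continuous minorant on the upper half circle. -/
theorem core {u r ρ : ℝ} (hr : 0 < r) (hrρ : r < ρ) {D : ℂ → ℝ} (hD : SupH (HD u ρ) D)
    (h0 : ∀ z ∈ HD u ρ, 0 ≤ D z) {g : ℂ → ℝ} (hg : Continuous g)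
    (hgD : ∀ w : ℂ, ‖w - u‖ = r → 0 < w.im → g w ≤ D w)
    (hgl : ∀ w : ℂ, ‖w - u‖ = r → w.im ≤ 0 → g w = 0) {z : ℂ} (hz : z ∈ HD u r) :
    (2 * π)⁻¹ * ∫ θ in (0 : ℝ)..π, ker r z u θ * g (pt u r θ) ≤ D z := by
  have hc : Continuous (pt u r) := continuous_circleMap _ _
  have hkc := continuous_ker hr hz.2
  set A : ℝ := (2 * π)⁻¹ * ∫ θ in (0 : ℝ)..π, ker r z u θ with hA
  have hA0 : 0 ≤ A := by
    rw [hA]
    apply mul_nonneg (by positivity)
    apply intervalIntegral.integral_nonneg Real.pi_pos.le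
    intro θ hθ
    exact (ker_lower hr hz.1 hz.2 hθ).2
  have key : ∀ ε > 0, (2 * π)⁻¹ * (∫ θ in (0 : ℝ)..π, ker r z u θ * g (pt u r θ)) - ε * A - 3 * ε
      ≤ D z := by
    intro ε hε
    obtain ⟨p, hp⟩ := exists_poly (G := fun w => g w - g (conj w))
      (hg.sub (hg.comp continuous_conj)) (u : ℂ) hr hε
    set q : ℂ → ℂ := fun w => (p.eval w - conj (p.eval (conj w))) / 2 with hq
    have hqd : Differentiable ℂ q := by
      have h1 : Differentiable ℂ fun w : ℂ => p.eval w := p.differentiable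
      have h2 : Differentiable ℂ fun w : ℂ => conj (p.eval (conj w)) := by
        intro w
        have h3 := (h1 (conj w)).conj_conj
        simpa [Function.comp_def] using h3
      exact (h1.sub h2).div_const 2
    have hqre : ∀ w, (q w).re = ((p.eval w).re - (p.eval (conj w)).re) / 2 := by
      intro w
      simp only [hq]
      rw [show ((2 : ℂ)) = ((2 : ℝ) : ℂ) by norm_num, Complex.div_ofReal_re, sub_re, conj_re]
    have hodd : ∀ w, (q (conj w)).re = -(q w).re := by
      intro w
      rw [hqre, hqre, Complex.conj_conj]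
      ring
    have hconj : ∀ w : ℂ, ‖conj w - u‖ = ‖w - u‖ := by
      intro w
      rw [← Complex.norm_conj (w - u), map_sub, Complex.conj_ofReal]
    have happ : ∀ w : ℂ, ‖w - u‖ = r → |(q w).re - (g w - g (conj w))| < ε := by
      intro w hw
      have h1 := hp w hw
      have h2 := hp (conj w) ((hconj w).trans hw)
      simp only [Complex.conj_conj] at h2
      rw [hqre]
      rw [abs_lt] at h1 h2 ⊢
      constructor <;> linarith [h1.1, h1.2, h2.1, h2.2]
    have hupper : ∀ w : ℂ, ‖w - u‖ = r → 0 < w.im → |(q w).re - g w| < ε := by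
      intro w hw hwi
      have h1 := happ w hw
      rwa [hgl (conj w) ((hconj w).trans hw) (by rw [conj_im]; linarith), sub_zero] at h1
    -- minimum principle
    have hmin : ∀ w ∈ HD u r, 0 ≤ D w + (-q w).re + 3 * ε := by
      have hS : SupH (HD u r) (fun w => D w + (-q w).re + 3 * ε) := by
        have h1 := (hD.mono (HD_mono hrρ.le) (isOpen_HD u r)).add_re (q := fun w => -q w)
          (fun w _ => (hqd.analyticAt w).neg)
        exact h1.add_const (3 * ε)
      have hbdd : Bornology.IsBounded (HD u r) := by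
        apply (Metric.isBounded_ball (x := (u : ℂ)) (r := r)).subset
        intro w hw
        rw [mem_ball, dist_eq_norm]; exact hw.2
      apply hS.nonneg (isOpen_HD u r) hbdd
      intro ζ hζ δ hδ
      have hqcont : ContinuousAt (fun w => (q w).re) ζ :=
        (continuous_re.comp hqd.continuous).continuousAt
      have hζcl : 0 ≤ ζ.im ∧ ‖ζ - u‖ ≤ r := by
        have h1 : closure (HD u r) ⊆ {w : ℂ | 0 ≤ w.im ∧ ‖w - u‖ ≤ r} := by
          apply closure_minimal
          · intro w hw; exact ⟨hw.1.le, hw.2.le⟩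
          · apply IsClosed.inter
            · exact isClosed_le continuous_const continuous_im
            · exact isClosed_le (show Continuous fun z : ℂ => ‖z - u‖ by fun_prop) continuous_const
        exact h1 (frontier_subset_closure hζ)
      have hζn : ζ ∉ HD u r := by
        have := hζ.2
        rwa [(isOpen_HD u r).interior_eq] at this
      rcases hζcl.1.eq_or_lt with hi | hi
      · -- real point
        have hq0 : (q ζ).re = 0 := by
          have h1 := hodd ζ
          rw [Complex.conj_eq_iff_im.2 hi.symm] at h1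
          linarith
        have h2 : ∀ᶠ w in 𝓝[HD u r] ζ, (q w).re < ε := by
          apply (hqcont.tendsto.mono_left nhdsWithin_le_nhds).eventually_lt_const
          rw [hq0]; exact hε
        filter_upwards [h2, self_mem_nhdsWithin] with w hw hwH
        have h3 := h0 w (HD_mono hrρ.le hwH)
        rw [neg_re]
        linarith
      · -- arc point
        have hζr : ‖ζ - u‖ = r := by
          rcases hζcl.2.eq_or_lt with h | h
          · exact h
          · exact absurd ⟨hi, h⟩ hζn
        have hζρ : ζ ∈ HD u ρ := ⟨hi, by rw [hζr]; exact hrρ⟩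
        have h1 : ∀ᶠ w in 𝓝[HD u r] ζ, D ζ - ε / 2 < D w :=
          (hD.lsc ζ hζρ (D ζ - ε / 2) (by linarith)).filter_mono
            (nhdsWithin_mono _ (HD_mono hrρ.le))
        have h2 : ∀ᶠ w in 𝓝[HD u r] ζ, (q w).re < (q ζ).re + ε / 2 := by
          apply (hqcont.tendsto.mono_left nhdsWithin_le_nhds).eventually_lt_const
          linarith
        have h3 := (abs_lt.1 (hupper ζ hζr hi)).2
        have h4 := hgD ζ hζr hi
        filter_upwards [h1, h2] with w hw1 hw2
        rw [neg_re]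
        linarith
    have h5 := hmin z hz
    rw [neg_re] at h5
    have h6 := odd_formula hqd hr hodd hz.2
    have hqc : Continuous fun φ => (q (pt u r φ)).re :=
      continuous_re.comp (hqd.continuous.comp hc)
    have h7 : ∫ θ in (0 : ℝ)..π, ker r z u θ * (g (pt u r θ) - ε) ≤
        ∫ θ in (0 : ℝ)..π, ker r z u θ * (q (pt u r θ)).re := by
      apply intervalIntegral.integral_mono_on_of_le_Ioo Real.pi_pos.le
      · exact (hkc.mul ((hg.comp hc).sub continuous_const)).intervalIntegrable _ _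
      · exact (hkc.mul hqc).intervalIntegrable _ _
      · intro θ hθ
        apply mul_le_mul_of_nonneg_left _ (ker_lower hr hz.1 hz.2 ⟨hθ.1.le, hθ.2.le⟩).2
        have h8 := hupper (pt u r θ) (norm_pt hr u θ) (by
          rw [pt_im]
          exact mul_pos hr (Real.sin_pos_of_mem_Ioo hθ))
        linarith [(abs_lt.1 h8).1]
    have h9 : ∫ θ in (0 : ℝ)..π, ker r z u θ * (g (pt u r θ) - ε) =
        (∫ θ in (0 : ℝ)..π, ker r z u θ * g (pt u r θ)) - ε * ∫ θ in (0 : ℝ)..π, ker r z u θ := by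
      rw [← intervalIntegral.integral_const_mul, ← intervalIntegral.integral_sub]
      · apply intervalIntegral.integral_congr
        intro θ _
        ring
      · exact (hkc.mul (hg.comp hc)).intervalIntegrable _ _
      · exact (continuous_const.mul hkc).intervalIntegrable _ _
    have h10 : (2 * π)⁻¹ * (∫ θ in (0 : ℝ)..π, ker r z u θ * g (pt u r θ)) - ε * A ≤ (q z).re := by
      rw [h6, hA]
      calc (2 * π)⁻¹ * (∫ θ in (0 : ℝ)..π, ker r z u θ * g (pt u r θ)) -
            ε * ((2 * π)⁻¹ * ∫ θ in (0 : ℝ)..π, ker r z u θ)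
          = (2 * π)⁻¹ * ∫ θ in (0 : ℝ)..π, ker r z u θ * (g (pt u r θ) - ε) := by
            rw [h9]; ring
        _ ≤ _ := by gcongr
    linarith
  by_contra hcon
  rw [not_le] at hcon
  set X := (2 * π)⁻¹ * ∫ θ in (0 : ℝ)..π, ker r z u θ * g (pt u r θ) with hX
  have h := key ((X - D z) / (2 * (A + 3))) (by
    have : 0 < X - D z := by linarith
    positivity)
  have h11 : (X - D z) / (2 * (A + 3)) * A + 3 * ((X - D z) / (2 * (A + 3))) = (X - D z) / 2 := by
    field_simp
  linarith

end Crest.Agent.R102.Slope811
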