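import Mathlib

/-!
Row 102, T1-B, leaf (c): the explicit harmonic shift of the half disc.

`K R z s = (1/(s-z) - z/(R²-sz))/π`; `G R F z = ∫_{(-R,R)} F(s) K R z s ds`; `Im G` is the harmonic
function of the half disc with boundary values `F` on the diameter and `0` on the arc.
-/

set_option autoImplicit false

open Set Filter Topology MeasureTheory

noncomputable section

namespace Crest.Agent.R102.SlopeK

def K (R : ℝ) (z : ℂ) (s : ℝ) : ℂ := (1 / ((s:ℂ) - z) - z / ((R:ℂ)^2 - s*z)) / (Real.pi : ℂ)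
def G (R : ℝ) (F : ℝ → ℝ) (z : ℂ) : ℂ := ∫ s in Set.Ioo (-R) R, (F s : ℂ) * K R z s
def HD (R : ℝ) : Set ℂ := Metric.ball 0 R ∩ {z | 0 < z.im}

theorem isOpen_HD (R : ℝ) : IsOpen (HD R) :=
  Metric.isOpen_ball.inter (isOpen_lt continuous_const Complex.continuous_im)

theorem HD_norm {R : ℝ} {z : ℂ} (hz : z ∈ HD R) : ‖z‖ < R := by
  have := hz.1
  rwa [Metric.mem_ball, dist_zero_right] at this

theorem HD_im {R : ℝ} {z : ℂ} (hz : z ∈ HD R) : 0 < z.im := hz.2

/-! ### elementary estimates -/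

theorem im_le_norm_sub {z : ℂ} (hz : 0 < z.im) (s : ℝ) : z.im ≤ ‖(s:ℂ) - z‖ := by
  have h1 := Complex.abs_im_le_norm ((s:ℂ) - z)
  have h2 : ((s:ℂ) - z).im = -z.im := by simp
  rw [h2, abs_neg, abs_of_pos hz] at h1
  exact h1

theorem sub_ne {z : ℂ} (hz : 0 < z.im) (s : ℝ) : (s:ℂ) - z ≠ 0 := by
  intro h
  have := im_le_norm_sub hz s
  rw [h, norm_zero] at this
  linarith

theorem den_lower {R : ℝ} {z : ℂ} (hz : ‖z‖ < R) {s : ℝ} (hs : |s| ≤ R) :
    R * (R - ‖z‖) ≤ ‖(R:ℂ)^2 - s*z‖ := by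
  have hR : 0 < R := (norm_nonneg z).trans_lt hz
  have h1 : ‖(R:ℂ)^2‖ - ‖(s:ℂ)*z‖ ≤ ‖(R:ℂ)^2 - s*z‖ := norm_sub_norm_le _ _
  have h2 : ‖(R:ℂ)^2‖ = R^2 := by
    rw [norm_pow, Complex.norm_real, Real.norm_of_nonneg hR.le]
  have h3 : ‖(s:ℂ)*z‖ ≤ R * ‖z‖ := by
    rw [norm_mul, Complex.norm_real, Real.norm_eq_abs]
    exact mul_le_mul_of_nonneg_right hs (norm_nonneg z)
  nlinarith

theorem den_ne {R : ℝ} {z : ℂ} (hz : ‖z‖ < R) {s : ℝ} (hs : |s| ≤ R) :
    (R:ℂ)^2 - s*z ≠ 0 := by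
  intro h
  have hR : 0 < R := (norm_nonneg z).trans_lt hz
  have h1 := den_lower hz hs
  rw [h, norm_zero] at h1
  have : 0 < R * (R - ‖z‖) := mul_pos hR (by linarith)
  linarith

theorem den_lower0 {R : ℝ} {z : ℂ} (hz : ‖z‖ < R) {s : ℝ} (hs : |s| ≤ R) :
    0 < ‖(R:ℂ)^2 - s*z‖ := norm_pos_iff.2 (den_ne hz hs)

theorem abs_le_of_mem {R s : ℝ} (hs : s ∈ Ioo (-R) R) : |s| ≤ R :=
  abs_le.2 ⟨hs.1.le, hs.2.le⟩

theorem K_norm_le {R : ℝ} {z : ℂ} (hz : z ∈ HD R) {s : ℝ} (hs : |s| ≤ R) :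
    ‖K R z s‖ ≤ (1 / z.im + 1 / (R - ‖z‖)) / Real.pi := by
  have hpi := Real.pi_pos
  have h0 := HD_im hz
  have h1 := HD_norm hz
  have hR : 0 < R := (norm_nonneg z).trans_lt h1
  unfold K
  rw [norm_div, Complex.norm_real, Real.norm_of_nonneg hpi.le]
  refine div_le_div_of_nonneg_right ?_ hpi.le
  refine (norm_sub_le _ _).trans (add_le_add ?_ ?_)
  · rw [norm_div, norm_one]
    exact one_div_le_one_div_of_le h0 (im_le_norm_sub h0 s)
  · rw [norm_div, div_le_div_iff₀ (den_lower0 h1 hs) (by linarith)]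
    have h2 := den_lower h1 hs
    have h3 : 0 ≤ R - ‖z‖ := by linarith
    nlinarith [norm_nonneg z]

theorem K_continuousOn {R : ℝ} {z : ℂ} (hz : z ∈ HD R) :
    ContinuousOn (K R z) (Icc (-R) R) := by
  unfold K
  have hz1 := HD_im hz
  have hz2 := HD_norm hz
  refine ContinuousOn.div_const ?_ _
  refine ContinuousOn.sub ?_ ?_
  · refine continuousOn_const.div (by fun_prop) ?_
    intro s _
    exact sub_ne hz1 s
  · refine continuousOn_const.div (by fun_prop) ?_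
    intro s hs
    exact den_ne hz2 (abs_le.2 hs)

theorem K_aesm {R : ℝ} {z : ℂ} (hz : z ∈ HD R) :
    AEStronglyMeasurable (K R z) (volume.restrict (Ioo (-R) R)) :=
  ((K_continuousOn hz).mono Ioo_subset_Icc_self).aestronglyMeasurable measurableSet_Ioo

theorem K_integrable {R : ℝ} {z : ℂ} (hz : z ∈ HD R) {F : ℝ → ℝ} (hF : Measurable F) {M : ℝ}
    (hM : ∀ s, |F s| ≤ M) :
    Integrable (fun s => (F s : ℂ) * K R z s) (volume.restrict (Ioo (-R) R)) := by
  have hfin : IsFiniteMeasure (volume.restrict (Ioo (-R) R)) := ⟨by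
    rw [Measure.restrict_apply_univ, Real.volume_Ioo]; exact ENNReal.ofReal_lt_top⟩
  refine Integrable.of_bound (C := M * ((1 / z.im + 1 / (R - ‖z‖)) / Real.pi)) ?_ ?_
  · exact (Complex.measurable_ofReal.comp hF).aestronglyMeasurable.mul (K_aesm hz)
  · rw [ae_restrict_iff' measurableSet_Ioo]
    refine ae_of_all _ fun s hs => ?_
    rw [norm_mul, Complex.norm_real, Real.norm_eq_abs]
    have h1 := K_norm_le hz (abs_le_of_mem hs)
    exact mul_le_mul (hM s) h1 (norm_nonneg _) ((abs_nonneg _).trans (hM s))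

/-! ### imaginary part of the kernel -/

theorem K_im {R : ℝ} (z : ℂ) (s : ℝ) :
    (K R z s).im = z.im / Real.pi * (1 / ‖(s:ℂ) - z‖^2 - R^2 / ‖(R:ℂ)^2 - s*z‖^2) := by
  unfold K
  rw [Complex.div_ofReal_im, Complex.sub_im, Complex.div_im, Complex.div_im,
    Complex.sq_norm, Complex.sq_norm]
  simp only [Complex.one_im, Complex.one_re, Complex.sub_re, Complex.sub_im, Complex.ofReal_re,
    Complex.ofReal_im, Complex.mul_im, Complex.mul_re]
  have e1 : ((R:ℂ)^2).re = R^2 := by norm_cast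
  have e2 : ((R:ℂ)^2).im = 0 := by norm_cast
  rw [e1, e2]
  ring

theorem key_id {R : ℝ} (z : ℂ) (s : ℝ) :
    ‖(R:ℂ)^2 - s*z‖^2 - R^2 * ‖(s:ℂ) - z‖^2 = (R^2 - ‖z‖^2) * (R^2 - s^2) := by
  rw [Complex.sq_norm, Complex.sq_norm, Complex.sq_norm, Complex.normSq_apply,
    Complex.normSq_apply, Complex.normSq_apply]
  have e1 : ((R:ℂ)^2).re = R^2 := by norm_cast
  have e2 : ((R:ℂ)^2).im = 0 := by norm_cast
  simp only [Complex.sub_re, Complex.sub_im, Complex.ofReal_re,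
    Complex.ofReal_im, Complex.mul_im, Complex.mul_re, e1, e2]
  ring

theorem K_im' {R : ℝ} {z : ℂ} (hz : z ∈ HD R) {s : ℝ} (hs : |s| ≤ R) :
    (K R z s).im = z.im / Real.pi * ((R^2 - ‖z‖^2) * (R^2 - s^2) /
      (‖(s:ℂ) - z‖^2 * ‖(R:ℂ)^2 - s*z‖^2)) := by
  have h1 : ‖(s:ℂ) - z‖ ≠ 0 := norm_ne_zero_iff.2 (sub_ne (HD_im hz) s)
  have h2 : ‖(R:ℂ)^2 - s*z‖ ≠ 0 := norm_ne_zero_iff.2 (den_ne (HD_norm hz) hs)
  rw [K_im, ← key_id]
  congr 1
  field_simp

theorem sq_sub_nonneg {R : ℝ} {z : ℂ} (hz : z ∈ HD R) : 0 ≤ R^2 - ‖z‖^2 := by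
  have := HD_norm hz
  have := norm_nonneg z
  nlinarith

theorem sq_sub_nonneg' {R s : ℝ} (hs : |s| ≤ R) : 0 ≤ R^2 - s^2 := by
  have h1 := abs_nonneg s
  have h2 := sq_abs s
  nlinarith

theorem K_im_nonneg' {R : ℝ} {z : ℂ} (hz : z ∈ HD R) {s : ℝ} (hs : |s| ≤ R) :
    0 ≤ (K R z s).im := by
  rw [K_im' hz hs]
  have h1 := sq_sub_nonneg hz
  have h2 := sq_sub_nonneg' hs
  have h3 := HD_im hz
  have h4 := Real.pi_pos
  positivity

theorem K_im_nonneg {R : ℝ} (_hR : 0 < R) {z : ℂ} (hz : z ∈ HD R) {s : ℝ} (hs : s ∈ Ioo (-R) R) :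
    0 ≤ (K R z s).im := K_im_nonneg' hz (abs_le_of_mem hs)

/-- Poisson kernel of the half plane -/
def pk (z : ℂ) (s : ℝ) : ℝ := z.im / Real.pi * (1 / ‖(s:ℂ) - z‖^2)

theorem norm_sub_sq (z : ℂ) (s : ℝ) : ‖(s:ℂ) - z‖^2 = (s - z.re)^2 + z.im^2 := by
  rw [Complex.sq_norm, Complex.normSq_apply]
  simp
  ring

theorem pk_eq {z : ℂ} (hz : 0 < z.im) (s : ℝ) :
    pk z s = Real.pi⁻¹ * z.im⁻¹ * (1 + ((s - z.re) / z.im) ^ 2)⁻¹ := by
  unfold pk
  rw [norm_sub_sq]
  have h1 : (s - z.re) ^ 2 + z.im ^ 2 ≠ 0 := by positivity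
  have h2 : (1 + ((s - z.re) / z.im) ^ 2) ≠ 0 := by positivity
  have := Real.pi_ne_zero
  field_simp
  ring

theorem pk_nonneg {z : ℂ} (hz : 0 < z.im) (s : ℝ) : 0 ≤ pk z s := by
  unfold pk
  have := Real.pi_pos
  positivity

theorem integrable_pk {z : ℂ} (hz : 0 < z.im) : Integrable (pk z) := by
  have h0 := integrable_inv_one_add_sq
  have h1 : Integrable fun t : ℝ => (1 + (t / z.im) ^ 2)⁻¹ := h0.comp_div hz.ne'
  have h2 : Integrable fun t : ℝ => (1 + ((t - z.re) / z.im) ^ 2)⁻¹ := h1.comp_sub_right z.re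
  have h3 := h2.const_mul (Real.pi⁻¹ * z.im⁻¹)
  refine h3.congr (Eventually.of_forall fun t => ?_)
  simp only [pk_eq hz]

theorem integral_pk {z : ℂ} (hz : 0 < z.im) : ∫ t, pk z t = 1 := by
  simp only [pk_eq hz]
  rw [integral_const_mul]
  rw [integral_sub_right_eq_self (fun x : ℝ => (1 + (x / z.im) ^ 2)⁻¹) z.re,
    Measure.integral_comp_div (fun x : ℝ => (1 + x ^ 2)⁻¹) z.im, integral_univ_inv_one_add_sq,
    abs_of_pos hz, smul_eq_mul]
  have := Real.pi_ne_zero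
  field_simp

theorem K_im_le_pk {R : ℝ} {z : ℂ} (hz : z ∈ HD R) (s : ℝ) : (K R z s).im ≤ pk z s := by
  rw [K_im]
  unfold pk
  have h3 := HD_im hz
  have h4 := Real.pi_pos
  have h5 : 0 ≤ R^2 / ‖(R:ℂ)^2 - s*z‖^2 := by positivity
  exact mul_le_mul_of_nonneg_left (by linarith) (by positivity)

theorem pk_sub_K_im {R : ℝ} {z : ℂ} (s : ℝ) :
    pk z s - (K R z s).im = z.im / Real.pi * (R^2 / ‖(R:ℂ)^2 - s*z‖^2) := by
  rw [K_im]
  unfold pk
  ring

/-! ### imaginary part of `G` -/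

theorem G_im {R : ℝ} {z : ℂ} (hz : z ∈ HD R) {F : ℝ → ℝ} (hF : Measurable F) {M : ℝ}
    (hM : ∀ s, |F s| ≤ M) :
    (G R F z).im = ∫ s in Ioo (-R) R, F s * (K R z s).im := by
  have h := Complex.imCLM.integral_comp_comm (K_integrable hz hF hM)
  unfold G
  simp only [Complex.imCLM_apply, Complex.im_ofReal_mul] at h
  exact h.symm

theorem K_im_integrable {R : ℝ} {z : ℂ} (hz : z ∈ HD R) {F : ℝ → ℝ} (hF : Measurable F) {M : ℝ}
    (hM : ∀ s, |F s| ≤ M) :
    Integrable (fun s => F s * (K R z s).im) (volume.restrict (Ioo (-R) R)) := by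
  have h := (K_integrable hz hF hM).im
  refine h.congr (ae_of_all _ fun s => ?_)
  exact Complex.im_ofReal_mul _ _

theorem G_im_mono {R : ℝ} (_hR : 0 < R) {F F' : ℝ → ℝ} {M : ℝ} (hF : Measurable F)
    (hF' : Measurable F') (hM : ∀ s, |F s| ≤ M) (hM' : ∀ s, |F' s| ≤ M)
    (h : ∀ s ∈ Ioo (-R) R, F s ≤ F' s) {z : ℂ} (hz : z ∈ HD R) :
    (G R F z).im ≤ (G R F' z).im := by
  rw [G_im hz hF hM, G_im hz hF' hM']
  refine setIntegral_mono_on (K_im_integrable hz hF hM) (K_im_integrable hz hF' hM')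
    measurableSet_Ioo fun s hs => ?_
  exact mul_le_mul_of_nonneg_right (h s hs) (K_im_nonneg' hz (abs_le_of_mem hs))

theorem G_im_nonneg {R : ℝ} (_hR : 0 < R) {F : ℝ → ℝ} (_hF : Measurable F) (h : ∀ s, 0 ≤ F s)
    {z : ℂ} (hz : z ∈ HD R) : 0 ≤ (G R F z).im := by
  by_cases hi : Integrable (fun s => (F s : ℂ) * K R z s) (volume.restrict (Ioo (-R) R))
  · have h1 := Complex.imCLM.integral_comp_comm hi
    simp only [Complex.imCLM_apply, Complex.im_ofReal_mul] at h1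
    unfold G
    rw [← h1]
    exact setIntegral_nonneg measurableSet_Ioo fun s hs =>
      mul_nonneg (h s) (K_im_nonneg' hz (abs_le_of_mem hs))
  · unfold G
    rw [integral_undef hi, Complex.zero_im]

theorem G_im_abs_le {R : ℝ} (_hR : 0 < R) {F : ℝ → ℝ} {z : ℂ} (hz : z ∈ HD R) {M : ℝ}
    (hF : Measurable F) (hM : ∀ s, |F s| ≤ M) : |(G R F z).im| ≤ M := by
  have hM0 : 0 ≤ M := (abs_nonneg _).trans (hM 0)
  rw [G_im hz hF hM]
  have h1 : |∫ s in Ioo (-R) R, F s * (K R z s).im| ≤ ∫ s in Ioo (-R) R, M * pk z s := by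
    rw [← Real.norm_eq_abs]
    refine norm_integral_le_of_norm_le (((integrable_pk (HD_im hz)).const_mul M).restrict) ?_
    rw [ae_restrict_iff' measurableSet_Ioo]
    refine ae_of_all _ fun s hs => ?_
    rw [norm_mul, Real.norm_eq_abs, Real.norm_eq_abs,
      abs_of_nonneg (K_im_nonneg' hz (abs_le_of_mem hs))]
    exact mul_le_mul (hM s) (K_im_le_pk hz s) (K_im_nonneg' hz (abs_le_of_mem hs)) hM0
  refine h1.trans ?_
  rw [integral_const_mul]
  have h2 : ∫ s in Ioo (-R) R, pk z s ≤ 1 := by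
    rw [← integral_pk (HD_im hz)]
    exact setIntegral_le_integral (integrable_pk (HD_im hz))
      (Eventually.of_forall (pk_nonneg (HD_im hz)))
  nlinarith

theorem G_im_le {R : ℝ} (hR : 0 < R) {F : ℝ → ℝ} {M : ℝ} (hF : Measurable F) (h0 : ∀ s, 0 ≤ F s)
    (hM : ∀ s, F s ≤ M) {z : ℂ} (hz : z ∈ HD R) : (G R F z).im ≤ M :=
  (le_abs_self _).trans (G_im_abs_le hR hz hF fun s => by rw [abs_of_nonneg (h0 s)]; exact hM s)

theorem G_im_tendsto {R : ℝ} (_hR : 0 < R) {f : ℕ → ℝ → ℝ} {F : ℝ → ℝ} {M : ℝ}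
    (hf : ∀ n, Measurable (f n)) (hM : ∀ n s, |f n s| ≤ M)
    (hlim : ∀ s, Tendsto (fun n => f n s) atTop (𝓝 (F s))) {z : ℂ} (hz : z ∈ HD R) :
    Tendsto (fun n => (G R (f n) z).im) atTop (𝓝 (G R F z).im) := by
  have hF : Measurable F := measurable_of_tendsto_metrizable hf (tendsto_pi_nhds.2 hlim)
  have hFM : ∀ s, |F s| ≤ M := fun s =>
    le_of_tendsto ((hlim s).abs) (Eventually.of_forall fun n => hM n s)
  have e1 : (fun n => (G R (f n) z).im) = fun n => ∫ s in Ioo (-R) R, f n s * (K R z s).im := by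
    funext n
    exact G_im hz (hf n) (hM n)
  rw [e1, G_im hz hF hFM]
  refine tendsto_integral_of_dominated_convergence (fun s => M * pk z s) ?_
    (((integrable_pk (HD_im hz)).const_mul M).restrict) ?_ ?_
  · intro n
    exact (K_im_integrable hz (hf n) (hM n)).aestronglyMeasurable
  · intro n
    rw [ae_restrict_iff' measurableSet_Ioo]
    refine ae_of_all _ fun s hs => ?_
    rw [norm_mul, Real.norm_eq_abs, Real.norm_eq_abs,
      abs_of_nonneg (K_im_nonneg' hz (abs_le_of_mem hs))]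
    exact mul_le_mul (hM n s) (K_im_le_pk hz s) (K_im_nonneg' hz (abs_le_of_mem hs))
      ((abs_nonneg _).trans (hM n s))
  · exact ae_of_all _ fun s => (hlim s).mul_const _

/-! ### holomorphy -/

/-- derivative of the kernel in `z` -/
def K1 (R : ℝ) (z : ℂ) (s : ℝ) : ℂ :=
  (1 / ((s:ℂ) - z)^2 - (R:ℂ)^2 / ((R:ℂ)^2 - s*z)^2) / (Real.pi : ℂ)

theorem K_hasDerivAt {R : ℝ} {z : ℂ} (hz : z ∈ HD R) {s : ℝ} (hs : |s| ≤ R) :
    HasDerivAt (fun z => K R z s) (K1 R z s) z := by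
  unfold K K1
  have h1 := sub_ne (HD_im hz) s
  have h2 := den_ne (HD_norm hz) hs
  refine HasDerivAt.div_const ?_ _
  have d1 : HasDerivAt (fun z : ℂ => 1 / ((s:ℂ) - z)) (1 / ((s:ℂ) - z)^2) z := by
    have := HasDerivAt.fun_inv ((hasDerivAt_id z).const_sub (s:ℂ)) h1
    simpa using this
  have d2 : HasDerivAt (fun z : ℂ => z / ((R:ℂ)^2 - s*z)) ((R:ℂ)^2 / ((R:ℂ)^2 - s*z)^2) z := by
    have e1 : HasDerivAt (fun z : ℂ => (R:ℂ)^2 - s*z) (-(s:ℂ)) z := by
      have := ((hasDerivAt_id z).const_mul (s:ℂ)).const_sub ((R:ℂ)^2)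
      simpa using this
    have := (hasDerivAt_id z).div e1 h2
    refine this.congr_deriv ?_
    simp only [id]
    congr 1
    ring
  exact d1.sub d2

theorem K1_norm_le {R : ℝ} (hR : 0 < R) {z : ℂ} (hz : z ∈ HD R) {a b : ℝ} (ha : 0 < a)
    (hb : 0 < b) (hza : a ≤ z.im) (hzb : b ≤ R - ‖z‖) {s : ℝ} (hs : |s| ≤ R) :
    ‖K1 R z s‖ ≤ (1 / a^2 + 1 / b^2) / Real.pi := by
  have hpi := Real.pi_pos
  have h0 := HD_im hz
  have h1 := HD_norm hz
  unfold K1
  rw [norm_div, Complex.norm_real, Real.norm_of_nonneg hpi.le]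
  refine div_le_div_of_nonneg_right ?_ hpi.le
  refine (norm_sub_le _ _).trans (add_le_add ?_ ?_)
  · rw [norm_div, norm_one, norm_pow]
    refine one_div_le_one_div_of_le (by positivity) ?_
    exact pow_le_pow_left₀ ha.le (hza.trans (im_le_norm_sub h0 s)) 2
  · rw [norm_div, norm_pow, norm_pow, Complex.norm_real, Real.norm_of_nonneg hR.le,
      div_le_div_iff₀ (by have := den_lower0 h1 hs; positivity) (by positivity), one_mul]
    have h2 := den_lower h1 hs
    have h3 : R * b ≤ ‖(R:ℂ)^2 - s*z‖ := (mul_le_mul_of_nonneg_left hzb hR.le).trans h2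
    calc R^2 * b^2 = (R*b)^2 := by ring
      _ ≤ _ := pow_le_pow_left₀ (by positivity) h3 2

theorem G_hasDerivAt {R : ℝ} (hR : 0 < R) {F : ℝ → ℝ} (hF : Measurable F) {M : ℝ}
    (hM : ∀ s, |F s| ≤ M) {z : ℂ} (hz : z ∈ HD R) :
    HasDerivAt (G R F) (∫ s in Ioo (-R) R, (F s : ℂ) * K1 R z s) z := by
  have hM0 : 0 ≤ M := (abs_nonneg _).trans (hM 0)
  have h0 := HD_im hz
  have h1 := HD_norm hz
  set a := z.im / 2 with ha
  set b := (R - ‖z‖) / 2 with hb
  have ha0 : 0 < a := by rw [ha]; linarith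
  have hb0 : 0 < b := by rw [hb]; linarith
  set ε := min a b with hε
  have hε0 : 0 < ε := lt_min ha0 hb0
  have hball : ∀ x ∈ Metric.ball z ε, x ∈ HD R ∧ a ≤ x.im ∧ b ≤ R - ‖x‖ := by
    intro x hx
    rw [Metric.mem_ball, dist_eq_norm] at hx
    have h2 : ‖x - z‖ < a := hx.trans_le (min_le_left _ _)
    have h3 : ‖x - z‖ < b := hx.trans_le (min_le_right _ _)
    have h4 : |x.im - z.im| < a := by
      have := Complex.abs_im_le_norm (x - z)
      rw [Complex.sub_im] at this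
      linarith
    have h5 : ‖x‖ ≤ ‖z‖ + ‖x - z‖ := by
      calc ‖x‖ = ‖z + (x - z)‖ := by congr 1; ring
        _ ≤ _ := norm_add_le _ _
    have h6 := abs_lt.1 h4
    have h7 : a ≤ x.im := by rw [ha] at h6 ⊢; linarith [h6.1]
    have h8 : b ≤ R - ‖x‖ := by rw [hb] at h3 ⊢; linarith
    refine ⟨⟨?_, ?_⟩, h7, h8⟩
    · rw [Metric.mem_ball, dist_zero_right]; linarith
    · exact ha0.trans_le h7
  have hfin : IsFiniteMeasure (volume.restrict (Ioo (-R) R)) := ⟨by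
    rw [Measure.restrict_apply_univ, Real.volume_Ioo]; exact ENNReal.ofReal_lt_top⟩
  have hK1m : AEStronglyMeasurable (fun s => (F s : ℂ) * K1 R z s)
      (volume.restrict (Ioo (-R) R)) := by
    refine (Complex.measurable_ofReal.comp hF).aestronglyMeasurable.mul ?_
    refine ContinuousOn.aestronglyMeasurable ?_ measurableSet_Ioo
    unfold K1
    refine ContinuousOn.div_const ?_ _
    refine ContinuousOn.sub ?_ ?_
    · refine continuousOn_const.div (by fun_prop) ?_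
      intro s _
      exact pow_ne_zero 2 (sub_ne h0 s)
    · refine continuousOn_const.div (by fun_prop) ?_
      intro s hs
      exact pow_ne_zero 2 (den_ne h1 (abs_le_of_mem hs))
  have key := hasDerivAt_integral_of_dominated_loc_of_deriv_le
    (μ := volume.restrict (Ioo (-R) R)) (F := fun x s => (F s : ℂ) * K R x s)
    (F' := fun x s => (F s : ℂ) * K1 R x s) (x₀ := z)
    (bound := fun _ => M * ((1 / a^2 + 1 / b^2) / Real.pi)) (s := Metric.ball z ε)
    (Metric.ball_mem_nhds z hε0) ?_ (K_integrable hz hF hM) hK1m ?_ (integrable_const _) ?_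
  · exact key.2
  · filter_upwards [Metric.ball_mem_nhds z hε0] with x hx
    exact (K_integrable (hball x hx).1 hF hM).aestronglyMeasurable
  · rw [ae_restrict_iff' measurableSet_Ioo]
    refine ae_of_all _ fun s hs x hx => ?_
    obtain ⟨h2, h3, h4⟩ := hball x hx
    rw [norm_mul, Complex.norm_real, Real.norm_eq_abs]
    exact mul_le_mul (hM s) (K1_norm_le hR h2 ha0 hb0 h3 h4 (abs_le_of_mem hs)) (norm_nonneg _) hM0
  · rw [ae_restrict_iff' measurableSet_Ioo]
    refine ae_of_all _ fun s hs x hx => ?_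
    exact (K_hasDerivAt (hball x hx).1 (abs_le_of_mem hs)).const_mul _

theorem G_diff {R : ℝ} (hR : 0 < R) {F : ℝ → ℝ} {M : ℝ} (hF : Measurable F)
    (hM : ∀ s, |F s| ≤ M) : DifferentiableOn ℂ (G R F) (HD R) := fun _ hz =>
  (G_hasDerivAt hR hF hM hz).differentiableAt.differentiableWithinAt

/-! ### boundary values -/

theorem G_bdry_arc {R : ℝ} (hR : 0 < R) {F : ℝ → ℝ} {M : ℝ} (hF : Measurable F)
    (hM : ∀ s, |F s| ≤ M) {ζ : ℂ} (hζ : ‖ζ‖ = R) (hζ' : 0 < ζ.im) :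
    Tendsto (fun z => (G R F z).im) (𝓝[HD R] ζ) (𝓝 0) := by
  have hM0 : 0 ≤ M := (abs_nonneg _).trans (hM 0)
  have hpi := Real.pi_pos
  -- pointwise bound
  have hbound : ∀ z ∈ HD R, |(G R F z).im| ≤ 2 * R * (M * ((R^2 - ‖z‖^2) / (Real.pi * z.im^3))) := by
    intro z hz
    rw [G_im hz hF hM, ← Real.norm_eq_abs]
    have h1 : ∀ s ∈ Ioo (-R) R, ‖F s * (K R z s).im‖ ≤
        M * ((R^2 - ‖z‖^2) / (Real.pi * z.im^3)) := by
      intro s hs
      rw [norm_mul, Real.norm_eq_abs, Real.norm_eq_abs,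
        abs_of_nonneg (K_im_nonneg' hz (abs_le_of_mem hs))]
      refine mul_le_mul (hM s) ?_ (K_im_nonneg' hz (abs_le_of_mem hs)) hM0
      rw [K_im' hz (abs_le_of_mem hs)]
      have a1 := im_le_norm_sub (HD_im hz) s
      have a2 := HD_im hz
      have a3 := sq_sub_nonneg hz
      have a4 := sq_sub_nonneg' (abs_le_of_mem hs)
      have a5 : R^2 * z.im^2 ≤ ‖(R:ℂ)^2 - s*z‖^2 := by
        have b1 := key_id (R := R) z s
        have b2 : z.im^2 ≤ ‖(s:ℂ) - z‖^2 := pow_le_pow_left₀ a2.le a1 2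
        have b3 : 0 ≤ (R^2 - ‖z‖^2) * (R^2 - s^2) := mul_nonneg a3 a4
        nlinarith [sq_nonneg R]
      have a6 : z.im^2 ≤ ‖(s:ℂ) - z‖^2 := pow_le_pow_left₀ a2.le a1 2
      have a7 : z.im^2 * (R^2 * z.im^2) ≤ ‖(s:ℂ) - z‖^2 * ‖(R:ℂ)^2 - s*z‖^2 :=
        mul_le_mul a6 a5 (by positivity) (by positivity)
      have a8 : (R^2 - ‖z‖^2) * (R^2 - s^2) ≤ (R^2 - ‖z‖^2) * R^2 :=
        mul_le_mul_of_nonneg_left (by nlinarith [sq_nonneg s]) a3
      have a9 : (R^2 - ‖z‖^2) * (R^2 - s^2) / (‖(s:ℂ) - z‖^2 * ‖(R:ℂ)^2 - s*z‖^2) ≤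
          (R^2 - ‖z‖^2) * R^2 / (z.im^2 * (R^2 * z.im^2)) :=
        div_le_div₀ (by positivity) a8 (by positivity) a7
      calc z.im / Real.pi * ((R^2 - ‖z‖^2) * (R^2 - s^2) /
            (‖(s:ℂ) - z‖^2 * ‖(R:ℂ)^2 - s*z‖^2))
          ≤ z.im / Real.pi * ((R^2 - ‖z‖^2) * R^2 / (z.im^2 * (R^2 * z.im^2))) :=
            mul_le_mul_of_nonneg_left a9 (by positivity)
        _ = (R^2 - ‖z‖^2) / (Real.pi * z.im^3) := by
            field_simp
    have h2 := norm_setIntegral_le_of_norm_le_const (μ := volume) (s := Ioo (-R) R)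
      (by rw [Real.volume_Ioo]; exact ENNReal.ofReal_lt_top) h1
    refine h2.trans (le_of_eq ?_)
    have e1 : volume.real (Ioo (-R) R) = 2 * R := by
      rw [Measure.real, Real.volume_Ioo, ENNReal.toReal_ofReal (by linarith)]
      ring
    rw [e1]; ring
  have hlim : Tendsto (fun z : ℂ => 2 * R * (M * ((R^2 - ‖z‖^2) / (Real.pi * z.im^3))))
      (𝓝[HD R] ζ) (𝓝 0) := by
    have hc : ContinuousAt (fun z : ℂ => 2 * R * (M * ((R^2 - ‖z‖^2) / (Real.pi * z.im^3)))) ζ := by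
      have h3 : Real.pi * ζ.im^3 ≠ 0 := by positivity
      have hi : ContinuousAt (fun z : ℂ => z.im) ζ := Complex.continuous_im.continuousAt
      have hn : ContinuousAt (fun z : ℂ => ‖z‖) ζ := continuous_norm.continuousAt
      exact continuousAt_const.mul (continuousAt_const.mul
        ((continuousAt_const.sub (hn.pow 2)).div (continuousAt_const.mul (hi.pow 3)) h3))
    have h4 := hc.tendsto
    simp only [hζ, sub_self, zero_div, mul_zero] at h4
    exact h4.mono_left nhdsWithin_le_nhds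
  refine squeeze_zero_norm' ?_ hlim
  filter_upwards [self_mem_nhdsWithin] with z hz
  rw [Real.norm_eq_abs]
  exact hbound z hz

/-- Poisson kernel away from a point -/
theorem pk_far {u δ : ℝ} (hδ : 0 < δ) {z : ℂ} (hz : 0 < z.im) (hu : |z.re - u| < δ / 2)
    {s : ℝ} (hs : δ ≤ |s - u|) : pk z s ≤ (8 * z.im / δ) * pk ((u:ℂ) + δ * Complex.I) s := by
  have hpi := Real.pi_pos
  unfold pk
  rw [norm_sub_sq, norm_sub_sq]
  have e1 : ((u:ℂ) + δ * Complex.I).re = u := by simp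
  have e2 : ((u:ℂ) + δ * Complex.I).im = δ := by simp
  rw [e1, e2]
  have h3 : |s - u| ≤ 2 * |s - z.re| := by
    have h4 : |s - u| ≤ |s - z.re| + |z.re - u| := abs_sub_le _ _ _
    linarith
  have h5 : (s - u)^2 ≤ 4 * (s - z.re)^2 := by
    rw [← sq_abs (s - u), ← sq_abs (s - z.re)]
    nlinarith [abs_nonneg (s - u), abs_nonneg (s - z.re)]
  have h6 : δ^2 ≤ (s - u)^2 := by
    rw [← sq_abs (s - u)]
    exact pow_le_pow_left₀ hδ.le hs 2
  have h7 : 1 / ((s - z.re) ^ 2 + z.im ^ 2) ≤ 8 * (1 / ((s - u) ^ 2 + δ ^ 2)) := by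
    rw [mul_one_div, div_le_div_iff₀ (by positivity) (by positivity)]
    nlinarith [sq_nonneg z.im]
  calc z.im / Real.pi * (1 / ((s - z.re) ^ 2 + z.im ^ 2))
      ≤ z.im / Real.pi * (8 * (1 / ((s - u) ^ 2 + δ ^ 2))) :=
        mul_le_mul_of_nonneg_left h7 (by positivity)
    _ = 8 * z.im / δ * (δ / Real.pi * (1 / ((s - u) ^ 2 + δ ^ 2))) := by
        field_simp

theorem pk_mul_integrable {φ : ℝ → ℝ} (hφ : Measurable φ) {M : ℝ} (hM : ∀ s, |φ s| ≤ M)
    {z : ℂ} (hz : 0 < z.im) : Integrable fun s => φ s * pk z s := by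
  refine Integrable.bdd_mul (c := M) (integrable_pk hz) hφ.aestronglyMeasurable ?_
  exact ae_of_all _ fun s => by rw [Real.norm_eq_abs]; exact hM s

/-- quantitative convergence of the Poisson integral -/
theorem pk_conv {φ : ℝ → ℝ} (hφ : Measurable φ) {M : ℝ} (hM : ∀ s, |φ s| ≤ M) {u δ ε : ℝ}
    (hδ : 0 < δ) (hε : 0 ≤ ε) (hc : ∀ s, |s - u| < δ → |φ s - φ u| ≤ ε) {z : ℂ} (hz : 0 < z.im)
    (hu : |z.re - u| < δ / 2) :
    |(∫ s, φ s * pk z s) - φ u| ≤ ε + 2 * M * (8 * z.im / δ) := by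
  have hM0 : 0 ≤ M := (abs_nonneg _).trans (hM 0)
  have h1 : (∫ s, φ s * pk z s) - φ u = ∫ s, (φ s - φ u) * pk z s := by
    have e1 : ∫ s, φ u * pk z s = φ u := by rw [integral_const_mul, integral_pk hz, mul_one]
    calc (∫ s, φ s * pk z s) - φ u = (∫ s, φ s * pk z s) - ∫ s, φ u * pk z s := by rw [e1]
      _ = ∫ s, (φ s * pk z s - φ u * pk z s) :=
          (integral_sub (pk_mul_integrable hφ hM hz) ((integrable_pk hz).const_mul _)).symm
      _ = _ := by congr 1; ext s; ring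
  have him : 0 < ((u:ℂ) + δ * Complex.I).im := by simp [hδ]
  have h2 : Integrable fun s => ε * pk z s + 2 * M * (8 * z.im / δ) *
      pk ((u:ℂ) + δ * Complex.I) s :=
    ((integrable_pk hz).const_mul _).add ((integrable_pk him).const_mul _)
  rw [h1, ← Real.norm_eq_abs]
  refine (norm_integral_le_of_norm_le h2 (ae_of_all _ fun s => ?_)).trans (le_of_eq ?_)
  · have h3 := pk_nonneg hz s
    have h4 := pk_nonneg him s
    rw [norm_mul, Real.norm_eq_abs, Real.norm_eq_abs, abs_of_nonneg h3]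
    by_cases hs : |s - u| < δ
    · have h5 := mul_le_mul_of_nonneg_right (hc s hs) h3
      have h6 : 0 ≤ 2 * M * (8 * z.im / δ) * pk ((u:ℂ) + δ * Complex.I) s := by positivity
      linarith
    · push Not at hs
      have h5 := pk_far hδ hz hu hs
      have h6 : |φ s - φ u| ≤ 2 * M := by
        have := abs_sub (φ s) (φ u)
        have := hM s
        have := hM u
        linarith
      have h7 : |φ s - φ u| * pk z s ≤ 2 * M * (8 * z.im / δ * pk ((u:ℂ) + δ * Complex.I) s) :=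
        mul_le_mul h6 h5 h3 (by positivity)
      have h8 : 0 ≤ ε * pk z s := by positivity
      linarith
  · rw [integral_add ((integrable_pk hz).const_mul _) ((integrable_pk him).const_mul _),
      integral_const_mul, integral_const_mul, integral_pk hz, integral_pk him]
    ring

theorem pk_tendsto {φ : ℝ → ℝ} (hφ : Measurable φ) {M : ℝ} (hM : ∀ s, |φ s| ≤ M) {u : ℝ}
    (hc : ContinuousAt φ u) :
    Tendsto (fun z : ℂ => ∫ s, φ s * pk z s) (𝓝[{z | 0 < z.im}] (u:ℂ)) (𝓝 (φ u)) := by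
  have hM0 : 0 ≤ M := (abs_nonneg _).trans (hM 0)
  rw [Metric.tendsto_nhds]
  intro ε hε
  obtain ⟨δ, hδ, hδ'⟩ := Metric.continuousAt_iff.1 hc (ε / 2) (by positivity)
  have h1 : ∀ᶠ z : ℂ in 𝓝 (u:ℂ), |z.re - u| < δ / 2 := by
    have : Tendsto (fun z : ℂ => |z.re - u|) (𝓝 (u:ℂ)) (𝓝 |(u:ℂ).re - u|) :=
      ((Complex.continuous_re.sub continuous_const).abs).tendsto _
    simp only [Complex.ofReal_re, sub_self, abs_zero] at this
    exact this.eventually (gt_mem_nhds (by positivity))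
  have h2 : ∀ᶠ z : ℂ in 𝓝 (u:ℂ), 2 * M * (8 * z.im / δ) < ε / 2 := by
    have : Tendsto (fun z : ℂ => 2 * M * (8 * z.im / δ)) (𝓝 (u:ℂ))
        (𝓝 (2 * M * (8 * (u:ℂ).im / δ))) :=
      (continuous_const.mul ((continuous_const.mul Complex.continuous_im).div_const _)).tendsto _
    simp only [Complex.ofReal_im, mul_zero, zero_div] at this
    exact this.eventually (gt_mem_nhds (by positivity))
  filter_upwards [nhdsWithin_le_nhds h1, nhdsWithin_le_nhds h2, self_mem_nhdsWithin]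
    with z hz1 hz2 hz3
  rw [Real.dist_eq]
  have h3 := pk_conv hφ hM hδ (show 0 ≤ ε / 2 by positivity) (fun s hs => by
    have := hδ' (x := s) (by rwa [Real.dist_eq])
    rw [Real.dist_eq] at this
    exact this.le) hz3 hz1
  linarith

theorem ind_mul_pk (R : ℝ) (f : ℝ → ℝ) (z : ℂ) :
    ∫ s, (Ioo (-R) R).indicator f s * pk z s = ∫ s in Ioo (-R) R, f s * pk z s := by
  rw [← integral_indicator measurableSet_Ioo]
  congr 1
  ext s
  by_cases hs : s ∈ Ioo (-R) R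
  · simp [hs]
  · simp [hs]

theorem ind_bound (R : ℝ) {f : ℝ → ℝ} {M : ℝ} (hM : ∀ s, |f s| ≤ M) (s : ℝ) :
    |(Ioo (-R) R).indicator f s| ≤ M := by
  by_cases hs : s ∈ Ioo (-R) R
  · simp only [indicator_of_mem hs]; exact hM s
  · simp only [indicator_of_notMem hs, abs_zero]; exact (abs_nonneg _).trans (hM s)

/-- boundary values at points of the open diameter, for a bounded measurable function which is
continuous at the point -/
theorem G_bdry_real' {R : ℝ} (hR : 0 < R) {f : ℝ → ℝ} {M : ℝ} (hf : Measurable f)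
    (hM : ∀ s, |f s| ≤ M) {u : ℝ} (hu : u ∈ Ioo (-R) R) (hc : ContinuousAt f u) :
    Tendsto (fun z => (G R f z).im) (𝓝[HD R] (u:ℂ)) (𝓝 (f u)) := by
  have hM0 : 0 ≤ M := (abs_nonneg _).trans (hM 0)
  have hpi := Real.pi_pos
  set φ := (Ioo (-R) R).indicator f with hφ
  have hφm : Measurable φ := hf.indicator measurableSet_Ioo
  have hφM : ∀ s, |φ s| ≤ M := ind_bound R hM
  have hφu : φ u = f u := indicator_of_mem hu f
  have hφc : ContinuousAt φ u := by
    have h1 : f =ᶠ[𝓝 u] φ := by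
      filter_upwards [isOpen_Ioo.mem_nhds hu] with s hs
      exact (indicator_of_mem hs f).symm
    exact hc.congr h1
  have hmain : Tendsto (fun z : ℂ => ∫ s, φ s * pk z s) (𝓝[HD R] (u:ℂ)) (𝓝 (f u)) := by
    rw [← hφu]
    exact (pk_tendsto hφm hφM hφc).mono_left (nhdsWithin_mono _ fun z hz => hz.2)
  -- the correction term
  have hcorr : ∀ z ∈ HD R, |(∫ s, φ s * pk z s) - (G R f z).im| ≤
      2 * R * (M * (z.im / Real.pi * (1 / (R - ‖z‖)^2))) := by
    intro z hz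
    have hz1 := HD_im hz
    have hz2 := HD_norm hz
    rw [ind_mul_pk, G_im hz hf hM]
    have i1 : Integrable (fun s => f s * pk z s) (volume.restrict (Ioo (-R) R)) :=
      (pk_mul_integrable hf hM hz1).restrict
    rw [← integral_sub i1 (K_im_integrable hz hf hM), ← Real.norm_eq_abs]
    have h1 : ∀ s ∈ Ioo (-R) R, ‖f s * pk z s - f s * (K R z s).im‖ ≤
        M * (z.im / Real.pi * (1 / (R - ‖z‖)^2)) := by
      intro s hs
      rw [← mul_sub, pk_sub_K_im, norm_mul, Real.norm_eq_abs, Real.norm_eq_abs]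
      have h2 : 0 ≤ z.im / Real.pi * (R^2 / ‖(R:ℂ)^2 - s*z‖^2) := by positivity
      rw [abs_of_nonneg h2]
      refine mul_le_mul (hM s) ?_ h2 hM0
      refine mul_le_mul_of_nonneg_left ?_ (by positivity)
      have h3 := den_lower hz2 (abs_le_of_mem hs)
      have h4 : 0 < R - ‖z‖ := by linarith
      have h5 : (R * (R - ‖z‖))^2 ≤ ‖(R:ℂ)^2 - s*z‖^2 := pow_le_pow_left₀ (by positivity) h3 2
      calc R^2 / ‖(R:ℂ)^2 - s*z‖^2 ≤ R^2 / (R * (R - ‖z‖))^2 :=
            div_le_div_of_nonneg_left (by positivity) (by positivity) h5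
        _ = 1 / (R - ‖z‖)^2 := by field_simp
    have h2 := norm_setIntegral_le_of_norm_le_const (μ := volume) (s := Ioo (-R) R)
      (by rw [Real.volume_Ioo]; exact ENNReal.ofReal_lt_top) h1
    refine h2.trans (le_of_eq ?_)
    have e1 : volume.real (Ioo (-R) R) = 2 * R := by
      rw [Measure.real, Real.volume_Ioo, ENNReal.toReal_ofReal (by linarith)]
      ring
    rw [e1]; ring
  have hlim : Tendsto (fun z : ℂ => 2 * R * (M * (z.im / Real.pi * (1 / (R - ‖z‖)^2))))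
      (𝓝[HD R] (u:ℂ)) (𝓝 0) := by
    have hun : R - ‖(u:ℂ)‖ ≠ 0 := by
      rw [Complex.norm_real, Real.norm_eq_abs]
      have : |u| < R := abs_lt.2 ⟨hu.1, hu.2⟩
      linarith
    have hc : ContinuousAt (fun z : ℂ => 2 * R * (M * (z.im / Real.pi * (1 / (R - ‖z‖)^2))))
        (u:ℂ) := by
      have hi : ContinuousAt (fun z : ℂ => z.im) (u:ℂ) := Complex.continuous_im.continuousAt
      have hn : ContinuousAt (fun z : ℂ => ‖z‖) (u:ℂ) := continuous_norm.continuousAt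
      exact continuousAt_const.mul (continuousAt_const.mul ((hi.div_const _).mul
        (continuousAt_const.div ((continuousAt_const.sub hn).pow 2) (pow_ne_zero 2 hun))))
    have h4 := hc.tendsto
    simp only [Complex.ofReal_im, zero_div, zero_mul, mul_zero] at h4
    exact h4.mono_left nhdsWithin_le_nhds
  have hdiff : Tendsto (fun z => (∫ s, φ s * pk z s) - (G R f z).im) (𝓝[HD R] (u:ℂ)) (𝓝 0) := by
    refine squeeze_zero_norm' ?_ hlim
    filter_upwards [self_mem_nhdsWithin] with z hz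
    rw [Real.norm_eq_abs]
    exact hcorr z hz
  have := hmain.sub hdiff
  simpa using this

theorem G_bdry_real {R : ℝ} (hR : 0 < R) {f : ℝ → ℝ} {M : ℝ} (hf : Continuous f)
    (hM : ∀ s, |f s| ≤ M) {u : ℝ} (hu : u ∈ Ioo (-R) R) :
    Tendsto (fun z => (G R f z).im) (𝓝[HD R] (u:ℂ)) (𝓝 (f u)) :=
  G_bdry_real' hR hf.measurable hM hu hf.continuousAt

theorem G_bdry_corner {R : ℝ} (hR : 0 < R) {f : ℝ → ℝ} {M : ℝ} (hf : Continuous f)
    (h0 : ∀ s, 0 ≤ f s) (hM : ∀ s, |f s| ≤ M) (hout : ∀ s, s ∉ Ioo (-R) R → f s = 0) {ζ : ℂ}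
    (hζ : ζ = (R:ℂ) ∨ ζ = -(R:ℂ)) : Tendsto (fun z => (G R f z).im) (𝓝[HD R] ζ) (𝓝 0) := by
  obtain ⟨u, hu, hfu⟩ : ∃ u : ℝ, ζ = (u:ℂ) ∧ f u = 0 := by
    rcases hζ with h | h
    · exact ⟨R, h, hout R fun h => lt_irrefl _ h.2⟩
    · exact ⟨-R, by rw [h]; simp, hout (-R) fun h => lt_irrefl _ h.1⟩
  have h1 := (pk_tendsto hf.measurable hM (u := u) hf.continuousAt).mono_left
    (nhdsWithin_mono _ fun (z : ℂ) (hz : z ∈ HD R) => hz.2)
  rw [hfu] at h1
  rw [hu]
  refine tendsto_of_tendsto_of_tendsto_of_le_of_le' tendsto_const_nhds h1 ?_ ?_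
  · filter_upwards [self_mem_nhdsWithin] with z hz
    exact G_im_nonneg hR hf.measurable h0 hz
  · filter_upwards [self_mem_nhdsWithin] with z hz
    rw [G_im hz hf.measurable hM]
    have e1 : ∫ s, f s * pk z s = ∫ s in Ioo (-R) R, f s * pk z s := by
      rw [← ind_mul_pk]
      congr 1
      ext s
      by_cases hs : s ∈ Ioo (-R) R
      · rw [indicator_of_mem hs]
      · rw [indicator_of_notMem hs, hout s hs]
    rw [e1]
    refine setIntegral_mono_on (K_im_integrable hz hf.measurable hM)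
      (pk_mul_integrable hf.measurable hM (HD_im hz)).restrict measurableSet_Ioo fun s _ => ?_
    exact mul_le_mul_of_nonneg_left (K_im_le_pk hz s) (h0 s)

end Crest.Agent.R102.SlopeK
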