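import Crest.Agent.R102.SlopeA_845
import Crest.Agent.R102.SlopeK_814

/-!
Row 102, T1-B (c) (helper845), part B: the symmetric harmonic shift `EE` of a bounded
superharmonic function on a disc centred on the real line: `EE ≤ V`, `EE` is superharmonic on
the whole disc, moving planes.
-/

set_option autoImplicit false

open Set Filter Topology Metric Complex MeasureTheory
open scoped Real ComplexConjugate

noncomputable section

namespace Crest.Agent.R102.Slope845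

open Crest.Agent.R102.SH712 (NT ic ic_le le_ic ic_cont ic_tendsto)
open Crest.Agent.R102.SlopeK

/-- the trace on the real segment, zero outside -/
def Fr (R : ℝ) (V : ℂ → ℝ) (s : ℝ) : ℝ := open Classical in if s ∈ Ioo (-R) R then V (s : ℂ) else 0

theorem Fr_of_mem {R : ℝ} {V : ℂ → ℝ} {s : ℝ} (h : s ∈ Ioo (-R) R) : Fr R V s = V (s : ℂ) := by
  unfold Fr; exact if_pos h

theorem Fr_of_not_mem {R : ℝ} {V : ℂ → ℝ} {s : ℝ} (h : s ∉ Ioo (-R) R) : Fr R V s = 0 := by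
  unfold Fr; exact if_neg h

theorem mem_ball_real {R : ℝ} {s : ℝ} : (s : ℂ) ∈ ball (0 : ℂ) R ↔ s ∈ Ioo (-R) R := by
  rw [mem_ball_zero_iff, Complex.norm_real, Real.norm_eq_abs, abs_lt]
  rfl

theorem isOpen_HD (R : ℝ) : IsOpen (HD R) :=
  isOpen_ball.inter (isOpen_lt continuous_const Complex.continuous_im)

theorem mem_HD {R : ℝ} {z : ℂ} : z ∈ HD R ↔ ‖z‖ < R ∧ 0 < z.im := by
  unfold HD
  rw [mem_inter_iff, mem_ball_zero_iff]
  rfl

variable {R M : ℝ} {V : ℂ → ℝ}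

theorem Fr_nonneg (hb : ∀ w ∈ ball (0 : ℂ) R, 0 ≤ V w ∧ V w ≤ M) (s : ℝ) : 0 ≤ Fr R V s := by
  by_cases h : s ∈ Ioo (-R) R
  · rw [Fr_of_mem h]; exact (hb _ (mem_ball_real.2 h)).1
  · rw [Fr_of_not_mem h]

theorem Fr_le (hM : 0 ≤ M) (hb : ∀ w ∈ ball (0 : ℂ) R, 0 ≤ V w ∧ V w ≤ M) (s : ℝ) :
    Fr R V s ≤ M := by
  by_cases h : s ∈ Ioo (-R) R
  · rw [Fr_of_mem h]; exact (hb _ (mem_ball_real.2 h)).2
  · rw [Fr_of_not_mem h]; exact hM

theorem Fr_abs (hM : 0 ≤ M) (hb : ∀ w ∈ ball (0 : ℂ) R, 0 ≤ V w ∧ V w ≤ M) (s : ℝ) :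
    |Fr R V s| ≤ M := by
  rw [abs_of_nonneg (Fr_nonneg hb s)]; exact Fr_le hM hb s

theorem Fr_lsc (hb : ∀ w ∈ ball (0 : ℂ) R, 0 ≤ V w ∧ V w ≤ M)
    (hl : LowerSemicontinuousOn V (ball 0 R)) : LowerSemicontinuous (Fr R V) := by
  intro s y hy
  by_cases h : s ∈ Ioo (-R) R
  · rw [Fr_of_mem h] at hy
    have h1 := hl s (mem_ball_real.2 h) y hy
    have h2 : Tendsto (fun t : ℝ => (t : ℂ)) (𝓝 s) (𝓝[ball 0 R] (s : ℂ)) := by
      refine tendsto_nhdsWithin_iff.2 ⟨Complex.continuous_ofReal.tendsto s, ?_⟩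
      filter_upwards [isOpen_Ioo.mem_nhds h] with t ht
      exact mem_ball_real.2 ht
    filter_upwards [h2.eventually h1, isOpen_Ioo.mem_nhds h] with t ht1 ht2
    rw [Fr_of_mem ht2]; exact ht1
  · rw [Fr_of_not_mem h] at hy
    exact Eventually.of_forall fun t => hy.trans_le (Fr_nonneg hb t)

theorem ic_nonneg {r : ℝ → ℝ} (h : ∀ s, 0 ≤ r s) (n : ℕ) (s : ℝ) : 0 ≤ ic r n s := by
  unfold ic
  refine le_ciInf fun t => ?_
  have := h t
  positivity

/-- the closure of a cap -/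
theorem closure_cap {R h : ℝ} {ζ : ℂ} (hζ : ζ ∈ closure (ball (0 : ℂ) R ∩ {z | h < z.im})) :
    ‖ζ‖ ≤ R ∧ h ≤ ζ.im := by
  have h1 : closure (ball (0 : ℂ) R ∩ {z | h < z.im}) ⊆ closedBall 0 R ∩ {z | h ≤ z.im} := by
    apply closure_minimal
    · rintro z ⟨h1, h2⟩
      exact ⟨ball_subset_closedBall h1, show h ≤ z.im from le_of_lt h2⟩
    · exact isClosed_closedBall.inter (isClosed_le continuous_const Complex.continuous_im)
  have := h1 hζ
  exact ⟨mem_closedBall_zero_iff.1 this.1, this.2⟩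

theorem bdry_HD {R : ℝ} {ζ : ℂ} (hζ : ζ ∈ closure (HD R)) (hn : ζ ∉ HD R) :
    (∃ u ∈ Ioo (-R) R, ζ = (u : ℂ)) ∨ (‖ζ‖ = R ∧ 0 < ζ.im) ∨ (ζ = (R : ℂ) ∨ ζ = -(R : ℂ)) := by
  obtain ⟨h1, h2⟩ := closure_cap hζ
  rw [mem_HD] at hn
  rcases h1.lt_or_eq with h3 | h3
  · left
    have h4 : ζ.im = 0 := by
      by_contra hne
      exact hn ⟨h3, lt_of_le_of_ne h2 (Ne.symm hne)⟩
    have h5 : ζ = (ζ.re : ℂ) := Complex.ext (by simp) (by simpa using h4)
    refine ⟨ζ.re, ?_, h5⟩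
    rw [← mem_ball_real, ← h5, mem_ball_zero_iff]
    exact h3
  · right
    rcases h2.lt_or_eq with h4 | h4
    · left; exact ⟨h3, h4⟩
    · right
      have h5 : ζ = (ζ.re : ℂ) := Complex.ext (by simp) (by simpa using h4.symm)
      rw [h5, Complex.norm_real, Real.norm_eq_abs] at h3
      rcases abs_cases ζ.re with ⟨h6, _⟩ | ⟨h6, _⟩
      · left; rw [h5, ← h6, h3]
      · right
        rw [h5]
        have : ζ.re = -R := by linarith
        rw [this]; push_cast; rfl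

theorem analyticAt_G (hR : 0 < R) {F : ℝ → ℝ} (hF : Measurable F) (hFM : ∀ s, |F s| ≤ M) :
    ∀ w ∈ HD R, AnalyticAt ℂ (G R F) w := fun w hw =>
  (G_diff hR hF hFM).analyticAt ((isOpen_HD R).mem_nhds hw)

theorem V_ge_n (hR : 0 < R) (hM : 0 ≤ M) (hb : ∀ w ∈ ball (0 : ℂ) R, 0 ≤ V w ∧ V w ≤ M)
    (hl : LowerSemicontinuousOn V (ball 0 R)) (hNT : NT V (ball 0 R)) (n : ℕ) :
    ∀ z ∈ HD R, (G R (ic (Fr R V) n) z).im ≤ V z := by
  have hFa := Fr_abs hM hb
  have hc : Continuous (ic (Fr R V) n) := ic_cont hFa n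
  have h0 : ∀ s, 0 ≤ ic (Fr R V) n s := ic_nonneg (Fr_nonneg hb) n
  have hle : ∀ s, ic (Fr R V) n s ≤ Fr R V s := ic_le hFa n
  have habs : ∀ s, |ic (Fr R V) n s| ≤ M := fun s => by
    rw [abs_of_nonneg (h0 s)]; exact (hle s).trans (Fr_le hM hb s)
  have hsub : HD R ⊆ ball 0 R := inter_subset_left
  have hGa := analyticAt_G hR hc.measurable habs
  have hGc : ContinuousOn (fun z => (G R (ic (Fr R V) n) z).im) (HD R) := fun z hz =>
    (Complex.continuous_im.continuousAt.comp (hGa z hz).continuousAt).continuousWithinAt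
  have hlv : LowerSemicontinuousOn (fun z => V z + -(G R (ic (Fr R V) n) z).im) (HD R) :=
    LowerSemicontinuousOn.add (hl.mono hsub) (hGc.neg.lowerSemicontinuousOn)
  have hmain := minp (Ω := HD R) (B := R) (fun z hz => (mem_HD.1 hz).1.le) (isOpen_HD R)
    (v := fun z => V z + -(G R (ic (Fr R V) n) z).im) hlv
    (by simpa only [sub_eq_add_neg] using NT_sub_im (NT_mono hNT hsub) hGa) ?_
  · intro z hz
    have := hmain z hz
    linarith
  · intro ζ hζ hζn ε hε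
    rcases bdry_HD hζ hζn with ⟨u, hu, rfl⟩ | ⟨h1, h2⟩ | h1
    · have h3 := hl u (mem_ball_real.2 hu) (V u - ε / 2) (by linarith)
      have h4 := G_bdry_real hR hc habs hu
      have h5 : ic (Fr R V) n u ≤ V u := (hle u).trans_eq (Fr_of_mem hu)
      have h6 := h4.eventually (gt_mem_nhds (show ic (Fr R V) n u < V u + ε / 2 by linarith))
      have h7 : ∀ᶠ z in 𝓝[HD R] (u : ℂ), V u - ε / 2 < V z := nhdsWithin_mono _ hsub h3
      filter_upwards [h6, h7] with z hz1 hz2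
      linarith
    · have h4 := G_bdry_arc hR hc.measurable habs h1 h2
      filter_upwards [h4.eventually (gt_mem_nhds hε), self_mem_nhdsWithin] with z hz1 hz2
      have := (hb z (hsub hz2)).1
      linarith
    · have h4 := G_bdry_corner hR hc h0 habs (fun s hs => le_antisymm
        ((hle s).trans_eq (Fr_of_not_mem hs)) (h0 s)) h1
      filter_upwards [h4.eventually (gt_mem_nhds hε), self_mem_nhdsWithin] with z hz1 hz2
      have := (hb z (hsub hz2)).1
      linarith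

theorem V_ge (hR : 0 < R) (hM : 0 ≤ M) (hb : ∀ w ∈ ball (0 : ℂ) R, 0 ≤ V w ∧ V w ≤ M)
    (hl : LowerSemicontinuousOn V (ball 0 R)) (hNT : NT V (ball 0 R)) :
    ∀ z ∈ HD R, (G R (Fr R V) z).im ≤ V z := by
  intro z hz
  have hFa := Fr_abs hM hb
  have hle : ∀ n s, ic (Fr R V) n s ≤ Fr R V s := fun n => ic_le hFa n
  have h0 : ∀ n s, 0 ≤ ic (Fr R V) n s := fun n => ic_nonneg (Fr_nonneg hb) n
  refine le_of_tendsto (G_im_tendsto (M := M) hR (fun n => (ic_cont hFa n).measurable)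
    (fun n s => ?_) (ic_tendsto hFa (Fr_lsc hb hl)) hz)
    (Eventually.of_forall fun n => V_ge_n hR hM hb hl hNT n z hz)
  rw [abs_of_nonneg (h0 n s)]; exact (hle n s).trans (Fr_le hM hb s)

theorem conj_mem_ball {z : ℂ} : conj z ∈ ball (0 : ℂ) R ↔ z ∈ ball (0 : ℂ) R := by
  rw [mem_ball_zero_iff, mem_ball_zero_iff, Complex.norm_conj]

theorem V_ge_conj (hR : 0 < R) (hM : 0 ≤ M) (hb : ∀ w ∈ ball (0 : ℂ) R, 0 ≤ V w ∧ V w ≤ M)
    (hl : LowerSemicontinuousOn V (ball 0 R)) (hNT : NT V (ball 0 R)) :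
    ∀ z ∈ HD R, (G R (Fr R V) z).im ≤ V (conj z) := by
  have h1 : Fr R (fun z => V (conj z)) = Fr R V := by
    ext s
    by_cases h : s ∈ Ioo (-R) R
    · rw [Fr_of_mem h, Fr_of_mem h, Complex.conj_ofReal]
    · rw [Fr_of_not_mem h, Fr_of_not_mem h]
  have h2 : LowerSemicontinuousOn (fun z => V (conj z)) (ball 0 R) := by
    intro z hz y hy
    have h3 := hl (conj z) (conj_mem_ball.2 hz) y hy
    have h4 : Tendsto (fun z : ℂ => conj z) (𝓝[ball 0 R] z) (𝓝[ball 0 R] (conj z)) := by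
      refine tendsto_nhdsWithin_iff.2 ⟨?_, ?_⟩
      · exact (Complex.continuous_conj.tendsto z).mono_left nhdsWithin_le_nhds
      · filter_upwards [self_mem_nhdsWithin] with w hw
        exact conj_mem_ball.2 hw
    exact h4.eventually h3
  have h3 : NT (fun z => V (conj z)) (ball 0 R) :=
    NT_mono (NT_conj hNT) (fun z hz => conj_mem_ball.2 hz)
  intro z hz
  have := V_ge hR hM (V := fun z => V (conj z)) (fun w hw => hb _ (conj_mem_ball.2 hw)) h2 h3 z hz
  rwa [h1] at this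

/-- the symmetric function -/
def EE (R : ℝ) (V : ℂ → ℝ) (z : ℂ) : ℝ :=
  if z.im = 0 then Fr R V z.re else (G R (Fr R V) ⟨z.re, |z.im|⟩).im

theorem EE_pos {z : ℂ} (hz : 0 < z.im) : EE R V z = (G R (Fr R V) z).im := by
  unfold EE
  rw [if_neg hz.ne', abs_of_pos hz]

theorem EE_conj (z : ℂ) : EE R V (conj z) = EE R V z := by
  unfold EE
  simp

theorem EE_real (x : ℝ) : EE R V (x : ℂ) = Fr R V x := by
  unfold EE
  simp

theorem EE_le (hR : 0 < R) (hM : 0 ≤ M) (hb : ∀ w ∈ ball (0 : ℂ) R, 0 ≤ V w ∧ V w ≤ M)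
    (hl : LowerSemicontinuousOn V (ball 0 R)) (hNT : NT V (ball 0 R)) :
    ∀ z ∈ ball (0 : ℂ) R, EE R V z ≤ V z := by
  intro z hz
  rcases lt_trichotomy z.im 0 with h | h | h
  · have h1 : conj z ∈ HD R := mem_HD.2 ⟨mem_ball_zero_iff.1 (conj_mem_ball.2 hz), by simpa using h⟩
    have h2 := V_ge_conj hR hM hb hl hNT _ h1
    rw [← EE_conj, EE_pos (mem_HD.1 h1).2]
    simpa using h2
  · have h5 : z = (z.re : ℂ) := Complex.ext (by simp) (by simpa using h)
    rw [h5] at hz ⊢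
    rw [EE_real, Fr_of_mem (mem_ball_real.1 hz)]
  · rw [EE_pos h]
    exact V_ge hR hM hb hl hNT z (mem_HD.2 ⟨mem_ball_zero_iff.1 hz, h⟩)

theorem EE_nonneg (hR : 0 < R) (hM : 0 ≤ M) (hb : ∀ w ∈ ball (0 : ℂ) R, 0 ≤ V w ∧ V w ≤ M)
    (hl : LowerSemicontinuousOn V (ball 0 R)) : ∀ z ∈ ball (0 : ℂ) R, 0 ≤ EE R V z := by
  have hpos : ∀ z ∈ HD R, 0 ≤ EE R V z := fun z hz => by
    rw [EE_pos (mem_HD.1 hz).2]
    exact G_im_nonneg hR (Fr_lsc hb hl).measurable (Fr_nonneg hb) hz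
  intro z hz
  rcases lt_trichotomy z.im 0 with h | h | h
  · have h1 : conj z ∈ HD R := mem_HD.2 ⟨mem_ball_zero_iff.1 (conj_mem_ball.2 hz), by simpa using h⟩
    rw [← EE_conj]
    exact hpos _ h1
  · have h5 : z = (z.re : ℂ) := Complex.ext (by simp) (by simpa using h)
    rw [h5, EE_real]
    exact Fr_nonneg hb _
  · exact hpos z (mem_HD.2 ⟨mem_ball_zero_iff.1 hz, h⟩)

theorem EE_lsc_at (hR : 0 < R) (hM : 0 ≤ M) (hb : ∀ w ∈ ball (0 : ℂ) R, 0 ≤ V w ∧ V w ≤ M)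
    (hl : LowerSemicontinuousOn V (ball 0 R)) :
    ∀ z0 ∈ ball (0 : ℂ) R, ∀ y < EE R V z0, ∀ᶠ z in 𝓝 z0, y < EE R V z := by
  have hmeas := (Fr_lsc hb hl).measurable
  have hFa := Fr_abs hM hb
  have hle : ∀ n s, ic (Fr R V) n s ≤ Fr R V s := fun n => ic_le hFa n
  have h0 : ∀ n s, 0 ≤ ic (Fr R V) n s := fun n => ic_nonneg (Fr_nonneg hb) n
  have habs : ∀ n s, |ic (Fr R V) n s| ≤ M := fun n s => by
    rw [abs_of_nonneg (h0 n s)]; exact (hle n s).trans (Fr_le hM hb s)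
  have hpos : ∀ z0 ∈ HD R, ∀ y < EE R V z0, ∀ᶠ z in 𝓝 z0, y < EE R V z := by
    intro z0 hz0 y hy
    rw [EE_pos (mem_HD.1 hz0).2] at hy
    have h1 : ContinuousAt (fun z => (G R (Fr R V) z).im) z0 :=
      Complex.continuous_im.continuousAt.comp (analyticAt_G hR hmeas hFa z0 hz0).continuousAt
    filter_upwards [h1.eventually (lt_mem_nhds hy), (isOpen_HD R).mem_nhds hz0] with z hz1 hz2
    rw [EE_pos (mem_HD.1 hz2).2]; exact hz1
  intro z0 hz0 y hy
  rcases lt_trichotomy z0.im 0 with h | h | h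
  · have h1 : conj z0 ∈ HD R :=
      mem_HD.2 ⟨mem_ball_zero_iff.1 (conj_mem_ball.2 hz0), by simpa using h⟩
    rw [← EE_conj] at hy
    have h2 := hpos _ h1 y hy
    have h3 := (Complex.continuous_conj.tendsto z0).eventually h2
    filter_upwards [h3] with z hz
    rwa [EE_conj] at hz
  · have h5 : z0 = (z0.re : ℂ) := Complex.ext (by simp) (by simpa using h)
    set u := z0.re with hu
    rw [h5] at hy hz0 ⊢
    have huI := mem_ball_real.1 hz0
    rw [EE_real] at hy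
    have hlsc := Fr_lsc hb hl u y hy
    obtain ⟨n, hn⟩ := ((ic_tendsto hFa (Fr_lsc hb hl) u).eventually (lt_mem_nhds hy)).exists
    have h6 := (G_bdry_real hR (ic_cont hFa n) (habs n) huI).eventually (lt_mem_nhds hn)
    rw [eventually_nhdsWithin_iff] at h6
    have h7 : ∀ᶠ z in 𝓝 (u : ℂ), z ∈ HD R → y < EE R V z := by
      filter_upwards [h6] with z hz hzH
      rw [EE_pos (mem_HD.1 hzH).2]
      exact (hz hzH).trans_le (G_im_mono hR (ic_cont hFa n).measurable hmeas (habs n) hFa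
        (fun s _ => hle n s) hzH)
    have h8 : Tendsto (fun z : ℂ => conj z) (𝓝 (u : ℂ)) (𝓝 (u : ℂ)) := by
      have := Complex.continuous_conj.tendsto (u : ℂ)
      rwa [Complex.conj_ofReal] at this
    have h9 : Tendsto (fun z : ℂ => z.re) (𝓝 (u : ℂ)) (𝓝 u) := by
      have := Complex.continuous_re.tendsto (u : ℂ)
      rwa [Complex.ofReal_re] at this
    filter_upwards [h7, h8.eventually h7, h9.eventually hlsc, isOpen_ball.mem_nhds hz0]
      with z a1 a2 a3 a4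
    rcases lt_trichotomy z.im 0 with h | h | h
    · rw [← EE_conj]
      exact a2 (mem_HD.2 ⟨mem_ball_zero_iff.1 (conj_mem_ball.2 a4), by simpa using h⟩)
    · have h5 : z = (z.re : ℂ) := Complex.ext (by simp) (by simpa using h)
      rw [h5, EE_real]; exact a3
    · exact a1 (mem_HD.2 ⟨mem_ball_zero_iff.1 a4, h⟩)
  · exact hpos z0 (mem_HD.2 ⟨mem_ball_zero_iff.1 hz0, h⟩) y hy

theorem EE_lsc (hR : 0 < R) (hM : 0 ≤ M) (hb : ∀ w ∈ ball (0 : ℂ) R, 0 ≤ V w ∧ V w ≤ M)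
    (hl : LowerSemicontinuousOn V (ball 0 R)) : LowerSemicontinuousOn (EE R V) (ball 0 R) :=
  fun z0 hz0 y hy => nhdsWithin_le_nhds (EE_lsc_at hR hM hb hl z0 hz0 y hy)

theorem EE_NT (hR : 0 < R) (hM : 0 ≤ M) (hb : ∀ w ∈ ball (0 : ℂ) R, 0 ≤ V w ∧ V w ≤ M)
    (hl : LowerSemicontinuousOn V (ball 0 R)) (hNT : NT V (ball 0 R)) :
    NT (EE R V) (ball 0 R) := by
  have hmeas := (Fr_lsc hb hl).measurable
  have hFa := Fr_abs hM hb
  have h1 : NT (EE R V) (HD R) :=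
    NT_congr (isOpen_HD R) (NT_im (analyticAt_G hR hmeas hFa))
      (fun w hw => (EE_pos (mem_HD.1 hw).2).symm)
  have h2 : NT (EE R V) {z | conj z ∈ HD R} := by
    have := NT_conj h1
    simpa only [EE_conj] using this
  intro w2 hw2
  rcases lt_trichotomy w2.im 0 with h | h | h
  · exact h2 w2 (mem_HD.2 ⟨mem_ball_zero_iff.1 (conj_mem_ball.2 hw2), by simpa using h⟩)
  · intro H hH δ hδ h3
    refine hNT w2 hw2 H hH δ hδ ⟨?_, ?_⟩
    · rw [← h3.1]
      have h5 : w2 = (w2.re : ℂ) := Complex.ext (by simp) (by simpa using h)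
      rw [h5] at hw2 ⊢
      rw [EE_real, Fr_of_mem (mem_ball_real.1 hw2)]
    · filter_upwards [h3.2, isOpen_ball.mem_nhds hw2] with w a1 a2
      exact a1.trans (EE_le hR hM hb hl hNT w a2)
  · exact h1 w2 (mem_HD.2 ⟨mem_ball_zero_iff.1 hw2, h⟩)

/-- moving planes -/
theorem moving (hR : 0 < R) (hM : 0 ≤ M) (hb : ∀ w ∈ ball (0 : ℂ) R, 0 ≤ V w ∧ V w ≤ M)
    (hl : LowerSemicontinuousOn V (ball 0 R)) (hNT : NT V (ball 0 R)) {l : ℝ} (hl0 : 0 < l) :
    ∀ z ∈ ball (0 : ℂ) R, l < z.im → EE R V z ≤ EE R V (z - 2 * l * I) := by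
  have hmeas := (Fr_lsc hb hl).measurable
  have hFa := Fr_abs hM hb
  set Ω : Set ℂ := ball (0 : ℂ) R ∩ {z | l < z.im} with hΩ
  have hΩo : IsOpen Ω := isOpen_ball.inter (isOpen_lt continuous_const Complex.continuous_im)
  have him : ∀ z : ℂ, (z - 2 * l * I).im = z.im - 2 * l := fun z => by simp
  have hre : ∀ z : ℂ, (z - 2 * l * I).re = z.re := fun z => by simp
  have hmaps : ∀ z ∈ ball (0 : ℂ) R, l ≤ z.im → z - 2 * l * I ∈ ball (0 : ℂ) R := by
    intro z hz hzl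
    rw [mem_ball_zero_iff] at hz ⊢
    refine lt_of_le_of_lt ?_ hz
    rw [← abs_of_nonneg (norm_nonneg (z - 2 * l * I)), ← abs_of_nonneg (norm_nonneg z), ← sq_le_sq,
      ← Complex.normSq_eq_norm_sq, ← Complex.normSq_eq_norm_sq, Complex.normSq_apply,
      Complex.normSq_apply, him, hre]
    nlinarith
  have hsub : Ω ⊆ HD R := fun z hz => mem_HD.2 ⟨mem_ball_zero_iff.1 hz.1, hl0.trans hz.2⟩
  have hGa : ∀ w ∈ Ω, AnalyticAt ℂ (G R (Fr R V)) w := fun w hw =>
    analyticAt_G hR hmeas hFa w (hsub hw)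
  have hGc : ContinuousOn (fun z => (G R (Fr R V) z).im) Ω := fun z hz =>
    (Complex.continuous_im.continuousAt.comp (hGa z hz).continuousAt).continuousWithinAt
  have hl1 : LowerSemicontinuousOn (fun z => EE R V (z - 2 * l * I)) Ω := by
    intro z hz y hy
    have h1 := EE_lsc_at hR hM hb hl _ (hmaps z hz.1 (le_of_lt hz.2)) y hy
    have h2 : Tendsto (fun z : ℂ => z - 2 * l * I) (𝓝 z) (𝓝 (z - 2 * l * I)) := by
      have : Continuous (fun z : ℂ => z - 2 * l * I) := by fun_prop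
      exact this.tendsto z
    exact nhdsWithin_le_nhds (h2.eventually h1)
  have hlv : LowerSemicontinuousOn (fun z => EE R V (z - 2 * l * I) + -(G R (Fr R V) z).im) Ω :=
    LowerSemicontinuousOn.add hl1 (hGc.neg.lowerSemicontinuousOn)
  have hNT1 : NT (fun z => EE R V (z - 2 * l * I)) Ω :=
    NT_mono (NT_comp_sub (EE_NT hR hM hb hl hNT) (2 * l * I))
      (fun z hz => hmaps z hz.1 (le_of_lt hz.2))
  have hmain := minp (Ω := Ω) (B := R) (fun z hz => (mem_ball_zero_iff.1 hz.1).le) hΩo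
    (v := fun z => EE R V (z - 2 * l * I) + -(G R (Fr R V) z).im) hlv
    (by simpa only [sub_eq_add_neg] using NT_sub_im hNT1 hGa) ?_
  · intro z hz hzl
    have := hmain z ⟨hz, hzl⟩
    rw [EE_pos (hl0.trans hzl)]
    linarith
  · intro ζ hζ hζn ε hε
    obtain ⟨h1, h2⟩ := closure_cap hζ
    rcases h1.lt_or_eq with h3 | h3
    · -- the flat side
      have h4 : ζ.im = l := by
        by_contra hne
        exact hζn ⟨mem_ball_zero_iff.2 h3, lt_of_le_of_ne h2 (Ne.symm hne)⟩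
      have hζH : ζ ∈ HD R := mem_HD.2 ⟨h3, by rw [h4]; exact hl0⟩
      have h5 : ζ - 2 * l * I = conj ζ := by
        apply Complex.ext
        · rw [hre]; simp
        · rw [him, Complex.conj_im, h4]; ring
      have h6 : ContinuousAt (fun z => (G R (Fr R V) z).im) ζ :=
        Complex.continuous_im.continuousAt.comp (analyticAt_G hR hmeas hFa ζ hζH).continuousAt
      have h7 : EE R V (ζ - 2 * l * I) = (G R (Fr R V) ζ).im := by
        rw [h5, EE_conj, EE_pos (mem_HD.1 hζH).2]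
      have h8 := EE_lsc_at hR hM hb hl (ζ - 2 * l * I)
        (hmaps ζ (mem_ball_zero_iff.2 h3) h2) ((G R (Fr R V) ζ).im - ε / 2) (by rw [h7]; linarith)
      have h9 : Tendsto (fun z : ℂ => z - 2 * l * I) (𝓝 ζ) (𝓝 (ζ - 2 * l * I)) := by
        have : Continuous (fun z : ℂ => z - 2 * l * I) := by fun_prop
        exact this.tendsto ζ
      have h10 := h6.eventually (gt_mem_nhds
        (show (G R (Fr R V) ζ).im < (G R (Fr R V) ζ).im + ε / 2 by linarith))
      apply nhdsWithin_le_nhds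
      filter_upwards [h9.eventually h8, h10] with z a1 a2
      linarith
    · -- the arc
      have h4 := G_bdry_arc hR hmeas hFa h3 (hl0.trans_le h2)
      have h5 : 𝓝[Ω] ζ ≤ 𝓝[HD R] ζ := nhdsWithin_mono _ hsub
      filter_upwards [(h4.mono_left h5).eventually (gt_mem_nhds hε), self_mem_nhdsWithin]
        with z a1 a2
      have := EE_nonneg hR hM hb hl _ (hmaps z a2.1 (le_of_lt a2.2))
      linarith

theorem EE_mono (hR : 0 < R) (hM : 0 ≤ M) (hb : ∀ w ∈ ball (0 : ℂ) R, 0 ≤ V w ∧ V w ≤ M)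
    (hl : LowerSemicontinuousOn V (ball 0 R)) (hNT : NT V (ball 0 R)) {x y1 y2 : ℝ}
    (h1 : 0 ≤ y1) (h12 : y1 ≤ y2) (hz : (x : ℂ) + y2 * I ∈ ball (0 : ℂ) R) :
    EE R V (x + y2 * I) ≤ EE R V (x + y1 * I) := by
  rcases h12.lt_or_eq with h | h
  · have h3 := moving hR hM hb hl hNT (l := (y2 - y1) / 2) (by linarith) _ hz (by simp; linarith)
    have h4 : (x : ℂ) + y2 * I - 2 * (((y2 - y1) / 2 : ℝ) : ℂ) * I = x + y1 * I := by
      push_cast; ring
    rwa [h4] at h3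
  · rw [h]

/-- radial limit at every real point -/
theorem tendsto_vert (hR : 0 < R) (hM : 0 ≤ M) (hb : ∀ w ∈ ball (0 : ℂ) R, 0 ≤ V w ∧ V w ≤ M)
    (hl : LowerSemicontinuousOn V (ball 0 R)) (hNT : NT V (ball 0 R)) {u : ℝ}
    (hu : u ∈ Ioo (-R) R) :
    Tendsto (fun y : ℝ => (G R (Fr R V) (u + y * I)).im) (𝓝[>] 0) (𝓝 (V u)) := by
  have hcont : Tendsto (fun y : ℝ => (u : ℂ) + y * I) (𝓝 0) (𝓝 (u : ℂ)) := by
    have h1 : Continuous (fun y : ℝ => (u : ℂ) + y * I) := by fun_prop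
    have := h1.tendsto 0
    simpa using this
  have hV : EE R V (u : ℂ) = V u := by rw [EE_real, Fr_of_mem hu]
  rw [tendsto_order]
  constructor
  · intro a ha
    have h1 := EE_lsc_at hR hM hb hl (u : ℂ) (mem_ball_real.2 hu) a (by rw [hV]; exact ha)
    filter_upwards [nhdsWithin_le_nhds (hcont.eventually h1), self_mem_nhdsWithin] with y a1 a2
    rwa [EE_pos (by simpa using a2)] at a1
  · intro a ha
    have h1 := hcont.eventually (isOpen_ball.mem_nhds (mem_ball_real.2 hu))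
    filter_upwards [nhdsWithin_le_nhds h1, self_mem_nhdsWithin] with y a1 a2
    have h2 := EE_mono hR hM hb hl hNT (x := u) le_rfl (le_of_lt a2) a1
    rw [EE_pos (by simpa using a2)] at h2
    refine h2.trans_lt ?_
    simpa [hV] using ha

theorem deriv_re_nonpos (hR : 0 < R) (hM : 0 ≤ M) (hb : ∀ w ∈ ball (0 : ℂ) R, 0 ≤ V w ∧ V w ≤ M)
    (hl : LowerSemicontinuousOn V (ball 0 R)) (hNT : NT V (ball 0 R)) :
    ∀ z ∈ HD R, (deriv (G R (Fr R V)) z).re ≤ 0 := by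
  intro z hz
  have hmeas := (Fr_lsc hb hl).measurable
  have hFa := Fr_abs hM hb
  have hd : HasDerivAt (G R (Fr R V)) (deriv (G R (Fr R V)) z) z :=
    (analyticAt_G hR hmeas hFa z hz).differentiableAt.hasDerivAt
  set g : ℝ → ℝ := fun y => (G R (Fr R V) (z + y * I)).im with hg
  have hcurve : HasDerivAt (fun y : ℝ => z + y * I) I 0 := by
    have h1 : HasDerivAt (fun y : ℝ => (y : ℂ)) 1 (0 : ℝ) := Complex.ofRealCLM.hasDerivAt
    have h2 := (h1.mul_const I).const_add z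
    simpa using h2
  have hcomp : HasDerivAt (fun y : ℝ => G R (Fr R V) (z + y * I))
      (deriv (G R (Fr R V)) z * I) 0 := by
    have hd' : HasDerivAt (G R (Fr R V)) (deriv (G R (Fr R V)) z) (z + ((0 : ℝ) : ℂ) * I) := by
      simpa using hd
    exact hd'.comp_of_eq (0 : ℝ) hcurve rfl
  have hgd : HasDerivAt g (deriv (G R (Fr R V)) z).re 0 := by
    have h1 := (Complex.imCLM.hasFDerivAt (x := G R (Fr R V) (z + ((0 : ℝ) : ℂ) * I))).comp_hasDerivAt
      (0 : ℝ) hcomp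
    have h2 : Complex.imCLM (deriv (G R (Fr R V)) z * I) = (deriv (G R (Fr R V)) z).re := by
      simp
    rw [h2] at h1
    exact h1
  -- the right difference quotients are nonpositive
  have hslope := hgd.tendsto_slope
  have hslope2 : Tendsto (slope g 0) (𝓝[>] 0) (𝓝 (deriv (G R (Fr R V)) z).re) :=
    hslope.mono_left (nhdsWithin_mono _ (fun y hy => ne_of_gt hy))
  refine le_of_tendsto hslope2 ?_
  have hcont : Tendsto (fun y : ℝ => z + y * I) (𝓝 0) (𝓝 z) := by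
    have := hcurve.continuousAt.tendsto
    simpa using this
  filter_upwards [nhdsWithin_le_nhds (hcont.eventually ((isOpen_HD R).mem_nhds hz)),
    self_mem_nhdsWithin] with y a1 a2
  have a2' : 0 < y := a2
  rw [slope_def_field, sub_zero]
  apply div_nonpos_of_nonpos_of_nonneg _ a2'.le
  have h1 : z + y * I = (z.re : ℂ) + ((z.im + y : ℝ) : ℂ) * I := by
    apply Complex.ext <;> simp
  have h2 : z = (z.re : ℂ) + (z.im : ℂ) * I := (Complex.re_add_im z).symm
  have h3 := EE_mono hR hM hb hl hNT (x := z.re) (y1 := z.im) (y2 := z.im + y)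
    (mem_HD.1 hz).2.le (by linarith) (by rw [← h1]; exact mem_ball_zero_iff.2 (mem_HD.1 a1).1)
  rw [← h1, ← h2, EE_pos (mem_HD.1 a1).2, EE_pos (mem_HD.1 hz).2] at h3
  have h4 : g 0 = (G R (Fr R V) z).im := by simp [hg]
  rw [h4]
  show (G R (Fr R V) (z + y * I)).im - _ ≤ 0
  linarith

end Crest.Agent.R102.Slope845
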