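import Crest.Agent.R102.NoRecP_203
import Crest.Agent.R102.ColPhi_841
import Crest.Agent.R102.LimP_654

/-! Row 102, T1-B, EDGE (helper203): the slow regime, `SlowP`, is a theorem. -/

set_option autoImplicit false

namespace Crest.Agent.R102.NoRecP203

/-- **NoRecP** -/
theorem noRecP : SlowJ486.NoRecP := norecP_of ColPhi841.colPhi LimK654.slowWorldP

/-- **(EDGE-SLOW)** -/
theorem slowP : Edge255.SlowP := SlowJ486.slowP_of ColPhi841.colPhi noRecP

end Crest.Agent.R102.NoRecP203
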