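import Crest.Agent.R102.SlowS_486

/-! Row 102, EDGE / SLOW (helper486): the root column of `stay`. -/

set_option autoImplicit false

open Set Filter Topology Metric Complex

noncomputable section

namespace Crest.Agent.R102.SlowR

open Crest.Agent.R102.S5 (ray bl Half)
open Crest.Agent.R102.TreeS174 (KD)
open Crest.Agent.R102.Edge255 (z0 SlowAt Wg)
open Crest.Agent.R102.SlowS

/-- ray points of the neighbouring windows in the big compact -/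
theorem ray_mem_KD {K₀ : ℝ} (hK : 1 ≤ K₀) {p p0 : ℝ × ℝ} {s s1 : ℝ} (hs1 : 0 < s1)
    (hs : s1 / K₀ ≤ s) (hs' : s ≤ s1) (h : dist p p0 ≤ s1) :
    ray p s ∈ KD (8 * K₀) p0.1 p0.2 s1 := by
  have hK0 : 0 < K₀ := by linarith
  rw [div_le_iff₀ hK0] at hs
  rw [Prod.dist_eq, Real.dist_eq, Real.dist_eq] at h
  have h1 : |p.1 - p0.1| ≤ s1 := (le_max_left _ _).trans h
  have h2 : |p.2 - p0.2| ≤ s1 := (le_max_right _ _).trans h
  have hs0 : 0 ≤ s := by nlinarith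
  have h3 := TreeS174.ray_2norm p.1 p0.2 p.2 hs0
  have h4 : s1 ≤ K₀ * s1 := by nlinarith
  refine ⟨?_, ?_, ?_, ?_, ?_⟩
  · rw [show p = (p.1, p.2) from rfl, TreeS174.ray_1re]; linarith
  · exact h3.trans (by linarith)
  · rw [show p = (p.1, p.2) from rfl, TreeS174.ray_1im]; linarith
  · rw [show p = (p.1, p.2) from rfl, TreeS174.ray_1im]; linarith
  · rw [show p = (p.1, p.2) from rfl, TreeS174.ray_2im]; linarith

/-- **root column and its lateral neighbours** -/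
theorem slow_root {K₀ ε : ℝ} (hK₀ : 1 ≤ K₀) (hε : ε ≤ 1 / 4) {K K' : Set (ℂ × ℂ)}
    (hK : kd (8 * K₀) ⊆ K) {ψ : ℂ → ℂ} {φ P B : ℂ × ℂ → ℂ} {p0 : ℝ × ℝ} {s1 : ℝ} (hs1 : 0 < s1)
    (hφ : ContinuousOn φ (KD (8 * K₀) p0.1 p0.2 s1))
    (h : SlowAt ε K K' ψ (fun q => φ (bl p0 s1 q)) (fun q => P (bl p0 s1 q))
      (fun q => B (bl p0 s1 q))) {p : ℝ × ℝ} {s : ℝ} (hs : s1 / K₀ ≤ s) (hs' : s ≤ s1)
    (hp : dist p p0 ≤ s1) : ‖φ (ray p s) - φ (ray p0 s1)‖ ≤ 2 * ε := by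
  have h1 := slow_osc (A := 8 * K₀) (by linarith) (by linarith) hK hs1 hφ h
  have h2 : SlowE.oe (8 * K₀) φ p0 s1 < 1 := by linarith
  exact (SlowE.le_oe h2 (ray_mem_KD hK₀ hs1 hs hs' hp)).trans h1

end Crest.Agent.R102.SlowR
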