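import Crest.Agent.R102.EdgeDefs_255
import Crest.Agent.R102.SlowE_486
import Crest.Agent.R102.Stay_859

/-!
# R102/SlowSet_859: literal interfaces of the slow regime (owner of the joint J: helper859)

* `EvS P`   : `P U x s1` for all precise bases `U`, balanced columns `x` near `s₀`, small roots `s1`;
* `ColPhi`  : collapse below a root, hypothesis on the angle only (172 / 841);
* `NoRecP`  : no kernel record (314);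
* `EvS.of_seq` : sequence form.
-/

set_option autoImplicit false

open Set Filter Topology Metric MeasureTheory Complex

noncomputable section

namespace Crest.Agent.R102.SlowSet859

open Crest.Agent.R102.Sup115 (HDu Dp E2 MaxiX GoodU)
open Crest.Agent.R102.S5 (Half bl ray Cn)
open Crest.Agent.R102.Edge255
open Crest.Agent.R102.Chain859 (V rho)
open Crest.Agent.R102.SlowE (oe)

/-- a closed set of bases of precision `ρ` -/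
structure Base (a g : ℝ) (X L : Set (ℂ × ℂ)) (u s₀ ρ δ : ℝ) (U : Set ℝ) : Prop where
  ρ_pos : 0 < ρ
  δ_pos : 0 < δ
  closed : IsClosed U
  mem : u ∈ U
  e2 : ∀ u' ∈ U, ∀ s : ℝ, |s - s₀| < δ → E2 X L a g ρ δ (s, u')

/-- eventually (precise base, balanced column near `s₀`, small root) -/
def EvS (h a g κ : ℝ) (ψ : ℂ → ℂ) (B : ℂ × ℂ → ℂ) (X L : Set (ℂ × ℂ)) (u s₀ : ℝ)
    (P : Set ℝ → ℝ → ℝ → Prop) : Prop :=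
  ∃ ρ₁ > 0, ∀ (ρ δ : ℝ) (U : Set ℝ), ρ ≤ ρ₁ → Base a g X L u s₀ ρ δ U →
    ∃ δ₁ > 0, ∀ x : ℝ, |x - s₀| < δ₁ → ∀ σ > 0, (∀ s ∈ Ioo 0 σ, Intr h κ ψ B (x, u) s) →
      ∃ s₂ > 0, ∀ s1 : ℝ, 0 < s1 → s1 ≤ s₂ → P U x s1

variable {h a g κ : ℝ} {ψ : ℂ → ℂ} {B : ℂ × ℂ → ℂ} {X L : Set (ℂ × ℂ)} {u s₀ : ℝ}
  {P Q : Set ℝ → ℝ → ℝ → Prop}

theorem EvS.mono (hP : EvS h a g κ ψ B X L u s₀ P) (hPQ : ∀ U x s1, P U x s1 → Q U x s1) :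
    EvS h a g κ ψ B X L u s₀ Q := by
  obtain ⟨ρ₁, hρ₁, H⟩ := hP
  refine ⟨ρ₁, hρ₁, fun ρ δ U hρ hB => ?_⟩
  obtain ⟨δ₁, hδ₁, H⟩ := H ρ δ U hρ hB
  refine ⟨δ₁, hδ₁, fun x hx σ hσ hI => ?_⟩
  obtain ⟨s₂, hs₂, H⟩ := H x hx σ hσ hI
  exact ⟨s₂, hs₂, fun s1 h1 h2 => hPQ _ _ _ (H s1 h1 h2)⟩

theorem EvS.and (hP : EvS h a g κ ψ B X L u s₀ P) (hQ : EvS h a g κ ψ B X L u s₀ Q) :
    EvS h a g κ ψ B X L u s₀ (fun U x s1 => P U x s1 ∧ Q U x s1) := by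
  obtain ⟨ρ₁, hρ₁, H⟩ := hP
  obtain ⟨ρ₂, hρ₂, H'⟩ := hQ
  refine ⟨min ρ₁ ρ₂, lt_min hρ₁ hρ₂, fun ρ δ U hρ hB => ?_⟩
  obtain ⟨δ₁, hδ₁, H⟩ := H ρ δ U (hρ.trans (min_le_left _ _)) hB
  obtain ⟨δ₂, hδ₂, H'⟩ := H' ρ δ U (hρ.trans (min_le_right _ _)) hB
  refine ⟨min δ₁ δ₂, lt_min hδ₁ hδ₂, fun x hx σ hσ hI => ?_⟩
  obtain ⟨s₂, hs₂, H⟩ := H x (hx.trans_le (min_le_left _ _)) σ hσ hI
  obtain ⟨s₃, hs₃, H'⟩ := H' x (hx.trans_le (min_le_right _ _)) σ hσ hI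
  exact ⟨min s₂ s₃, lt_min hs₂ hs₃, fun s1 h1 h2 =>
    ⟨H s1 h1 (h2.trans (min_le_left _ _)), H' s1 h1 (h2.trans (min_le_right _ _))⟩⟩

/-- **sequence form**: `d` and `m` are arbitrary smallness prescriptions -/
theorem EvS.of_seq (d : ℕ → ℝ → ℝ → Set ℝ → ℝ) (m : ℕ → ℝ → ℝ → Set ℝ → ℝ → ℝ → ℝ)
    (hd : ∀ n ρ δ U, Base a g X L u s₀ ρ δ U → 0 < d n ρ δ U)
    (hm : ∀ n ρ δ U x σ, Base a g X L u s₀ ρ δ U → |x - s₀| < d n ρ δ U → 0 < σ →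
      (∀ s ∈ Ioo 0 σ, Intr h κ ψ B (x, u) s) → 0 < m n ρ δ U x σ)
    (H : ∀ (ρ δ x σ s1 : ℕ → ℝ) (U : ℕ → Set ℝ),
      (∀ n, Base a g X L u s₀ (ρ n) (δ n) (U n)) → Tendsto ρ atTop (𝓝 0) →
      (∀ n, |x n - s₀| < d n (ρ n) (δ n) (U n)) → Tendsto x atTop (𝓝 s₀) → (∀ n, 0 < σ n) →
      (∀ n, ∀ s ∈ Ioo 0 (σ n), Intr h κ ψ B (x n, u) s) → (∀ n, 0 < s1 n) →
      (∀ n, s1 n ≤ m n (ρ n) (δ n) (U n) (x n) (σ n)) → (∀ n, ¬ P (U n) (x n) (s1 n)) → False) :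
    EvS h a g κ ψ B X L u s₀ P := by
  by_contra hc
  unfold EvS at hc
  push Not at hc
  have hn : ∀ n : ℕ, (0 : ℝ) < 1 / ((n : ℝ) + 1) := fun n => by positivity
  choose ρ δ U h1 h2 h3 using fun n : ℕ => hc (1 / ((n : ℝ) + 1)) (hn n)
  choose x h4 σ h5 h6 h7 using fun n : ℕ =>
    h3 n (min (d n (ρ n) (δ n) (U n)) (1 / ((n : ℝ) + 1))) (lt_min (hd _ _ _ _ (h2 n)) (hn n))
  have h4' : ∀ n, |x n - s₀| < d n (ρ n) (δ n) (U n) :=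
    fun n => (h4 n).trans_le (min_le_left _ _)
  choose s1 h8 h9 h10 using fun n : ℕ =>
    h7 n (m n (ρ n) (δ n) (U n) (x n) (σ n)) (hm _ _ _ _ _ _ (h2 n) (h4' n) (h5 n) (h6 n))
  refine H ρ δ x σ s1 U h2 ?_ h4' ?_ h5 h6 h8 h9 h10
  · refine squeeze_zero (fun n => (h2 n).ρ_pos.le) h1 ?_
    exact tendsto_one_div_add_atTop_nhds_zero_nat
  · rw [tendsto_iff_dist_tendsto_zero]
    refine squeeze_zero (fun n => dist_nonneg) (fun n => ?_)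
      (tendsto_one_div_add_atTop_nhds_zero_nat (𝕜 := ℝ))
    rw [Real.dist_eq]
    exact ((h4 n).trans_le (min_le_right _ _)).le

/-- the angle on the rays -/
abbrev rb (φ : ℂ × ℂ → ℂ) : ℝ × ℝ → ℝ → ℂ := fun p s => φ (ray p s)

/-- **(COLPHI)** [172, 841]: below a small root, windows whose column of ANGLES stays within `k` of
the root and whose base is within `s'` of `U` are interior and slow -/
def ColPhi : Prop :=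
  ∀ (u0 R d h : ℝ) (ψ H A : ℂ → ℂ) (φ p B : ℂ × ℂ → ℂ) (X L : Set (ℂ × ℂ)),
    ED u0 R d h ψ H A φ p B X L → ∀ u s₀ a g : ℝ, u ∈ Ioo (u0 - R) (u0 + R) → u ≠ 0 →
    0 ≤ a → 0 < g → Rigid u0 R d h ψ φ p B X L u s₀ a g → ∀ κ > 0,
    ∃ k > 0, ∃ κ' > 0, ∀ ε > 0, ∀ K ⊆ Wg (a + g), IsCompact K → ∀ K' ⊆ Wg a, IsCompact K' →
      EvS h a g κ ψ B X L u s₀ (fun U x s1 => ∀ (p' : ℝ × ℝ) (s' : ℝ),
        V (rb φ) (φ (ray (x, u) s1)) s1 (x, u) k p' s' → infDist p'.2 U ≤ s' →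
        Intr h κ' ψ B p' s' ∧ SlowAt ε K K' ψ (fun q => φ (bl p' s' q))
          (fun q => p (bl p' s' q)) (fun q => B (bl p' s' q)))

/-- **(NOREC)** [314]: below a small root there is no kernel record -/
def NoRecP : Prop :=
  ∀ (u0 R d h : ℝ) (ψ H A : ℂ → ℂ) (φ p B : ℂ × ℂ → ℂ) (X L : Set (ℂ × ℂ)),
    ED u0 R d h ψ H A φ p B X L → ∀ u s₀ a g : ℝ, u ∈ Ioo (u0 - R) (u0 + R) → u ≠ 0 →
    0 ≤ a → 0 < g → Rigid u0 R d h ψ φ p B X L u s₀ a g →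
    ∃ AK : ℝ, 8 ≤ AK ∧ ∀ κ > 0, ∃ k₁ > 0, ∀ k : ℝ, 0 < k → k ≤ k₁ →
      EvS h a g κ ψ B X L u s₀ (fun U x s1 => ∀ (p' : ℝ × ℝ) (s' : ℝ),
        V (rb φ) (φ (ray (x, u) s1)) s1 (x, u) (3 * k / 4) p' s' → infDist p'.2 U ≤ s' →
        dist p' (x, u) ≤ s1 / 2 → (s' / s1) ^ (1 / 2 : ℝ) ≤ oe AK φ p' s' →
        ∃ (p'' : ℝ × ℝ) (s'' : ℝ), V (rb φ) (φ (ray (x, u) s1)) s1 (x, u) k p'' s'' ∧
          16 * oe AK φ p' s' < rho (1 / 2) p' s' p'' s'' * oe AK φ p'' s'')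

end Crest.Agent.R102.SlowSet859
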