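import Crest.Agent.R102.EdgeC4_300
import Crest.Agent.R102.SlowS_486

/-!
Row 102, T1-B, EDGE-SLOW (helper300): the end of the slow regime for a `World` (leaf N4, literal of
helper575): a slow world whose normalised angle has growth `θ < 1` has no oscillation.
-/

set_option autoImplicit false

open Set Filter Topology Metric Complex

noncomputable section

namespace Crest.Agent.R102.SlowW300

open Crest.Agent.R102.EdgeC300
open Crest.Agent.R102.EdgeLim196 Crest.Agent.R102.LemX262 Crest.Agent.R102.SlowLim754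
open Crest.Agent.R102.Tang654 (Chart hsf Ef inc_iff exists_chart)
open Crest.Agent.R102.Edge255 (World NrmAll Wg R0 z0 IntrW SlowAt)
open Crest.Agent.R266.SCV

/-! ### Lemma X on the offset, any affine normalisation of the angle -/

section lemx

variable {ι : Type*} {l : Filter ι} {h a g : ℝ} {ψ H : ℂ → ℂ} {φ p B : ι → ℂ × ℂ → ℂ}
  {k : ι → ℤ} {φl pl Bl : ℂ × ℂ → ℂ} {c : ℂ} {k0 : ℤ} {b1 κ : ℂ} {r δ : ℝ} {τ : ℂ → ℂ} {j : ℤ}

theorem lemX_app [l.NeBot] (S : Seq l h a g ψ H φ p B k φl pl Bl)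
    (hψ : ∀ b ∈ Sp h, ψ (b + 1) = ψ b + 2 * Real.pi * k0) (hH : ∀ b ∈ Sp h, H (b + 1) = H b)
    (hCh : Chart (F300.ZZ ψ H) (F300.ZZc ψ H) (Tj ψ j) (cj ψ c j) b1 r δ τ κ)
    (hrS : ∀ b ∈ closedBall b1 r, |b.im| < h ∧ deriv ψ b ≠ 0)
    {g' : ℝ} (hgg : g' ≤ g) {q1 : ℂ × ℂ} (hq1 : q1 ∈ Fc a) {ρ : ℝ} (hρ : 0 < ρ)
    (hρL : closedBall q1 ρ ⊆ Lo (a + g'))
    (hφρ : ∀ x ∈ closedBall q1 ρ, φl x ∈ ball (Tj ψ j b1) δ)
    (hpρ : ∀ x ∈ closedBall q1 ρ, pl x ∈ ball (hsf (F300.ZZ ψ H) (F300.ZZc ψ H) τ (Tj ψ j b1)) δ)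
    (hBρ : ∀ x ∈ closedBall q1 ρ, x ∈ Lo a → Bl x ∈ ball b1 r)
    {σ : ι → ℂ} {J : ι → ℂ × ℂ → ℂ} {Jl : ℂ × ℂ → ℂ}
    (hσ : ∀ᶠ n in l, σ n ≠ 0)
    (hJ : ∀ K ⊆ Lo (a + g), IsCompact K → ∀ᶠ n in l, ∀ x ∈ K,
      d1 (φ n) x * d2 (p n) x - d2 (φ n) x * d1 (p n) x = σ n * J n x)
    (hJt : TendstoLocallyUniformlyOn J Jl l (Lo (a + g))) (hJ0 : ∀ x ∈ Lo (a + g), Jl x ≠ 0)
    {α β : ι → ℂ} (hα : ∀ᶠ n in l, α n ≠ 0) {ml : ℂ × ℂ → ℂ}
    (hmt : TendstoLocallyUniformlyOn (fun n x => α n * (φ n x - β n)) ml l (Lo (a + g')))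
    (hml : DifferentiableOn ℂ ml (Lo (a + g'))) :
    ∀ q ∈ Gc g', d2 (fun q => ml (Ea a q)) q = 0 := by
  have hLL : Lo (a + g') ⊆ Lo (a + g) := by
    rintro q ⟨h1, h2⟩
    refine ⟨h1, ?_⟩
    nlinarith
  have hρg : closedBall q1 ρ ⊆ Lo (a + g) := hρL.trans hLL
  set Z := F300.ZZ ψ H with hZ
  set Zc := F300.ZZc ψ H with hZc
  set Q : ι → ℂ × ℂ → ℂ := fun n x => p n x - hsf Z Zc τ (φ n x) with hQ
  have hφev := ev_mapsTo (isOpen_Lo _) S.φt S.φld.continuousOn hρg (isCompact_closedBall _ _)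
    isOpen_ball hφρ
  have hφdev := S.φd _ hρg (isCompact_closedBall _ _)
  have hpdev := S.pd _ hρg (isCompact_closedBall _ _)
  have hQd : ∀ᶠ n in l, ∀ x ∈ closedBall q1 ρ, DifferentiableAt ℂ (Q n) x := by
    filter_upwards [hφev, hφdev, hpdev] with n h1 h2 h3 x hx
    exact (h3 x hx).sub ((hCh.hsf_diff.differentiableAt (isOpen_ball.mem_nhds (h1 x hx))).comp x
      (h2 x hx))
  have harea : ∀ᶠ n in l, ∀ x ∈ closedBall q1 ρ,
      d1 (φ n) x * d2 (Q n) x - d2 (φ n) x * d1 (Q n) x = σ n * J n x := by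
    filter_upwards [hφev, hφdev, hpdev, hJ _ hρg (isCompact_closedBall _ _)] with n h1 h2 h3 h4 x hx
    obtain ⟨Q', hQ', hQ2⟩ := hCh.area (h2 x hx).hasFDerivAt (h3 x hx).hasFDerivAt (h1 x hx)
    have h5 : fderiv ℂ (Q n) x = Q' := hQ'.fderiv
    have h6 := hQ2 (1, 0) (0, 1)
    rw [← h4 x hx]
    show fderiv ℂ (φ n) x (1, 0) * fderiv ℂ (Q n) x (0, 1) -
      fderiv ℂ (φ n) x (0, 1) * fderiv ℂ (Q n) x (1, 0) = _
    rw [h5, h6]
    rfl
  set Ω : Set (ℂ × ℂ) := Ea a ⁻¹' ball q1 ρ with hΩ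
  have hΩo : IsOpen Ω := isOpen_ball.preimage (Ea_diff a).continuous
  have hΩL : ∀ q ∈ Ω, Ea a q ∈ Lo (a + g') := fun q hq => hρL (ball_subset_closedBall hq)
  have hΩG : Ω ⊆ Gc g' := fun q hq => Ea_mem.1 (hΩL q hq)
  have hp0 : ((q1.1 - a * q1.2, q1.2) : ℂ × ℂ) ∈ Ω := by
    show Ea a (q1.1 - a * q1.2, q1.2) ∈ ball q1 ρ
    rw [Ea_inv]; exact mem_ball_self hρ
  refine lemX_all (l := l) hΩo (isOpen_Gc g') (convex_Gc g').isPreconnected hΩG
    (U := fun _ => Ω) (fun K hK _ => Eventually.of_forall fun _ => hK)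
    (m := fun n q => α n * (φ n (Ea a q) - β n))
    (D := fun n q => (α n * σ n)⁻¹ * Q n (Ea a q))
    (k := fun n q => J n (Ea a q)) (kap := fun q => Jl (Ea a q)) ?_ ?_ ?_ ?_ ?_ ?_ ?_ ?_ ?_ hp0 ?_
  · exact hml.comp (Ea_diff a).differentiableOn fun q hq => Ea_mem.2 hq
  · filter_upwards [hφdev] with n hn q hq
    have h1 : DifferentiableAt ℂ (fun q => φ n (Ea a q)) q :=
      (hn _ (ball_subset_closedBall hq)).comp q (Ea_diff a q)
    exact ((h1.sub_const (β n)).const_mul (α n)).differentiableWithinAt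
  · filter_upwards [hQd] with n hn q hq
    exact (((hn _ (ball_subset_closedBall hq)).comp q (Ea_diff a q)).const_mul
      _).differentiableWithinAt
  · exact hmt.comp (Ea a) (fun q hq => Ea_mem.2 (hΩG hq)) (Ea_diff a).continuous.continuousOn
  · filter_upwards [hφdev, hQd, harea, hσ, hα] with n h1 h2 h3 h4 h4' q hq
    have hq' := ball_subset_closedBall hq
    have e1 := jac_Ea (a := a) (f := φ n) (f' := Q n) (h1 _ hq') (h2 _ hq')
    have hcd : DifferentiableAt ℂ (fun q => Q n (Ea a q)) q :=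
      (h2 _ hq').comp q (Ea_diff a q)
    have hcm : DifferentiableAt ℂ (fun q => φ n (Ea a q)) q :=
      (h1 _ hq').comp q (Ea_diff a q)
    have e2 : d2 (fun q => (α n * σ n)⁻¹ * Q n (Ea a q)) q =
        (α n * σ n)⁻¹ * d2 (fun q => Q n (Ea a q)) q := by
      show fderiv ℂ _ q (0, 1) = _
      rw [(hcd.hasFDerivAt.const_mul (α n * σ n)⁻¹).fderiv]
      rfl
    have e3 : d1 (fun q => (α n * σ n)⁻¹ * Q n (Ea a q)) q =
        (α n * σ n)⁻¹ * d1 (fun q => Q n (Ea a q)) q := by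
      show fderiv ℂ _ q (1, 0) = _
      rw [(hcd.hasFDerivAt.const_mul (α n * σ n)⁻¹).fderiv]
      rfl
    have e6 : d2 (fun q => α n * (φ n (Ea a q) - β n)) q =
        α n * d2 (fun q => φ n (Ea a q)) q := by
      show fderiv ℂ _ q (0, 1) = _
      rw [((hcm.hasFDerivAt.sub_const (β n)).const_mul (α n)).fderiv]
      rfl
    have e7 : d1 (fun q => α n * (φ n (Ea a q) - β n)) q =
        α n * d1 (fun q => φ n (Ea a q)) q := by
      show fderiv ℂ _ q (1, 0) = _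
      rw [((hcm.hasFDerivAt.sub_const (β n)).const_mul (α n)).fderiv]
      rfl
    rw [e2, e3, e6, e7]
    have e4 := h3 _ hq'
    rw [← e1] at e4
    have e5 : α n * (α n * σ n)⁻¹ * (σ n * J n (Ea a q)) = J n (Ea a q) := by
      field_simp
    rw [← e5, ← e4]
    ring
  · exact (hJt.mono hLL).comp (Ea a) (fun q hq => Ea_mem.2 (hΩG hq))
      (Ea_diff a).continuous.continuousOn
  · exact fun q hq => hJ0 _ (hLL (Ea_mem.2 (hΩG hq)))
  · intro K hK hKc
    have hKc' : IsCompact (Ea a '' K) := hKc.image (Ea_diff a).continuous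
    have hKρ : Ea a '' K ⊆ closedBall q1 ρ := by
      rintro _ ⟨q, hq, rfl⟩
      exact ball_subset_closedBall (hK hq).1
    have hKL : Ea a '' K ⊆ Lo a := by
      rintro _ ⟨q, hq, rfl⟩
      exact Ea_mem_Lo (hΩG (hK hq).1).1 (hK hq).2
    filter_upwards [S.free hψ hH hCh hrS hKL (hKρ.trans hρg) hKc' (fun x hx => hφρ x (hKρ hx))
      (fun x hx => hBρ x (hKρ hx) (hKL hx)), hσ, hα] with n h1 h2 h3 q hq
    exact mul_ne_zero (inv_ne_zero (mul_ne_zero h3 h2)) (sub_ne_zero.2 (h1 _ ⟨q, hq, rfl⟩))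
  · intro q hq hq0 e he
    have hqF : Ea a q ∈ Fc a := Ea_mem_Fc (hΩG hq).1 hq0
    have hinvc : Continuous fun x : ℂ × ℂ => ((x.1 - a * x.2, x.2) : ℂ × ℂ) := by fun_prop
    have hinvq : (((Ea a q).1 - a * (Ea a q).2, (Ea a q).2) : ℂ × ℂ) = q := by
      unfold Ea; ext <;> simp
    have hev2 : ∀ᶠ x in 𝓝 (Ea a q), ((x.1 - a * x.2, x.2) : ℂ × ℂ) ∈ ball q e ∧ x ∈ ball q1 ρ := by
      have hb : ball q e ∈ 𝓝 (((Ea a q).1 - a * (Ea a q).2, (Ea a q).2) : ℂ × ℂ) := by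
        rw [hinvq]; exact ball_mem_nhds _ he
      exact (hinvc.continuousAt.eventually hb).and (isOpen_ball.mem_nhds hq)
    obtain ⟨ε, hε, hεb⟩ := Metric.nhds_basis_closedBall.mem_iff.1 hev2
    have hερ : closedBall (Ea a q) ε ⊆ closedBall q1 ρ := fun x hx =>
      ball_subset_closedBall (hεb hx).2
    have hx0 : ∃ x ∈ Lo a ∩ ball (Ea a q) ε, Bl x ∈ ball b1 r := by
      have hNB := face_mem_closure hqF
      have h1 : ∀ᶠ x in 𝓝[Lo a] (Ea a q), x ∈ Lo a ∩ ball (Ea a q) ε :=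
        (eventually_mem_nhdsWithin).and (mem_nhdsWithin_of_mem_nhds (ball_mem_nhds _ hε))
      obtain ⟨x, hx⟩ := h1.exists
      exact ⟨x, hx, hBρ x (hερ (ball_subset_closedBall hx.2)) hx.1⟩
    filter_upwards [S.births hψ hH hCh hrS hqF hε (hερ.trans hρg)
      (fun x hx => hφρ x (hερ hx)) (fun x hx => hpρ x (hερ hx)) hx0] with n hn
    obtain ⟨x, hx, hx0⟩ := hn
    refine ⟨(x.1 - a * x.2, x.2), (hεb (ball_subset_closedBall hx)).1, ?_⟩
    rw [Ea_inv, hQ]
    simp only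
    rw [hx0, sub_self, mul_zero]
  · show (q1.1 - a * q1.2).im = 0
    have : (q1.1 - a * q1.2).im = q1.1.im - a * q1.2.im := by simp
    rw [this, hq1.2, sub_self]

end lemx

/-! ### shift of a line by `π j` -/

/-- `(-1)^j` -/
def ej (j : ℤ) : ℂ := cexp (I * (Real.pi * j))

theorem ej_ne (j : ℤ) : ej j ≠ 0 := exp_ne_zero _

theorem norm_ej (j : ℤ) : ‖ej j‖ = 1 := by
  unfold ej
  rw [Complex.norm_exp]
  have : (I * (Real.pi * j) : ℂ).re = 0 := by simp
  rw [this, Real.exp_zero]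

theorem cos_shift (x : ℂ) (j : ℤ) : Complex.cos (x - Real.pi * j) = ej j * Complex.cos x := by
  have h1 : ej j = cexp (I * (Real.pi * j)) := rfl
  have h2 : ej j = cexp (-(I * (Real.pi * j))) := (exp_pij' j).symm
  rw [Complex.cos, Complex.cos]
  have e1 : (x - Real.pi * j) * I = x * I + -(I * (Real.pi * j)) := by ring
  have e2 : -(x - Real.pi * j) * I = -x * I + I * (Real.pi * j) := by ring
  rw [e1, e2, Complex.exp_add, Complex.exp_add, ← h1, ← h2]
  ring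

theorem sin_shift (x : ℂ) (j : ℤ) : Complex.sin (x - Real.pi * j) = ej j * Complex.sin x := by
  have h1 : ej j = cexp (I * (Real.pi * j)) := rfl
  have h2 : ej j = cexp (-(I * (Real.pi * j))) := (exp_pij' j).symm
  rw [Complex.sin, Complex.sin]
  have e1 : (x - Real.pi * j) * I = x * I + -(I * (Real.pi * j)) := by ring
  have e2 : -(x - Real.pi * j) * I = -x * I + I * (Real.pi * j) := by ring
  rw [e1, e2, Complex.exp_add, Complex.exp_add, ← h1, ← h2]
  ring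

theorem inc_shift {ψ H : ℂ → ℂ} {φ p b : ℂ} (j : ℤ) (h : F300.Inc ψ H φ p b) :
    F300.Inc ψ H (φ - Real.pi * j) (ej j * p) b := by
  have h1 : deriv ψ b * p = deriv ψ b * H b * cos (φ - ψ b) + deriv H b * sin (φ - ψ b) := h
  show deriv ψ b * (ej j * p) = deriv ψ b * H b * cos (φ - Real.pi * j - ψ b) +
    deriv H b * sin (φ - Real.pi * j - ψ b)
  have e : φ - Real.pi * j - ψ b = (φ - ψ b) - Real.pi * j := by ring
  rw [e, cos_shift, sin_shift]
  linear_combination ej j * h1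

theorem tan_shift {ψ : ℂ → ℂ} {φ b : ℂ} (j : ℤ) :
    cexp (2 * I * (ψ b - (φ - Real.pi * j))) = cexp (2 * I * (ψ b - φ)) := by
  have e : 2 * I * (ψ b - (φ - Real.pi * j)) = 2 * I * (ψ b - φ) + (j : ℂ) * (2 * Real.pi * I) := by
    ring
  rw [e, Complex.exp_periodic.int_mul j]

/-! ### the world -/

theorem z0_ball {a : ℝ} (ha : 0 ≤ a) : closedBall z0 (1 / 10) ⊆ Lo a := by
  intro q hq
  rw [mem_closedBall, Prod.dist_eq] at hq
  have h1 : dist q.1 z0.1 ≤ 1 / 10 := (le_max_left _ _).trans hq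
  have h2 : dist q.2 z0.2 ≤ 1 / 10 := (le_max_right _ _).trans hq
  rw [dist_eq_norm] at h1 h2
  have h3 := (abs_le.1 ((abs_im_le_norm _).trans h1)).2
  have h4 := (abs_le.1 ((abs_im_le_norm _).trans h2)).1
  have e1 : (q.1 - z0.1).im = q.1.im + 1 := by
    show (q.1 - (-I)).im = _
    simp
  have e2 : (q.2 - z0.2).im = q.2.im - 1 / 4 := by
    show (q.2 - I / 4).im = _
    have : (I / 4 : ℂ).im = 1 / 4 := by norm_num
    rw [sub_im, this]
  rw [e1] at h3
  rw [e2] at h4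
  refine ⟨by linarith, ?_⟩
  have : 0 ≤ a * q.2.im := mul_nonneg ha (by linarith)
  linarith

/-- locally uniform convergence to a constant -/
theorem tlu_const {l : Filter ℕ} {f : ℕ → ℂ × ℂ → ℂ} {m : ℝ} {v : ℂ}
    (hf : ∀ K ⊆ Lo m, IsCompact K → ∀ ε > 0, ∀ᶠ n in l, ∀ x ∈ K, ‖f n x - v‖ < ε) :
    TendstoLocallyUniformlyOn f (fun _ => v) l (Lo m) := by
  refine (tendstoLocallyUniformlyOn_iff_forall_isCompact (isOpen_Lo m)).2 fun K hK hKc => ?_
  rw [Metric.tendstoUniformlyOn_iff]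
  intro ε hε
  filter_upwards [hf K hK hKc ε hε] with n hn x hx
  rw [dist_comm, dist_eq_norm]
  exact hn x hx

section world

variable {h a g κ : ℝ} {ψ H : ℂ → ℂ} {A0 : ℂ} {φ p B : ℕ → ℂ × ℂ → ℂ}

/-- the branch of the angle at the base point -/
theorem exists_branch (ψ : ℂ → ℂ) (φ B : ℕ → ℂ × ℂ → ℂ) : ∃ j : ℕ → ℤ, ∀ n,
    (∃ m : ℤ, ‖φ n z0 - ψ (B n z0) - m * Real.pi‖ ≤ 1 / 2) →
      ‖φ n z0 - ψ (B n z0) - j n * Real.pi‖ ≤ 1 / 2 := by
  classical
  refine ⟨fun n => if hn : ∃ m : ℤ, ‖φ n z0 - ψ (B n z0) - m * Real.pi‖ ≤ 1 / 2 then hn.choose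
    else 0, fun n hn => ?_⟩
  simp only [hn, dif_pos]
  exact hn.choose_spec

/-- **uniform branch**: on a compact set the angle is near `ψ (B z0) + π j` -/
theorem ev_branch (W : World h a g ψ H A0 φ p B)
    (hS : ∀ ε > 0, ∀ K ⊆ Wg (a + g), IsCompact K → ∀ K' ⊆ Wg a, IsCompact K' →
      ∀ᶠ n in atTop, SlowAt ε K K' ψ (φ n) (p n) (B n)) {j : ℕ → ℤ}
    (hj : ∀ n, (∃ m : ℤ, ‖φ n z0 - ψ (B n z0) - m * Real.pi‖ ≤ 1 / 2) →
      ‖φ n z0 - ψ (B n z0) - j n * Real.pi‖ ≤ 1 / 2)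
    {K : Set (ℂ × ℂ)} (hK : K ⊆ Lo (a + g)) (hKc : IsCompact K) {ε : ℝ} (hε : 0 < ε) :
    ∀ᶠ n in atTop, ∀ q ∈ K, ‖φ n q - Real.pi * j n - ψ (B n z0)‖ ≤ ε := by
  have hz0 : z0 ∈ Lo (a + g) :=
    Lo_sub W.g_pos (z0_ball W.a_nonneg (mem_closedBall_self (by norm_num)))
  obtain ⟨T, hT, hKT, hTc, hTp⟩ := exists_star (convex_Lo (a + g)) (K := K ∪ {z0})
    (union_subset hK (by rintro x rfl; exact hz0)) (hKc.union isCompact_singleton)
  set ε' : ℝ := min ε (1 / 2) with hε'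
  have hε'p : 0 < ε' := lt_min hε (by norm_num)
  filter_upwards [hS ε' hε'p T hT hTc ∅ (empty_subset _) isCompact_empty, W.regL T hT hTc]
    with n h1 h2
  obtain ⟨U, hU, hTU, hφU, -⟩ := h2
  have hc : ContinuousOn (fun q => φ n q - ψ (B n z0)) T :=
    (hφU.continuousOn.mono hTU).sub continuousOn_const
  obtain ⟨m, hm⟩ := SlowS.branch hTp hc (ε := ε') (min_le_right _ _) fun q hq => (h1.1 q hq).1
  have hz0T : z0 ∈ T := hKT (Or.inr rfl)
  have h3 := hm z0 hz0T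
  have h4 := hj n ⟨m, h3.trans (min_le_right _ _)⟩
  have h5 : m = j n := by
    have e : ((m - j n : ℤ) : ℂ) * Real.pi = (φ n z0 - ψ (B n z0) - j n * Real.pi) -
        (φ n z0 - ψ (B n z0) - m * Real.pi) := by
      push_cast; ring
    have h6 : ‖((m - j n : ℤ) : ℂ) * Real.pi‖ ≤ 1 := by
      rw [e]
      refine (norm_sub_le _ _).trans ?_
      have := h3.trans (min_le_right ε (1 / 2))
      linarith
    rw [norm_mul, Complex.norm_intCast, Complex.norm_real, Real.norm_eq_abs,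
      abs_of_pos Real.pi_pos] at h6
    have h7 : |((m - j n : ℤ) : ℝ)| < 1 := by
      by_contra hcon
      push Not at hcon
      nlinarith [Real.pi_gt_three]
    rw [← Int.cast_abs] at h7
    have h8 : |m - j n| < 1 := by exact_mod_cast h7
    have h9 := Int.abs_lt_one_iff.1 h8
    omega
  intro q hq
  have h6 := hm q (hKT (Or.inl hq))
  have e : φ n q - Real.pi * j n - ψ (B n z0) = φ n q - ψ (B n z0) - m * Real.pi := by
    rw [h5]; ring
  rw [e]
  exact h6.trans (min_le_left _ _)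

/-- **the slow regime ends** (909 (S5), literal of helper575) -/
theorem slowWorld (hκ : 0 < κ) (W : World h a g ψ H A0 φ p B) (hI : IntrW h κ ψ B)
    (hre : ∀ n, 0 ≤ (B n z0).re ∧ (B n z0).re ≤ 1)
    (hS : ∀ ε > 0, ∀ K ⊆ Wg (a + g), IsCompact K → ∀ K' ⊆ Wg a, IsCompact K' →
      ∀ᶠ n in atTop, SlowAt ε K K' ψ (φ n) (p n) (B n))
    {om : ℕ → ℝ} (hom : ∀ n, 0 < om n) {g' : ℝ} (hg' : 0 < g') (hgg : g' ≤ g)
    (hloc : ∀ K ⊆ Wg (a + g'), IsCompact K → ∃ M : ℝ, ∀ᶠ n in atTop, ∀ q ∈ K,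
      ‖φ n q - φ n z0‖ ≤ M * om n)
    {th C : ℝ} (hth0 : 0 ≤ th) (hth : th < 1)
    (hgrow : ∀ q : ℂ × ℂ, 1 ≤ q.2.im → q.1.im ≤ (a + g' / 2) * q.2.im →
      ‖q.1‖ ≤ (|a| + g') * q.2.im → ‖q.2‖ ≤ q.2.im → ∀ᶠ n in atTop,
      ‖φ n q - φ n z0‖ ≤ C * om n * q.2.im ^ th)
    {K0 : Set (ℂ × ℂ)} (hK0 : IsCompact K0) (hK0a : K0 ⊆ Wg a)
    (hosc : ∃ c > 0, ∀ᶠ n in atTop, ∃ q ∈ K0, ∃ q' ∈ K0, c * om n ≤ ‖φ n q - φ n q'‖) :
    False := by
  classical
  have hg := W.g_pos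
  have ha := W.a_nonneg
  have hψd : DifferentiableOn ℂ ψ (Sp h) := W.curve.ψ_diff
  have hHd : DifferentiableOn ℂ H (Sp h) := W.curve.H_diff
  have hrel : F300.Rel (Sp h) ψ H (-1) := W.curve.rel
  have hψp : ∀ b ∈ Sp h, ψ (b + 1) = ψ b + 2 * Real.pi * ((1 : ℤ) : ℂ) := by
    intro b hb
    rw [W.curve.ψ_per b hb]; simp
  have hzb : closedBall z0 (1 / 10) ⊆ Lo a := z0_ball ha
  have hz0 : z0 ∈ Lo a := hzb (mem_closedBall_self (by norm_num))
  have hz0g : z0 ∈ Lo (a + g) := Lo_sub hg hz0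
  have hz0g' : z0 ∈ Lo (a + g') := Lo_sub hg' hz0
  have hLL : Lo (a + g') ⊆ Lo (a + g) := by
    rintro q ⟨h1, h2⟩
    refine ⟨h1, ?_⟩
    nlinarith
  -- the ultrafilter
  set u : Ultrafilter ℕ := Ultrafilter.of (atTop : Filter ℕ) with hu
  have hul : (u : Filter ℕ) ≤ atTop := Ultrafilter.of_le _
  have hne : (u : Filter ℕ).NeBot := u.neBot
  -- the limit label
  obtain ⟨b0, hb0K, hb0⟩ : ∃ b0 ∈ Icc (0 : ℝ) 1 ×ℂ Icc (-(h - κ)) (h - κ),
      Tendsto (fun n => B n z0) u (𝓝 b0) := by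
    have hK : IsCompact (Icc (0 : ℝ) 1 ×ℂ Icc (-(h - κ)) (h - κ)) :=
      isCompact_Icc.reProdIm isCompact_Icc
    have h1 : ((u.map fun n => B n z0 : Ultrafilter ℂ) : Filter ℂ) ≤
        𝓟 (Icc (0 : ℝ) 1 ×ℂ Icc (-(h - κ)) (h - κ)) := by
      rw [Filter.le_principal_iff, Ultrafilter.mem_coe, Ultrafilter.mem_map]
      refine Filter.univ_mem' fun n => ?_
      have h2 := hre n
      have h3 := abs_le.1 (hI n).1
      exact mem_reProdIm.2 ⟨⟨h2.1, h2.2⟩, ⟨h3.1, h3.2⟩⟩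
    obtain ⟨b0, hb0, h2⟩ := hK.ultrafilter_le_nhds _ h1
    exact ⟨b0, hb0, h2⟩
  have hb0m : b0 ∈ Sp h := by
    have h1 := (mem_reProdIm.1 hb0K).2
    show |b0.im| < h
    rw [abs_lt]
    constructor <;> linarith [h1.1, h1.2]
  -- labels converge
  have hBl : ∀ K ⊆ Lo a, IsCompact K → ∀ ε > 0, ∀ᶠ n in (u : Filter ℕ), ∀ x ∈ K,
      ‖B n x - b0‖ < ε := by
    intro K hK hKc ε hε
    filter_upwards [hul (hS (ε / 2) (by positivity) ∅ (empty_subset _) isCompact_empty K hK hKc),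
      (Metric.tendsto_nhds.1 hb0) (ε / 2) (by positivity)] with n h1 h2 x hx
    have h3 := h1.2 x hx
    rw [dist_eq_norm] at h2
    have e : B n x - b0 = (B n x - B n z0) + (B n z0 - b0) := by ring
    rw [e]
    refine (norm_add_le _ _).trans_lt ?_
    linarith
  -- `ψ' (b0) ≠ 0`
  have hy0 : deriv ψ b0 ≠ 0 := by
    intro hcon
    have hc : ContinuousAt (deriv ψ) b0 :=
      ((hψd.deriv (isOpen_Sp h)).differentiableAt ((isOpen_Sp h).mem_nhds hb0m)).continuousAt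
    obtain ⟨δ, hδ, hδb⟩ := Metric.continuousAt_iff.1 hc κ hκ
    obtain ⟨n, hn⟩ := (hBl _ hzb (isCompact_closedBall _ _) δ hδ).exists
    obtain ⟨q, hq, hqκ⟩ := (hI n).2
    have h1 := hδb (x := B n q) (by rw [dist_eq_norm]; exact hn q hq)
    rw [hcon, dist_zero_right] at h1
    linarith
  -- the shifted line
  obtain ⟨j, hj⟩ := exists_branch ψ φ B
  set φ' : ℕ → ℂ × ℂ → ℂ := fun n x => φ n x - Real.pi * j n with hφ'
  set p' : ℕ → ℂ × ℂ → ℂ := fun n x => ej (j n) * p n x with hp'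
  have hcψ : ContinuousAt ψ b0 :=
    (hψd.differentiableAt ((isOpen_Sp h).mem_nhds hb0m)).continuousAt
  have hψB : Tendsto (fun n => ψ (B n z0)) u (𝓝 (ψ b0)) := hcψ.tendsto.comp hb0
  have hφl : ∀ K ⊆ Lo (a + g), IsCompact K → ∀ ε > 0, ∀ᶠ n in (u : Filter ℕ), ∀ x ∈ K,
      ‖φ' n x - ψ b0‖ < ε := by
    intro K hK hKc ε hε
    filter_upwards [hul (ev_branch W hS hj hK hKc (ε := ε / 2) (by positivity)),
      (Metric.tendsto_nhds.1 hψB) (ε / 2) (by positivity)] with n h1 h2 x hx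
    have h3 := h1 x hx
    rw [dist_eq_norm] at h2
    have e : φ' n x - ψ b0 = (φ n x - Real.pi * j n - ψ (B n z0)) + (ψ (B n z0) - ψ b0) := by
      simp only [hφ']; ring
    rw [e]
    refine (norm_add_le _ _).trans_lt ?_
    linarith
  -- `p'` at the base point
  have hregz := W.regX {z0} (by rintro x rfl; exact hz0) isCompact_singleton
  have hpz : Tendsto (fun n => p' n z0) u (𝓝 (H b0)) := by
    have c2 : ContinuousAt H b0 := (hHd.differentiableAt ((isOpen_Sp h).mem_nhds hb0m)).continuousAt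
    have c3 : ContinuousAt (deriv ψ) b0 :=
      ((hψd.deriv (isOpen_Sp h)).differentiableAt ((isOpen_Sp h).mem_nhds hb0m)).continuousAt
    have c4 : ContinuousAt (deriv H) b0 :=
      ((hHd.deriv (isOpen_Sp h)).differentiableAt ((isOpen_Sp h).mem_nhds hb0m)).continuousAt
    have u2 := c2.tendsto.comp hb0
    have u3 := c3.tendsto.comp hb0
    have u4 := c4.tendsto.comp hb0
    have t1 : Tendsto (fun n => φ' n z0) u (𝓝 (ψ b0)) := by
      rw [Metric.tendsto_nhds]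
      intro ε hε
      filter_upwards [hφl {z0} (by rintro x rfl; exact hz0g) isCompact_singleton ε hε] with n hn
      rw [dist_eq_norm]
      exact hn z0 rfl
    have t2 := t1.sub hψB
    rw [sub_self] at t2
    have v2 := ((((u3.mul u2).mul (Complex.continuous_cos.continuousAt.tendsto.comp t2))).add
      (u4.mul (Complex.continuous_sin.continuousAt.tendsto.comp t2))).div u3 hy0
    rw [Complex.cos_zero, Complex.sin_zero, mul_one, mul_zero, add_zero,
      mul_div_cancel_left₀ _ hy0] at v2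
    refine v2.congr' ?_
    filter_upwards [hul hregz, u3.eventually_ne hy0] with n h1 h2
    obtain ⟨U, hU, hzU, -, h3⟩ := h1
    have h4 := inc_shift (j n) (h3 z0 (hzU rfl)).2.1
    have h5 : deriv ψ (B n z0) * p' n z0 = deriv ψ (B n z0) * H (B n z0) *
      cos (φ' n z0 - ψ (B n z0)) + deriv H (B n z0) * sin (φ' n z0 - ψ (B n z0)) := h4
    have h2' : deriv ψ (B n z0) ≠ 0 := h2
    show (deriv ψ (B n z0) * H (B n z0) * cos (φ' n z0 - ψ (B n z0)) +
      deriv H (B n z0) * sin (φ' n z0 - ψ (B n z0))) / deriv ψ (B n z0) = p' n z0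
    rw [← h5, mul_div_cancel_left₀ _ h2']
  have hpl : ∀ K ⊆ Lo (a + g), IsCompact K → ∀ ε > 0, ∀ᶠ n in (u : Filter ℕ), ∀ x ∈ K,
      ‖p' n x - H b0‖ < ε := by
    intro K hK hKc ε hε
    filter_upwards [hul (hS (ε / 2) (by positivity) K hK hKc ∅ (empty_subset _) isCompact_empty),
      (Metric.tendsto_nhds.1 hpz) (ε / 2) (by positivity)] with n h1 h2 x hx
    have h3 := (h1.1 x hx).2
    rw [dist_eq_norm] at h2
    have e : p' n x - H b0 = ej (j n) * (p n x - p n z0) + (p' n z0 - H b0) := by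
      simp only [hp']; ring
    rw [e]
    refine (norm_add_le _ _).trans_lt ?_
    rw [norm_mul, norm_ej, one_mul]
    linarith
  -- the sequence
  have S : Seq (u : Filter ℕ) h a g ψ H φ' p' B (fun _ => 0) (fun _ => ψ b0) (fun _ => H b0)
      (fun _ => b0) := by
    refine ⟨?_, ?_, tlu_const hφl, tlu_const hpl, ?_, differentiableOn_const _,
      differentiableOn_const _, differentiableOn_const _, fun _ _ => hb0m, ?_, ?_⟩
    · intro K hK hKc
      refine hul ?_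
      filter_upwards [W.regL K hK hKc] with n hn x hx
      obtain ⟨U, hU, hKU, h1, h2⟩ := hn
      exact (h1.differentiableAt (hU.mem_nhds (hKU hx))).sub_const _
    · intro K hK hKc
      refine hul ?_
      filter_upwards [W.regL K hK hKc] with n hn x hx
      obtain ⟨U, hU, hKU, h1, h2⟩ := hn
      exact (h2.differentiableAt (hU.mem_nhds (hKU hx))).const_mul _
    · refine (tlu_const hBl).congr ?_
      intro n x _
      simp
    · intro K hK hKc
      refine hul ?_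
      filter_upwards [W.regX K hK hKc] with n hn x hx
      obtain ⟨U, hU, hKU, h1, h2⟩ := hn
      obtain ⟨l1, l2, l3⟩ := h2 x (hKU hx)
      refine ⟨h1.differentiableAt (hU.mem_nhds (hKU hx)), l1, inc_shift (j n) l2,
        fun h4 h5 => l3 h4 ?_⟩
      have h5' : cexp (2 * I * (ψ (B n x) - φ n x)) = 1 := by
        rw [← tan_shift (j n)]; exact h5
      obtain ⟨m, hm⟩ := Complex.exp_eq_one_iff.1 h5'
      have h2I : (2 : ℂ) * I ≠ 0 := by simp
      have h6 : φ n x - ψ (B n x) = ((-m : ℤ) : ℂ) * Real.pi := by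
        refine mul_left_cancel₀ h2I ?_
        push_cast
        linear_combination -hm
      rw [h6]
      exact Complex.sin_int_mul_pi _
    · intro q0 hq0 r hr K hK hKc
      exact hul (world_noReg W hq0 hr hK hKc)
  -- area
  obtain ⟨σ, J, hσ, hJ, hJt⟩ := world_area W hul
  have hJ' : ∀ K ⊆ Lo (a + g), IsCompact K → ∀ᶠ n in (u : Filter ℕ), ∀ x ∈ K,
      d1 (φ' n) x * d2 (p' n) x - d2 (φ' n) x * d1 (p' n) x = (ej (j n) * σ n) * J n x := by
    intro K hK hKc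
    filter_upwards [hJ K hK hKc, hul (W.regL K hK hKc)] with n h1 h2 x hx
    obtain ⟨U, hU, hKU, h3, h4⟩ := h2
    have h5 := h3.differentiableAt (hU.mem_nhds (hKU hx))
    have h6 := h4.differentiableAt (hU.mem_nhds (hKU hx))
    have e1 : fderiv ℂ (φ' n) x = fderiv ℂ (φ n) x := (h5.hasFDerivAt.sub_const _).fderiv
    have e2 : fderiv ℂ (p' n) x = ej (j n) • fderiv ℂ (p n) x :=
      (h6.hasFDerivAt.const_mul (ej (j n))).fderiv
    have h7 := h1 x hx
    show fderiv ℂ (φ' n) x (1, 0) * fderiv ℂ (p' n) x (0, 1) -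
      fderiv ℂ (φ' n) x (0, 1) * fderiv ℂ (p' n) x (1, 0) = _
    rw [e1, e2]
    have h8 : fderiv ℂ (φ n) x (1, 0) * fderiv ℂ (p n) x (0, 1) -
      fderiv ℂ (φ n) x (0, 1) * fderiv ℂ (p n) x (1, 0) = σ n * J n x := h7
    simp only [_root_.smul_apply, smul_eq_mul]
    linear_combination ej (j n) * h8
  -- the chart
  obtain ⟨r, hr, -, hrS, δ, hδ, -, τ, κ', hCh⟩ := exists_chart' hψd hHd hrel (by norm_num) hb0m hy0
    0 one_pos
  have hTj : Tj ψ 0 b0 = ψ b0 := by simp [Tj]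
  have hinc : F300.Inc ψ H (ψ b0) (H b0) b0 := by
    show deriv ψ b0 * H b0 = deriv ψ b0 * H b0 * cos (ψ b0 - ψ b0) +
      deriv H b0 * sin (ψ b0 - ψ b0)
    rw [sub_self, Complex.cos_zero, Complex.sin_zero]; ring
  have hpT : H b0 = hsf (F300.ZZ ψ H) (F300.ZZc ψ H) τ (Tj ψ 0 b0) := by
    rw [hCh.hsf_b₀]
    have h1 := (inc_iff' hy0).2 hinc
    rw [← hTj] at h1
    exact (inc_iff.1 h1).symm
  -- Montel
  have hM : ∃ ml : ℂ × ℂ → ℂ, DifferentiableOn ℂ ml (Lo (a + g')) ∧ TendstoLocallyUniformlyOn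
      (fun n x => ((om n : ℂ))⁻¹ * (φ' n x - φ' n z0)) ml u (Lo (a + g')) := by
    refine montel_exh u fun z hz => ?_
    obtain ⟨ρ, hρ, hρL⟩ := Metric.nhds_basis_closedBall.mem_iff.1 ((isOpen_Lo _).mem_nhds hz)
    obtain ⟨M, hM⟩ := hloc _ hρL (isCompact_closedBall _ _)
    refine ⟨ρ, hρ, M, ball_subset_closedBall.trans hρL, ?_, ?_⟩
    · filter_upwards [S.φd _ (hρL.trans hLL) (isCompact_closedBall _ _)] with n hn x hx
      exact ((((hn x (ball_subset_closedBall hx))).sub_const _).const_mul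
        _).differentiableWithinAt
    · filter_upwards [hul hM] with n hn x hx
      have h1 := hn x (ball_subset_closedBall hx)
      have e : φ' n x - φ' n z0 = φ n x - φ n z0 := by simp only [hφ']; ring
      rw [e, norm_mul, norm_inv, Complex.norm_real, Real.norm_eq_abs, abs_of_pos (hom n),
        inv_mul_le_iff₀ (hom n), mul_comm]
      exact h1
  obtain ⟨ml, hmld, hmlt⟩ := hM
  -- a face point
  have hq1 : (((a : ℂ) * I, I) : ℂ × ℂ) ∈ Fc a := by
    refine ⟨?_, ?_⟩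
    · show (0 : ℝ) < I.im
      simp
    · show ((a : ℂ) * I).im = a * I.im
      simp
  obtain ⟨ρ, hρ, hρL⟩ := Metric.nhds_basis_closedBall.mem_iff.1
    ((isOpen_Lo (a + g')).mem_nhds (Fc_sub hg' hq1))
  have hd2 := lemX_app S hψp W.curve.H_per hCh hrS hgg hq1 hρ hρL
    (fun x _ => by rw [hTj]; exact mem_ball_self hδ)
    (fun x _ => by rw [← hpT]; exact mem_ball_self hδ)
    (fun x _ _ => mem_ball_self hr)
    (Eventually.of_forall fun n => mul_ne_zero (ej_ne (j n)) (hσ n)) hJ' hJt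
    (fun _ _ => W.A0_ne)
    (α := fun n => ((om n : ℂ))⁻¹) (β := fun n => φ' n z0)
    (Eventually.of_forall fun n => inv_ne_zero (by exact_mod_cast (hom n).ne')) hmlt hmld
  obtain ⟨F, hF, hFeq⟩ := entire_of_face hg'
    (hmld.comp (Ea_diff a).differentiableOn fun q hq => Ea_mem.2 hq)
    (fun q hq _ => hd2 q hq)
  -- growth
  have hgr : ∀ s : ℂ, ‖F s‖ ≤ C * (1 + 2 * ‖s‖ / g') ^ th := by
    intro s
    set y : ℝ := 1 + 2 * ‖s‖ / g' with hy
    have hs0 := norm_nonneg s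
    have hy1 : 1 ≤ y := by
      have : 0 ≤ 2 * ‖s‖ / g' := by positivity
      linarith
    have hyp : 0 < y := by linarith
    have hys : 2 * ‖s‖ ≤ g' * y := by
      have : g' * y = g' + 2 * ‖s‖ := by rw [hy]; field_simp
      linarith
    have him : s.im ≤ ‖s‖ := (le_abs_self _).trans (abs_im_le_norm s)
    have hmem : ((s, (y : ℂ) * I) : ℂ × ℂ) ∈ Gc g' := by
      refine ⟨?_, ?_⟩
      · show 0 < ((y : ℂ) * I).im
        simpa using hyp
      · show s.im < g' * ((y : ℂ) * I).im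
        have : ((y : ℂ) * I).im = y := by simp
        rw [this]
        have : 0 < g' * y := by positivity
        linarith
    have hmemL : Ea a (s, (y : ℂ) * I) ∈ Lo (a + g') := Ea_mem.2 hmem
    have e1 : (Ea a (s, (y : ℂ) * I)).2 = (y : ℂ) * I := rfl
    have e2 : (Ea a (s, (y : ℂ) * I)).2.im = y := by rw [e1]; simp
    have e3 : (Ea a (s, (y : ℂ) * I)).1 = s + a * ((y : ℂ) * I) := rfl
    have hg1 := hgrow (Ea a (s, (y : ℂ) * I)) (by rw [e2]; exact hy1)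
      (by
        rw [e2, e3]
        have : (s + a * ((y : ℂ) * I)).im = s.im + a * y := by simp
        rw [this]
        nlinarith)
      (by
        rw [e2, e3]
        refine (norm_add_le _ _).trans ?_
        have : ‖(a : ℂ) * ((y : ℂ) * I)‖ = |a| * y := by
          rw [norm_mul, norm_mul, Complex.norm_real, Complex.norm_real, Complex.norm_I, mul_one,
            Real.norm_eq_abs, Real.norm_eq_abs, abs_of_pos hyp]
        rw [this]
        nlinarith)
      (by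
        rw [e2, e1, norm_mul, Complex.norm_real, Complex.norm_I, mul_one, Real.norm_eq_abs,
          abs_of_pos hyp])
    have t1 : Tendsto (fun n => ‖((om n : ℂ))⁻¹ * (φ' n (Ea a (s, (y : ℂ) * I)) - φ' n z0)‖) u
        (𝓝 ‖ml (Ea a (s, (y : ℂ) * I))‖) := (hmlt.tendsto_at hmemL).norm
    have h2 : ‖ml (Ea a (s, (y : ℂ) * I))‖ ≤ C * y ^ th := by
      refine le_of_tendsto t1 (hul ?_)
      filter_upwards [hg1] with n hn
      have e : φ' n (Ea a (s, (y : ℂ) * I)) - φ' n z0 = φ n (Ea a (s, (y : ℂ) * I)) - φ n z0 := by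
        simp only [hφ']; ring
      rw [e, norm_mul, norm_inv, Complex.norm_real, Real.norm_eq_abs, abs_of_pos (hom n),
        inv_mul_le_iff₀ (hom n)]
      rw [e2] at hn
      linarith
    have h3 := hFeq _ hmem
    simp only [Function.comp] at h3
    rw [← h3]
    exact h2
  have hFc : ∀ s t, F s = F t := by
    refine const_of_growth hF (M := |C| * (1 + 2 / g') ^ th) hth fun R hR s hs => ?_
    refine (hgr s).trans ?_
    have h1 : C * (1 + 2 * ‖s‖ / g') ^ th ≤ |C| * (1 + 2 * ‖s‖ / g') ^ th :=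
      mul_le_mul_of_nonneg_right (le_abs_self C) (Real.rpow_nonneg (by positivity) _)
    refine h1.trans ?_
    rw [mul_assoc, ← Real.mul_rpow (by positivity) (by linarith)]
    refine mul_le_mul_of_nonneg_left ?_ (abs_nonneg C)
    refine Real.rpow_le_rpow (by positivity) ?_ hth0
    have h2 : 2 * ‖s‖ / g' ≤ 2 * R / g' := by
      apply div_le_div_of_nonneg_right _ hg'.le
      linarith
    have h3 : (1 + 2 / g') * R = R + 2 * R / g' := by ring
    rw [h3]
    linarith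
  have hmlc : ∀ x ∈ Lo (a + g'), ml x = F 0 := by
    intro x hx
    have h2 : ((x.1 - a * x.2, x.2) : ℂ × ℂ) ∈ Gc g' := by
      rw [← Ea_mem (a := a), Ea_inv]; exact hx
    have := hFeq _ h2
    simp only [Function.comp] at this
    rw [Ea_inv] at this
    rw [this]
    exact hFc _ _
  -- contradiction
  obtain ⟨c, hc, hosc⟩ := hosc
  have h1 := Metric.tendstoUniformlyOn_iff.1
    ((tendstoLocallyUniformlyOn_iff_forall_isCompact (isOpen_Lo (a + g'))).1 hmlt K0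
      (hK0a.trans (Lo_sub hg')) hK0) (c / 2) (by positivity)
  obtain ⟨n, hn1, q, hq, q', hq', hn2⟩ := (h1.and (hul hosc)).exists
  have h3 := hn1 q hq
  have h4 := hn1 q' hq'
  rw [hmlc q (Lo_sub hg' (hK0a hq)), dist_eq_norm] at h3
  rw [hmlc q' (Lo_sub hg' (hK0a hq')), dist_eq_norm] at h4
  have h5 : ‖((om n : ℂ))⁻¹ * (φ n q - φ n q')‖ < c := by
    have e : ((om n : ℂ))⁻¹ * (φ n q - φ n q') =
        (F 0 - ((om n : ℂ))⁻¹ * (φ' n q' - φ' n z0)) -
          (F 0 - ((om n : ℂ))⁻¹ * (φ' n q - φ' n z0)) := by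
      simp only [hφ']; ring
    rw [e]
    refine (norm_sub_le _ _).trans_lt ?_
    linarith
  rw [norm_mul, norm_inv, Complex.norm_real, Real.norm_eq_abs, abs_of_pos (hom n),
    inv_mul_lt_iff₀ (hom n)] at h5
  linarith

end world

end Crest.Agent.R102.SlowW300
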