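import Crest.Agent.R102.Start_821

/-!
Row 102, part (B) (helper821): induction step of the formal start (B6).
-/

set_option autoImplicit false

open Set Filter Topology Metric Complex MeasureTheory
open scoped Real ContDiff ComplexConjugate

noncomputable section

namespace Crest.Agent.R102.B821

open Crest.Agent.R266.SCV

variable {ρ₀ ε₀ k ρ r d A B : ℝ} {L Ψ U f g : ℂ × ℂ → ℂ} {M : ℕ}

/-- the mean of the leading coefficient of `P` vanishes -/
lemma Adm.mean_lead (hL : IsLag ρ₀ ε₀ L Ψ) (h : Adm ρ₀ ε₀ ρ r U) {m : ℕ} {Ps : ℂ × ℂ → ℂ}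
    (hPs : IsH (3 / 2) ρ r Ps)
    (hPe : ∀ t w : ℂ, (t, w) ∈ Dom (3 / 2) ρ r → Pf L U (t, w) = w ^ m * Ps (t, w)) :
    fc Ps 0 0 = 0 := by
  have hr := h.r_pos
  have hρ := h.ρ_pos
  have hrρ := h.r_le_ρ
  have hkw : ∀ w : ℂ, ‖w‖ < r → 3 / 2 * |w.im| < ρ := fun w hw =>
    k_im_lt (by norm_num) hρ (by linarith) hw
  have hcont : ContinuousOn (fc Ps 0) (ball 0 r) :=
    (differentiableOn_fc hPs 0 isOpen_ball (fun w hw => by
      rw [mem_ball_zero_iff] at hw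
      exact ⟨hw, hkw w hw⟩)).continuousOn
  have h0 : ∀ w : ℂ, ‖w‖ < r → w ≠ 0 → fc Ps 0 w = 0 := by
    intro w hw hw0
    have h1 := h.mean hL hw
    have h2 : fc (Pf L U) 0 w = w ^ m * fc Ps 0 w := by
      rw [← fc_mul_w (fun w => w ^ m) Ps]
      exact fc_congr (fun x => hPe _ _ (real_mem_Dom.2 ⟨hkw w hw, hw⟩)) 0
    rw [h1] at h2
    exact (mul_eq_zero.1 h2.symm).resolve_left (pow_ne_zero _ hw0)
  have hca : ContinuousAt (fc Ps 0) 0 := hcont.continuousAt (ball_mem_nhds _ hr)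
  have h1 : Tendsto (fc Ps 0) (𝓝[≠] 0) (𝓝 (fc Ps 0 0)) := hca.tendsto.mono_left nhdsWithin_le_nhds
  have h2 : Tendsto (fc Ps 0) (𝓝[≠] 0) (𝓝 0) := by
    refine tendsto_const_nhds.congr' ?_
    filter_upwards [self_mem_nhdsWithin, mem_nhdsWithin_of_mem_nhds (ball_mem_nhds (0 : ℂ) hr)]
      with w hw0 hw
    exact (h0 w (by simpa using hw) hw0).symm
  exact tendsto_nhds_unique h1 h2

set_option maxHeartbeats 1000000 in
/-- induction step of the formal start: from order `m = 2 l + 5` to order `m + 2` -/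
theorem start_step (hL : IsLag ρ₀ ε₀ L Ψ) {l m : ℕ} (hm : m = 2 * l + 5) (h : Adm ρ₀ ε₀ ρ r U)
    (hB : 0 ≤ B) (hUb : Bdd (1 / 2) ρ r 2 B U) (hA : 0 ≤ A) (hP : Bdd (3 / 2) ρ r m A (Pf L U)) :
    ∃ (ρ' r' B' A' : ℝ) (U' : ℂ × ℂ → ℂ), 0 ≤ B' ∧ 0 ≤ A' ∧ Adm ρ₀ ε₀ ρ' r' U' ∧
      Bdd (1 / 2) ρ' r' 2 B' U' ∧ Bdd (3 / 2) ρ' r' (m + 2) A' (Pf L U') := by
  have hr := h.r_pos
  have hr1 := h.r_le
  have hρ := h.ρ_pos
  have hrρ := h.r_le_ρ
  have hρ₀ := hL.ρ_pos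
  obtain ⟨K, ε₂, hK, hε₂, hε₀', hερ, hε1, hb1, hb2, hb3⟩ := hL.exists_bounds2
  obtain ⟨K', r₂, δ₀, hK', hr₂, hδ₀, hr₂b, -⟩ := hL.exists_bounds
  -- we may assume that r is small
  set ra : ℝ := min r (min (ε₂ / 2) (r₂ / 2)) with hra
  have hra0 : 0 < ra := lt_min hr (lt_min (by positivity) (by positivity))
  have hra1 : ra ≤ r := min_le_left _ _
  have hra2 : ra ≤ ε₂ / 2 := (min_le_right _ _).trans (min_le_left _ _)
  have hra3 : ra ≤ r₂ / 2 := (min_le_right _ _).trans (min_le_right _ _)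
  have ha : Adm ρ₀ ε₀ ρ ra U := h.mono le_rfl hra1 hρ hra0 (by linarith)
  have hUba : Bdd (1 / 2) ρ ra 2 B U := hUb.mono le_rfl le_rfl hra1
  have hPa : Bdd (3 / 2) ρ ra m A (Pf L U) := hP.mono le_rfl le_rfl hra1
  obtain ⟨α, hα, hαb, hαe⟩ := ha.exists_at hL hr₂b (by linarith)
  have hα0 := ha.alpha_zero hL hUba hK (by linarith) hb3 hα hαe
  -- leading coefficient
  obtain ⟨Ps, hPs, hPsb, hPse⟩ := (ha.hPf hL).exists_div_pow (by norm_num) m hPa
  have hmean := ha.mean_lead hL hPs hPse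
  have hPsre : IsRe (3 / 2) ρ ra Ps :=
    IsRe.of_pow_w (by norm_num) hPs m ((ha.Pf_re hL).congr (fun p hp => (hPse p.1 p.2 hp).symm))
  have hm0 : ∀ {k' : ℝ} {t : ℂ}, (t, (0 : ℂ)) ∈ Dom k' ρ ra ↔ |t.im| < ρ := by
    intro k' t
    simp [mem_Dom, hra0]
  set ph : ℂ × ℂ → ℂ := fun q => Ps (q.1, 0) with hph
  have hphH : IsH 0 ρ ra ph := by
    refine ⟨?_, ?_⟩
    · refine hPs.diff.comp (f := fun q : ℂ × ℂ => (q.1, (0 : ℂ))) (by fun_prop) ?_
      rintro ⟨t, w⟩ hq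
      refine hm0.2 ?_
      have := hq.1
      simp only [zero_mul, add_zero] at this
      exact this
    · intro t w hq
      refine hPs.per t 0 (hm0.2 ?_)
      have := hq.1
      simp only [zero_mul, add_zero] at this
      exact this
  have hphre : IsRe 0 ρ ra ph := by
    rintro ⟨t, w⟩ hq
    have h1 := hPsre (t, 0) (hm0.2 (by
      have := hq.1
      simp only [zero_mul, add_zero] at this
      exact this))
    unfold cj at h1 ⊢
    simp only [map_zero] at h1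
    exact h1
  obtain ⟨V, hV, hVw, hVre, hVpp⟩ := exists_second_primitive hphH (fun t w => rfl) hphre
    (by exact hmean) hra0 (ρ' := ρ / 2) (r' := ra / 2) (by positivity) (by linarith) (by linarith)
    (by positivity)
  have hV12 : IsH (1 / 2) (ρ / 2) (ra / 2) V := hV.mono (by norm_num) le_rfl le_rfl
  -- W = w^(m-3) V
  set j : ℕ := 2 * l + 2 with hj
  have hjm : m = j + 3 := by omega
  set Vh : ℂ × ℂ → ℂ := fun p => p.2 ^ j * V p with hVh
  have hVhH : IsH (1 / 2) (ρ / 2) (ra / 2) Vh := hV12.pow_w j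
  have hVhre : IsRe (1 / 2) (ρ / 2) (ra / 2) Vh := by
    rintro ⟨t, w⟩ hq
    have h1 := hVre (t, w) (Dom_mono (by norm_num) le_rfl le_rfl hq)
    unfold cj at h1 ⊢
    simp only [hVh, map_mul, map_pow, Complex.conj_conj]
    rw [h1]
  have hVhpar : IsPar (1 / 2) (ρ / 2) (ra / 2) 1 Vh := by
    rintro ⟨t, w⟩ hq
    unfold rf
    simp only [hVh, one_mul]
    rw [hVw t (-w), hVw t w]
    have : (-w) ^ j = w ^ j := by
      rw [hj, show 2 * l + 2 = 2 * (l + 1) by ring, pow_mul, neg_sq, ← pow_mul]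
    rw [this]
  have ha2 : Adm ρ₀ ε₀ (ρ / 2) (ra / 2) U :=
    ha.mono (by linarith) (by linarith) (by positivity) (by positivity) (by linarith)
  have hWH : IsH (1 / 2) (ρ / 2) (ra / 2) (fun p => Xt U p * Vh p) := ha2.hXt.mul hVhH
  obtain ⟨v₀, hv₀, hVb⟩ := hV12.exists_bdd (ρ' := ρ / 4) (r' := ra / 4) (by linarith) (by linarith)
  have hVhb : Bdd (1 / 2) (ρ / 4) (ra / 4) j v₀ Vh := by
    have := hVb.pow_w j
    rw [add_zero] at this
    exact this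
  have hXtb : ∀ p ∈ Dom (1 / 2) ρ ra, ‖Xt U p‖ ≤ 101 / 100 := by
    intro p hp
    have := norm_add_le (1 : ℂ) (q1 U p)
    have h1 := ha.Ut_bd p hp
    rw [norm_one] at this
    unfold Xt
    linarith
  have hXtl : ∀ p ∈ Dom (1 / 2) ρ ra, 99 / 100 ≤ ‖Xt U p‖ := by
    intro p hp
    have h1 := ha.Ut_bd p hp
    have : ‖(1 : ℂ)‖ ≤ ‖Xt U p‖ + ‖q1 U p‖ := by
      have := norm_sub_le (Xt U p) (q1 U p)
      unfold Xt at this ⊢
      rw [add_sub_cancel_right] at this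
      exact this
    rw [norm_one] at this
    linarith
  set v₁ : ℝ := 101 / 100 * v₀ with hv₁
  have hv₁0 : 0 ≤ v₁ := by positivity
  have hWb : Bdd (1 / 2) (ρ / 4) (ra / 4) j v₁ (fun p => Xt U p * Vh p) := by
    intro p hp
    rw [norm_mul]
    have h1 := hVhb p hp
    have h2 := hXtb p (Dom_mono le_rfl (by linarith) (by linarith) hp)
    calc ‖Xt U p‖ * ‖Vh p‖ ≤ 101 / 100 * (v₀ * ‖p.2‖ ^ j) :=
          mul_le_mul h2 h1 (norm_nonneg _) (by norm_num)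
      _ = v₁ * ‖p.2‖ ^ j := by rw [hv₁]; ring
  -- the new function
  set U' : ℂ × ℂ → ℂ := Un U Vh with hU'
  have hU'H : IsH (1 / 2) (ρ / 2) (ra / 2) U' := ha2.hU.add hWH
  have hU're : IsRe (1 / 2) (ρ / 2) (ra / 2) U' := ha2.re.add (ha2.Xt_re.mul hVhre)
  have hU'par : IsPar (1 / 2) (ρ / 2) (ra / 2) 1 U' := by
    have h1 := ha2.Xt_par.mul hVhpar
    rw [one_mul] at h1
    exact ha2.par.add h1
  have hj2 : 2 ≤ j := by omega
  have hU'b : Bdd (1 / 2) (ρ / 4) (ra / 4) 2 (B + v₁) U' :=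
    (hUba.mono le_rfl (by linarith) (by linarith)).add (hWb.lower hv₁0 (by linarith) hj2)
  obtain ⟨r₁, hr₁0, hr₁1, hadm'⟩ := adm_of_bdd hL (hU'H.mono le_rfl (by linarith) (by linarith))
    (by positivity) hU'b (hU're.mono le_rfl (by linarith) (by linarith))
    (hU'par.mono le_rfl (by linarith) (by linarith)) (by positivity) (by linarith [h.ρ_le])
    (by positivity) (by linarith)
  -- bounds
  set δ : ℝ := min (ρ₀ / 32) 1 with hδ
  have hδ0 : 0 < δ := lt_min (by positivity) one_pos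
  have hd : 0 < ρ / 16 := by positivity
  set v₂ : ℝ := v₁ / (ρ / 16) + v₁ with hv₂
  have hv₂0 : 0 ≤ v₂ := by positivity
  set r₃ : ℝ := min r₁ (min (ρ / 256) (min (ε₂ / 16) (δ / (2 * (v₂ + 1))))) with hr₃
  have hr₃0 : 0 < r₃ := by
    refine lt_min hr₁0 (lt_min (by positivity) (lt_min (by positivity) (by positivity)))
  have c1 : r₃ ≤ r₁ := min_le_left _ _
  have c2 : r₃ ≤ ρ / 256 := (min_le_right _ _).trans (min_le_left _ _)
  have c3 : r₃ ≤ ε₂ / 16 := (min_le_right _ _).trans ((min_le_right _ _).trans (min_le_left _ _))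
  have c4 : r₃ ≤ δ / (2 * (v₂ + 1)) :=
    (min_le_right _ _).trans ((min_le_right _ _).trans (min_le_right _ _))
  have c4' : 2 * (v₂ * r₃) ≤ δ := by
    rw [le_div_iff₀ (by positivity)] at c4
    linarith only [c4, hr₃0]
  have hA' := (hadm' r₃ hr₃0 c1).adm
  have e8 : ρ / 4 / 2 = ρ / 8 := by ring
  rw [e8] at hA'
  -- del W
  have hdW : Bdd 1 (ρ / 8) r₃ (j + 1) v₂ (del (fun p => Xt U p * Vh p)) := by
    have h1 := Bdd.del_gain hv₁0 (hWH.mono (k' := 1 / 2) (ρ' := ρ / 4) (r' := ra / 4) le_rfl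
      (by linarith) (by linarith)) hWb hd
    have e1 : (1 / 2 : ℝ) + 1 / 2 = 1 := by norm_num
    rw [e1] at h1
    exact (h1.mono le_rfl (by linarith) (by linarith)).le (by rw [hv₂]; linarith)
  -- G = Ps + del(α κ)/w
  obtain ⟨κ, hκ, hκe, hκ0⟩ := hV12.exists_del_div (by norm_num)
  have e1 : (1 / 2 : ℝ) + 1 / 2 = 1 := by norm_num
  rw [e1] at hκ hκe hκ0
  have hακ : IsH 1 (ρ / 2) (ra / 2) (fun p => α p * κ p) :=
    (hα.mono le_rfl (by linarith) (by linarith)).mul hκ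
  obtain ⟨g₂, hg₂, hg₂e, hg₂0⟩ := hακ.exists_del_div (by norm_num)
  have e32 : (1 : ℝ) + 1 / 2 = 3 / 2 := by norm_num
  rw [e32] at hg₂ hg₂e hg₂0
  have hmz : ∀ {k' : ℝ} {t : ℂ}, (t, (0 : ℂ)) ∈ Dom k' (ρ / 2) (ra / 2) ↔ |t.im| < ρ / 2 := by
    intro k' t
    simp [mem_Dom, hra0]
  have hG : IsH (3 / 2) (ρ / 2) (ra / 2) (fun p => Ps p + g₂ p) :=
    (hPs.mono le_rfl (by linarith) (by linarith)).add hg₂
  have hG0 : ∀ t : ℂ, (t, (0 : ℂ)) ∈ Dom (3 / 2) (ρ / 2) (ra / 2) → Ps (t, 0) + g₂ (t, 0) = 0 := by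
    intro t ht
    have ht' : |t.im| < ρ / 2 := hmz.1 ht
    have h1 := hg₂0 t ht
    have h2 := hasDerivAt_fst (hακ.differentiableAt (hmz.2 ht'))
    have h3 : (fun s => α (s, 0) * κ (s, 0)) =ᶠ[𝓝 t] (fun s => - q1 V (s, 0)) := by
      have hcont : Continuous (fun s : ℂ => |s.im|) := by fun_prop
      filter_upwards [hcont.continuousAt.preimage_mem_nhds (Iio_mem_nhds ht')] with s hs
      have hs' : |s.im| < ρ / 2 := hs
      rw [hα0 s (hm0.2 (by linarith)), hκ0 s (hmz.2 hs')]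
      ring
    have h4 := (hasDerivAt_fst (hV.q1.differentiableAt (hmz.2 ht'))).neg
    have h5 := (h2.congr_of_eventuallyEq h3.symm).unique h4
    rw [h1, h5, hVpp t 0 (hmz.2 ht')]
    simp [hph]
  obtain ⟨A₁, hA₁, hGb⟩ := hG.gain_one (by norm_num) hG0 (ρ' := ρ / 8) (r' := r₃) (by linarith)
    (by linarith)
  -- q1 Ef
  have hEfb : Bdd (3 / 2) ρ ra m (100 / 99 * A) (Ef L U) := by
    intro p hp
    have h1 := hPa p hp
    have h2 := hXtl p (Dom_mono (by norm_num) le_rfl le_rfl hp)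
    unfold Pf at h1
    rw [norm_mul] at h1
    have h3 : 99 / 100 * ‖Ef L U p‖ ≤ A * ‖p.2‖ ^ m :=
      (mul_le_mul_of_nonneg_right h2 (norm_nonneg _)).trans h1
    linarith
  set A₂ : ℝ := 100 / 99 * A / (ρ / 16) with hA₂
  have hA₂0 : 0 ≤ A₂ := by positivity
  have hq1E : Bdd (3 / 2) (ρ / 8) r₃ m A₂ (q1 (Ef L U)) :=
    (hEfb.q1 (ha.hEf hL) hd).mono le_rfl (by linarith) (by linarith)
  set CQ : ℝ := 192 * (K + 1) / δ ^ 2 with hCQ
  have hCQ0 : 0 ≤ CQ := by positivity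
  set A₃ : ℝ := A₁ + 101 / 100 * A₂ * v₀ + 101 / 100 * (CQ * v₂ ^ 2) with hA₃
  have hA₃0 : 0 ≤ A₃ := by positivity
  have hmain : ∀ t w : ℂ, (t, w) ∈ Dom (3 / 2) (ρ / 8) r₃ → w ≠ 0 →
      ‖Xt U (t, w) * Ef L U' (t, w)‖ ≤ A₃ * ‖w‖ ^ (m + 1) := by
    intro t w hp hw
    have hwp : 0 < ‖w‖ := norm_pos_iff.2 hw
    have hwr : ‖w‖ < r₃ := hp.2
    have hw1 : ‖w‖ ≤ 1 := by linarith
    have hp0 : (t, w) ∈ Dom (3 / 2) ρ ra := Dom_mono le_rfl (by linarith) (by linarith) hp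
    have hp2 : (t, w) ∈ Dom (3 / 2) (ρ / 2) (ra / 2) := Dom_mono le_rfl (by linarith) (by linarith) hp
    have hp4 : (t, w) ∈ Dom (3 / 2) (ρ / 4) (ra / 4) := Dom_mono le_rfl (by linarith) (by linarith) hp
    have hm4m : (t + ((-1 : ℝ) : ℂ) * w, w) ∈ Dom (1 / 2) (ρ / 4) (ra / 4) :=
      tr_mem_half (-1) (by norm_num) hp4
    have hm40 : (t, w) ∈ Dom (1 / 2) (ρ / 4) (ra / 4) := Dom_mono (by norm_num) le_rfl le_rfl hp4
    have hm4p : (t + ((1 : ℝ) : ℂ) * w, w) ∈ Dom (1 / 2) (ρ / 4) (ra / 4) :=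
      tr_mem_half 1 (by norm_num) hp4
    have hm1m : (t + ((-(1 / 2) : ℝ) : ℂ) * w, w) ∈ Dom 1 (ρ / 8) r₃ :=
      tr_mem_half (-(1 / 2)) (by rw [abs_neg]; norm_num) hp
    have hm1p : (t + ((1 / 2 : ℝ) : ℂ) * w, w) ∈ Dom 1 (ρ / 8) r₃ :=
      tr_mem_half (1 / 2) (by norm_num) hp
    -- the three base points
    have hpair1 := ha.pair_tr (c₁ := -1) (c₂ := 0) (k := 3 / 2) (by norm_num) (by norm_num)
      (by norm_num) hp0
    have hpair2 := ha.pair_tr (c₁ := 0) (c₂ := 1) (k := 3 / 2) (by norm_num) (by norm_num)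
      (by norm_num) hp0
    rw [tr_zero] at hpair1 hpair2
    have hm0m := ha.mem_m hp0
    have hm00 := ha.mem_0 hp0
    have hm0p := ha.mem_p hp0
    have l1 : ‖Xf U (t, w) - tr (-1) (Xf U) (t, w)‖ ≤ 2 * ‖w‖ := by
      have h1 := ha.lip hm0m hm00
      have e : Xf U (t, w) - tr (-1) (Xf U) (t, w) =
          w + (U (t, w) - U (t + ((-1 : ℝ) : ℂ) * w, w)) := by
        unfold tr Xf
        simp only
        push_cast
        ring
      rw [e]
      have e2 : t - (t + ((-1 : ℝ) : ℂ) * w) = w := by push_cast; ring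
      rw [e2] at h1
      have := norm_add_le w (U (t, w) - U (t + ((-1 : ℝ) : ℂ) * w, w))
      linarith only [this, h1, hwp]
    have l2 : ‖tr 1 (Xf U) (t, w) - Xf U (t, w)‖ ≤ 2 * ‖w‖ := by
      have h1 := ha.lip hm00 hm0p
      have e : tr 1 (Xf U) (t, w) - Xf U (t, w) =
          w + (U (t + ((1 : ℝ) : ℂ) * w, w) - U (t, w)) := by
        unfold tr Xf
        simp only
        push_cast
        ring
      rw [e]
      have e2 : t + ((1 : ℝ) : ℂ) * w - t = w := by push_cast; ring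
      rw [e2] at h1
      have := norm_add_le w (U (t + ((1 : ℝ) : ℂ) * w, w) - U (t, w))
      linarith only [this, h1, hwp]
    -- the variations
    set μ : ℝ := v₂ * ‖w‖ ^ j with hμ
    have hv12 : v₁ ≤ v₂ := by
      rw [hv₂]
      have : 0 ≤ v₁ / (ρ / 16) := by positivity
      linarith
    have n0 : ∀ q ∈ Dom (1 / 2) (ρ / 4) (ra / 4), q.2 = w → ‖Xt U q * Vh q‖ ≤ μ := by
      intro q hq hqw
      have h1 := hWb q hq
      rw [hqw] at h1
      exact h1.trans (mul_le_mul_of_nonneg_right hv12 (by positivity))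
    have n1 : ‖Xt U (t, w) * Vh (t, w) - tr (-1) (Xt U) (t, w) * tr (-1) Vh (t, w)‖ ≤
        2 * ‖w‖ * μ := by
      have h1 := hdW _ hm1m
      have h2 := tr_neg_half_del (fun p => Xt U p * Vh p) (t, w)
      have h3 : tr (-(1 / 2)) (del (fun p => Xt U p * Vh p)) (t, w) =
        del (fun p => Xt U p * Vh p) (t + ((-(1 / 2) : ℝ) : ℂ) * w, w) := rfl
      rw [h3] at h2
      rw [h2] at h1
      have h4 : Xt U (t, w) * Vh (t, w) - tr (-1) (Xt U) (t, w) * tr (-1) Vh (t, w) =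
        (fun p => Xt U p * Vh p) (t, w) - tr (-1) (fun p => Xt U p * Vh p) (t, w) := rfl
      rw [h4]
      refine h1.trans ?_
      simp only [hμ]
      rw [pow_succ]
      have : 0 ≤ v₂ * ‖w‖ ^ j * ‖w‖ := by positivity
      linarith only [this]
    have n2 : ‖tr 1 (Xt U) (t, w) * tr 1 Vh (t, w) - Xt U (t, w) * Vh (t, w)‖ ≤ 2 * ‖w‖ * μ := by
      have h1 := hdW _ hm1p
      have h2 := tr_half_del (fun p => Xt U p * Vh p) (t, w)
      have h3 : tr (1 / 2) (del (fun p => Xt U p * Vh p)) (t, w) =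
        del (fun p => Xt U p * Vh p) (t + ((1 / 2 : ℝ) : ℂ) * w, w) := rfl
      rw [h3] at h2
      rw [h2] at h1
      have h4 : tr 1 (Xt U) (t, w) * tr 1 Vh (t, w) - Xt U (t, w) * Vh (t, w) =
        tr 1 (fun p => Xt U p * Vh p) (t, w) - (fun p => Xt U p * Vh p) (t, w) := rfl
      rw [h4]
      refine h1.trans ?_
      simp only [hμ]
      rw [pow_succ]
      have : 0 ≤ v₂ * ‖w‖ ^ j * ‖w‖ := by positivity
      linarith only [this]
    have hwj : ‖w‖ ^ j ≤ ‖w‖ := by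
      calc ‖w‖ ^ j ≤ ‖w‖ ^ 1 := pow_le_pow_of_le_one hwp.le hw1 (by omega)
        _ = ‖w‖ := pow_one _
    have hμδ : 2 * μ ≤ δ := by
      have h1 : μ ≤ v₂ * r₃ := mul_le_mul_of_nonneg_left (hwj.trans hwr.le) hv₂0
      linarith only [h1, c4']
    have hT := EL_quad hL hK hε₀' hε1 hδ hb1 hb2 (x := tr (-1) (Xf U) (t, w)) (y := Xf U (t, w))
      (z := tr 1 (Xf U) (t, w)) (x' := tr (-1) (Xt U) (t, w) * tr (-1) Vh (t, w))
      (y' := Xt U (t, w) * Vh (t, w)) (z' := tr 1 (Xt U) (t, w) * tr 1 Vh (t, w))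
      (W := ‖w‖) (μ := μ) hwp (by linarith) hpair1.1 hpair1.2.1 hpair2.2.1 l1 l2
      (n0 _ hm4m rfl) (n0 _ hm40 rfl) (n0 _ hm4p rfl) n1 n2 hμδ
    set Q : ℂ := EL L (tr (-1) (Xf U) (t, w) + tr (-1) (Xt U) (t, w) * tr (-1) Vh (t, w))
      (Xf U (t, w) + Xt U (t, w) * Vh (t, w))
      (tr 1 (Xf U) (t, w) + tr 1 (Xt U) (t, w) * tr 1 Vh (t, w)) -
      EL L (tr (-1) (Xf U) (t, w)) (Xf U (t, w)) (tr 1 (Xf U) (t, w)) -
      dEL L (tr (-1) (Xf U) (t, w)) (Xf U (t, w)) (tr 1 (Xf U) (t, w))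
        (tr (-1) (Xt U) (t, w) * tr (-1) Vh (t, w)) (Xt U (t, w) * Vh (t, w))
        (tr 1 (Xt U) (t, w) * tr 1 Vh (t, w)) with hQ
    have hEn : Ef L U' (t, w) =
        EL L (tr (-1) (Xf U) (t, w) + tr (-1) (Xt U) (t, w) * tr (-1) Vh (t, w))
        (Xf U (t, w) + Xt U (t, w) * Vh (t, w))
        (tr 1 (Xf U) (t, w) + tr 1 (Xt U) (t, w) * tr 1 Vh (t, w)) := by
      unfold Ef
      have e1 : tr (-1) (Xf U') (t, w) =
          tr (-1) (Xf U) (t, w) + tr (-1) (Xt U) (t, w) * tr (-1) Vh (t, w) := Xf_Un U Vh _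
      have e2 : tr 1 (Xf U') (t, w) =
          tr 1 (Xf U) (t, w) + tr 1 (Xt U) (t, w) * tr 1 Vh (t, w) := Xf_Un U Vh _
      have e3 : Xf U' (t, w) = Xf U (t, w) + Xt U (t, w) * Vh (t, w) := Xf_Un U Vh _
      rw [e1, e2, e3]
    have hid2 := ha.ident2 hL Vh hp0
    -- a del Vh = w^(j+2) α κ
    have key : ∀ q ∈ Dom 1 (ρ / 8) r₃, af L U q * del Vh q = q.2 ^ (j + 2) * (α q * κ q) := by
      rintro ⟨s, w'⟩ hq
      have hq0 : (s, w') ∈ Dom 1 ρ ra := Dom_mono le_rfl (by linarith) (by linarith) hq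
      have hq2 : (s, w') ∈ Dom 1 (ρ / 2) (ra / 2) := Dom_mono le_rfl (by linarith) (by linarith) hq
      have h1 : del Vh (s, w') = w' ^ j * del V (s, w') := by
        unfold del tr
        simp only [hVh]
        ring
      rw [hαe _ hq0, h1, hκe _ _ hq2]
      simp only
      ring
    have hdel : del (fun q => af L U q * del Vh q) (t, w) = w ^ m * g₂ (t, w) := by
      have k1 := key _ hm1p
      have k2 := key _ hm1m
      have h3 : del (fun q => af L U q * del Vh q) (t, w) =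
          w ^ (j + 2) * del (fun p => α p * κ p) (t, w) := by
        have e : del (fun q => af L U q * del Vh q) (t, w) =
          af L U (t + ((1 / 2 : ℝ) : ℂ) * w, w) * del Vh (t + ((1 / 2 : ℝ) : ℂ) * w, w) -
          af L U (t + ((-(1 / 2) : ℝ) : ℂ) * w, w) * del Vh (t + ((-(1 / 2) : ℝ) : ℂ) * w, w) := rfl
        rw [e, k1, k2]
        unfold del tr
        simp only
        ring
      rw [h3, hg₂e _ _ hp2, hjm]
      ring
    have hPse' := hPse _ _ hp0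
    have hm' : Xt U (t, w) * Ef L U' (t, w) = w ^ m * (Ps (t, w) + g₂ (t, w)) +
        Xt U (t, w) * q1 (Ef L U) (t, w) * Vh (t, w) + Xt U (t, w) * Q := by
      rw [hdel] at hid2
      have e1 : EL L (tr (-1) (Xf U) (t, w)) (Xf U (t, w)) (tr 1 (Xf U) (t, w)) = Ef L U (t, w) := rfl
      have e2 : Pf L U (t, w) = Xt U (t, w) * Ef L U (t, w) := rfl
      rw [hEn, hQ, e1]
      rw [e2] at hPse'
      linear_combination hPse' + hid2
    rw [hm']
    have b1 : ‖w ^ m * (Ps (t, w) + g₂ (t, w))‖ ≤ A₁ * ‖w‖ ^ (m + 1) := by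
      rw [norm_mul, norm_pow]
      have h1 := hGb _ hp
      rw [pow_one] at h1
      calc ‖w‖ ^ m * ‖Ps (t, w) + g₂ (t, w)‖ ≤ ‖w‖ ^ m * (A₁ * ‖w‖) :=
            mul_le_mul_of_nonneg_left h1 (by positivity)
        _ = A₁ * ‖w‖ ^ (m + 1) := by rw [pow_succ]; ring
    have b2 : ‖Xt U (t, w) * q1 (Ef L U) (t, w) * Vh (t, w)‖ ≤
        101 / 100 * A₂ * v₀ * ‖w‖ ^ (m + 1) := by
      rw [norm_mul, norm_mul]
      have h1 := hXtb _ hm00
      have h2 := hq1E _ hp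
      have h3 := hVhb _ hm40
      simp only at h2 h3
      calc ‖Xt U (t, w)‖ * ‖q1 (Ef L U) (t, w)‖ * ‖Vh (t, w)‖
          ≤ 101 / 100 * (A₂ * ‖w‖ ^ m) * (v₀ * ‖w‖ ^ j) :=
            mul_le_mul (mul_le_mul h1 h2 (norm_nonneg _) (by norm_num)) h3 (norm_nonneg _)
              (by positivity)
        _ = 101 / 100 * A₂ * v₀ * ‖w‖ ^ m * ‖w‖ ^ j := by ring
        _ ≤ 101 / 100 * A₂ * v₀ * ‖w‖ ^ m * ‖w‖ :=
            mul_le_mul_of_nonneg_left hwj (by positivity)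
        _ = 101 / 100 * A₂ * v₀ * ‖w‖ ^ (m + 1) := by rw [pow_succ]; ring
    have b3 : ‖Xt U (t, w) * Q‖ ≤ 101 / 100 * (CQ * v₂ ^ 2) * ‖w‖ ^ (m + 1) := by
      rw [norm_mul]
      have h1 := hXtb _ hm00
      have h2 : ‖w‖ ^ 2 * μ ^ 2 ≤ v₂ ^ 2 * ‖w‖ ^ (m + 1) := by
        have e : ‖w‖ ^ 2 * μ ^ 2 = v₂ ^ 2 * ‖w‖ ^ (2 * j + 2) := by
          rw [hμ]; ring
        rw [e]
        refine mul_le_mul_of_nonneg_left ?_ (by positivity)
        exact pow_le_pow_of_le_one hwp.le hw1 (by omega)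
      calc ‖Xt U (t, w)‖ * ‖Q‖ ≤ 101 / 100 * (CQ * (‖w‖ ^ 2 * μ ^ 2)) :=
            mul_le_mul h1 hT (norm_nonneg _) (by norm_num)
        _ ≤ 101 / 100 * (CQ * (v₂ ^ 2 * ‖w‖ ^ (m + 1))) := by gcongr
        _ = _ := by ring
    refine (norm_add_le _ _).trans ?_
    refine (add_le_add ((norm_add_le _ _).trans (add_le_add b1 b2)) b3).trans (le_of_eq ?_)
    rw [hA₃]
    ring
  -- the new defect
  have hPn : Bdd (3 / 2) (ρ / 8) r₃ (m + 1) (2 * A₃) (Pf L U') := by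
    refine bdd_of_ne (by norm_num) (hA'.hPf hL).continuousOn (fun t w hp hw => ?_)
    have h1 := hmain t w hp hw
    have hp0 : (t, w) ∈ Dom (1 / 2) ρ ra :=
      Dom_mono (by norm_num) (by linarith) (by linarith) hp
    have h2 := hXtl _ hp0
    have h3 := hA'.Ut_bd (t, w) (Dom_mono (by norm_num) le_rfl le_rfl hp)
    have h5 : ‖Xt U' (t, w)‖ ≤ 101 / 100 := by
      have := norm_add_le (1 : ℂ) (q1 U' (t, w))
      rw [norm_one] at this
      unfold Xt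
      linarith
    rw [norm_mul] at h1
    unfold Pf
    rw [norm_mul]
    have h6 : 99 / 100 * ‖Ef L U' (t, w)‖ ≤ A₃ * ‖w‖ ^ (m + 1) :=
      (mul_le_mul_of_nonneg_right h2 (norm_nonneg _)).trans h1
    have h7 : ‖Xt U' (t, w)‖ * ‖Ef L U' (t, w)‖ ≤ 101 / 100 * ‖Ef L U' (t, w)‖ :=
      mul_le_mul_of_nonneg_right h5 (norm_nonneg _)
    have h8 : 0 ≤ A₃ * ‖w‖ ^ (m + 1) := by positivity
    linarith only [h6, h7, h8]
  have hm1 : m + 1 = 2 * (l + 3) := by omega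
  rw [hm1] at hPn
  obtain ⟨A', hA'0, hA'b⟩ := (hA'.hPf hL).gain_par (by norm_num) (hA'.Pf_par hL) (l + 3) hPn
    (ρ' := ρ / 16) (r' := r₃ / 2) (by linarith) (by linarith)
  have hm2 : 2 * (l + 3) + 1 = m + 2 := by omega
  rw [hm2] at hA'b
  exact ⟨ρ / 16, r₃ / 2, B + v₁, A', U', by positivity, hA'0,
    hA'.mono (by linarith) (by linarith) (by positivity) (by positivity) (by linarith),
    hU'b.mono le_rfl (by linarith) (by linarith), hA'b⟩

/-- formal start to every order -/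
theorem exists_start (hL : IsLag ρ₀ ε₀ L Ψ) (l : ℕ) :
    ∃ (ρ r B A : ℝ) (U : ℂ × ℂ → ℂ), 0 ≤ B ∧ 0 ≤ A ∧ Adm ρ₀ ε₀ ρ r U ∧
      Bdd (1 / 2) ρ r 2 B U ∧ Bdd (3 / 2) ρ r (2 * l + 5) A (Pf L U) := by
  induction l with
  | zero =>
    obtain ⟨ρ, r, A, h1, h2⟩ := start_zero hL
    refine ⟨ρ, r, 0, max A 0, fun _ => 0, le_rfl, le_max_right _ _, h1, ?_, ?_⟩
    · intro p _; simp
    · exact h2.le (le_max_left _ _)
  | succ l ih =>
    obtain ⟨ρ, r, B, A, U, hB, hA, h1, h2, h3⟩ := ih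
    exact start_step hL rfl h1 hB h2 hA h3

end Crest.Agent.R102.B821
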