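import Crest.Agent.R102.StartE_942

/-!
GROWTH block, pure part of BaseK: the start with records of order `k` (after `StartE_942`).
-/

set_option autoImplicit false

open Set Filter Topology

namespace Crest.Agent.R102.StartK486

open Crest.Agent.R102.StartE942

theorem num1K {n : ℕ} (hn : 1 ≤ n) {s : ℝ} (hs : (n : ℝ) + 1 ≤ s) :
    80 * ((s + 1) / s ^ (n + 1)) * Real.exp (2 * (s + 1)) ≤
      600 * (Real.exp (2 * (s + 1)) / (s + 1) ^ n - Real.exp (2 * s) / s ^ n) := by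
  have hn1 : (1 : ℝ) ≤ n := by exact_mod_cast hn
  have hs0 : 0 < s := by linarith
  set ρ : ℝ := ((s + 1) / s) ^ n with hρ
  have hρ0 : 0 < ρ := by positivity
  have hρe : ρ ≤ Real.exp 1 := by
    have h1 : (s + 1) / s ≤ Real.exp (1 / s) := by
      have h2 := Real.add_one_le_exp (1 / s)
      have h3 : (s + 1) / s = 1 / s + 1 := by field_simp; ring
      rw [h3]; exact h2
    have h2 : ρ ≤ Real.exp (1 / s) ^ n := by
      rw [hρ]; exact pow_le_pow_left₀ (by positivity) h1 n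
    rw [← Real.exp_nat_mul] at h2
    refine h2.trans (Real.exp_le_exp.2 ?_)
    rw [mul_one_div, div_le_one hs0]; linarith
  set E : ℝ := Real.exp (2 * (s + 1)) / (s + 1) ^ n with hE
  have hE0 : 0 < E := by positivity
  have e1 : Real.exp (2 * s) / s ^ n = Real.exp (-2) * ρ * E := by
    rw [hE, hρ, div_pow]
    have h1 : Real.exp (2 * s) = Real.exp (-2) * Real.exp (2 * (s + 1)) := by
      rw [← Real.exp_add]; ring_nf
    rw [h1]; field_simp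
  have e2 : (s + 1) / s ^ (n + 1) * Real.exp (2 * (s + 1)) = ρ * ((s + 1) / s) * E := by
    rw [hE, hρ, div_pow, pow_succ]; field_simp
  rw [e1, mul_assoc, e2]
  have h15 : (s + 1) / s ≤ 1.5 := by
    rw [div_le_iff₀ hs0]; linarith
  have he := Real.exp_one_lt_d9
  have hem : Real.exp (-2) * Real.exp 1 = Real.exp (-1) := by
    rw [← Real.exp_add]; norm_num
  have hem1 := Real.exp_neg_one_lt_d9
  have h3 : Real.exp (-2) * ρ ≤ 0.3679 := by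
    have h4 : Real.exp (-2) * ρ ≤ Real.exp (-2) * Real.exp 1 :=
      mul_le_mul_of_nonneg_left hρe (Real.exp_pos _).le
    rw [hem] at h4; linarith
  have h5 : ρ * ((s + 1) / s) ≤ 2.7183 * 1.5 :=
    mul_le_mul (by linarith) h15 (by positivity) (by norm_num)
  have h6 : 80 * (ρ * ((s + 1) / s) * E) ≤ 80 * (2.7183 * 1.5 * E) := by
    apply mul_le_mul_of_nonneg_left _ (by norm_num)
    exact mul_le_mul_of_nonneg_right h5 hE0.le
  have h7 : 600 * (0.6321 * E) ≤ 600 * (E - Real.exp (-2) * ρ * E) := by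
    apply mul_le_mul_of_nonneg_left _ (by norm_num)
    have : Real.exp (-2) * ρ * E ≤ 0.3679 * E := mul_le_mul_of_nonneg_right h3 hE0.le
    linarith
  nlinarith

/-- the numerical step of order `n + 1` -/
theorem num_stepK {n : ℕ} (hn : 1 ≤ n) {s C S τ W : ℝ} (hC : 0 ≤ C) (hS : 0 ≤ S)
    (hs1 : (n : ℝ) + 1 ≤ s) (hsτ : s + 1 ≤ τ)
    (hW : 0 < W) (hwτ : W ≤ 2 * Real.exp (-τ)) :
    C * (s + 1) * Real.exp (2 * (s + 1)) * W ^ 3 *
        ((40 / W) * (2 * S * τ ^ (n + 1) / s ^ (n + 1) + 2 * Real.exp (-s)) + 1) ≤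
      W ^ 2 * (C * S * τ ^ (n + 1) *
          (600 * (Real.exp (2 * (s + 1)) / (s + 1) ^ n - Real.exp (2 * s) / s ^ n)) +
          C * (350 * ((s + 1) * Real.exp (s + 1) - s * Real.exp s))) := by
  have hn1 : (1 : ℝ) ≤ n := by exact_mod_cast hn
  have hs0 : 0 < s := by linarith
  have hτ0 : 0 < τ := by linarith
  have hsplit : C * (s + 1) * Real.exp (2 * (s + 1)) * W ^ 3 *
      ((40 / W) * (2 * S * τ ^ (n + 1) / s ^ (n + 1) + 2 * Real.exp (-s)) + 1) =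
      W ^ 2 * (C * S * τ ^ (n + 1) *
          (80 * ((s + 1) / s ^ (n + 1)) * Real.exp (2 * (s + 1))) +
        C * (s + 1) * (80 * (Real.exp (2 * (s + 1)) * Real.exp (-s)) +
          Real.exp (2 * (s + 1)) * W)) := by
    generalize Real.exp (2 * (s + 1)) = X
    generalize Real.exp (-s) = Y
    generalize hP : s ^ (n + 1) = P
    have hP0 : P ≠ 0 := by rw [← hP]; positivity
    generalize τ ^ (n + 1) = Q
    field_simp
    ring
  rw [hsplit]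
  have hP1 : C * S * τ ^ (n + 1) * (80 * ((s + 1) / s ^ (n + 1)) * Real.exp (2 * (s + 1))) ≤
      C * S * τ ^ (n + 1) *
        (600 * (Real.exp (2 * (s + 1)) / (s + 1) ^ n - Real.exp (2 * s) / s ^ n)) :=
    mul_le_mul_of_nonneg_left (num1K hn hs1) (by positivity)
  have hP2 : C * (s + 1) * (80 * (Real.exp (2 * (s + 1)) * Real.exp (-s)) +
          Real.exp (2 * (s + 1)) * W) ≤
      C * (350 * ((s + 1) * Real.exp (s + 1) - s * Real.exp s)) := by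
    calc C * (s + 1) * (80 * (Real.exp (2 * (s + 1)) * Real.exp (-s)) +
          Real.exp (2 * (s + 1)) * W) ≤ C * (s + 1) * (220 * Real.exp (s + 1)) :=
          mul_le_mul_of_nonneg_left (num3 hsτ hwτ) (by positivity)
      _ = C * ((s + 1) * (220 * Real.exp (s + 1))) := by ring
      _ ≤ _ := mul_le_mul_of_nonneg_left (num2 (by linarith)) hC
  exact mul_le_mul_of_nonneg_left (add_le_add hP1 hP2) (by positivity)

/-- telescoping over the levels `τ₀, τ₀ + 1, …` -/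
theorem levelsK {n : ℕ} (hn : 1 ≤ n) {w : ℂ} (hw : 0 < w.im) (hw40 : ‖w‖ ≤ 40 * w.im)
    {B : ℂ → ℂ} {M : ℝ → ℝ}
    {C S τ T₀ τ₀ D0 : ℝ} (hC : 0 ≤ C) (hS : 0 ≤ S) (hT₀ : (n : ℝ) + 1 ≤ T₀) (hτ₀ : T₀ ≤ τ₀)
    (J : ℕ)
    (hJ : τ₀ + J ≤ τ) (hwτ : ‖w‖ ≤ 2 * Real.exp (-τ))
    (hM : MonotoneOn M (Icc T₀ τ))
    (hrec : ∀ τ'' τ', T₀ ≤ τ'' → τ'' ≤ τ' → τ' ≤ τ →
      M τ' - M τ'' ≤ 2 * S * (τ / τ'') ^ (n + 1) * (τ' - τ''))
    (hHw : w.im ≤ M τ₀ - 2 * Real.exp (-τ₀))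
    (hD0 : ∀ t : ℂ, 0 ≤ t.im → t.im ≤ M τ₀ - 2 * Real.exp (-τ₀) → ‖B t - t‖ ≤ D0)
    (hstep : ∀ τ' : ℝ, T₀ ≤ τ' → τ' ≤ τ₀ + J → ∀ t : ℂ, 0 ≤ t.im →
      t.im + w.im ≤ M τ' - 2 * Real.exp (-τ') →
      ‖B (t + w) - B t - w‖ ≤ C * τ' * Real.exp (2 * τ') * ‖w‖ ^ 3) :
    ∀ k : ℕ, k ≤ J → ∀ t : ℂ, 0 ≤ t.im →
      t.im ≤ M (τ₀ + k) - 2 * Real.exp (-(τ₀ + k)) →
      ‖B t - t‖ ≤ D0 + ‖w‖ ^ 2 * (600 * C * S * τ ^ (n + 1) *
        (Real.exp (2 * (τ₀ + k)) / (τ₀ + k) ^ n) +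
        350 * C * ((τ₀ + k) * Real.exp (τ₀ + k))) := by
  have hn1 : (1 : ℝ) ≤ n := by exact_mod_cast hn
  intro k
  induction k with
  | zero =>
    intro _ t h0 h1
    simp only [Nat.cast_zero, add_zero] at h1 ⊢
    have h2 := hD0 t h0 h1
    have hτ₀p : 0 < τ₀ := by linarith
    have hτp : 0 < τ := by linarith [Nat.cast_nonneg (α := ℝ) J]
    have h3 : 0 ≤ ‖w‖ ^ 2 * (600 * C * S * τ ^ (n + 1) * (Real.exp (2 * τ₀) / τ₀ ^ n) +
        350 * C * (τ₀ * Real.exp τ₀)) := by positivity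
    linarith
  | succ k ih =>
    intro hk t h0 h1
    have hkJ : k ≤ J := Nat.le_of_succ_le hk
    have hkJ' : ((k + 1 : ℕ) : ℝ) ≤ J := by exact_mod_cast hk
    have ih' := ih hkJ
    push_cast at h1 hkJ' ⊢
    set s : ℝ := τ₀ + k with hs
    have hk0 : (0 : ℝ) ≤ k := Nat.cast_nonneg k
    have hs1 : (n : ℝ) + 1 ≤ s := by rw [hs]; linarith
    have hsT : T₀ ≤ s := by rw [hs]; linarith
    have hss : τ₀ + ((k : ℝ) + 1) = s + 1 := by rw [hs]; ring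
    rw [hss] at h1 ⊢
    have hsτ : s + 1 ≤ τ := by rw [hs]; linarith
    have hsJ : s + 1 ≤ τ₀ + J := by rw [hs]; linarith
    have hs0 : 0 < s := by linarith
    have hτp : 0 < τ := by linarith
    have e1 : Real.exp (-(s + 1)) ≤ Real.exp (-s) := Real.exp_le_exp.2 (by linarith)
    have hmono : M s ≤ M (s + 1) :=
      hM ⟨hsT, by linarith⟩ ⟨by linarith, hsτ⟩ (by linarith)
    have hHH : M s - 2 * Real.exp (-s) ≤ M (s + 1) - 2 * Real.exp (-(s + 1)) := by linarith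
    have hτ₀s : τ₀ ≤ s := by rw [hs]; linarith
    have hHw' : w.im ≤ M s - 2 * Real.exp (-s) := by
      have h2 : M τ₀ ≤ M s := hM ⟨hτ₀, by linarith⟩ ⟨hsT, by linarith⟩ hτ₀s
      have h3 : Real.exp (-s) ≤ Real.exp (-τ₀) := Real.exp_le_exp.2 (by linarith)
      linarith
    set W : ℝ := ‖w‖ with hW
    have hWpos : 0 < W := by
      have h2 := Complex.abs_im_le_norm w
      rw [abs_of_pos hw] at h2
      linarith
    have ha : 0 ≤ C * (s + 1) * Real.exp (2 * (s + 1)) * W ^ 3 := by positivity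
    have hlev := level hw ha hHw' hHH ih' (hstep (s + 1) (by linarith) hsJ) t h0 h1
    have hnum : (M (s + 1) - 2 * Real.exp (-(s + 1)) - (M s - 2 * Real.exp (-s))) / w.im + 1 ≤
        (40 / W) * (2 * S * τ ^ (n + 1) / s ^ (n + 1) + 2 * Real.exp (-s)) + 1 := by
      have h2 := hrec s (s + 1) hsT (by linarith) hsτ
      have h3 : 2 * S * (τ / s) ^ (n + 1) * (s + 1 - s) =
          2 * S * τ ^ (n + 1) / s ^ (n + 1) := by
        rw [div_pow]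
        have : s + 1 - s = 1 := by ring
        rw [this]; ring
      rw [h3] at h2
      have h4 : M (s + 1) - 2 * Real.exp (-(s + 1)) - (M s - 2 * Real.exp (-s)) ≤
          2 * S * τ ^ (n + 1) / s ^ (n + 1) + 2 * Real.exp (-s) := by
        have := Real.exp_pos (-(s + 1))
        linarith
      have h5 : 0 ≤ 2 * S * τ ^ (n + 1) / s ^ (n + 1) + 2 * Real.exp (-s) := by positivity
      have h6 : 1 / w.im ≤ 40 / W := by
        rw [div_le_div_iff₀ hw hWpos]; linarith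
      calc (M (s + 1) - 2 * Real.exp (-(s + 1)) - (M s - 2 * Real.exp (-s))) / w.im + 1
          ≤ (2 * S * τ ^ (n + 1) / s ^ (n + 1) + 2 * Real.exp (-s)) / w.im + 1 := by gcongr
        _ = (1 / w.im) * (2 * S * τ ^ (n + 1) / s ^ (n + 1) + 2 * Real.exp (-s)) + 1 := by ring
        _ ≤ _ := by gcongr
    have hstep1 := mul_le_mul_of_nonneg_left hnum ha
    have htot := hstep1.trans (num_stepK hn hC hS hs1 hsτ hWpos hwτ)
    have hsum := add_le_add_left htot (D0 + W ^ 2 * (600 * C * S * τ ^ (n + 1) *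
        (Real.exp (2 * s) / s ^ n) + 350 * C * (s * Real.exp s)))
    refine hlev.trans ?_
    refine (le_of_eq ?_).trans (hsum.trans (le_of_eq ?_))
    · ring
    · ring

/-- final numerics -/
theorem numfinK {n : ℕ} {C ε K τ τb S W C6 : ℝ} (hC : 0 ≤ C) (hε : 0 < ε) (hK1 : 1 ≤ K)
    (hKε : 2400 * 2 ^ n * C / K ^ 2 ≤ ε / 2)
    (e1 : τ ^ (n + 2) * Real.exp (-τ) * (1400 * C + 4 * C6) ≤ ε / 2) (e5 : 1 ≤ τ)
    (hτb1 : τ / 2 ≤ τb) (hτb2 : τb ≤ τ) (hτb : τb = τ - Real.log K - Real.log τ / 2)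
    (hS : (τ ^ (n + 1))⁻¹ ≤ S) (hW0 : 0 ≤ W) (hwτ : W ≤ 2 * Real.exp (-τ)) (hC60 : 0 ≤ C6) :
    C6 * W ^ 2 + W ^ 2 * (600 * C * S * τ ^ (n + 1) * (Real.exp (2 * τb) / τb ^ n) +
        350 * C * (τb * Real.exp τb)) ≤ ε * S := by
  have hτ0 : 0 < τ := by linarith
  have hS0 : 0 ≤ S := (by positivity : (0 : ℝ) ≤ (τ ^ (n + 1))⁻¹).trans hS
  have hKpos : 0 < K := by linarith
  have hτbpos : 0 < τb := by linarith
  have hexpb : Real.exp (2 * τb) = Real.exp (2 * τ) / (K ^ 2 * τ) := by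
    have h2 : 2 * τb = 2 * τ - (Real.log K + Real.log K + Real.log τ) := by rw [hτb]; ring
    rw [h2, Real.exp_sub, Real.exp_add, Real.exp_add, Real.exp_log hτ0, Real.exp_log hKpos,
      pow_two]
  have hE := Real.exp_pos (-τ)
  have hWsq : W ^ 2 ≤ 4 * Real.exp (-(2 * τ)) := by
    have h2 : Real.exp (-(2 * τ)) = Real.exp (-τ) * Real.exp (-τ) := by
      rw [← Real.exp_add]; ring_nf
    rw [h2]
    calc W ^ 2 ≤ (2 * Real.exp (-τ)) ^ 2 := by gcongr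
      _ = _ := by ring
  have hee : Real.exp (-(2 * τ)) * Real.exp (2 * τ) = 1 := by
    rw [← Real.exp_add]; simp
  have hα : W ^ 2 * (600 * C * S * τ ^ (n + 1) * (Real.exp (2 * τb) / τb ^ n)) ≤ ε / 2 * S := by
    have h2 : 1 / τb ^ n ≤ 2 ^ n / τ ^ n := by
      rw [div_le_div_iff₀ (by positivity) (by positivity), one_mul, ← mul_pow]
      apply pow_le_pow_left₀ hτ0.le
      linarith
    have h3 : 2400 * C * S * τ ^ (n + 1) * (1 / (K ^ 2 * τ)) * (2 ^ n / τ ^ n) =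
        2400 * 2 ^ n * C / K ^ 2 * S := by
      rw [pow_succ]
      field_simp
    calc W ^ 2 * (600 * C * S * τ ^ (n + 1) * (Real.exp (2 * τb) / τb ^ n))
        ≤ 4 * Real.exp (-(2 * τ)) * (600 * C * S * τ ^ (n + 1) *
            (Real.exp (2 * τb) / τb ^ n)) := by
          gcongr
      _ = 2400 * C * S * τ ^ (n + 1) * (Real.exp (-(2 * τ)) * Real.exp (2 * τb)) *
            (1 / τb ^ n) := by ring
      _ ≤ 2400 * C * S * τ ^ (n + 1) * (Real.exp (-(2 * τ)) * Real.exp (2 * τb)) *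
            (2 ^ n / τ ^ n) := by
          gcongr
      _ = 2400 * C * S * τ ^ (n + 1) * ((Real.exp (-(2 * τ)) * Real.exp (2 * τ)) / (K ^ 2 * τ)) *
          (2 ^ n / τ ^ n) := by
          rw [hexpb, mul_div_assoc (Real.exp (-(2 * τ)))]
      _ = 2400 * C * S * τ ^ (n + 1) * (1 / (K ^ 2 * τ)) * (2 ^ n / τ ^ n) := by
          rw [hee]
      _ = 2400 * 2 ^ n * C / K ^ 2 * S := h3
      _ ≤ ε / 2 * S := by gcongr
  have hβ : W ^ 2 * (350 * C * (τb * Real.exp τb)) ≤ 1400 * C * (τ * Real.exp (-τ)) := by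
    have h2 : Real.exp τb ≤ Real.exp τ := Real.exp_le_exp.2 hτb2
    have h3 : Real.exp (-(2 * τ)) * Real.exp τ = Real.exp (-τ) := by
      rw [← Real.exp_add]; ring_nf
    calc W ^ 2 * (350 * C * (τb * Real.exp τb))
        ≤ 4 * Real.exp (-(2 * τ)) * (350 * C * (τ * Real.exp τ)) := by gcongr
      _ = 1400 * C * (τ * (Real.exp (-(2 * τ)) * Real.exp τ)) := by ring
      _ = _ := by rw [h3]
  have hγ : C6 * W ^ 2 ≤ 4 * C6 * Real.exp (-τ) := by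
    have h2 : Real.exp (-(2 * τ)) ≤ Real.exp (-τ) := Real.exp_le_exp.2 (by linarith)
    have h3 : W ^ 2 ≤ 4 * Real.exp (-τ) := hWsq.trans (by linarith)
    calc C6 * W ^ 2 ≤ C6 * (4 * Real.exp (-τ)) := by gcongr
      _ = _ := by ring
  have hfinal : 1400 * C * (τ * Real.exp (-τ)) + 4 * C6 * Real.exp (-τ) ≤ ε / 2 * S := by
    have h2 : τ * Real.exp (-τ) = τ ^ (n + 2) * Real.exp (-τ) * (τ ^ (n + 1))⁻¹ := by
      have e : τ ^ (n + 2) = τ * τ ^ (n + 1) := by ring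
      rw [e]; field_simp
    have h3 : Real.exp (-τ) ≤ τ * Real.exp (-τ) := by
      calc Real.exp (-τ) = 1 * Real.exp (-τ) := (one_mul _).symm
        _ ≤ τ * Real.exp (-τ) := by gcongr
    calc 1400 * C * (τ * Real.exp (-τ)) + 4 * C6 * Real.exp (-τ)
        ≤ 1400 * C * (τ * Real.exp (-τ)) + 4 * C6 * (τ * Real.exp (-τ)) := by gcongr
      _ = (τ ^ (n + 2) * Real.exp (-τ) * (1400 * C + 4 * C6)) * (τ ^ (n + 1))⁻¹ := by
          rw [h2]; ring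
      _ ≤ ε / 2 * S := by gcongr
  have hdist : C6 * W ^ 2 + W ^ 2 * (600 * C * S * τ ^ (n + 1) * (Real.exp (2 * τb) / τb ^ n) +
        350 * C * (τb * Real.exp τb)) = C6 * W ^ 2 +
        W ^ 2 * (600 * C * S * τ ^ (n + 1) * (Real.exp (2 * τb) / τb ^ n)) +
        W ^ 2 * (350 * C * (τb * Real.exp τb)) := by ring
  rw [hdist]
  linarith

/-- **(ST_k)** the start with records of order `n + 1`. -/
theorem startN {n : ℕ} (hn : 1 ≤ n) {C ε T₀ m₁ : ℝ} (hC : 0 ≤ C) (hε : 0 < ε) (hT₀ : 1 ≤ T₀)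
    (hm : 0 < m₁) :
    ∃ K0 : ℝ, 1 ≤ K0 ∧ ∀ K : ℝ, K0 ≤ K → ∃ T : ℝ, ∀ τ : ℝ, T ≤ τ → ∀ (S : ℝ) (M : ℝ → ℝ),
      (τ ^ (n + 1))⁻¹ ≤ S → MonotoneOn M (Icc T₀ τ) → m₁ ≤ M T₀ →
      (∀ τ' : ℝ, T₀ ≤ τ' → τ' ≤ τ → M τ' ≤ C) →
      (∀ τ'' τ', T₀ ≤ τ'' → τ'' ≤ τ' → τ' ≤ τ →
        M τ' - M τ'' ≤ 2 * S * (τ / τ'') ^ (n + 1) * (τ' - τ'')) →
      ∀ (w : ℂ) (B : ℂ → ℂ), 0 < w.im → ‖w‖ ≤ 40 * w.im → ‖w‖ ≤ 2 * Real.exp (-τ) →
      (∀ t : ℂ, 0 ≤ t.im → t.im ≤ w.im → ‖B t - t‖ ≤ C * ‖w‖ ^ 2) →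
      (∀ τ' : ℝ, T₀ ≤ τ' → τ' ≤ τ - Real.log K - Real.log τ / 2 → ∀ t : ℂ, 0 ≤ t.im →
        t.im + w.im ≤ M τ' - 2 * Real.exp (-τ') →
        ‖B (t + w) - B t - w‖ ≤ C * τ' * Real.exp (2 * τ') * ‖w‖ ^ 3) →
      ∀ t : ℂ, 0 ≤ t.im →
        t.im ≤ M (τ - Real.log K - Real.log τ / 2) -
          2 * Real.exp (-(τ - Real.log K - Real.log τ / 2)) →
        ‖B t - t‖ ≤ ε * S := by
  have hn1 : (1 : ℝ) ≤ n := by exact_mod_cast hn
  -- the base level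
  obtain ⟨T₁, hT₁0, hT₁n, hT₁m⟩ : ∃ T₁ : ℝ, T₀ ≤ T₁ ∧ (n : ℝ) + 1 ≤ T₁ ∧
      2 * Real.exp (-T₁) ≤ m₁ / 2 := by
    refine ⟨max (max T₀ (n + 1)) (-Real.log (m₁ / 4)), le_max_of_le_left (le_max_left _ _),
      le_max_of_le_left (le_max_right _ _), ?_⟩
    have h1 : -(max (max T₀ (n + 1)) (-Real.log (m₁ / 4))) ≤ Real.log (m₁ / 4) := by
      have := le_max_right (max T₀ ((n : ℝ) + 1)) (-Real.log (m₁ / 4))
      linarith
    have h2 := Real.exp_le_exp.2 h1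
    rw [Real.exp_log (by positivity)] at h2
    linarith
  have hT₁1 : 1 ≤ T₁ := by linarith
  refine ⟨max 1 (4800 * 2 ^ n * C / ε), le_max_left _ _, ?_⟩
  intro K hK
  have hK1 : 1 ≤ K := (le_max_left _ _).trans hK
  have hK2 : 4800 * 2 ^ n * C / ε ≤ K := (le_max_right _ _).trans hK
  have hKε : 2400 * 2 ^ n * C / K ^ 2 ≤ ε / 2 := by
    rw [div_le_iff₀ hε] at hK2
    rw [div_le_iff₀ (by positivity)]
    have h1 : K ≤ K ^ 2 := by nlinarith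
    have h2 : K * ε ≤ K ^ 2 * ε := by gcongr
    linarith
  set C6 : ℝ := C + C * (T₁ + 1) * Real.exp (2 * (T₁ + 1)) * (40 * C + 2) with hC6
  have hC60 : 0 ≤ C6 := by positivity
  have hev1 : ∀ᶠ τ : ℝ in atTop, τ ^ (n + 2) * Real.exp (-τ) * (1400 * C + 4 * C6) ≤ ε / 2 := by
    have h := (Real.tendsto_pow_mul_exp_neg_atTop_nhds_zero (n + 2)).mul_const
      (1400 * C + 4 * C6)
    rw [zero_mul] at h
    exact (h.eventually (gt_mem_nhds (half_pos hε))).mono fun _ h => le_of_lt h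
  have hev2 : ∀ᶠ τ : ℝ in atTop, Real.log τ ≤ τ / 4 := by
    have h := Real.isLittleO_log_id_atTop.bound (show (0 : ℝ) < 1 / 4 by norm_num)
    filter_upwards [h, eventually_ge_atTop (0 : ℝ)] with τ h1 h2
    simp only [id_eq, Real.norm_eq_abs, abs_of_nonneg h2] at h1
    exact (le_abs_self _).trans (by linarith)
  have hev3 : ∀ᶠ τ : ℝ in atTop, 2 * Real.exp (-τ) ≤ min (m₁ / 2) 1 := by
    have h : Tendsto (fun τ : ℝ => 2 * Real.exp (-τ)) atTop (𝓝 (2 * 0)) :=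
      (Real.tendsto_exp_neg_atTop_nhds_zero).const_mul 2
    rw [mul_zero] at h
    exact (h.eventually (gt_mem_nhds (lt_min (half_pos hm) one_pos))).mono
      fun _ h => le_of_lt h
  obtain ⟨T, hT⟩ := eventually_atTop.1 (hev1.and (hev2.and ((eventually_ge_atTop
    (4 * Real.log K)).and ((eventually_ge_atTop (2 * (T₁ + 1))).and ((eventually_ge_atTop 1).and
      hev3)))))
  refine ⟨T, ?_⟩
  intro τ hτ S M hS hM hM1 hMC hrec w B hw hw40 hwτ hbase hstep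
  obtain ⟨e1, e2, e3, e4, e5, e6⟩ := hT τ hτ
  have e6a : 2 * Real.exp (-τ) ≤ m₁ / 2 := e6.trans (min_le_left _ _)
  have e6b : 2 * Real.exp (-τ) ≤ 1 := e6.trans (min_le_right _ _)
  have hτ0 : 0 < τ := by linarith
  have hS0 : 0 ≤ S := (by positivity : (0 : ℝ) ≤ (τ ^ (n + 1))⁻¹).trans hS
  set τb : ℝ := τ - Real.log K - Real.log τ / 2 with hτb
  have hlogK : 0 ≤ Real.log K := Real.log_nonneg hK1
  have hlogτ : 0 ≤ Real.log τ := Real.log_nonneg e5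
  have hτb1 : τ / 2 ≤ τb := by rw [hτb]; linarith
  have hτb2 : τb ≤ τ := by rw [hτb]; linarith
  have hτb3 : T₁ + 1 ≤ τb := by linarith
  set J : ℕ := ⌊τb - T₁⌋₊ with hJ
  have hJ1 : (J : ℝ) ≤ τb - T₁ := Nat.floor_le (by linarith)
  have hJ2 : τb - T₁ < J + 1 := Nat.lt_floor_add_one _
  set τ₀ : ℝ := τb - J with hτ₀
  have hτ₀1 : T₁ ≤ τ₀ := by rw [hτ₀]; linarith
  have hτ₀2 : τ₀ ≤ T₁ + 1 := by rw [hτ₀]; linarith
  have hτ₀J : τ₀ + J = τb := by rw [hτ₀]; ring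
  set W : ℝ := ‖w‖ with hW
  have hWpos : 0 < W := by
    have h2 := Complex.abs_im_le_norm w
    rw [abs_of_pos hw] at h2
    linarith
  have hMτ₀ : M T₀ ≤ M τ₀ := hM ⟨le_refl _, by linarith⟩ ⟨by linarith, by linarith⟩ (by linarith)
  have hMτ₀' : M τ₀ ≤ C := hMC τ₀ (by linarith) (by linarith)
  have hwim : w.im ≤ W := by
    have h2 := Complex.abs_im_le_norm w
    rw [abs_of_pos hw] at h2
    exact h2
  have hHw : w.im ≤ M τ₀ - 2 * Real.exp (-τ₀) := by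
    have h1 : Real.exp (-τ₀) ≤ Real.exp (-T₁) := Real.exp_le_exp.2 (by linarith)
    linarith
  have hW1 : W ≤ 1 := by linarith
  have hD0 : ∀ t : ℂ, 0 ≤ t.im → t.im ≤ M τ₀ - 2 * Real.exp (-τ₀) → ‖B t - t‖ ≤ C6 * W ^ 2 := by
    intro t h0 h1
    have ha : 0 ≤ C * τ₀ * Real.exp (2 * τ₀) * W ^ 3 := by
      have : 0 ≤ τ₀ := by linarith
      positivity
    have h2 := level hw ha (le_refl w.im) hHw hbase
      (hstep τ₀ (by linarith) (by linarith [Nat.cast_nonneg (α := ℝ) J])) t h0 h1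
    refine h2.trans ?_
    have h3 : (M τ₀ - 2 * Real.exp (-τ₀) - w.im) / w.im + 1 ≤ (40 / W) * C + 1 := by
      have h4 : M τ₀ - 2 * Real.exp (-τ₀) - w.im ≤ C := by
        have := Real.exp_pos (-τ₀)
        linarith
      have h6 : 1 / w.im ≤ 40 / W := by
        rw [div_le_div_iff₀ hw hWpos]; linarith
      calc (M τ₀ - 2 * Real.exp (-τ₀) - w.im) / w.im + 1 ≤ C / w.im + 1 := by gcongr
        _ = (1 / w.im) * C + 1 := by ring
        _ ≤ _ := by gcongr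
    have h5 : C * τ₀ * Real.exp (2 * τ₀) ≤ C * (T₁ + 1) * Real.exp (2 * (T₁ + 1)) := by
      have h7 : 0 ≤ τ₀ := by linarith
      have h8 : Real.exp (2 * τ₀) ≤ Real.exp (2 * (T₁ + 1)) := Real.exp_le_exp.2 (by linarith)
      gcongr
    calc C * W ^ 2 + C * τ₀ * Real.exp (2 * τ₀) * W ^ 3 *
          ((M τ₀ - 2 * Real.exp (-τ₀) - w.im) / w.im + 1)
        ≤ C * W ^ 2 + C * τ₀ * Real.exp (2 * τ₀) * W ^ 3 * ((40 / W) * C + 1) := by
          have := mul_le_mul_of_nonneg_left h3 ha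
          linarith
      _ = C * W ^ 2 + C * τ₀ * Real.exp (2 * τ₀) * (W ^ 2 * (40 * C + W)) := by
          field_simp
      _ ≤ C * W ^ 2 + C * (T₁ + 1) * Real.exp (2 * (T₁ + 1)) * (W ^ 2 * (40 * C + 2)) := by
          have h7 : 0 ≤ W ^ 2 * (40 * C + W) := by positivity
          have h8 : W ^ 2 * (40 * C + W) ≤ W ^ 2 * (40 * C + 2) := by
            gcongr
            linarith
          have h9 : 0 ≤ C * (T₁ + 1) * Real.exp (2 * (T₁ + 1)) := by positivity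
          have h10 := mul_le_mul h5 h8 h7 h9
          linarith
      _ = C6 * W ^ 2 := by rw [hC6]; ring
  have hlev := levelsK hn hw hw40 hC hS0 hT₁n hτ₀1 J (by rw [hτ₀J]; exact hτb2) hwτ
    (hM.mono (Icc_subset_Icc hT₁0 le_rfl))
    (fun τ'' τ' h1 h2 h3 => hrec τ'' τ' (by linarith) h2 h3) hHw hD0
    (fun τ' h1 h2 => hstep τ' (by linarith) (by rw [hτ₀J] at h2; exact h2)) J le_rfl
  intro t h0 h1
  rw [← hτ₀J] at h1
  have hres := hlev t h0 h1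
  rw [hτ₀J] at hres
  refine hres.trans ?_
  exact numfinK hC hε hK1 hKε e1 e5 hτb1 hτb2 hτb hS hWpos.le hwτ hC60

/-- **(ST_k)**, `k ≥ 2`. -/
theorem startK {k : ℕ} (hk : 2 ≤ k) {C ε T₀ m₁ : ℝ} (hC : 0 ≤ C) (hε : 0 < ε) (hT₀ : 1 ≤ T₀)
    (hm : 0 < m₁) :
    ∃ K0 : ℝ, 1 ≤ K0 ∧ ∀ K : ℝ, K0 ≤ K → ∃ T : ℝ, ∀ τ : ℝ, T ≤ τ → ∀ (S : ℝ) (M : ℝ → ℝ),
      (τ ^ k)⁻¹ ≤ S → MonotoneOn M (Icc T₀ τ) → m₁ ≤ M T₀ →
      (∀ τ' : ℝ, T₀ ≤ τ' → τ' ≤ τ → M τ' ≤ C) →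
      (∀ τ'' τ', T₀ ≤ τ'' → τ'' ≤ τ' → τ' ≤ τ →
        M τ' - M τ'' ≤ 2 * S * (τ / τ'') ^ k * (τ' - τ'')) →
      ∀ (w : ℂ) (B : ℂ → ℂ), 0 < w.im → ‖w‖ ≤ 40 * w.im → ‖w‖ ≤ 2 * Real.exp (-τ) →
      (∀ t : ℂ, 0 ≤ t.im → t.im ≤ w.im → ‖B t - t‖ ≤ C * ‖w‖ ^ 2) →
      (∀ τ' : ℝ, T₀ ≤ τ' → τ' ≤ τ - Real.log K - Real.log τ / 2 → ∀ t : ℂ, 0 ≤ t.im →
        t.im + w.im ≤ M τ' - 2 * Real.exp (-τ') →
        ‖B (t + w) - B t - w‖ ≤ C * τ' * Real.exp (2 * τ') * ‖w‖ ^ 3) →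
      ∀ t : ℂ, 0 ≤ t.im →
        t.im ≤ M (τ - Real.log K - Real.log τ / 2) -
          2 * Real.exp (-(τ - Real.log K - Real.log τ / 2)) →
        ‖B t - t‖ ≤ ε * S := by
  obtain ⟨n, rfl⟩ : ∃ n, k = n + 1 := ⟨k - 1, by omega⟩
  exact startN (by omega) hC hε hT₀ hm

end Crest.Agent.R102.StartK486
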