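import Crest.Agent.R102.Form_821

/-!
Row 102, part (B) (helper821): the formal start of the Newton scheme (B6).
-/

set_option autoImplicit false

open Set Filter Topology Metric Complex MeasureTheory
open scoped Real ContDiff ComplexConjugate

noncomputable section

namespace Crest.Agent.R102.B821

open Crest.Agent.R266.SCV

variable {ρ₀ ε₀ k ρ r d A B : ℝ} {L Ψ U f g : ℂ × ℂ → ℂ} {M : ℕ}

section Quad

/-- quadratic remainder of the Euler-Lagrange function with the gain `W^2` -/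
lemma EL_quad (hL : IsLag ρ₀ ε₀ L Ψ) {K ε₂ δ : ℝ} (hK : 0 < K) (hε₀ : ε₂ ≤ ε₀)
    (hε1 : ε₂ ≤ 1) (hδ : δ = min (ρ₀ / 32) 1)
    (hb1 : ∀ x y : ℂ, (x, y) ∈ Dg (13 / 16 * ρ₀) ε₂ → ‖q1 L (x, y) + (y - x) ^ 2 / 2‖ ≤ K * ‖y - x‖ ^ 4)
    (hb2 : ∀ x y : ℂ, (x, y) ∈ Dg (13 / 16 * ρ₀) ε₂ → ‖q2 L (x, y) - (y - x) ^ 2 / 2‖ ≤ K * ‖y - x‖ ^ 4)
    {x y z x' y' z' : ℂ} {W μ : ℝ} (hW : 0 < W) (hWε : 8 * W ≤ ε₂)
    (hx : |x.im| < 3 / 4 * ρ₀) (hy : |y.im| < 3 / 4 * ρ₀) (hz : |z.im| < 3 / 4 * ρ₀)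
    (hxy : ‖y - x‖ ≤ 2 * W) (hyz : ‖z - y‖ ≤ 2 * W)
    (hx' : ‖x'‖ ≤ μ) (hy' : ‖y'‖ ≤ μ) (hz' : ‖z'‖ ≤ μ)
    (hxy' : ‖y' - x'‖ ≤ 2 * W * μ) (hyz' : ‖z' - y'‖ ≤ 2 * W * μ) (hμ : 2 * μ ≤ δ) :
    ‖EL L (x + x') (y + y') (z + z') - EL L x y z - dEL L x y z x' y' z'‖ ≤
      192 * (K + 1) / δ ^ 2 * (W ^ 2 * μ ^ 2) := by
  have hρ := hL.ρ_pos
  have hμ0 : 0 ≤ μ := (norm_nonneg _).trans hx'
  have hδ0 : 0 < δ := by rw [hδ]; exact lt_min (by positivity) one_pos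
  have hδ1 : δ ≤ ρ₀ / 32 := by rw [hδ]; exact min_le_left _ _
  have hδ2 : δ ≤ 1 := by rw [hδ]; exact min_le_right _ _
  rcases eq_or_lt_of_le hμ0 with hμz | hμp
  · rw [← hμz] at hx' hy' hz'
    have e1 := norm_le_zero_iff.1 hx'
    have e2 := norm_le_zero_iff.1 hy'
    have e3 := norm_le_zero_iff.1 hz'
    rw [e1, e2, e3, ← hμz]
    simp [dEL]
  set R : ℝ := δ / μ with hR
  have hR2 : 2 ≤ R := by rw [hR, le_div_iff₀ hμp]; exact hμ
  have hstep : ∀ (a b a' b' s : ℂ), s ∈ ball (0 : ℂ) R → |a.im| < 3 / 4 * ρ₀ → |b.im| < 3 / 4 * ρ₀ →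
      ‖b - a‖ ≤ 2 * W → ‖a'‖ ≤ μ → ‖b'‖ ≤ μ → ‖b' - a'‖ ≤ 2 * W * μ →
      (a + s * a', b + s * b') ∈ Dg (13 / 16 * ρ₀) ε₂ ∧ ‖(b + s * b') - (a + s * a')‖ ≤ 4 * W := by
    intro a b a' b' s hs ha hb hab ha' hb' hab'
    rw [mem_ball_zero_iff, hR, lt_div_iff₀ hμp] at hs
    have i1 : ‖s * a'‖ < δ := by
      rw [norm_mul]
      exact (mul_le_mul_of_nonneg_left ha' (norm_nonneg _)).trans_lt hs
    have i2 : ‖s * b'‖ < δ := by
      rw [norm_mul]
      exact (mul_le_mul_of_nonneg_left hb' (norm_nonneg _)).trans_lt hs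
    have i3 : ‖(b + s * b') - (a + s * a')‖ ≤ 4 * W := by
      have e : (b + s * b') - (a + s * a') = (b - a) + s * (b' - a') := by ring
      rw [e]
      refine (norm_add_le _ _).trans ?_
      have : ‖s * (b' - a')‖ ≤ 2 * W := by
        rw [norm_mul]
        calc ‖s‖ * ‖b' - a'‖ ≤ ‖s‖ * (2 * W * μ) := mul_le_mul_of_nonneg_left hab' (norm_nonneg _)
          _ = 2 * W * (‖s‖ * μ) := by ring
          _ ≤ 2 * W * 1 := mul_le_mul_of_nonneg_left (hs.le.trans hδ2) (by positivity)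
          _ = 2 * W := mul_one _
      linarith
    refine ⟨⟨?_, ?_, ?_⟩, i3⟩
    · have j1 := Complex.abs_im_le_norm (s * a')
      have j2 := abs_add_le a.im (s * a').im
      simp only [Complex.add_im]
      linarith
    · have j1 := Complex.abs_im_le_norm (s * b')
      have j2 := abs_add_le b.im (s * b').im
      simp only [Complex.add_im]
      linarith
    · simp only
      linarith
  have hsq : ∀ p : ℂ × ℂ, p ∈ Dg (13 / 16 * ρ₀) ε₂ → ‖p.2 - p.1‖ ≤ 4 * W →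
      ‖q1 L p‖ ≤ 16 * (K + 1) * W ^ 2 ∧ ‖q2 L p‖ ≤ 16 * (K + 1) * W ^ 2 := by
    intro p hp hn
    obtain ⟨a, b⟩ := p
    simp only at hn
    have h1 := hb1 a b hp
    have h2 := hb2 a b hp
    have h3 : ‖b - a‖ < ε₂ := hp.2.2
    set D := ‖b - a‖ with hD
    have hD0 : 0 ≤ D := norm_nonneg _
    have e1 : ‖(b - a) ^ 2 / 2‖ = D ^ 2 / 2 := by
      rw [norm_div, norm_pow]
      have : ‖(2 : ℂ)‖ = 2 := by simp
      rw [this]
    have hD4 : K * D ^ 4 ≤ K * D ^ 2 := by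
      refine mul_le_mul_of_nonneg_left ?_ hK.le
      exact pow_le_pow_of_le_one hD0 (by linarith) (by norm_num)
    have hDW : D ^ 2 ≤ 16 * W ^ 2 := by
      calc D ^ 2 ≤ (4 * W) ^ 2 := pow_le_pow_left₀ hD0 hn 2
        _ = 16 * W ^ 2 := by ring
    have hfin : K * D ^ 4 + D ^ 2 / 2 ≤ 16 * (K + 1) * W ^ 2 := by
      have : (K + 1) * D ^ 2 ≤ (K + 1) * (16 * W ^ 2) :=
        mul_le_mul_of_nonneg_left hDW (by positivity)
      nlinarith [sq_nonneg D]
    constructor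
    · have i1 := norm_sub_le (q1 L (a, b) + (b - a) ^ 2 / 2) ((b - a) ^ 2 / 2)
      rw [add_sub_cancel_right, e1] at i1
      linarith
    · have i1 := norm_add_le (q2 L (a, b) - (b - a) ^ 2 / 2) ((b - a) ^ 2 / 2)
      rw [sub_add_cancel, e1] at i1
      linarith
  have hDgsub : Dg (13 / 16 * ρ₀) ε₂ ⊆ Dg ρ₀ ε₀ := Dg_mono (by linarith) hε₀
  set φ : ℂ → ℂ := fun s => EL L (x + s * x') (y + s * y') (z + s * z') with hφ
  have hlin : ∀ a a' s : ℂ, HasDerivAt (fun s : ℂ => a + s * a') a' s := by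
    intro a a' s
    simpa using ((hasDerivAt_id s).mul_const a').const_add a
  have hφd : ∀ s ∈ ball (0 : ℂ) R, HasDerivAt φ
      (dEL L (x + s * x') (y + s * y') (z + s * z') x' y' z') s := by
    intro s hs
    exact hL.hasDerivAt_EL (x := fun s => x + s * x') (y := fun s => y + s * y')
      (z := fun s => z + s * z')
      (hDgsub (hstep x y x' y' s hs hx hy hxy hx' hy' hxy').1)
      (hDgsub (hstep y z y' z' s hs hy hz hyz hy' hz' hyz').1) (hlin _ _ _) (hlin _ _ _) (hlin _ _ _)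
  have hφb : ∀ s ∈ ball (0 : ℂ) R, ‖φ s‖ ≤ 32 * (K + 1) * W ^ 2 := by
    intro s hs
    have h1 := hstep x y x' y' s hs hx hy hxy hx' hy' hxy'
    have h2 := hstep y z y' z' s hs hy hz hyz hy' hz' hyz'
    have h3 := (hsq _ h1.1 h1.2).2
    have h4 := (hsq _ h2.1 h2.2).1
    refine (norm_add_le _ _).trans ?_
    linarith
  have h1 := taylor_one hR2 (fun s hs => (hφd s hs).differentiableAt.differentiableWithinAt) hφb
  rw [(hφd 0 (mem_ball_self (by linarith))).deriv] at h1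
  simp only [hφ, one_mul, zero_mul, add_zero] at h1
  refine h1.trans (le_of_eq ?_)
  rw [hR]
  field_simp
  ring

end Quad

section AdmB

lemma Adm.mono {ρ' r' : ℝ} (h : Adm ρ₀ ε₀ ρ r U) (hρ : ρ' ≤ ρ) (hr : r' ≤ r) (hρ0 : 0 < ρ')
    (hr0 : 0 < r') (h8 : 8 * r' ≤ ρ') : Adm ρ₀ ε₀ ρ' r' U where
  ρ_pos := hρ0
  ρ_le := hρ.trans h.ρ_le
  r_pos := hr0
  r_le := hr.trans h.r_le
  r_le_ρ := h8
  r_le_ε := by linarith [h.r_le_ε]
  hU := h.hU.mono le_rfl hρ hr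
  U_bd := fun p hp => h.U_bd p (Dom_mono le_rfl hρ hr hp)
  Ut_bd := fun p hp => h.Ut_bd p (Dom_mono le_rfl hρ hr hp)
  Uw_bd := fun p hp => h.Uw_bd p (Dom_mono le_rfl hρ hr hp)
  re := h.re.mono le_rfl hρ hr
  par := h.par.mono le_rfl hρ hr

/-- functions which are `O(w^2)` are admissible on small domains -/
lemma adm_of_bdd (hL : IsLag ρ₀ ε₀ L Ψ) (hU : IsH (1 / 2) ρ r U) (hB : 0 ≤ B)
    (hb : Bdd (1 / 2) ρ r 2 B U) (hre : IsRe (1 / 2) ρ r U) (hpar : IsPar (1 / 2) ρ r 1 U)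
    (hρ : 0 < ρ) (hρ₀ : ρ ≤ ρ₀ / 2) (hr : 0 < r) (hr1 : r ≤ 1) :
    ∃ r₁ : ℝ, 0 < r₁ ∧ r₁ ≤ r ∧ ∀ r' : ℝ, 0 < r' → r' ≤ r₁ →
      AdmS ρ₀ ε₀ (ρ / 2) r' (min (ρ₀ / 16) (1 / 200)) U := by
  have hρ₀p := hL.ρ_pos
  have hε := hL.ε_pos
  set d : ℝ := min (r / 2) (min ρ 1) with hd
  have hd0 : 0 < d := lt_min (by positivity) (lt_min hρ one_pos)
  have hd1 : d ≤ 1 := (min_le_right _ _).trans (min_le_right _ _)
  have hdr : d ≤ r / 2 := min_le_left _ _
  have hdρ : d ≤ ρ := (min_le_right _ _).trans (min_le_left _ _)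
  have h1 : Bdd (1 / 2) (ρ - ρ / 2) r 2 (B / (ρ / 2)) (q1 U) := hb.q1 hU (by positivity)
  have h2 : Bdd (1 / 2) (ρ - 1 / 2 * d) (r - d) 1 (2 ^ (1 + 1) * B / d) (q2 U) :=
    Bdd.q2 (by norm_num) hr1 hB hU hb hd0 hd1
  set B1 : ℝ := B / (ρ / 2) with hB1
  set B2 : ℝ := 2 ^ (1 + 1) * B / d with hB2
  have hB10 : 0 ≤ B1 := by positivity
  have hB20 : 0 ≤ B2 := by positivity
  have hρ16 : 0 < ρ₀ / 16 := by positivity
  set r₁ : ℝ := min (r / 2) (min (ρ / 16) (min (ε₀ / 4) (min ((ρ₀ / 16) / (B + 1))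
    (min ((1 / 200) / (B1 + 1)) ((1 / 200) / (B2 + 1)))))) with hr₁
  have c1 : r₁ ≤ r / 2 := min_le_left _ _
  have c2 : r₁ ≤ ρ / 16 := (min_le_right _ _).trans (min_le_left _ _)
  have c3 : r₁ ≤ ε₀ / 4 := (min_le_right _ _).trans ((min_le_right _ _).trans (min_le_left _ _))
  have c4 : r₁ ≤ (ρ₀ / 16) / (B + 1) :=
    (min_le_right _ _).trans ((min_le_right _ _).trans ((min_le_right _ _).trans (min_le_left _ _)))
  have c5 : r₁ ≤ (1 / 200) / (B1 + 1) :=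
    (min_le_right _ _).trans ((min_le_right _ _).trans ((min_le_right _ _).trans
      ((min_le_right _ _).trans (min_le_left _ _))))
  have c6 : r₁ ≤ (1 / 200) / (B2 + 1) :=
    (min_le_right _ _).trans ((min_le_right _ _).trans ((min_le_right _ _).trans
      ((min_le_right _ _).trans (min_le_right _ _))))
  have hpos : 0 < r₁ := by
    refine lt_min (by positivity) (lt_min (by positivity) (lt_min (by positivity)
      (lt_min (by positivity) (lt_min (by positivity) (by positivity)))))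
  refine ⟨r₁, hpos, by linarith, ?_⟩
  intro r' hr' hr'1
  have g4 : B * r' ≤ ρ₀ / 16 := by
    have : r' * (B + 1) ≤ ρ₀ / 16 := by
      rw [← le_div_iff₀ (by positivity)]; exact hr'1.trans c4
    nlinarith
  have g5 : B1 * r' ≤ 1 / 200 := by
    have : r' * (B1 + 1) ≤ 1 / 200 := by
      rw [← le_div_iff₀ (by positivity)]; exact hr'1.trans c5
    nlinarith
  have g6 : B2 * r' ≤ 1 / 200 := by
    have : r' * (B2 + 1) ≤ 1 / 200 := by
      rw [← le_div_iff₀ (by positivity)]; exact hr'1.trans c6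
    nlinarith
  have hr'r : r' ≤ r / 2 := hr'1.trans c1
  have hr'1' : r' ≤ 1 := by linarith
  have sub1 : Dom (1 / 2) (ρ / 2) r' ⊆ Dom (1 / 2) ρ r :=
    Dom_mono le_rfl (by linarith) (by linarith)
  have m1 : min (ρ₀ / 16) (1 / 200) ≤ ρ₀ / 16 := min_le_left _ _
  have m2 : min (ρ₀ / 16) (1 / 200) ≤ 1 / 200 := min_le_right _ _
  have m0 : 0 < min (ρ₀ / 16) (1 / 200) := lt_min (by positivity) (by norm_num)
  have a1 : ∀ p ∈ Dom (1 / 2) (ρ / 2) r', ‖U p‖ ≤ ρ₀ / 8 - min (ρ₀ / 16) (1 / 200) := by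
    intro p hp
    have e1 := hb p (sub1 hp)
    have e2 : ‖p.2‖ < r' := hp.2
    have e3 : ‖p.2‖ ^ 2 ≤ r' := by
      have := norm_nonneg p.2
      nlinarith
    have e4 : B * ‖p.2‖ ^ 2 ≤ B * r' := mul_le_mul_of_nonneg_left e3 hB
    linarith
  have a2 : ∀ p ∈ Dom (1 / 2) (ρ / 2) r', ‖q1 U p‖ ≤ 1 / 100 - min (ρ₀ / 16) (1 / 200) := by
    intro p hp
    have e1 := h1 p (Dom_mono le_rfl (by linarith) (by linarith) hp)
    have e2 : ‖p.2‖ < r' := hp.2
    have e3 : ‖p.2‖ ^ 2 ≤ r' := by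
      have := norm_nonneg p.2
      nlinarith
    have e4 : B1 * ‖p.2‖ ^ 2 ≤ B1 * r' := mul_le_mul_of_nonneg_left e3 hB10
    linarith
  have a3 : ∀ p ∈ Dom (1 / 2) (ρ / 2) r', ‖q2 U p‖ ≤ 1 / 100 - min (ρ₀ / 16) (1 / 200) := by
    intro p hp
    have e1 := h2 p (Dom_mono le_rfl (by linarith) (by linarith) hp)
    have e2 : ‖p.2‖ < r' := hp.2
    rw [pow_one] at e1
    have e4 : B2 * ‖p.2‖ ≤ B2 * r' := mul_le_mul_of_nonneg_left e2.le hB20
    linarith
  refine ⟨?_, a1, a2, a3⟩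
  exact { ρ_pos := by positivity, ρ_le := by linarith, r_pos := hr', r_le := hr'1',
          r_le_ρ := by linarith [hr'1.trans c2], r_le_ε := by linarith [hr'1.trans c3],
          hU := hU.mono le_rfl (by linarith) (by linarith),
          U_bd := fun p hp => (a1 p hp).trans (by linarith),
          Ut_bd := fun p hp => (a2 p hp).trans (by linarith),
          Uw_bd := fun p hp => (a3 p hp).trans (by linarith),
          re := hre.mono le_rfl (by linarith) (by linarith),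
          par := hpar.mono le_rfl (by linarith) (by linarith) }

/-- `U = 0` is a start of order 5 -/
lemma start_zero (hL : IsLag ρ₀ ε₀ L Ψ) :
    ∃ ρ r A : ℝ, Adm ρ₀ ε₀ ρ r (fun _ => 0) ∧ Bdd (3 / 2) ρ r 5 A (Pf L (fun _ => 0)) := by
  obtain ⟨K, ε₂, hK, hε₂, hε₀, hερ, hε1, hb1, hb2, -⟩ := hL.exists_bounds2
  have hρ₀ := hL.ρ_pos
  set ρ : ℝ := ρ₀ / 2 with hρ
  set r : ℝ := ε₂ / 8 with hr
  have hfd : ∀ p : ℂ × ℂ, fderiv ℂ (fun _ : ℂ × ℂ => (0 : ℂ)) p = 0 := fun p => by simp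
  have hadm : Adm ρ₀ ε₀ ρ r (fun _ => 0) := by
    refine { ρ_pos := by positivity, ρ_le := le_rfl, r_pos := by positivity,
             r_le := by linarith, r_le_ρ := by linarith, r_le_ε := by linarith,
             hU := IsH.const 0, U_bd := ?_, Ut_bd := ?_, Uw_bd := ?_, re := ?_, par := ?_ }
    · intro p _; simp; positivity
    · intro p _; unfold q1; rw [hfd]; simp
    · intro p _; unfold q2; rw [hfd]; simp
    · intro p _; unfold cj; simp
    · intro p _; unfold rf; simp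
  have hP4 : Bdd (3 / 2) ρ r (2 * 2) (2 * K) (Pf L (fun _ => 0)) := by
    rintro ⟨t, w⟩ hp
    have hp1 : |t.im| + 3 / 2 * |w.im| < ρ := hp.1
    have hw : ‖w‖ < r := hp.2
    have hwim := abs_nonneg w.im
    have e1 : Pf L (fun _ => 0) (t, w) = q2 L (t - w, t) + q1 L (t, t + w) := by
      unfold Pf Ef EL Xt q1 tr Xf
      rw [hfd]
      simp only [zero_apply, add_zero, one_mul]
      congr 3
      · push_cast; ring
      · push_cast; ring
    have m1 : (t - w, t) ∈ Dg (13 / 16 * ρ₀) ε₂ := by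
      refine ⟨?_, ?_, ?_⟩
      · have := abs_sub t.im w.im
        simp only [Complex.sub_im]
        linarith
      · simp only; linarith
      · simp only
        have : t - (t - w) = w := by ring
        rw [this]; linarith
    have m2 : (t, t + w) ∈ Dg (13 / 16 * ρ₀) ε₂ := by
      refine ⟨?_, ?_, ?_⟩
      · simp only; linarith
      · have := abs_add_le t.im w.im
        simp only [Complex.add_im]
        linarith
      · simp only
        have : t + w - t = w := by ring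
        rw [this]; linarith
    have h1 := hb2 _ _ m1
    have h2 := hb1 _ _ m2
    have e2 : t - (t - w) = w := by ring
    have e3 : t + w - t = w := by ring
    rw [e2] at h1
    rw [e3] at h2
    have e4 : q2 L (t - w, t) + q1 L (t, t + w) =
      (q2 L (t - w, t) - w ^ 2 / 2) + (q1 L (t, t + w) + w ^ 2 / 2) := by ring
    rw [e1, e4]
    refine (norm_add_le _ _).trans ((add_le_add h1 h2).trans (le_of_eq ?_))
    simp only
    ring
  have hρp : 0 < ρ := by positivity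
  have hrp : 0 < r := by positivity
  have h8 := hadm.r_le_ρ
  obtain ⟨A', -, hA'⟩ := (hadm.hPf hL).gain_par (by norm_num) (hadm.Pf_par hL) 2 hP4
    (ρ' := ρ / 2) (r' := r / 2) (by linarith) (by linarith)
  exact ⟨ρ / 2, r / 2, A', hadm.mono (by linarith) (by linarith) (by linarith) (by linarith)
    (by linarith), hA'⟩

/-- `α(t, 0) = -1` -/
lemma Adm.alpha_zero (hL : IsLag ρ₀ ε₀ L Ψ) (h : Adm ρ₀ ε₀ ρ r U) (hb : Bdd (1 / 2) ρ r 2 B U)
    {K ε₂ : ℝ} (hK : 0 < K) (h2r : 2 * r ≤ ε₂)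
    (hb3 : ∀ x y : ℂ, (x, y) ∈ Dg (3 / 4 * ρ₀) ε₂ → x ≠ y →
        ‖q2 (q1 L) (x, y) + (y - x)‖ ≤ K * ‖y - x‖ ^ 3)
    {α : ℂ × ℂ → ℂ} (hα : IsH 1 ρ r α) (hαe : ∀ p ∈ Dom 1 ρ r, af L U p = p.2 * α p) :
    ∀ t : ℂ, (t, 0) ∈ Dom 1 ρ r → α (t, 0) = -1 := by
  have hU0 : ∀ s : ℂ, (s, 0) ∈ Dom (1 / 2) ρ r → U (s, 0) = 0 := by
    intro s hs
    have := hb _ hs
    simp only [norm_zero] at this
    rw [zero_pow (by norm_num), mul_zero] at this
    exact norm_le_zero_iff.1 this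
  have hUt0 : ∀ t : ℂ, (t, 0) ∈ Dom (1 / 2) ρ r → q1 U (t, 0) = 0 := by
    intro t ht
    have h1 := hasDerivAt_fst (h.hU.differentiableAt ht)
    have h2 : (fun s => U (s, 0)) =ᶠ[𝓝 t] (fun _ => (0 : ℂ)) := by
      have hcont : Continuous (fun s : ℂ => (s, (0 : ℂ))) := by fun_prop
      filter_upwards [hcont.continuousAt.preimage_mem_nhds
        ((isOpen_Dom (1 / 2) ρ r).mem_nhds ht)] with s hs
      exact hU0 s hs
    exact (h1.congr_of_eventuallyEq h2.symm).unique (hasDerivAt_const t 0)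
  obtain ⟨κ, hκ, hκe, hκ0⟩ := h.hU.exists_del_div (by norm_num)
  obtain ⟨κ', -, hκ'b, hκ'e⟩ := h.exists_kappa
  have e1 : (1 / 2 : ℝ) + 1 / 2 = 1 := by norm_num
  rw [e1] at hκ hκe hκ0
  have hTm : IsH 1 ρ r (tr (-(1 / 2)) (Xt U)) := by
    have := h.hXt.tr (-(1 / 2))
    rw [abs_neg, show |(1 / 2 : ℝ)| = 1 / 2 by norm_num, e1] at this
    exact this
  have hTp : IsH 1 ρ r (tr (1 / 2) (Xt U)) := by
    have := h.hXt.tr (1 / 2)
    rw [show |(1 / 2 : ℝ)| = 1 / 2 by norm_num, e1] at this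
    exact this
  set G : ℂ × ℂ → ℂ := fun p => α p + (1 + κ p) * (tr (-(1 / 2)) (Xt U) p * tr (1 / 2) (Xt U) p) with hG
  have hGH : IsH 1 ρ r G := hα.add (((IsH.const 1).add hκ).mul (hTm.mul hTp))
  have hXtb : ∀ p ∈ Dom (1 / 2) ρ r, ‖Xt U p‖ ≤ 101 / 100 := by
    intro p hp
    have := norm_add_le (1 : ℂ) (q1 U p)
    have h1 := h.Ut_bd p hp
    rw [norm_one] at this
    unfold Xt
    linarith
  have hGb : Bdd 1 ρ r 2 (2 * K) G := by
    refine bdd_of_ne (by norm_num) hGH.continuousOn (fun t w hp hw => ?_)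
    have hwp : 0 < ‖w‖ := norm_pos_iff.2 hw
    have hwr : ‖w‖ < r := hp.2
    have m1 : (t + ((1 / 2 : ℝ) : ℂ) * w, w) ∈ Dom (1 / 2) ρ r :=
      tr_mem_half (1 / 2) (by norm_num) hp
    have m2 : (t + ((-(1 / 2) : ℝ) : ℂ) * w, w) ∈ Dom (1 / 2) ρ r :=
      tr_mem_half (-(1 / 2)) (by rw [abs_neg]; norm_num) hp
    have hpair := h.pair_half hL hp
    have hpair' := h.pair_tr (c₁ := -(1 / 2)) (c₂ := 1 / 2) (k := 1) (by rw [abs_neg]; norm_num)
      (by norm_num) (by norm_num) hp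
    set x := tr (-(1 / 2)) (Xf U) (t, w) with hx
    set y := tr (1 / 2) (Xf U) (t, w) with hy
    have hD : y - x = w + del U (t, w) := by
      simp only [hx, hy]
      unfold tr Xf del tr
      simp only
      push_cast
      ring
    have hdU : ‖del U (t, w)‖ ≤ 1 / 100 * ‖w‖ := by
      rw [hκ'e _ hp, norm_mul, mul_comm]
      exact mul_le_mul_of_nonneg_right (hκ'b _ hp) (norm_nonneg _)
    have hDle : ‖y - x‖ ≤ 101 / 100 * ‖w‖ := by
      rw [hD]
      have := norm_add_le w (del U (t, w))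
      linarith
    have hDge : 99 / 100 * ‖w‖ ≤ ‖y - x‖ := by
      rw [hD]
      have := norm_sub_le (w + del U (t, w)) (del U (t, w))
      rw [add_sub_cancel_right] at this
      linarith
    have hne : x ≠ y := by
      intro hxy
      rw [hxy, sub_self, norm_zero] at hDge
      linarith
    have h12 := hb3 x y ⟨hpair'.1, hpair'.2.1, by simp only; linarith⟩ hne
    have e2 : w * G (t, w) = (q2 (q1 L) (x, y) + (y - x)) *
        (tr (-(1 / 2)) (Xt U) (t, w) * tr (1 / 2) (Xt U) (t, w)) := by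
      have h3 := hαe _ hp
      have h4 : af L U (t, w) = q2 (q1 L) (x, y) * (tr (-(1 / 2)) (Xt U) (t, w) *
        tr (1 / 2) (Xt U) (t, w)) := rfl
      simp only at h3
      have h5 := hκe _ _ hp
      rw [hD, h5]
      simp only [hG]
      linear_combination -h3 + h4
    have h6 : ‖w‖ * ‖G (t, w)‖ ≤ K * ‖y - x‖ ^ 3 * (101 / 100 * (101 / 100)) := by
      rw [← norm_mul, e2, norm_mul, norm_mul]
      exact mul_le_mul h12 (mul_le_mul (hXtb _ m2) (hXtb _ m1) (norm_nonneg _) (by norm_num))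
        (by positivity) (by positivity)
    have h7 : K * ‖y - x‖ ^ 3 * (101 / 100 * (101 / 100)) ≤ ‖w‖ * (2 * K * ‖w‖ ^ 2) := by
      have h8 : ‖y - x‖ ^ 3 ≤ (101 / 100 * ‖w‖) ^ 3 := pow_le_pow_left₀ (norm_nonneg _) hDle 3
      calc K * ‖y - x‖ ^ 3 * (101 / 100 * (101 / 100))
          ≤ K * (101 / 100 * ‖w‖) ^ 3 * (101 / 100 * (101 / 100)) := by gcongr
        _ = (101 / 100) ^ 5 * (K * ‖w‖ ^ 3) := by ring
        _ ≤ 2 * (K * ‖w‖ ^ 3) := by
            refine mul_le_mul_of_nonneg_right (by norm_num) (by positivity)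
        _ = ‖w‖ * (2 * K * ‖w‖ ^ 2) := by ring
    exact le_of_mul_le_mul_left (h6.trans h7) hwp
  intro t ht
  have ht2 : (t, 0) ∈ Dom (1 / 2) ρ r := Dom_mono (by norm_num) le_rfl le_rfl ht
  have h1 := hGb _ ht
  simp only [norm_zero] at h1
  rw [zero_pow (by norm_num), mul_zero] at h1
  have h2 := norm_le_zero_iff.1 h1
  simp only [hG] at h2
  have h3 : tr (-(1 / 2)) (Xt U) (t, 0) = 1 := by
    unfold tr Xt
    simp only [mul_zero, add_zero]
    rw [hUt0 t ht2, add_zero]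
  have h4 : tr (1 / 2) (Xt U) (t, 0) = 1 := by
    unfold tr Xt
    simp only [mul_zero, add_zero]
    rw [hUt0 t ht2, add_zero]
  rw [h3, h4, hκ0 t ht, hUt0 t ht2] at h2
  linear_combination h2

end AdmB

end Crest.Agent.R102.B821
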