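import Crest.Agent.R102.Refl_812
import Crest.Agent.R102.HartR_948

/-!
Row 102, T1-B, step 6 of R1_523 (helper559): **reflection + Hartogs across the face**.

`B (t, w)` holomorphic below the moving height `Im t < V w` of a window, `|Im B| ≤ m`, `Im B < h`,
and for real `u ∈ F` the vertical limits of `Im B (·, u)` on `Im t = V u` are `h` for a.e. `x`.
Then for a.e. `u ∈ F`, at every `x` of the window, `B` has a jointly analytic extension to a full
neighbourhood of `(x + i V u, u)`, with `Im = h` on the face over `w = u` and `∂_t ≠ 0`.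
-/

set_option autoImplicit false

open Set Filter Topology Metric MeasureTheory Complex
open scoped Real ComplexConjugate

noncomputable section

namespace Crest.Agent.R102.Step6559

/-- window below the height `V`, above the level `b` -/
def Lw (W : Set ℂ) (c a b : ℝ) (V : ℂ → ℝ) : Set (ℂ × ℂ) :=
  {p | p.2 ∈ W ∧ |p.1.re - c| < a ∧ b < p.1.im ∧ p.1.im < V p.2}

theorem isOpen_Lw {W : Set ℂ} (hW : IsOpen W) {c a b : ℝ} {V : ℂ → ℝ}
    (hV : LowerSemicontinuousOn V W) : IsOpen (Lw W c a b V) := by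
  rw [isOpen_iff_mem_nhds]
  rintro ⟨t, w⟩ ⟨hw, ha, hb, hv⟩
  simp only at hw ha hb hv
  obtain ⟨y, hy1, hy2⟩ := exists_between hv
  have h1 : ∀ᶠ w' in 𝓝 w, w' ∈ W ∧ y < V w' := by
    have h2 := hV w hw y hy2
    rw [hW.nhdsWithin_eq hw] at h2
    have h3 : ∀ᶠ w' in 𝓝 w, w' ∈ W := hW.mem_nhds hw
    exact h3.and h2
  have h3 : ∀ᶠ t' in 𝓝 t, |t'.re - c| < a ∧ b < t'.im ∧ t'.im < y := by
    have e1 : ∀ᶠ t' in 𝓝 t, |t'.re - c| < a :=
      (isOpen_lt (by fun_prop : Continuous fun t' : ℂ => |t'.re - c|) continuous_const).mem_nhds ha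
    have e2 : ∀ᶠ t' in 𝓝 t, b < t'.im := (isOpen_lt continuous_const continuous_im).mem_nhds hb
    have e3 : ∀ᶠ t' in 𝓝 t, t'.im < y := (isOpen_lt continuous_im continuous_const).mem_nhds hy1
    exact e1.and (e2.and e3)
  rw [nhds_prod_eq]
  filter_upwards [h3.prod_mk h1] with p hp
  exact ⟨hp.2.1, hp.1.1, hp.1.2.1, hp.1.2.2.trans hp.2.2⟩

/-- convex slices of the window -/
theorem convex_slice (c a b v : ℝ) : Convex ℝ {t : ℂ | |t.re - c| < a ∧ b < t.im ∧ t.im < v} := by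
  have h1 : {t : ℂ | |t.re - c| < a ∧ b < t.im ∧ t.im < v} =
      {t : ℂ | t.re < c + a} ∩ {t : ℂ | c - a < t.re} ∩ ({t : ℂ | b < t.im} ∩ {t : ℂ | t.im < v}) := by
    ext t
    simp only [Set.mem_ofPred_eq, mem_inter_iff, abs_lt]
    constructor
    · rintro ⟨⟨h1, h2⟩, h3, h4⟩
      exact ⟨⟨by linarith, by linarith⟩, h3, h4⟩
    · rintro ⟨⟨h1, h2⟩, h3, h4⟩
      exact ⟨⟨by linarith, by linarith⟩, h3, h4⟩
  rw [h1]
  exact ((convex_halfSpace_re_lt _).inter (convex_halfSpace_re_gt _)).inter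
    ((convex_halfSpace_im_gt _).inter (convex_halfSpace_im_lt _))

/-- reflection of the slice over a real `u` -/
theorem slice_refl {W : Set ℂ} (hW : IsOpen W) {c a b h m : ℝ} {V : ℂ → ℝ}
    (hV : LowerSemicontinuousOn V W) {B : ℂ × ℂ → ℂ} (hB : DifferentiableOn ℂ B (Lw W c a b V))
    (hb : ∀ p ∈ Lw W c a b V, |(B p).im| ≤ m) {u : ℝ} (hu : (u : ℂ) ∈ W)
    (hlim : ∀ᵐ x : ℝ, |x - c| < a →
      Tendsto (fun y : ℝ => (B ((x : ℂ) + y * I, (u : ℂ))).im) (𝓝[<] (V u)) (𝓝 h))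
    {x s : ℝ} (hs : |x - c| + s ≤ a) (hs' : s ≤ V u - b) :
    ∃ g : ℂ → ℂ, DifferentiableOn ℂ g (ball ((x : ℂ) + V u * I) s) ∧
      (∀ t ∈ ball ((x : ℂ) + V u * I) s, t.im < V u → g t = B (t, u)) ∧
      ∀ x' : ℝ, |x' - x| < s → (g ((x' : ℂ) + V u * I)).im = h := by
  have hD := isOpen_Lw (c := c) (a := a) (b := b) hW hV
  have hmem : ∀ z ∈ ball (x : ℂ) s, z.im < 0 → (z + V u * I, (u : ℂ)) ∈ Lw W c a b V := by
    intro z hz hi
    have h1 : |z.re - x| < s := by
      have := (abs_re_le_norm (z - x)).trans_lt (by rwa [mem_ball, dist_eq_norm] at hz)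
      simpa using this
    have h2 : |z.im| < s := by
      have := (abs_im_le_norm (z - x)).trans_lt (by rwa [mem_ball, dist_eq_norm] at hz)
      simpa using this
    have h3 : z.re - c = (z.re - x) + (x - c) := by ring
    refine ⟨hu, ?_, ?_, ?_⟩
    · simp only [add_re, mul_re, ofReal_re, I_re, mul_zero, ofReal_im, I_im, mul_one, sub_self,
        add_zero]
      rw [h3]
      exact (abs_add_le _ _).trans_lt (by linarith)
    · simp only [add_im, mul_im, ofReal_re, I_im, mul_one, ofReal_im, I_re, mul_zero, add_zero]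
      have := (abs_lt.1 h2).1
      linarith
    · simp only [add_im, mul_im, ofReal_re, I_im, mul_one, ofReal_im, I_re, mul_zero, add_zero]
      linarith
  obtain ⟨F, hF, h1, h2, -⟩ := Refl812.refl_lower (c := x) (r := s) (m := m) (h := h)
    (B := fun z => B (z + V u * I, (u : ℂ)))
    (fun z hz hi => by
      have h1 : DifferentiableAt ℂ B (z + V u * I, (u : ℂ)) :=
        hB.differentiableAt (hD.mem_nhds (hmem z hz hi))
      exact DifferentiableAt.comp z (f := fun z : ℂ => (z + V u * I, (u : ℂ))) h1 (by fun_prop))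
    (fun z hz hi => hb _ (hmem z hz hi))
    (by
      filter_upwards [hlim] with x' hx' hxb
      have h3 : |x' - c| < a := by
        have h4 : |x' - x| < s := by
          have := hxb
          rw [mem_ball, dist_eq_norm, ← ofReal_sub, norm_real, Real.norm_eq_abs] at this
          exact this
        have h5 : x' - c = (x' - x) + (x - c) := by ring
        rw [h5]
        exact (abs_add_le _ _).trans_lt (by linarith)
      have h4 := hx' h3
      have h5 : Tendsto (fun y : ℝ => y + V u) (𝓝[<] 0) (𝓝[<] (V u)) := by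
        rw [tendsto_nhdsWithin_iff]
        constructor
        · have : Tendsto (fun y : ℝ => y + V u) (𝓝 0) (𝓝 (V u)) := by
            have h6 : Continuous fun y : ℝ => y + V u := by fun_prop
            simpa using h6.tendsto 0
          exact this.mono_left nhdsWithin_le_nhds
        · filter_upwards [self_mem_nhdsWithin] with y hy
          have hy' : y < 0 := hy
          show y + V u < V u
          linarith
      refine (h4.comp h5).congr fun y => ?_
      simp only [Function.comp]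
      congr 2
      ext
      · push_cast; ring
      · rfl)
  refine ⟨fun t => F (t - V u * I), ?_, ?_, ?_⟩
  · refine hF.comp (by fun_prop) ?_
    intro t ht
    rw [mem_ball, dist_eq_norm] at ht ⊢
    rwa [show t - V u * I - x = t - (x + V u * I) by ring]
  · intro t ht hi
    have h3 : t - V u * I ∈ ball (x : ℂ) s := by
      rw [mem_ball, dist_eq_norm] at ht ⊢
      rwa [show t - V u * I - x = t - (x + V u * I) by ring]
    have h4 := h1 _ h3 (by simp; linarith)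
    show F (t - V u * I) = B (t, u)
    rw [h4]
    congr 2
    ring
  · intro x' hx'
    have h3 : (x' : ℂ) ∈ ball (x : ℂ) s := by
      rw [mem_ball, dist_eq_norm, ← ofReal_sub, norm_real, Real.norm_eq_abs]
      exact hx'
    have h4 := h2 x' h3
    simpa using h4

theorem hasDerivAt_t {Bt : ℂ × ℂ → ℂ} {p : ℂ × ℂ} (h : DifferentiableAt ℂ Bt p) :
    HasDerivAt (fun t => Bt (t, p.2)) (fderiv ℂ Bt p (1, 0)) p.1 := by
  have h1 : HasDerivAt (fun s : ℂ => ((s, p.2) : ℂ × ℂ)) ((1, 0) : ℂ × ℂ) p.1 :=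
    (hasDerivAt_id p.1).prodMk (hasDerivAt_const p.1 p.2)
  exact h.hasFDerivAt.comp_hasDerivAt p.1 h1

/-- Hopf at the face, for the reflected slice -/
theorem hopf_slice {W : Set ℂ} {c a b h : ℝ} {V : ℂ → ℝ}
    {B : ℂ × ℂ → ℂ} (hlt : ∀ p ∈ Lw W c a b V, (B p).im < h) {u : ℝ} (hu : (u : ℂ) ∈ W)
    {x s : ℝ} (hs0 : 0 < s) (hs : |x - c| + s ≤ a) (hs' : s ≤ V u - b) {g : ℂ → ℂ}
    (hg : DifferentiableOn ℂ g (ball ((x : ℂ) + V u * I) s))
    (hg1 : ∀ t ∈ ball ((x : ℂ) + V u * I) s, t.im < V u → g t = B (t, u))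
    (hg2 : ∀ x' : ℝ, |x' - x| < s → (g ((x' : ℂ) + V u * I)).im = h) :
    (deriv g ((x : ℂ) + V u * I)).im = 0 ∧ 0 < (deriv g ((x : ℂ) + V u * I)).re := by
  have hga : AnalyticAt ℂ g ((x : ℂ) + V u * I) :=
    hg.analyticAt (isOpen_ball.mem_nhds (mem_ball_self hs0))
  have hFa : AnalyticAt ℂ (fun z => g (z + V u * I)) (x : ℂ) :=
    AnalyticAt.comp (g := g) (f := fun z : ℂ => z + V u * I) hga
      (analyticAt_id.add analyticAt_const)
  have hd : deriv (fun z => g (z + V u * I)) (x : ℂ) = deriv g ((x : ℂ) + V u * I) :=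
    deriv_comp_add_const g (V u * I) (x : ℂ)
  rw [← hd]
  refine Refl812.hopf_lower (h := h) hFa ?_ ?_
  · have h1 : ∀ᶠ x' : ℝ in 𝓝 x, |x' - x| < s := by
      have h2 : Continuous fun x' : ℝ => |x' - x| := by fun_prop
      exact (isOpen_lt h2 continuous_const).mem_nhds (by simpa using hs0)
    filter_upwards [h1] with x' hx'
    exact hg2 x' hx'
  · have h1 : ∀ᶠ z : ℂ in 𝓝 (x : ℂ), z ∈ ball (x : ℂ) s := ball_mem_nhds _ hs0
    filter_upwards [h1] with z hz hi
    have hz1 : z + V u * I ∈ ball ((x : ℂ) + V u * I) s := by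
      rw [mem_ball, dist_eq_norm] at hz ⊢
      rwa [show z + V u * I - (x + V u * I) = z - x by ring]
    have hz2 : (z + V u * I).im < V u := by simp; exact hi
    rw [hg1 _ hz1 hz2]
    refine hlt _ ⟨hu, ?_, ?_, hz2⟩
    · have h1 : |z.re - x| < s := by
        have := (abs_re_le_norm (z - x)).trans_lt (by rwa [mem_ball, dist_eq_norm] at hz)
        simpa using this
      have h3 : z.re - c = (z.re - x) + (x - c) := by ring
      simp only [add_re, mul_re, ofReal_re, I_re, mul_zero, ofReal_im, I_im, mul_one, sub_self,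
        add_zero]
      rw [h3]
      exact (abs_add_le _ _).trans_lt (by linarith)
    · have h2 : |z.im| < s := by
        have := (abs_im_le_norm (z - x)).trans_lt (by rwa [mem_ball, dist_eq_norm] at hz)
        simpa using this
      simp only [add_im, mul_im, ofReal_re, I_im, mul_one, ofReal_im, I_re, mul_zero, add_zero]
      have := (abs_lt.1 h2).1
      linarith

/-- **Step 6**: joint analytic extension across the face for a.e. `u ∈ F`. -/
theorem step6 {W : Set ℂ} (hW : IsOpen W) {c a b h m : ℝ} {V : ℂ → ℝ}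
    (hV : LowerSemicontinuousOn V W) {B : ℂ × ℂ → ℂ} (hB : DifferentiableOn ℂ B (Lw W c a b V))
    (hb : ∀ p ∈ Lw W c a b V, |(B p).im| ≤ m) (hlt : ∀ p ∈ Lw W c a b V, (B p).im < h)
    {F : Set ℝ} (hF : ∀ u ∈ F, (u : ℂ) ∈ W ∧ b < V u ∧ ∀ᵐ x : ℝ, |x - c| < a →
      Tendsto (fun y : ℝ => (B ((x : ℂ) + y * I, (u : ℂ))).im) (𝓝[<] (V u)) (𝓝 h)) :
    ∀ᵐ u : ℝ, u ∈ F → ∀ x : ℝ, |x - c| < a → ∃ r > 0, ∃ Bt : ℂ × ℂ → ℂ,
      AnalyticOnNhd ℂ Bt (ball ((x : ℂ) + V u * I, (u : ℂ)) r) ∧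
      (∀ p ∈ ball ((x : ℂ) + V u * I, (u : ℂ)) r, p ∈ Lw W c a b V → Bt p = B p) ∧
      (∀ x' : ℝ, |x' - x| < r → (Bt ((x' : ℂ) + V u * I, (u : ℂ))).im = h) ∧
      (deriv (fun t => Bt (t, (u : ℂ))) ((x : ℂ) + V u * I)).im = 0 ∧
      ∀ p ∈ ball ((x : ℂ) + V u * I, (u : ℂ)) r, 0 < (deriv (fun t => Bt (t, p.2)) p.1).re := by
  have hD := isOpen_Lw (c := c) (a := a) (b := b) hW hV
  -- countable data
  obtain ⟨T, hT⟩ : ∃ T : ℚ × ℚ → ℂ, T = fun q => ⟨(q.1 : ℝ), (q.2 : ℝ)⟩ := ⟨_, rfl⟩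
  have key : ∀ d : (ℚ × ℚ) × (ℚ × ℚ) × (ℚ × ℚ), ∀ᵐ u : ℝ,
      0 < (d.2.2.1 : ℝ) →
      (∀ w ∈ ball (((d.1.1 : ℝ) : ℂ)) (d.1.2 : ℝ), ∀ t ∈ ball (T d.2.1) (d.2.2.1 : ℝ),
        (t, w) ∈ Lw W c a b V) →
      (u ∈ F ∧ (u : ℂ) ∈ ball (((d.1.1 : ℝ) : ℂ)) (d.1.2 : ℝ) ∧ ∃ g : ℂ → ℂ,
        DifferentiableOn ℂ g (ball (T d.2.1) (d.2.2.2 : ℝ)) ∧
        ∀ᶠ t in 𝓝 (T d.2.1), g t = B (t, (u : ℂ))) →
      ∀ R' < (d.2.2.2 : ℝ), ∀ ε > 0, ∃ r > 0, r < ε ∧
        ball (u : ℂ) r ⊆ ball (((d.1.1 : ℝ) : ℂ)) (d.1.2 : ℝ) ∧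
        ∃ G : ℂ × ℂ → ℂ, AnalyticOnNhd ℂ G (ball (u : ℂ) r ×ˢ ball (T d.2.1) R') ∧
        ∀ w ∈ ball (u : ℂ) r, ∀ t ∈ ball (T d.2.1) (min (d.2.2.1 : ℝ) R'),
          G (w, t) = B (t, w) := by
    intro d
    by_cases h0 : 0 < (d.2.2.1 : ℝ)
    swap
    · exact Eventually.of_forall fun u h1 => absurd h1 h0
    by_cases hc : ∀ w ∈ ball (((d.1.1 : ℝ) : ℂ)) (d.1.2 : ℝ),
        ∀ t ∈ ball (T d.2.1) (d.2.2.1 : ℝ), (t, w) ∈ Lw W c a b V
    swap
    · exact Eventually.of_forall fun u _ h1 => absurd h1 hc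
    have h1 := M948.extend_ae (f := fun p => B (p.2, p.1))
      (W := ball (((d.1.1 : ℝ) : ℂ)) (d.1.2 : ℝ)) isOpen_ball (t0 := T d.2.1)
      (r0 := (d.2.2.1 : ℝ)) h0 (by
        refine hB.comp (by fun_prop) ?_
        rintro ⟨w, t⟩ ⟨hw, ht⟩
        exact hc w hw t ht) (R := (d.2.2.2 : ℝ))
      (F := {u : ℝ | u ∈ F ∧ (u : ℂ) ∈ ball (((d.1.1 : ℝ) : ℂ)) (d.1.2 : ℝ) ∧ ∃ g : ℂ → ℂ,
        DifferentiableOn ℂ g (ball (T d.2.1) (d.2.2.2 : ℝ)) ∧
        ∀ᶠ t in 𝓝 (T d.2.1), g t = B (t, (u : ℂ))})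
      (fun u hu => ⟨hu.2.1, hu.2.2⟩)
    filter_upwards [h1] with u hu _ _ hu2
    exact hu hu2
  have key2 := ae_all_iff.2 key
  filter_upwards [key2] with u hu huF x hx
  obtain ⟨huW, hbV, hlim⟩ := hF u huF
  obtain ⟨s, hs⟩ : ∃ s : ℝ, s = min (a - |x - c|) (V u - b) := ⟨_, rfl⟩
  have hs0 : 0 < s := by rw [hs]; exact lt_min (by linarith) (by linarith)
  have hs1 : |x - c| + s ≤ a := by
    have := min_le_left (a - |x - c|) (V u - b)
    rw [← hs] at this; linarith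
  have hs2 : s ≤ V u - b := by rw [hs]; exact min_le_right _ _
  obtain ⟨g, hg, hg1, hg2⟩ := slice_refl hW hV hB hb huW hlim hs1 hs2
  obtain ⟨hopf1, hopf2⟩ := hopf_slice hlt huW hs0 hs1 hs2 hg hg1 hg2
  -- choose the data
  obtain ⟨q1, hq1, hq1'⟩ := exists_rat_btwn (show x - s / 16 < x + s / 16 by linarith)
  obtain ⟨q2, hq2, hq2'⟩ := exists_rat_btwn (show V u - s / 16 < V u by linarith)
  obtain ⟨P, hP⟩ : ∃ P : ℂ, P = (x : ℂ) + V u * I := ⟨_, rfl⟩
  rw [← hP] at hg hg1 hopf1 hopf2 ⊢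
  have hPre : P.re = x := by rw [hP]; simp
  have hPim : P.im = V u := by rw [hP]; simp
  obtain ⟨t0, ht0⟩ : ∃ t0 : ℂ, t0 = T (q1, q2) := ⟨_, rfl⟩
  have ht0re : t0.re = q1 := by rw [ht0, hT]
  have ht0im : t0.im = q2 := by rw [ht0, hT]
  have hdist : dist t0 P < s / 8 := by
    rw [dist_eq_norm]
    refine (Complex.norm_le_abs_re_add_abs_im _).trans_lt ?_
    rw [sub_re, sub_im, hPre, hPim, ht0re, ht0im]
    have e1 : |(q1 : ℝ) - x| < s / 16 := abs_lt.2 ⟨by linarith, by linarith⟩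
    have e2 : |(q2 : ℝ) - V u| < s / 16 := abs_lt.2 ⟨by linarith, by linarith⟩
    linarith
  have ht0L : (t0, (u : ℂ)) ∈ Lw W c a b V := by
    refine ⟨huW, ?_, ?_, ?_⟩
    · show |t0.re - c| < a
      rw [ht0re]
      have h3 : (q1 : ℝ) - c = (q1 - x) + (x - c) := by ring
      have e1 : |(q1 : ℝ) - x| < s / 16 := abs_lt.2 ⟨by linarith, by linarith⟩
      rw [h3]
      exact (abs_add_le _ _).trans_lt (by linarith)
    · show b < t0.im
      rw [ht0im]; linarith
    · show t0.im < V u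
      rw [ht0im]; exact hq2'
  obtain ⟨ε, hε, hεL⟩ := Metric.isOpen_iff.1 hD _ ht0L
  obtain ⟨q3, hq3, hq3'⟩ := exists_rat_btwn (show u - ε / 4 < u + ε / 4 by linarith)
  obtain ⟨q4, hq4, hq4'⟩ := exists_rat_btwn (show ε / 4 < ε / 2 by linarith)
  obtain ⟨q5, hq5, hq5'⟩ := exists_rat_btwn hε
  obtain ⟨q6, hq6, hq6'⟩ := exists_rat_btwn (show s / 4 < s / 2 by linarith)
  have e3 : |(q3 : ℝ) - u| < ε / 4 := abs_lt.2 ⟨by linarith, by linarith⟩
  obtain ⟨r1, hr1, -, hr1W, G, hG, hGB⟩ := hu ((q3, q4), (q1, q2), (q5, q6)) hq5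
    (by
      intro w hw t ht
      refine hεL ?_
      rw [mem_ball, Prod.dist_eq, max_lt_iff]
      simp only at hw ht ⊢
      rw [← ht0] at ht
      refine ⟨(mem_ball.1 ht).trans hq5', ?_⟩
      calc dist w (u : ℂ) ≤ dist w ((q3 : ℝ) : ℂ) + dist ((q3 : ℝ) : ℂ) (u : ℂ) :=
            dist_triangle _ _ _
        _ < q4 + ε / 4 := by
            refine add_lt_add (mem_ball.1 hw) ?_
            rw [dist_eq_norm, ← ofReal_sub, norm_real, Real.norm_eq_abs]
            exact e3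
        _ < ε := by linarith)
    (by
      refine ⟨huF, ?_, g, ?_, ?_⟩
      · simp only
        rw [mem_ball, dist_comm, dist_eq_norm, ← ofReal_sub, norm_real, Real.norm_eq_abs]
        linarith
      · simp only
        rw [← ht0]
        refine hg.mono ?_
        refine ball_subset_ball' ?_
        linarith
      · simp only
        rw [← ht0]
        have e4 : ∀ᶠ t in 𝓝 t0, t ∈ ball P s :=
          isOpen_ball.mem_nhds (by rw [mem_ball]; linarith)
        have e5 : ∀ᶠ t in 𝓝 t0, t.im < V u :=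
          (isOpen_lt continuous_im continuous_const).mem_nhds (by
            show t0.im < V u
            rw [ht0im]; exact hq2')
        filter_upwards [e4, e5] with t h4 h5
        exact hg1 t h4 h5)
    (s / 4) (by simpa using hq6) 1 one_pos
  simp only at hr1W hG hGB
  rw [← ht0] at hG hGB
  -- the neighbourhood
  obtain ⟨N0, hN0⟩ : ∃ N0 : Set (ℂ × ℂ), N0 = ball t0 (s / 4) ×ˢ ball (u : ℂ) r1 := ⟨_, rfl⟩
  have hN0o : IsOpen N0 := by rw [hN0]; exact isOpen_ball.prod isOpen_ball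
  obtain ⟨Bt, hBt⟩ : ∃ Bt : ℂ × ℂ → ℂ, Bt = fun p => G (p.2, p.1) := ⟨_, rfl⟩
  have hBta : AnalyticOnNhd ℂ Bt N0 := by
    intro p hp
    rw [hN0] at hp
    rw [hBt]
    have h1 : AnalyticAt ℂ G (p.2, p.1) := hG _ ⟨hp.2, hp.1⟩
    exact AnalyticAt.comp (g := G) (f := fun p : ℂ × ℂ => (p.2, p.1)) h1
      (analyticAt_snd.prod analyticAt_fst)
  have hPN : (P, (u : ℂ)) ∈ N0 := by
    rw [hN0]
    refine ⟨?_, mem_ball_self hr1⟩
    rw [mem_ball, dist_comm]; linarith
  -- agreement below the face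
  have hagree : ∀ p ∈ N0, p ∈ Lw W c a b V → Bt p = B p := by
    rintro ⟨t, w⟩ hp hpL
    rw [hN0] at hp
    obtain ⟨htb, hwb⟩ := hp
    simp only at htb hwb
    have hwW : w ∈ W := hpL.1
    have hwd : w ∈ ball (((q3 : ℝ)) : ℂ) (q4 : ℝ) := hr1W hwb
    have ht0w : (t0, w) ∈ Lw W c a b V := by
      refine hεL ?_
      rw [mem_ball, Prod.dist_eq, max_lt_iff]
      refine ⟨by simpa using hε, ?_⟩
      calc dist w (u : ℂ) ≤ dist w ((q3 : ℝ) : ℂ) + dist ((q3 : ℝ) : ℂ) (u : ℂ) :=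
            dist_triangle _ _ _
        _ < q4 + ε / 4 := by
            refine add_lt_add (mem_ball.1 hwd) ?_
            rw [dist_eq_norm, ← ofReal_sub, norm_real, Real.norm_eq_abs]
            exact e3
        _ < ε := by linarith
    obtain ⟨C, hC⟩ : ∃ C : Set ℂ, C = {t' : ℂ | |t'.re - c| < a ∧ b < t'.im ∧ t'.im < V w} ∩
      ball t0 (s / 4) := ⟨_, rfl⟩
    have hCc : Convex ℝ C := by rw [hC]; exact (convex_slice c a b (V w)).inter (convex_ball _ _)
    have hCo : IsOpen C := by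
      rw [hC]
      refine IsOpen.inter ?_ isOpen_ball
      have h1 : IsOpen {t' : ℂ | |t'.re - c| < a} :=
        isOpen_lt (by fun_prop) continuous_const
      have h2 : IsOpen {t' : ℂ | b < t'.im} := isOpen_lt continuous_const continuous_im
      have h3 : IsOpen {t' : ℂ | t'.im < V w} := isOpen_lt continuous_im continuous_const
      exact h1.inter (h2.inter h3)
    have hCL : ∀ t' ∈ C, (t', w) ∈ Lw W c a b V := by
      intro t' ht'
      rw [hC] at ht'
      exact ⟨hwW, ht'.1.1, ht'.1.2.1, ht'.1.2.2⟩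
    have htC : t ∈ C := by rw [hC]; exact ⟨⟨hpL.2.1, hpL.2.2.1, hpL.2.2.2⟩, htb⟩
    have ht0C : t0 ∈ C := by
      rw [hC]
      exact ⟨⟨ht0w.2.1, ht0w.2.2.1, ht0w.2.2.2⟩, mem_ball_self (by linarith)⟩
    have hf1 : AnalyticOnNhd ℂ (fun t' => Bt (t', w)) C := by
      intro t' ht'
      have h1 : AnalyticAt ℂ Bt (t', w) := hBta _ (by
        rw [hN0]; rw [hC] at ht'; exact ⟨ht'.2, hwb⟩)
      exact AnalyticAt.comp (g := Bt) (f := fun t' : ℂ => (t', w)) h1
        (analyticAt_id.prod analyticAt_const)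
    have hf2 : AnalyticOnNhd ℂ (fun t' => B (t', w)) C := by
      refine DifferentiableOn.analyticOnNhd ?_ hCo
      refine hB.comp (by fun_prop) ?_
      intro t' ht'
      exact hCL t' ht'
    have hev : (fun t' => Bt (t', w)) =ᶠ[𝓝 t0] fun t' => B (t', w) := by
      have h1 : ∀ᶠ t' in 𝓝 t0, t' ∈ ball t0 (min (q5 : ℝ) (s / 4)) :=
        ball_mem_nhds _ (lt_min hq5 (by linarith))
      filter_upwards [h1] with t' ht'
      rw [hBt]
      exact hGB w hwb t' ht'
    exact hf1.eqOn_of_preconnected_of_eventuallyEq hf2 hCc.isPreconnected ht0C hev htC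
  -- the slice `w = u`
  have hslice : ∀ t ∈ ball t0 (s / 4), Bt (t, (u : ℂ)) = g t := by
    intro t ht
    have hf1 : AnalyticOnNhd ℂ (fun t' => Bt (t', (u : ℂ))) (ball t0 (s / 4)) := by
      intro t' ht'
      have h1 : AnalyticAt ℂ Bt (t', (u : ℂ)) := hBta _ (by
        rw [hN0]; exact ⟨ht', mem_ball_self hr1⟩)
      exact AnalyticAt.comp (g := Bt) (f := fun t' : ℂ => (t', (u : ℂ))) h1
        (analyticAt_id.prod analyticAt_const)
    have hf2 : AnalyticOnNhd ℂ g (ball t0 (s / 4)) := by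
      refine DifferentiableOn.analyticOnNhd (hg.mono ?_) isOpen_ball
      exact ball_subset_ball' (by linarith)
    have hev : (fun t' => Bt (t', (u : ℂ))) =ᶠ[𝓝 t0] g := by
      have h1 : ∀ᶠ t' in 𝓝 t0, t' ∈ ball t0 (min (q5 : ℝ) (s / 4)) :=
        ball_mem_nhds _ (lt_min hq5 (by linarith))
      have e4 : ∀ᶠ t in 𝓝 t0, t ∈ ball P s :=
        isOpen_ball.mem_nhds (by rw [mem_ball]; linarith)
      have e5 : ∀ᶠ t in 𝓝 t0, t.im < V u :=
        (isOpen_lt continuous_im continuous_const).mem_nhds (by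
          show t0.im < V u
          rw [ht0im]; exact hq2')
      filter_upwards [h1, e4, e5] with t' ht' h4 h5
      rw [hg1 t' h4 h5, hBt]
      exact hGB (u : ℂ) (mem_ball_self hr1) t' ht'
    exact hf1.eqOn_of_preconnected_of_eventuallyEq hf2 (convex_ball _ _).isPreconnected
      (mem_ball_self (by linarith)) hev ht
  have hderiv : deriv (fun t => Bt (t, (u : ℂ))) P = deriv g P := by
    refine Filter.EventuallyEq.deriv_eq ?_
    have h1 : ∀ᶠ t in 𝓝 P, t ∈ ball t0 (s / 4) :=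
      isOpen_ball.mem_nhds (by rw [mem_ball, dist_comm]; linarith)
    filter_upwards [h1] with t ht
    exact hslice t ht
  -- positivity near the point
  have hpos : ∀ᶠ p in 𝓝 (P, (u : ℂ)), 0 < (deriv (fun t => Bt (t, p.2)) p.1).re := by
    have h1 : ∀ p ∈ N0, deriv (fun t => Bt (t, p.2)) p.1 = fderiv ℂ Bt p (1, 0) := fun p hp =>
      (hasDerivAt_t (hBta p hp).differentiableAt).deriv
    have h2 : ContinuousAt (fun p => (fderiv ℂ Bt p (1, 0)).re) (P, (u : ℂ)) := by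
      have h3 : ContinuousAt (fun p => fderiv ℂ Bt p) (P, (u : ℂ)) :=
        ((hBta.fderiv) _ hPN).continuousAt
      have h4 : ContinuousAt (fun p => fderiv ℂ Bt p ((1, 0) : ℂ × ℂ)) (P, (u : ℂ)) :=
        h3.clm_apply continuousAt_const
      exact continuous_re.continuousAt.comp h4
    have h3 : 0 < (fderiv ℂ Bt (P, (u : ℂ)) (1, 0)).re := by
      rw [← h1 _ hPN]
      simp only
      rw [hderiv]
      exact hopf2
    filter_upwards [hN0o.mem_nhds hPN, h2.eventually (lt_mem_nhds h3)] with p hp1 hp2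
    rw [h1 p hp1]
    exact hp2
  obtain ⟨r, hr, hrN⟩ := Metric.eventually_nhds_iff_ball.1
    ((show ∀ᶠ p in 𝓝 (P, (u : ℂ)), p ∈ N0 from hN0o.mem_nhds hPN).and hpos)
  refine ⟨r, hr, Bt, fun p hp => hBta p (hrN p hp).1, fun p hp hpL => hagree p (hrN p hp).1 hpL,
    ?_, ?_, fun p hp => (hrN p hp).2⟩
  · intro x' hx'
    have h1 : ((x' : ℂ) + V u * I, (u : ℂ)) ∈ ball (P, (u : ℂ)) r := by
      rw [mem_ball, Prod.dist_eq, max_lt_iff]
      refine ⟨?_, by simpa using hr⟩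
      rw [hP, dist_eq_norm, show ((x' : ℂ) + V u * I) - (x + V u * I) = ((x' - x : ℝ) : ℂ) by
        push_cast; ring, norm_real, Real.norm_eq_abs]
      exact hx'
    have h2 := (hrN _ h1).1
    rw [hN0] at h2
    rw [hslice _ h2.1]
    refine hg2 x' ?_
    have h3 : dist ((x' : ℂ) + V u * I) t0 < s / 4 := h2.1
    have h4 : dist ((x' : ℂ) + V u * I) P < s := by
      calc dist ((x' : ℂ) + V u * I) P ≤ dist ((x' : ℂ) + V u * I) t0 + dist t0 P :=
            dist_triangle _ _ _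
        _ < s := by linarith
    rw [hP, dist_eq_norm, show ((x' : ℂ) + V u * I) - (x + V u * I) = ((x' - x : ℝ) : ℂ) by
        push_cast; ring, norm_real, Real.norm_eq_abs] at h4
    exact h4
  · rw [hderiv]; exact hopf1

end Crest.Agent.R102.Step6559
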