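import Crest.Agent.R102.Face2_300

/-!
Row 102, T1-B, step 7 of R1_523 (helper559): **the face is not a natural boundary**.

`ΩX` = main sheet of the label `B` (values in the strip `|Im| < h0`), `Ωl` = main sheet of the line
`(φ, p)` (a vertically star-shaped open set).  If `B` extends analytically (`Bt`, `∂_t Bt` with
positive real part) across the face near a point `P` with `Im Bt P = h0`, and there are singular
points of `B` near `P` over which the incoming line is regular, then `(ψ, H)` continues through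
a point of `Im z = h0` (Face2_300): contradiction with the natural boundary.
-/

set_option autoImplicit false

open Set Filter Topology Metric Complex
open scoped Real

noncomputable section

namespace Crest.Agent.R102.Step7559

open Crest.Agent.R102.B821 Crest.Agent.R102.F300

/-- good points: `Bt` is the main sheet `B` near the point -/
def Gd (ΩX : Set (ℂ × ℂ)) (B Bt : ℂ × ℂ → ℂ) : Set (ℂ × ℂ) := {q | q ∈ ΩX ∧ Bt =ᶠ[𝓝 q] B}

theorem isOpen_Gd {ΩX : Set (ℂ × ℂ)} (hX : IsOpen ΩX) (B Bt : ℂ × ℂ → ℂ) :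
    IsOpen (Gd ΩX B Bt) := by
  rw [isOpen_iff_mem_nhds]
  rintro q ⟨hq, he⟩
  have h1 : ∀ᶠ q' in 𝓝 q, q' ∈ ΩX := hX.mem_nhds hq
  filter_upwards [h1, he.eventually_nhds] with q' h2 h3
  exact ⟨h2, h3⟩

/-- the point `τ` below `q` -/
def dn (q : ℂ × ℂ) (τ : ℝ) : ℂ × ℂ := (q.1 - τ * I, q.2)

theorem continuous_dn (q : ℂ × ℂ) : Continuous (dn q) := by unfold dn; fun_prop

theorem continuous_dn' (τ : ℝ) : Continuous fun q => dn q τ := by unfold dn; fun_prop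

theorem dn_dn (q : ℂ × ℂ) (τ σ : ℝ) : dn (dn q τ) σ = dn q (τ + σ) := by
  unfold dn; ext
  · push_cast; ring
  · rfl

theorem dn_zero (q : ℂ × ℂ) : dn q 0 = q := by unfold dn; simp

/-- maximality of the main sheet `ΩX` of `B` with values in `|Im| < h0` -/
def Maxi (h0 : ℝ) (ΩX : Set (ℂ × ℂ)) (B : ℂ × ℂ → ℂ) : Prop :=
  ∀ (q : ℂ × ℂ) (Bt : ℂ × ℂ → ℂ), AnalyticAt ℂ Bt q → |(Bt q).im| < h0 →
    (∀ᶠ τ : ℝ in 𝓝[>] 0, dn q τ ∈ Gd ΩX B Bt) → q ∈ Gd ΩX B Bt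

/-- the last bad point on a vertical segment which ends (below) at a good point -/
theorem last_bad {G : Set (ℂ × ℂ)} (hG : IsOpen G) {q : ℂ × ℂ} (hq : q ∉ G) {κ : ℝ} (hκ : 0 ≤ κ)
    (hdn : dn q κ ∈ G) : ∃ σ, 0 ≤ σ ∧ σ < κ ∧ dn q σ ∉ G ∧ ∀ τ, σ < τ → τ ≤ κ → dn q τ ∈ G := by
  set N : Set ℝ := Icc 0 κ ∩ (dn q) ⁻¹' Gᶜ with hN
  have hNc : IsCompact N := isCompact_Icc.inter_right (hG.isClosed_compl.preimage (continuous_dn q))
  have hNn : N.Nonempty := ⟨0, ⟨le_refl _, hκ⟩, by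
    show dn q 0 ∉ G
    rwa [dn_zero]⟩
  obtain ⟨σ, hσN, hσ⟩ := hNc.exists_isGreatest hNn
  refine ⟨σ, hσN.1.1, lt_of_le_of_ne hσN.1.2 ?_, hσN.2, ?_⟩
  · rintro rfl
    exact hσN.2 hdn
  · intro τ h1 h2
    by_contra h3
    have h4 : τ ∈ N := ⟨⟨hσN.1.1.trans h1.le, h2⟩, h3⟩
    exact absurd (hσ h4) (not_le.2 h1)

/-- `Im Bt` increases upwards -/
theorem im_mono {Bt : ℂ × ℂ → ℂ} {q : ℂ × ℂ} {κ : ℝ} (hκ : 0 ≤ κ)
    (hBt : ∀ τ ∈ Icc 0 κ, AnalyticAt ℂ Bt (dn q τ))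
    (hpos : ∀ τ ∈ Icc 0 κ, 0 < (q1 Bt (dn q τ)).re) :
    (Bt (dn q κ)).im ≤ (Bt q).im := by
  have hd : ∀ τ ∈ Icc 0 κ, HasDerivAt (fun τ : ℝ => (Bt (dn q τ)).im)
      (-(q1 Bt (dn q τ)).re) τ := by
    intro τ hτ
    have h1 := (hBt τ hτ).differentiableAt.hasFDerivAt
    have h2 : HasDerivAt (fun τ : ℝ => dn q τ) ((-I, 0) : ℂ × ℂ) τ := by
      unfold dn
      have h3 : HasDerivAt (fun τ : ℝ => q.1 - τ * I) (-I) τ := by
        have h4 : HasDerivAt (fun τ : ℝ => (τ : ℂ)) 1 τ := Complex.ofRealCLM.hasDerivAt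
        simpa using (h4.mul_const I).const_sub q.1
      exact h3.prodMk (hasDerivAt_const τ q.2)
    have h3 : HasDerivAt (fun τ : ℝ => Bt (dn q τ)) (fderiv ℂ Bt (dn q τ) (-I, 0)) τ :=
      (h1.restrictScalars ℝ).comp_hasDerivAt τ h2
    have h4 : fderiv ℂ Bt (dn q τ) (-I, 0) = -I * q1 Bt (dn q τ) := by
      unfold q1
      rw [show ((-I, 0) : ℂ × ℂ) = (-I) • ((1, 0) : ℂ × ℂ) by ext <;> simp, map_smul, smul_eq_mul]
    have h5 : HasDerivAt (fun τ : ℝ => (Bt (dn q τ)).im)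
        (fderiv ℂ Bt (dn q τ) (-I, 0)).im τ := by
      have h7 := (Complex.imCLM.hasFDerivAt (x := Bt (dn q τ))).comp_hasDerivAt τ h3
      exact h7
    rw [h4] at h5
    have h6 : (-I * q1 Bt (dn q τ)).im = -(q1 Bt (dn q τ)).re := by simp
    rwa [h6] at h5
  have hanti : AntitoneOn (fun τ : ℝ => (Bt (dn q τ)).im) (Icc 0 κ) := by
    refine antitoneOn_of_deriv_nonpos (convex_Icc 0 κ)
      (fun τ hτ => (hd τ hτ).continuousAt.continuousWithinAt)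
      (fun τ hτ => (hd τ (interior_subset hτ)).differentiableAt.differentiableWithinAt) ?_
    intro τ hτ
    rw [(hd τ (interior_subset hτ)).deriv]
    have := hpos τ (interior_subset hτ)
    linarith
  have := hanti ⟨le_refl _, hκ⟩ ⟨hκ, le_refl _⟩ hκ
  simpa [dn_zero] using this

/-- **climbing**: a point of the ball with `Im Bt < h0` above a good point is good -/
theorem climb {h0 : ℝ} {ΩX : Set (ℂ × ℂ)} (hX : IsOpen ΩX) {B Bt : ℂ × ℂ → ℂ}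
    (hmax : Maxi h0 ΩX B) {q : ℂ × ℂ} {κ : ℝ} (hκ : 0 ≤ κ)
    (hBt : ∀ τ ∈ Icc 0 κ, AnalyticAt ℂ Bt (dn q τ))
    (hpos : ∀ τ ∈ Icc 0 κ, 0 < (q1 Bt (dn q τ)).re)
    (hlow : ∀ τ ∈ Icc 0 κ, -h0 < (Bt (dn q τ)).im)
    (hdn : dn q κ ∈ Gd ΩX B Bt) (hq : (Bt q).im < h0) : q ∈ Gd ΩX B Bt := by
  by_contra hcon
  obtain ⟨σ, hσ0, hσκ, hσ, hσ'⟩ := last_bad (isOpen_Gd hX B Bt) hcon hκ hdn
  have hσI : σ ∈ Icc 0 κ := ⟨hσ0, hσκ.le⟩
  refine hσ (hmax _ Bt (hBt σ hσI) ?_ ?_)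
  · rw [abs_lt]
    refine ⟨hlow σ hσI, lt_of_le_of_lt ?_ hq⟩
    refine im_mono hσ0 (fun τ hτ => hBt τ ⟨hτ.1, hτ.2.trans hσκ.le⟩)
      (fun τ hτ => hpos τ ⟨hτ.1, hτ.2.trans hσκ.le⟩)
  · have h1 : ∀ᶠ τ : ℝ in 𝓝[>] 0, τ ∈ Ioo (0 : ℝ) (κ - σ) := Ioo_mem_nhdsGT (by linarith)
    filter_upwards [h1] with τ hτ
    rw [dn_dn]
    exact hσ' _ (by linarith [hτ.1]) (by linarith [hτ.2])

/-- **Step 7**, with a lower level `y1` for the star property of the line sheet. -/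
theorem step7' {h0 : ℝ} (h0pos : 0 < h0) {ψ H : ℂ → ℂ} {c : ℂ} (hc : c ≠ 0)
    (hψ : DifferentiableOn ℂ ψ {z : ℂ | |z.im| < h0})
    (hH : DifferentiableOn ℂ H {z : ℂ | |z.im| < h0})
    (hrel : Rel {z : ℂ | |z.im| < h0} ψ H c)
    (hNB : ∀ s : ℂ, s.im = h0 → ¬ RegAt {z : ℂ | |z.im| < h0} ψ H s)
    {ΩX Ωl : Set (ℂ × ℂ)} (hX : IsOpen ΩX) (hl : IsOpen Ωl)
    {y1 : ℝ} (hstar : ∀ q ∈ Ωl, ∀ τ : ℝ, 0 ≤ τ → y1 < q.1.im - τ → dn q τ ∈ Ωl)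
    {B φ p : ℂ × ℂ → ℂ} (hB : ∀ q ∈ ΩX, (B q).im < h0)
    (hφ : AnalyticOnNhd ℂ φ Ωl) (hp : AnalyticOnNhd ℂ p Ωl)
    (har : ∀ q ∈ Ωl, q.2 ≠ 0 → q1 φ q * q2 p q - q2 φ q * q1 p q ≠ 0)
    (hinc : ∀ q ∈ ΩX, (q.1 - q.2 / 2, q.2) ∈ Ωl →
      Inc ψ H (φ (q.1 - q.2 / 2, q.2)) (p (q.1 - q.2 / 2, q.2)) (B q))
    (hmax : Maxi h0 ΩX B)
    {P : ℂ × ℂ} (hPy : y1 < (P.1 - P.2 / 2).im) {r : ℝ} (hr : 0 < r) {Bt : ℂ × ℂ → ℂ}
    (hBt : AnalyticOnNhd ℂ Bt (ball P r)) (hP : (Bt P).im = h0) (hpos : ∀ q ∈ ball P r, 0 < (deriv (fun t => Bt (t, q.2)) q.1).re)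
    (hdeep : ∀ᶠ τ : ℝ in 𝓝[>] 0, dn P τ ∈ Gd ΩX B Bt)
    (hsing : ∀ ε > 0, ∃ q ∈ ball P ε, q.2 ≠ 0 ∧ q ∉ ΩX ∧ (q.1 - q.2 / 2, q.2) ∈ Ωl) : False := by
  have hq1 : ∀ q ∈ ball P r, q1 Bt q = deriv (fun t => Bt (t, q.2)) q.1 := by
    intro q hq
    have h1 : HasDerivAt (fun s : ℂ => ((s, q.2) : ℂ × ℂ)) ((1, 0) : ℂ × ℂ) q.1 :=
      (hasDerivAt_id q.1).prodMk (hasDerivAt_const q.1 q.2)
    exact ((hBt q hq).differentiableAt.hasFDerivAt.comp_hasDerivAt q.1 h1).deriv.symm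
  have hpos' : ∀ q ∈ ball P r, 0 < (q1 Bt q).re := fun q hq => by
    rw [hq1 q hq]; exact hpos q hq
  -- shrink the ball: `Im Bt > -h0`
  obtain ⟨r₁, hr₁, hr₁r, hr₁y, hlow⟩ : ∃ r₁ > 0, r₁ ≤ r ∧ 2 * r₁ ≤ (P.1 - P.2 / 2).im - y1 ∧
      ∀ q ∈ ball P r₁, -h0 < (Bt q).im := by
    have h1 : ContinuousAt (fun q => (Bt q).im) P :=
      Complex.continuous_im.continuousAt.comp (hBt P (mem_ball_self hr)).continuousAt
    have h2 : ∀ᶠ q in 𝓝 P, -h0 < (Bt q).im := h1.eventually (lt_mem_nhds (by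
      show -h0 < (Bt P).im
      rw [hP]; linarith))
    obtain ⟨r₁, hr₁, h3⟩ := Metric.eventually_nhds_iff_ball.1 h2
    refine ⟨min (min r₁ r) (((P.1 - P.2 / 2).im - y1) / 2), lt_min (lt_min hr₁ hr) (by linarith),
      (min_le_left _ _).trans (min_le_right _ _), ?_, fun q hq =>
      h3 q (ball_subset_ball ((min_le_left _ _).trans (min_le_left _ _)) hq)⟩
    have := min_le_right (min r₁ r) (((P.1 - P.2 / 2).im - y1) / 2)
    linarith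
  have hsub : ball P r₁ ⊆ ball P r := ball_subset_ball hr₁r
  -- the depth
  obtain ⟨κ, hκ0, hκr, hκG⟩ : ∃ κ : ℝ, 0 < κ ∧ κ < r₁ / 2 ∧ dn P κ ∈ Gd ΩX B Bt := by
    have h1 : ∀ᶠ τ : ℝ in 𝓝[>] 0, τ ∈ Ioo (0 : ℝ) (r₁ / 2) := Ioo_mem_nhdsGT (by linarith)
    obtain ⟨κ, h2, h3⟩ := (h1.and hdeep).exists
    exact ⟨κ, h2.1, h2.2, h3⟩
  have hGo := isOpen_Gd hX B Bt
  obtain ⟨ε, hε, hεr, hεG⟩ : ∃ ε > 0, ε ≤ r₁ / 2 ∧ ∀ q ∈ ball P ε, dn q κ ∈ Gd ΩX B Bt := by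
    have h1 : ∀ᶠ q in 𝓝 P, dn q κ ∈ Gd ΩX B Bt :=
      (continuous_dn' κ).continuousAt.eventually (hGo.mem_nhds hκG)
    obtain ⟨ε, hε, h3⟩ := Metric.eventually_nhds_iff_ball.1 h1
    exact ⟨min ε (r₁ / 2), lt_min hε (by linarith), min_le_right _ _, fun q hq =>
      h3 q (ball_subset_ball (min_le_left _ _) hq)⟩
  obtain ⟨q, hqε, hq2, hqX, hql⟩ := hsing ε hε
  -- vertical segments stay in the ball
  have hseg : ∀ q' ∈ ball P ε, ∀ τ ∈ Icc 0 κ, dn q' τ ∈ ball P r₁ := by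
    intro q' hq' τ hτ
    rw [mem_ball, Prod.dist_eq, max_lt_iff] at hq' ⊢
    refine ⟨?_, by unfold dn; simp only; linarith [hq'.2]⟩
    unfold dn
    simp only
    calc dist (q'.1 - τ * I) P.1 ≤ dist (q'.1 - τ * I) q'.1 + dist q'.1 P.1 := dist_triangle _ _ _
      _ < κ + r₁ / 2 := by
          refine add_lt_add_of_le_of_lt ?_ (by linarith [hq'.1])
          rw [dist_eq_norm, show q'.1 - τ * I - q'.1 = -((τ : ℂ) * I) by ring, norm_neg, norm_mul,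
            Complex.norm_I, mul_one, Complex.norm_real, Real.norm_eq_abs, abs_of_nonneg hτ.1]
          exact hτ.2
      _ < r₁ := by linarith
  have hqG : q ∉ Gd ΩX B Bt := fun h => hqX h.1
  obtain ⟨σ, hσ0, hσκ, hσ, hσ'⟩ := last_bad hGo hqG hκ0.le (hεG q hqε)
  set x : ℂ × ℂ := dn q σ with hx
  have hσI : σ ∈ Icc 0 κ := ⟨hσ0, hσκ.le⟩
  have hxb : x ∈ ball P r₁ := hseg q hqε σ hσI
  -- above `x` everything below is good
  have hxbelow : ∀ᶠ τ : ℝ in 𝓝[>] 0, dn x τ ∈ Gd ΩX B Bt := by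
    have h1 : ∀ᶠ τ : ℝ in 𝓝[>] 0, τ ∈ Ioo (0 : ℝ) (κ - σ) := Ioo_mem_nhdsGT (by linarith)
    filter_upwards [h1] with τ hτ
    rw [hx, dn_dn]
    exact hσ' _ (by linarith [hτ.1]) (by linarith [hτ.2])
  have hBx : AnalyticAt ℂ Bt x := hBt x (hsub hxb)
  -- `Im Bt x = h0`
  have hxle : (Bt x).im ≤ h0 := by
    have h1 : Tendsto (fun τ : ℝ => (Bt (dn x τ)).im) (𝓝[>] 0) (𝓝 (Bt x).im) := by
      have h2 : ContinuousAt (fun τ : ℝ => (Bt (dn x τ)).im) 0 := by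
        have h3 : ContinuousAt Bt (dn x 0) := by rw [dn_zero]; exact hBx.continuousAt
        exact Complex.continuous_im.continuousAt.comp
          (ContinuousAt.comp (f := dn x) h3 (continuous_dn x).continuousAt)
      have h3 := h2.tendsto
      rw [dn_zero] at h3
      exact h3.mono_left nhdsWithin_le_nhds
    refine le_of_tendsto h1 ?_
    filter_upwards [hxbelow] with τ hτ
    rw [hτ.2.self_of_nhds]
    exact (hB _ hτ.1).le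
  have hxge : h0 ≤ (Bt x).im := by
    by_contra hcon
    push Not at hcon
    exact hσ (hmax x Bt hBx (abs_lt.2 ⟨hlow x hxb, hcon⟩) hxbelow)
  have hxeq : (Bt x).im = h0 := le_antisymm hxle hxge
  -- the line is regular at `x`
  have hxl : (x.1 - x.2 / 2, x.2) ∈ Ωl := by
    have h1 := hstar _ hql σ hσ0 (by
      have e1 : ‖q.1 - P.1‖ < ε := by
        have := hqε; rw [mem_ball, Prod.dist_eq, max_lt_iff] at this
        rw [← dist_eq_norm]; exact this.1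
      have e2 : ‖q.2 - P.2‖ < ε := by
        have := hqε; rw [mem_ball, Prod.dist_eq, max_lt_iff] at this
        rw [← dist_eq_norm]; exact this.2
      have e3 := (abs_lt.1 ((abs_im_le_norm (q.1 - P.1)).trans_lt e1)).1
      have e4 := (abs_lt.1 ((abs_im_le_norm (q.2 - P.2)).trans_lt e2)).2
      have e5 : ∀ z : ℂ, (z / 2).im = z.im / 2 := fun z => by
        rw [show (2 : ℂ) = ((2 : ℝ) : ℂ) by norm_num, Complex.div_ofReal_im]
      simp only [sub_im, e5] at e3 e4 hr₁y ⊢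
      linarith)
    have h2 : dn (q.1 - q.2 / 2, q.2) σ = (x.1 - x.2 / 2, x.2) := by
      rw [hx]; unfold dn; ext
      · simp only; ring
      · rfl
    rwa [h2] at h1
  -- the shifted line
  set s : ℂ × ℂ → ℂ × ℂ := fun y => (y.1 - y.2 / 2, y.2) with hs
  have hsc : Continuous s := by rw [hs]; fun_prop
  have hsa : AnalyticAt ℂ s x := by
    rw [hs]
    exact (analyticAt_fst.sub (analyticAt_snd.div_const)).prod analyticAt_snd
  have hφx : AnalyticAt ℂ (fun y => φ (s y)) x :=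
    AnalyticAt.comp (g := φ) (f := s) (hφ _ hxl) hsa
  have hpx : AnalyticAt ℂ (fun y => p (s y)) x :=
    AnalyticAt.comp (g := p) (f := s) (hp _ hxl) hsa
  have hsd : HasFDerivAt s ((ContinuousLinearMap.fst ℂ ℂ ℂ -
      (2⁻¹ : ℂ) • ContinuousLinearMap.snd ℂ ℂ ℂ).prod (ContinuousLinearMap.snd ℂ ℂ ℂ)) x := by
    have h1 : HasFDerivAt (fun y : ℂ × ℂ => y.1 - y.2 / 2)
        (ContinuousLinearMap.fst ℂ ℂ ℂ - (2⁻¹ : ℂ) • ContinuousLinearMap.snd ℂ ℂ ℂ) x := by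
      have h2 : HasFDerivAt (fun y : ℂ × ℂ => y.1) (ContinuousLinearMap.fst ℂ ℂ ℂ) x := hasFDerivAt_fst
      have h3 : HasFDerivAt (fun y : ℂ × ℂ => (2⁻¹ : ℂ) • y.2)
          ((2⁻¹ : ℂ) • ContinuousLinearMap.snd ℂ ℂ ℂ) x :=
        ((2⁻¹ : ℂ) • ContinuousLinearMap.snd ℂ ℂ ℂ).hasFDerivAt
      refine (h2.sub h3).congr_of_eventuallyEq (Eventually.of_forall fun y => ?_)
      simp only [Pi.sub_apply, smul_eq_mul]; ring
    exact h1.prodMk hasFDerivAt_snd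
  have hq12 : ∀ f : ℂ × ℂ → ℂ, AnalyticAt ℂ f (s x) →
      q1 (fun y => f (s y)) x = q1 f (s x) ∧
      q2 (fun y => f (s y)) x = -(2⁻¹ : ℂ) * q1 f (s x) + q2 f (s x) := by
    intro f hf
    have h1 := (hf.differentiableAt.hasFDerivAt.comp x hsd).fderiv
    have h1' : fderiv ℂ (fun y => f (s y)) x = (fderiv ℂ f (s x)).comp
      ((ContinuousLinearMap.fst ℂ ℂ ℂ -
        (2⁻¹ : ℂ) • ContinuousLinearMap.snd ℂ ℂ ℂ).prod (ContinuousLinearMap.snd ℂ ℂ ℂ)) := h1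
    unfold q1 q2
    rw [h1']
    constructor
    · simp
    · simp only [ContinuousLinearMap.comp_apply, ContinuousLinearMap.prod_apply,
        _root_.sub_apply, ContinuousLinearMap.coe_fst', _root_.smul_apply,
        ContinuousLinearMap.coe_snd', smul_eq_mul, mul_one, zero_sub]
      rw [show ((-(2⁻¹ : ℂ), (1 : ℂ)) : ℂ × ℂ) = (-(2⁻¹ : ℂ)) • ((1, 0) : ℂ × ℂ) + (0, 1) by
        ext <;> simp, map_add, map_smul, smul_eq_mul]
  have harx : q1 (fun y => φ (s y)) x * q2 (fun y => p (s y)) x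
      - q2 (fun y => φ (s y)) x * q1 (fun y => p (s y)) x ≠ 0 := by
    obtain ⟨e1, e2⟩ := hq12 φ (hφ _ hxl)
    obtain ⟨e3, e4⟩ := hq12 p (hp _ hxl)
    rw [e1, e2, e3, e4]
    have h1 := har _ hxl (by
      show x.2 ≠ 0
      rw [hx]; exact hq2)
    have h2 : s x = (x.1 - x.2 / 2, x.2) := rfl
    rw [← h2] at h1
    intro h3
    apply h1
    linear_combination h3
  -- incidence near `x`
  have hinc' : ∀ᶠ y in 𝓝 x, |(Bt y).im| < h0 → Inc ψ H (φ (s y)) (p (s y)) (Bt y) := by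
    -- `y` near `x`: the segment of length `κ - σ`
    have hκσ : 0 < κ - σ := by linarith
    have h1 : ∀ᶠ y in 𝓝 x, dn y (κ - σ) ∈ Gd ΩX B Bt := by
      refine (continuous_dn' (κ - σ)).continuousAt.eventually (hGo.mem_nhds ?_)
      show dn x (κ - σ) ∈ Gd ΩX B Bt
      rw [hx, dn_dn, show σ + (κ - σ) = κ by ring]
      exact hεG q hqε
    have h2 : ∀ᶠ y in 𝓝 x, s y ∈ Ωl := hsc.continuousAt.eventually (hl.mem_nhds hxl)
    have h3 : ∀ᶠ y in 𝓝 x, ∀ τ ∈ Icc 0 (κ - σ), dn y τ ∈ ball P r₁ := by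
      -- translate `y` back to the ball of radius `ε`
      have h4 : ∀ᶠ y in 𝓝 x, dn y (-σ) ∈ ball P ε := by
        refine (continuous_dn' (-σ)).continuousAt.eventually (isOpen_ball.mem_nhds ?_)
        show dn x (-σ) ∈ ball P ε
        rw [hx, dn_dn, add_neg_cancel, dn_zero]
        exact hqε
      filter_upwards [h4] with y hy τ hτ
      have h5 := hseg _ hy (σ + τ) ⟨by linarith [hτ.1], by linarith [hτ.2]⟩
      rw [dn_dn, show -σ + (σ + τ) = τ by ring] at h5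
      exact h5
    filter_upwards [h1, h2, h3] with y e1 e2 e3 e4
    have h5 : y ∈ Gd ΩX B Bt := by
      refine climb hX hmax hκσ.le (fun τ hτ => hBt _ (hsub (e3 τ hτ)))
        (fun τ hτ => hpos' _ (hsub (e3 τ hτ))) (fun τ hτ => hlow _ (e3 τ hτ)) e1
        (abs_lt.1 e4).2
    have h6 := hinc y h5.1 e2
    rw [h5.2.self_of_nhds]
    exact h6
  refine face_strip hc hψ hH hrel (φ := fun y => φ (s y)) (p := fun y => p (s y)) (Bt := Bt)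
    (x := x) ?_ hφx hpx hBx ?_ harx hinc' h0pos ?_
  · intro z hz
    exact hNB z (by rw [hz, hxeq])
  · intro h
    have := hpos' x (hsub hxb)
    rw [h] at this
    simp at this
  · rw [hxeq, abs_of_pos h0pos]

/-- **Step 7.** -/
theorem step7 {h0 : ℝ} (h0pos : 0 < h0) {ψ H : ℂ → ℂ} {c : ℂ} (hc : c ≠ 0)
    (hψ : DifferentiableOn ℂ ψ {z : ℂ | |z.im| < h0})
    (hH : DifferentiableOn ℂ H {z : ℂ | |z.im| < h0})
    (hrel : Rel {z : ℂ | |z.im| < h0} ψ H c)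
    (hNB : ∀ s : ℂ, s.im = h0 → ¬ RegAt {z : ℂ | |z.im| < h0} ψ H s)
    {ΩX Ωl : Set (ℂ × ℂ)} (hX : IsOpen ΩX) (hl : IsOpen Ωl)
    (hstar : ∀ q ∈ Ωl, ∀ τ : ℝ, 0 ≤ τ → dn q τ ∈ Ωl)
    {B φ p : ℂ × ℂ → ℂ} (hB : ∀ q ∈ ΩX, (B q).im < h0)
    (hφ : AnalyticOnNhd ℂ φ Ωl) (hp : AnalyticOnNhd ℂ p Ωl)
    (har : ∀ q ∈ Ωl, q.2 ≠ 0 → q1 φ q * q2 p q - q2 φ q * q1 p q ≠ 0)
    (hinc : ∀ q ∈ ΩX, (q.1 - q.2 / 2, q.2) ∈ Ωl →
      Inc ψ H (φ (q.1 - q.2 / 2, q.2)) (p (q.1 - q.2 / 2, q.2)) (B q))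
    (hmax : Maxi h0 ΩX B)
    {P : ℂ × ℂ} {r : ℝ} (hr : 0 < r) {Bt : ℂ × ℂ → ℂ} (hBt : AnalyticOnNhd ℂ Bt (ball P r))
    (hP : (Bt P).im = h0) (hpos : ∀ q ∈ ball P r, 0 < (deriv (fun t => Bt (t, q.2)) q.1).re)
    (hdeep : ∀ᶠ τ : ℝ in 𝓝[>] 0, dn P τ ∈ Gd ΩX B Bt)
    (hsing : ∀ ε > 0, ∃ q ∈ ball P ε, q.2 ≠ 0 ∧ q ∉ ΩX ∧ (q.1 - q.2 / 2, q.2) ∈ Ωl) : False :=
  step7' h0pos hc hψ hH hrel hNB hX hl (y1 := (P.1 - P.2 / 2).im - 1)
    (fun q hq τ hτ _ => hstar q hq τ hτ) hB hφ hp har hinc hmax (by linarith) hr hBt hP hpos hdeep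
    hsing

end Crest.Agent.R102.Step7559
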