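import Mathlib

/-! # Large-chord one-step map near a circle (helper866, row 102, T1-E, leaf E4-STEP) -/

namespace Crest.Agent.R102.StepL866

open Set Filter Topology Metric Complex

/-! ## elementary bounds -/

theorem norm_sin_le (z : ℂ) : ‖Complex.sin z‖ ≤ Real.exp ‖z‖ := by
  have h : Complex.sin z = (Complex.exp (-z * I) - Complex.exp (z * I)) * I / 2 := rfl
  have e1 : ‖Complex.exp (-z * I)‖ ≤ Real.exp ‖z‖ := by
    refine (Complex.norm_exp_le_exp_norm _).trans ?_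
    simp
  have e2 : ‖Complex.exp (z * I)‖ ≤ Real.exp ‖z‖ := by
    refine (Complex.norm_exp_le_exp_norm _).trans ?_
    simp
  rw [h]
  calc ‖(Complex.exp (-z * I) - Complex.exp (z * I)) * I / 2‖
      = ‖Complex.exp (-z * I) - Complex.exp (z * I)‖ / 2 := by simp
    _ ≤ (‖Complex.exp (-z * I)‖ + ‖Complex.exp (z * I)‖) / 2 := by
        gcongr; exact norm_sub_le _ _
    _ ≤ Real.exp ‖z‖ := by linarith

theorem norm_cos_le (z : ℂ) : ‖Complex.cos z‖ ≤ Real.exp ‖z‖ := by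
  have h : Complex.cos z = (Complex.exp (z * I) + Complex.exp (-z * I)) / 2 := rfl
  have e1 : ‖Complex.exp (-z * I)‖ ≤ Real.exp ‖z‖ := by
    refine (Complex.norm_exp_le_exp_norm _).trans ?_
    simp
  have e2 : ‖Complex.exp (z * I)‖ ≤ Real.exp ‖z‖ := by
    refine (Complex.norm_exp_le_exp_norm _).trans ?_
    simp
  rw [h]
  calc ‖(Complex.exp (z * I) + Complex.exp (-z * I)) / 2‖
      = ‖Complex.exp (z * I) + Complex.exp (-z * I)‖ / 2 := by simp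
    _ ≤ (‖Complex.exp (z * I)‖ + ‖Complex.exp (-z * I)‖) / 2 := by
        gcongr; exact norm_add_le _ _
    _ ≤ Real.exp ‖z‖ := by linarith

theorem cos_sub_one {v : ℂ} (hv : ‖v‖ ≤ 1) : ‖Complex.cos v - 1‖ ≤ ‖v‖ ^ 2 := by
  have h := Complex.cos_bound hv
  have e : Complex.cos v - 1 = (Complex.cos v - (1 - v ^ 2 / 2)) - v ^ 2 / 2 := by ring
  have h4 : ‖v‖ ^ 4 ≤ ‖v‖ ^ 2 := pow_le_pow_of_le_one (norm_nonneg _) hv (by norm_num)
  rw [e]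
  calc _ ≤ ‖Complex.cos v - (1 - v ^ 2 / 2)‖ + ‖v ^ 2 / 2‖ := norm_sub_le _ _
    _ ≤ ‖v‖ ^ 4 * (5 / 96) + ‖v‖ ^ 2 / 2 := by
        refine add_le_add h ?_
        rw [norm_div, norm_pow]; simp
    _ ≤ ‖v‖ ^ 2 := by nlinarith [sq_nonneg ‖v‖]

theorem sin_sub_self {v : ℂ} (hv : ‖v‖ ≤ 1) : ‖Complex.sin v - v‖ ≤ ‖v‖ ^ 2 := by
  have h := Complex.sin_bound hv
  have e : Complex.sin v - v = (Complex.sin v - (v - v ^ 3 / 6)) - v ^ 3 / 6 := by ring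
  have h4 : ‖v‖ ^ 5 ≤ ‖v‖ ^ 2 := pow_le_pow_of_le_one (norm_nonneg _) hv (by norm_num)
  have h3 : ‖v‖ ^ 3 ≤ ‖v‖ ^ 2 := pow_le_pow_of_le_one (norm_nonneg _) hv (by norm_num)
  rw [e]
  calc _ ≤ ‖Complex.sin v - (v - v ^ 3 / 6)‖ + ‖v ^ 3 / 6‖ := norm_sub_le _ _
    _ ≤ ‖v‖ ^ 5 / 100 + ‖v‖ ^ 3 / 6 := by
        refine add_le_add h ?_
        rw [norm_div, norm_pow]; simp
    _ ≤ ‖v‖ ^ 2 := by nlinarith [sq_nonneg ‖v‖]

/-- the constant of the pointwise expansion -/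
noncomputable def C₁ (M : ℝ) : ℝ :=
  M ^ 3 * Real.exp (2 * M + 1) + 2 * (Real.exp (2 * M + 1) * (2 * (M + M ^ 2) ^ 2 + M))
    + (16 * (M + 1) ^ 2 + 2) * Real.exp (2 * M + 1)

/-- pointwise second order expansion of `g⁻² sin (ϑ - δ)` -/
theorem point_bound {M η : ℝ} {s δ α g ϑ : ℂ} (hM : 1 ≤ M) (hη : 0 ≤ η)
    (hη1 : η * (M + M ^ 2) ≤ 1 / 2) (hηM : η * (M + 1) ≤ 1 / 2)
    (hs : ‖s‖ ≤ M) (hδ : ‖δ‖ ≤ M) (hα : ‖α‖ ≤ η)
    (hg : ‖g - 1 - α * s‖ ≤ η ^ 2) (hϑ : ‖ϑ - s - α * s ^ 2 / 2‖ ≤ η ^ 2 * M) :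
    ‖(g ^ 2)⁻¹ * Complex.sin (ϑ - δ) - (Complex.sin (s - δ)
      + α * (s ^ 2 / 2 * Complex.cos (s - δ) - 2 * s * Complex.sin (s - δ)))‖ ≤ C₁ M * η ^ 2 := by
  set B := Real.exp (2 * M + 1) with hB
  have hB0 : 0 < B := Real.exp_pos _
  have hηle : η ≤ 1 / 4 := by nlinarith
  have hαs : ‖α * s‖ ≤ η * M := by
    rw [norm_mul]; exact mul_le_mul hα hs (norm_nonneg _) hη
  have hαs2 : ‖α * s ^ 2 / 2‖ ≤ η * M ^ 2 / 2 := by
    rw [norm_div, norm_mul, norm_pow]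
    have : ‖α‖ * ‖s‖ ^ 2 ≤ η * M ^ 2 :=
      mul_le_mul hα (pow_le_pow_left₀ (norm_nonneg _) hs 2) (by positivity) hη
    simpa using by linarith
  -- g
  set u := g - 1 with hu
  have hu1 : ‖u‖ ≤ η * (M + 1) := by
    have : u = (g - 1 - α * s) + α * s := by rw [hu]; ring
    rw [this]
    refine (norm_add_le _ _).trans ?_
    nlinarith
  have hu2 : ‖u‖ ≤ 1 / 2 := hu1.trans hηM
  have hg1 : (1 : ℝ) / 2 ≤ ‖g‖ := by
    have : ‖(1 : ℂ)‖ ≤ ‖g‖ + ‖u‖ := by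
      have e : (1 : ℂ) = g - u := by rw [hu]; ring
      calc ‖(1 : ℂ)‖ = ‖g - u‖ := by rw [← e]
        _ ≤ _ := norm_sub_le _ _
    rw [norm_one] at this; linarith
  have hg0 : g ≠ 0 := by
    intro h; rw [h, norm_zero] at hg1; linarith
  set p := (g ^ 2)⁻¹ - (1 - 2 * (α * s)) with hp
  have hpb : ‖p‖ ≤ (16 * (M + 1) ^ 2 + 2) * η ^ 2 := by
    have e1 : p = (3 * u ^ 2 + 2 * u ^ 3) / g ^ 2 - 2 * (g - 1 - α * s) := by
      have hgu : g = 1 + u := by rw [hu]; ring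
      rw [hp]
      have : (g ^ 2)⁻¹ - 1 + 2 * u = (3 * u ^ 2 + 2 * u ^ 3) / g ^ 2 := by
        rw [eq_div_iff (pow_ne_zero 2 hg0)]
        have h2 : (g ^ 2)⁻¹ * g ^ 2 = 1 := inv_mul_cancel₀ (pow_ne_zero 2 hg0)
        have : ((g ^ 2)⁻¹ - 1 + 2 * u) * g ^ 2 = (g ^ 2)⁻¹ * g ^ 2 + (2 * u - 1) * g ^ 2 := by ring
        rw [this, h2, hgu]; ring
      rw [← this, hu]; ring
    have h3 : ‖3 * u ^ 2 + 2 * u ^ 3‖ ≤ 4 * ‖u‖ ^ 2 := by
      calc ‖3 * u ^ 2 + 2 * u ^ 3‖ ≤ ‖3 * u ^ 2‖ + ‖2 * u ^ 3‖ := norm_add_le _ _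
        _ = 3 * ‖u‖ ^ 2 + 2 * ‖u‖ ^ 3 := by simp
        _ ≤ 4 * ‖u‖ ^ 2 := by nlinarith [sq_nonneg ‖u‖, norm_nonneg u]
    have h4 : (1 : ℝ) / 4 ≤ ‖g ^ 2‖ := by
      rw [norm_pow]; nlinarith
    have h5 : ‖(3 * u ^ 2 + 2 * u ^ 3) / g ^ 2‖ ≤ 16 * ‖u‖ ^ 2 := by
      rw [norm_div, div_le_iff₀ (by linarith)]
      nlinarith [sq_nonneg ‖u‖]
    have h6 : ‖u‖ ^ 2 ≤ (η * (M + 1)) ^ 2 := pow_le_pow_left₀ (norm_nonneg _) hu1 2
    rw [e1]
    calc _ ≤ ‖(3 * u ^ 2 + 2 * u ^ 3) / g ^ 2‖ + ‖2 * (g - 1 - α * s)‖ := norm_sub_le _ _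
      _ ≤ 16 * (η * (M + 1)) ^ 2 + 2 * η ^ 2 := by
          refine add_le_add (h5.trans (by linarith)) ?_
          rw [norm_mul]; simpa using hg
      _ = (16 * (M + 1) ^ 2 + 2) * η ^ 2 := by ring
  -- ϑ
  set v := ϑ - s with hv
  have hv1 : ‖v‖ ≤ η * (M + M ^ 2) := by
    have : v = (ϑ - s - α * s ^ 2 / 2) + α * s ^ 2 / 2 := by rw [hv]; ring
    rw [this]
    refine (norm_add_le _ _).trans ?_
    have : η ^ 2 * M ≤ η * M := by nlinarith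
    nlinarith
  have hv2 : ‖v‖ ≤ 1 := by linarith
  have hsd : ‖s - δ‖ ≤ 2 * M := (norm_sub_le _ _).trans (by linarith)
  have hS0 : ‖Complex.sin (s - δ)‖ ≤ B :=
    (norm_sin_le _).trans (Real.exp_le_exp.mpr (by linarith))
  have hC0 : ‖Complex.cos (s - δ)‖ ≤ B :=
    (norm_cos_le _).trans (Real.exp_le_exp.mpr (by linarith))
  have hϑδ : ϑ - δ = (s - δ) + v := by rw [hv]; ring
  have hS : ‖Complex.sin (ϑ - δ)‖ ≤ B := by
    refine (norm_sin_le _).trans (Real.exp_le_exp.mpr ?_)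
    rw [hϑδ]; exact (norm_add_le _ _).trans (by linarith)
  set q := Complex.sin (ϑ - δ) - Complex.sin (s - δ)
    - α * s ^ 2 / 2 * Complex.cos (s - δ) with hq
  have hqb : ‖q‖ ≤ B * (2 * (M + M ^ 2) ^ 2 + M) * η ^ 2 := by
    have e : q = Complex.sin (s - δ) * (Complex.cos v - 1)
        + Complex.cos (s - δ) * (Complex.sin v - v)
        + Complex.cos (s - δ) * (ϑ - s - α * s ^ 2 / 2) := by
      rw [hq, hϑδ, Complex.sin_add]
      have : ϑ - s = v := rfl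
      rw [this]; ring
    have hv3 : ‖v‖ ^ 2 ≤ (M + M ^ 2) ^ 2 * η ^ 2 := by
      calc ‖v‖ ^ 2 ≤ (η * (M + M ^ 2)) ^ 2 := pow_le_pow_left₀ (norm_nonneg _) hv1 2
        _ = _ := by ring
    rw [e]
    calc _ ≤ ‖Complex.sin (s - δ) * (Complex.cos v - 1)‖
          + ‖Complex.cos (s - δ) * (Complex.sin v - v)‖
          + ‖Complex.cos (s - δ) * (ϑ - s - α * s ^ 2 / 2)‖ := norm_add₃_le
      _ ≤ B * ((M + M ^ 2) ^ 2 * η ^ 2) + B * ((M + M ^ 2) ^ 2 * η ^ 2) + B * (η ^ 2 * M) := by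
          refine add_le_add (add_le_add ?_ ?_) ?_
          · rw [norm_mul]
            exact mul_le_mul hS0 ((cos_sub_one hv2).trans hv3) (norm_nonneg _) hB0.le
          · rw [norm_mul]
            exact mul_le_mul hC0 ((sin_sub_self hv2).trans hv3) (norm_nonneg _) hB0.le
          · rw [norm_mul]
            exact mul_le_mul hC0 hϑ (norm_nonneg _) hB0.le
      _ = _ := by ring
  have key : (g ^ 2)⁻¹ * Complex.sin (ϑ - δ) - (Complex.sin (s - δ)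
      + α * (s ^ 2 / 2 * Complex.cos (s - δ) - 2 * s * Complex.sin (s - δ)))
      = -(2 * (α * s)) * (α * s ^ 2 / 2) * Complex.cos (s - δ) + (1 - 2 * (α * s)) * q
        + p * Complex.sin (ϑ - δ) := by
    rw [hp, hq]; ring
  rw [key]
  have hA : ‖-(2 * (α * s)) * (α * s ^ 2 / 2) * Complex.cos (s - δ)‖ ≤ M ^ 3 * B * η ^ 2 := by
    rw [norm_mul, norm_mul]
    have h1 : ‖-(2 * (α * s))‖ ≤ 2 * (η * M) := by
      rw [norm_neg, norm_mul]; simpa using hαs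
    calc _ ≤ (2 * (η * M)) * (η * M ^ 2 / 2) * B := by
          refine mul_le_mul (mul_le_mul h1 hαs2 (norm_nonneg _) (by positivity)) hC0
            (norm_nonneg _) (by positivity)
      _ = _ := by ring
  have hBq : ‖(1 - 2 * (α * s)) * q‖ ≤ 2 * (B * (2 * (M + M ^ 2) ^ 2 + M)) * η ^ 2 := by
    rw [norm_mul]
    have h1 : ‖1 - 2 * (α * s)‖ ≤ 2 := by
      refine (norm_sub_le _ _).trans ?_
      rw [norm_one, norm_mul]
      have : ‖(2 : ℂ)‖ = 2 := by simp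
      rw [this]
      nlinarith
    calc _ ≤ 2 * (B * (2 * (M + M ^ 2) ^ 2 + M) * η ^ 2) :=
          mul_le_mul h1 hqb (norm_nonneg _) (by norm_num)
      _ = _ := by ring
  have hCp : ‖p * Complex.sin (ϑ - δ)‖ ≤ (16 * (M + 1) ^ 2 + 2) * B * η ^ 2 := by
    rw [norm_mul]
    calc _ ≤ ((16 * (M + 1) ^ 2 + 2) * η ^ 2) * B :=
          mul_le_mul hpb hS (norm_nonneg _) (by positivity)
      _ = _ := by ring
  calc _ ≤ _ := norm_add₃_le
    _ ≤ M ^ 3 * B * η ^ 2 + 2 * (B * (2 * (M + M ^ 2) ^ 2 + M)) * η ^ 2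
        + (16 * (M + 1) ^ 2 + 2) * B * η ^ 2 := add_le_add (add_le_add hA hBq) hCp
    _ = C₁ M * η ^ 2 := by rw [C₁]; ring

/-! ## the normalised arc -/

/-- normalised arc: `ϑ' = g`, `Z' = e^{iϑ}/g²`, `Zc' = e^{-iϑ}/g²`, all `0` at `0`. -/
structure NArc (g ϑ Z Zc : ℂ → ℂ) (M : ℝ) : Prop where
  dϑ : ∀ s ∈ ball (0 : ℂ) M, HasDerivAt ϑ (g s) s
  dZ : ∀ s ∈ ball (0 : ℂ) M, HasDerivAt Z (Complex.exp (I * ϑ s) / g s ^ 2) s
  dZc : ∀ s ∈ ball (0 : ℂ) M, HasDerivAt Zc (Complex.exp (-(I * ϑ s)) / g s ^ 2) s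
  ϑ0 : ϑ 0 = 0
  Z0 : Z 0 = 0
  Zc0 : Zc 0 = 0

/-- chord function: vanishes iff the label `s` lies on the line through the label `0` with
direction `δ` (relative to the tangent) -/
noncomputable def FF (Z Zc : ℂ → ℂ) (δ s : ℂ) : ℂ :=
  (Complex.exp (-(I * δ)) * Z s - Complex.exp (I * δ) * Zc s) / (2 * I)

theorem sin_eq (z : ℂ) : Complex.sin z
    = (Complex.exp (I * z) - Complex.exp (-(I * z))) / (2 * I) := by
  have h : Complex.sin z = (Complex.exp (-z * I) - Complex.exp (z * I)) * I / 2 := rfl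
  have h1 : -z * I = -(I * z) := by ring
  have h2 : z * I = I * z := by ring
  rw [h, h1, h2]
  rw [eq_div_iff (by simp)]
  have : I * I = -1 := I_mul_I
  linear_combination (Complex.exp (-(I * z)) - Complex.exp (I * z)) * this

theorem hasDerivAt_FF {g ϑ Z Zc : ℂ → ℂ} {M : ℝ} (A : NArc g ϑ Z Zc M) (δ : ℂ) {s : ℂ}
    (hs : s ∈ ball (0 : ℂ) M) :
    HasDerivAt (FF Z Zc δ) ((g s ^ 2)⁻¹ * Complex.sin (ϑ s - δ)) s := by
  have h1 := ((A.dZ s hs).const_mul (Complex.exp (-(I * δ)))).sub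
    ((A.dZc s hs).const_mul (Complex.exp (I * δ)))
  have h2 := h1.div_const (2 * I)
  refine h2.congr_deriv ?_
  rw [sin_eq]
  have e1 : Complex.exp (I * (ϑ s - δ)) = Complex.exp (-(I * δ)) * Complex.exp (I * ϑ s) := by
    rw [← Complex.exp_add]; ring_nf
  have e2 : Complex.exp (-(I * (ϑ s - δ))) = Complex.exp (I * δ) * Complex.exp (-(I * ϑ s)) := by
    rw [← Complex.exp_add]; ring_nf
  rw [e1, e2]
  ring

/-- first order chord function of the slowly varying circle -/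
noncomputable def PP (δ s : ℂ) : ℂ :=
  s ^ 2 / 2 * Complex.sin (s - δ) + 3 * s * Complex.cos (s - δ) - 3 * Complex.sin (s - δ)
    - 3 * Complex.sin δ

noncomputable def F1 (α δ s : ℂ) : ℂ :=
  Complex.cos δ - Complex.cos (s - δ) + α * PP δ s

theorem hasDerivAt_F1 (α δ s : ℂ) : HasDerivAt (F1 α δ) (Complex.sin (s - δ)
      + α * (s ^ 2 / 2 * Complex.cos (s - δ) - 2 * s * Complex.sin (s - δ))) s := by
  have h0 : HasDerivAt (fun s : ℂ => s - δ) 1 s := (hasDerivAt_id s).sub_const δ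
  have hc : HasDerivAt (fun s : ℂ => Complex.cos (s - δ)) (-Complex.sin (s - δ) * 1) s := h0.ccos
  have hsn : HasDerivAt (fun s : ℂ => Complex.sin (s - δ)) (Complex.cos (s - δ) * 1) s := h0.csin
  have h2 : HasDerivAt (fun s : ℂ => s ^ 2 / 2) s s := by
    have := (hasDerivAt_pow 2 s).div_const 2
    refine this.congr_deriv ?_
    simp
  have h3 : HasDerivAt (fun s : ℂ => 3 * s) 3 s := by
    simpa using (hasDerivAt_id s).const_mul (3 : ℂ)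
  have h4 := ((h2.mul hsn).add (h3.mul hc)).sub (hsn.const_mul (3 : ℂ))
  have h5 := (h4.sub_const (3 * Complex.sin δ)).const_mul α
  have h6 := (hc.const_sub (Complex.cos δ)).add h5
  refine (h6.congr_deriv ?_)
  ring

variable {g ϑ Z Zc : ℂ → ℂ} {M η : ℝ} {α δ : ℂ}

theorem theta_bound (dϑ : ∀ s ∈ ball (0 : ℂ) M, HasDerivAt ϑ (g s) s) (ϑ0 : ϑ 0 = 0)
    (hM : 1 ≤ M)
    (hg : ∀ s ∈ ball (0 : ℂ) M, ‖g s - 1 - α * s‖ ≤ η ^ 2) {s : ℂ} (hs : s ∈ ball (0 : ℂ) M) :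
    ‖ϑ s - s - α * s ^ 2 / 2‖ ≤ η ^ 2 * M := by
  have h0 : (0 : ℂ) ∈ ball (0 : ℂ) M := mem_ball_self (by linarith)
  have hd : ∀ x ∈ ball (0 : ℂ) M, HasDerivWithinAt (fun s => ϑ s - s - α * s ^ 2 / 2)
      (g x - 1 - α * x) (ball (0 : ℂ) M) x := by
    intro x hx
    have h2 : HasDerivAt (fun s : ℂ => α * s ^ 2 / 2) (α * x) x := by
      have := ((hasDerivAt_pow 2 x).const_mul α).div_const 2
      refine this.congr_deriv ?_
      simp; ring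
    exact ((((dϑ x hx).sub (hasDerivAt_id x)).sub h2)).hasDerivWithinAt
  have h := (convex_ball (0 : ℂ) M).norm_image_sub_le_of_norm_hasDerivWithin_le hd hg h0 hs
  simp only [ϑ0] at h
  have h1 : ϑ s - s - α * s ^ 2 / 2 - (0 - 0 - α * 0 ^ 2 / 2) = ϑ s - s - α * s ^ 2 / 2 := by
    ring
  rw [h1] at h
  refine h.trans (mul_le_mul_of_nonneg_left ?_ (by positivity))
  rw [sub_zero]; exact (mem_ball_zero_iff.mp hs).le

theorem F_bound {F : ℂ → ℂ} (dϑ : ∀ s ∈ ball (0 : ℂ) M, HasDerivAt ϑ (g s) s) (ϑ0 : ϑ 0 = 0)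
    (dF : ∀ s ∈ ball (0 : ℂ) M, HasDerivAt F ((g s ^ 2)⁻¹ * Complex.sin (ϑ s - δ)) s)
    (F0 : F 0 = 0) (hM : 1 ≤ M) (hη : 0 ≤ η)
    (hη1 : η * (M + M ^ 2) ≤ 1 / 2) (hηM : η * (M + 1) ≤ 1 / 2) (hδ : ‖δ‖ ≤ M) (hα : ‖α‖ ≤ η)
    (hg : ∀ s ∈ ball (0 : ℂ) M, ‖g s - 1 - α * s‖ ≤ η ^ 2) {s : ℂ} (hs : s ∈ ball (0 : ℂ) M) :
    ‖F s - F1 α δ s‖ ≤ C₁ M * η ^ 2 * M := by
  have h0 : (0 : ℂ) ∈ ball (0 : ℂ) M := mem_ball_self (by linarith)
  have hd : ∀ x ∈ ball (0 : ℂ) M, HasDerivWithinAt (fun s => F s - F1 α δ s)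
      ((g x ^ 2)⁻¹ * Complex.sin (ϑ x - δ) - (Complex.sin (x - δ)
      + α * (x ^ 2 / 2 * Complex.cos (x - δ) - 2 * x * Complex.sin (x - δ))))
      (ball (0 : ℂ) M) x := by
    intro x hx
    exact ((dF x hx).sub (hasDerivAt_F1 α δ x)).hasDerivWithinAt
  have hb : ∀ x ∈ ball (0 : ℂ) M, ‖(g x ^ 2)⁻¹ * Complex.sin (ϑ x - δ) - (Complex.sin (x - δ)
      + α * (x ^ 2 / 2 * Complex.cos (x - δ) - 2 * x * Complex.sin (x - δ)))‖
      ≤ C₁ M * η ^ 2 := by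
    intro x hx
    exact point_bound hM hη hη1 hηM (mem_ball_zero_iff.mp hx).le hδ hα (hg x hx)
      (theta_bound dϑ ϑ0 hM hg hx)
  have h := (convex_ball (0 : ℂ) M).norm_image_sub_le_of_norm_hasDerivWithin_le hd hb h0 hs
  have h1 : F 0 - F1 α δ 0 = 0 := by
    simp [F0, F1, PP]
  rw [h1, sub_zero] at h
  refine h.trans (mul_le_mul_of_nonneg_left ?_ ?_)
  · rw [sub_zero]; exact (mem_ball_zero_iff.mp hs).le
  · have : 0 ≤ C₁ M := by rw [C₁]; positivity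
    positivity


/-! ## a zero by contraction -/

theorem exists_zero {f f' : ℂ → ℂ} {a c : ℂ} {r m : ℝ} (hm : 0 < m) (hc : m ≤ ‖c‖)
    (hd : ∀ s ∈ ball a r, HasDerivAt f (f' s) s) (hb : ∀ s ∈ ball a r, ‖f' s - c‖ ≤ m / 2)
    (hf : 2 / m * ‖f a‖ < r) :
    ∃ z ∈ ball a r, f z = 0 ∧ ‖z - a‖ ≤ 2 / m * ‖f a‖ ∧ ∀ z' ∈ ball a r, f z' = 0 → z' = z := by
  have hc0 : c ≠ 0 := by
    intro h; rw [h, norm_zero] at hc; linarith
  have hcn : 0 < ‖c‖ := norm_pos_iff.mpr hc0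
  set φ : ℂ → ℂ := fun s => s - f s / c with hφ
  have hφd : ∀ s ∈ ball a r, HasDerivWithinAt φ (1 - f' s / c) (ball a r) s := fun s hs =>
    ((hasDerivAt_id s).sub ((hd s hs).div_const c)).hasDerivWithinAt
  have hφb : ∀ s ∈ ball a r, ‖1 - f' s / c‖ ≤ 1 / 2 := by
    intro s hs
    have e : 1 - f' s / c = -((f' s - c) / c) := by field_simp; ring
    rw [e, norm_neg, norm_div, div_le_iff₀ hcn]
    have := hb s hs
    linarith
  have hL : ∀ x ∈ ball a r, ∀ y ∈ ball a r, ‖φ y - φ x‖ ≤ 1 / 2 * ‖y - x‖ := fun x hx y hy =>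
    (convex_ball a r).norm_image_sub_le_of_norm_hasDerivWithin_le hφd hφb hx hy
  set ρ := 2 / m * ‖f a‖ with hρ
  have hρ0 : 0 ≤ ρ := by positivity
  have har : a ∈ ball a r := mem_ball_self (by linarith)
  have hsub : closedBall a ρ ⊆ ball a r := closedBall_subset_ball hf
  have hmaps : MapsTo φ (closedBall a ρ) (closedBall a ρ) := by
    intro s hs
    have h1 := hL a har s (hsub hs)
    have h2 : ‖φ a - a‖ ≤ ρ / 2 := by
      have e : φ a - a = -(f a / c) := by simp [hφ]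
      rw [e, norm_neg, norm_div, hρ, div_le_iff₀ hcn]
      have : ‖f a‖ = ‖f a‖ / m * m := by field_simp
      calc ‖f a‖ = ‖f a‖ / m * m := this
        _ ≤ ‖f a‖ / m * ‖c‖ := by gcongr
        _ = _ := by ring
    have h3 : ‖s - a‖ ≤ ρ := by simpa [dist_eq_norm] using hs
    rw [mem_closedBall, dist_eq_norm]
    calc ‖φ s - a‖ = ‖(φ s - φ a) + (φ a - a)‖ := by ring_nf
      _ ≤ ‖φ s - φ a‖ + ‖φ a - a‖ := norm_add_le _ _
      _ ≤ 1 / 2 * ‖s - a‖ + ρ / 2 := add_le_add h1 h2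
      _ ≤ ρ := by linarith
  have hcontr : ContractingWith (1 / 2 : NNReal) (hmaps.restrict φ _ _) := by
    refine ⟨by
      rw [← NNReal.coe_lt_coe]; norm_num, ?_⟩
    refine LipschitzWith.of_dist_le_mul ?_
    intro x y
    have := hL y.1 (hsub y.2) x.1 (hsub x.2)
    simpa [Subtype.dist_eq, dist_eq_norm] using this
  obtain ⟨z, hz, hfix, -, -⟩ := ContractingWith.exists_fixedPoint'
    (isClosed_closedBall.isComplete) hmaps hcontr (x := a) (mem_closedBall_self hρ0)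
    (edist_ne_top _ _)
  have hz0 : f z = 0 := by
    have h1 : z - f z / c = z := hfix
    have h2 : f z / c = 0 := by linear_combination -h1
    rcases div_eq_zero_iff.mp h2 with h | h
    · exact h
    · exact absurd h hc0
  refine ⟨z, hsub hz, hz0, by simpa [dist_eq_norm] using hz, ?_⟩
  intro z' hz' h0
  have h1 := hL z (hsub hz) z' hz'
  have e : φ z' - φ z = z' - z := by simp [hφ, hz0, h0]
  rw [e] at h1
  have : ‖z' - z‖ = 0 := by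
    have := norm_nonneg (z' - z)
    linarith
  exact sub_eq_zero.mp (norm_eq_zero.mp this)

theorem hasDerivAt_PP (δ s : ℂ) : HasDerivAt (PP δ)
    (s ^ 2 / 2 * Complex.cos (s - δ) - 2 * s * Complex.sin (s - δ)) s := by
  have h := (hasDerivAt_F1 1 δ s).sub (hasDerivAt_F1 0 δ s)
  have e : (F1 1 δ - F1 0 δ) = PP δ := by
    funext t; simp [F1]
  rw [e] at h
  exact h.congr_deriv (by ring)

theorem QQ_bound {δ s : ℂ} {M : ℝ} (hM : 1 ≤ M) (hs : ‖s‖ ≤ M) (hδ : ‖δ‖ ≤ M) :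
    ‖s ^ 2 / 2 * Complex.cos (s - δ) - 2 * s * Complex.sin (s - δ)‖
      ≤ (M ^ 2 / 2 + 2 * M) * Real.exp (2 * M + 1) := by
  set B := Real.exp (2 * M + 1) with hB
  have hB0 : 0 < B := Real.exp_pos _
  have hsd : ‖s - δ‖ ≤ 2 * M := (norm_sub_le _ _).trans (by linarith)
  have hS0 : ‖Complex.sin (s - δ)‖ ≤ B :=
    (norm_sin_le _).trans (Real.exp_le_exp.mpr (by linarith))
  have hC0 : ‖Complex.cos (s - δ)‖ ≤ B :=
    (norm_cos_le _).trans (Real.exp_le_exp.mpr (by linarith))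
  have h1 : ‖s ^ 2 / 2‖ ≤ M ^ 2 / 2 := by
    rw [norm_div, norm_pow]
    have : ‖s‖ ^ 2 ≤ M ^ 2 := pow_le_pow_left₀ (norm_nonneg _) hs 2
    simpa using by linarith
  have h2 : ‖2 * s‖ ≤ 2 * M := by
    rw [norm_mul]; simpa using hs
  calc _ ≤ ‖s ^ 2 / 2 * Complex.cos (s - δ)‖ + ‖2 * s * Complex.sin (s - δ)‖ := norm_sub_le _ _
    _ ≤ M ^ 2 / 2 * B + 2 * M * B := by
        refine add_le_add ?_ ?_
        · rw [norm_mul]; exact mul_le_mul h1 hC0 (norm_nonneg _) (by positivity)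
        · rw [norm_mul]; exact mul_le_mul h2 hS0 (norm_nonneg _) (by positivity)
    _ = _ := by ring

theorem PP_two_bound {δ : ℂ} {M : ℝ} (hM : 1 ≤ M) (hδ : ‖δ‖ ≤ M) (h2δ : ‖2 * δ‖ ≤ M) :
    ‖PP δ (2 * δ)‖ ≤ (M ^ 2 / 2 + 3 * M + 6) * Real.exp (2 * M + 1) := by
  set B := Real.exp (2 * M + 1) with hB
  have hB0 : 0 < B := Real.exp_pos _
  have e0 : 2 * δ - δ = δ := by ring
  have hS0 : ‖Complex.sin δ‖ ≤ B :=
    (norm_sin_le _).trans (Real.exp_le_exp.mpr (by linarith))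
  have hC0 : ‖Complex.cos δ‖ ≤ B :=
    (norm_cos_le _).trans (Real.exp_le_exp.mpr (by linarith))
  have h1 : ‖(2 * δ) ^ 2 / 2‖ ≤ M ^ 2 / 2 := by
    rw [norm_div, norm_pow, Complex.norm_ofNat]
    have : ‖2 * δ‖ ^ 2 ≤ M ^ 2 := pow_le_pow_left₀ (norm_nonneg _) h2δ 2
    linarith
  have h2 : ‖3 * (2 * δ)‖ ≤ 3 * M := by
    rw [norm_mul]; simpa using h2δ
  rw [PP, e0]
  calc _ ≤ ‖(2 * δ) ^ 2 / 2 * Complex.sin δ + 3 * (2 * δ) * Complex.cos δ - 3 * Complex.sin δ‖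
        + ‖3 * Complex.sin δ‖ := norm_sub_le _ _
    _ ≤ ‖(2 * δ) ^ 2 / 2 * Complex.sin δ + 3 * (2 * δ) * Complex.cos δ‖ + ‖3 * Complex.sin δ‖
        + ‖3 * Complex.sin δ‖ := by gcongr; exact norm_sub_le _ _
    _ ≤ ‖(2 * δ) ^ 2 / 2 * Complex.sin δ‖ + ‖3 * (2 * δ) * Complex.cos δ‖ + ‖3 * Complex.sin δ‖
        + ‖3 * Complex.sin δ‖ := by gcongr; exact norm_add_le _ _
    _ ≤ M ^ 2 / 2 * B + 3 * M * B + 3 * B + 3 * B := by
        have h3 : ‖3 * Complex.sin δ‖ ≤ 3 * B := by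
          rw [norm_mul]; simpa using hS0
        refine add_le_add (add_le_add (add_le_add ?_ ?_) h3) h3
        · rw [norm_mul]; exact mul_le_mul h1 hS0 (norm_nonneg _) (by positivity)
        · rw [norm_mul]; exact mul_le_mul h2 hC0 (norm_nonneg _) (by positivity)
    _ = _ := by ring

theorem sin_add_sub {δ v : ℂ} {M : ℝ} (hδ : ‖δ‖ ≤ M) (hM : 0 ≤ M) (hv : ‖v‖ ≤ 1) :
    ‖Complex.sin (δ + v) - Complex.sin δ‖ ≤ 3 * Real.exp (2 * M + 1) * ‖v‖ := by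
  set B := Real.exp (2 * M + 1) with hB
  have hB0 : 0 < B := Real.exp_pos _
  have hS0 : ‖Complex.sin δ‖ ≤ B :=
    (norm_sin_le _).trans (Real.exp_le_exp.mpr (by linarith))
  have hC0 : ‖Complex.cos δ‖ ≤ B :=
    (norm_cos_le _).trans (Real.exp_le_exp.mpr (by linarith))
  have hv2 : ‖v‖ ^ 2 ≤ ‖v‖ := by nlinarith [norm_nonneg v]
  have e : Complex.sin (δ + v) - Complex.sin δ
      = Complex.sin δ * (Complex.cos v - 1) + Complex.cos δ * Complex.sin v := by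
    rw [Complex.sin_add]; ring
  have h1 : ‖Complex.cos v - 1‖ ≤ ‖v‖ := (cos_sub_one hv).trans hv2
  have h2 : ‖Complex.sin v‖ ≤ 2 * ‖v‖ := by
    have : Complex.sin v = (Complex.sin v - v) + v := by ring
    rw [this]
    exact (norm_add_le _ _).trans (by linarith [sin_sub_self hv])
  rw [e]
  calc _ ≤ ‖Complex.sin δ * (Complex.cos v - 1)‖ + ‖Complex.cos δ * Complex.sin v‖ :=
        norm_add_le _ _
    _ ≤ B * ‖v‖ + B * (2 * ‖v‖) := by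
        refine add_le_add ?_ ?_
        · rw [norm_mul]; exact mul_le_mul hS0 h1 (norm_nonneg _) hB0.le
        · rw [norm_mul]; exact mul_le_mul hC0 h2 (norm_nonneg _) hB0.le
    _ = _ := by ring

theorem C₁_pos {M : ℝ} (hM : 1 ≤ M) : 0 < C₁ M := by
  have hB0 : 0 < Real.exp (2 * M + 1) := Real.exp_pos _
  rw [C₁]
  have : 0 < M := by linarith
  positivity

set_option maxHeartbeats 4000000 in
/-- **The one-step map of a slowly varying circle, large chords** (normalised form).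
`F` = chord function of direction `δ`. -/
theorem step_normF {K : Set ℂ} (hK : IsCompact K) (hKs : ∀ δ ∈ K, Complex.sin δ ≠ 0) :
    ∃ M r η₀ C : ℝ, 1 ≤ M ∧ 0 < r ∧ r ≤ 1 ∧ 0 < η₀ ∧ 0 < C ∧
      (∀ δ ∈ K, ‖δ‖ ≤ M ∧ ball (2 * δ) r ⊆ ball (0 : ℂ) M) ∧
      ∀ (g ϑ : ℂ → ℂ) (η : ℝ) (α : ℂ), (∀ s ∈ ball (0 : ℂ) M, HasDerivAt ϑ (g s) s) → ϑ 0 = 0 →
        0 ≤ η → η ≤ η₀ → ‖α‖ ≤ η →
        (∀ s ∈ ball (0 : ℂ) M, ‖g s - 1 - α * s‖ ≤ η ^ 2) → ∀ δ ∈ K, ∀ F : ℂ → ℂ,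
        (∀ s ∈ ball (0 : ℂ) M, HasDerivAt F ((g s ^ 2)⁻¹ * Complex.sin (ϑ s - δ)) s) → F 0 = 0 →
        ∃ ζ ∈ ball (2 * δ) r, F ζ = 0 ∧ Complex.sin (ϑ ζ - δ) ≠ 0 ∧
          ‖ζ - (2 * δ + α * (6 - 6 * δ * (Complex.cos δ / Complex.sin δ) - 2 * δ ^ 2))‖
            ≤ C * η ^ 2 ∧
          ‖ϑ ζ - δ - (δ + 6 * α * (1 - δ * (Complex.cos δ / Complex.sin δ)))‖ ≤ C * η ^ 2 ∧
          (∀ ζ' ∈ ball (2 * δ) r, F ζ' = 0 → ζ' = ζ) ∧
          (∀ ζ' ∈ ball (2 * δ) r, Complex.sin (ϑ ζ' - δ) ≠ 0) := by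
  -- lower bound of `sin` and bound of `K`
  obtain ⟨m, hm, hmK⟩ : ∃ m : ℝ, 0 < m ∧ ∀ δ ∈ K, m ≤ ‖Complex.sin δ‖ := by
    rcases K.eq_empty_or_nonempty with h | h
    · exact ⟨1, one_pos, fun δ hδ => by simp [h] at hδ⟩
    · obtain ⟨δ₀, hδ₀, hmin⟩ := hK.exists_isMinOn h
        (Complex.continuous_sin.norm.continuousOn (s := K))
      exact ⟨‖Complex.sin δ₀‖, norm_pos_iff.mpr (hKs _ hδ₀), fun δ hδ => hmin hδ⟩
  obtain ⟨D, hD⟩ : ∃ D : ℝ, ∀ δ ∈ K, ‖δ‖ ≤ D := by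
    obtain ⟨D, hD⟩ := hK.isBounded.exists_norm_le
    exact ⟨D, hD⟩
  set D' := max D 0 with hD'
  have hD'0 : 0 ≤ D' := le_max_right _ _
  have hDK : ∀ δ ∈ K, ‖δ‖ ≤ D' := fun δ hδ => (hD δ hδ).trans (le_max_left _ _)
  set M := 2 * D' + 2 with hM
  have hM1 : 1 ≤ M := by linarith
  set B := Real.exp (2 * M + 1) with hB
  have hB0 : 0 < B := Real.exp_pos _
  set QB := (M ^ 2 / 2 + 2 * M) * B with hQB
  set PB := (M ^ 2 / 2 + 3 * M + 6) * B with hPB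
  have hQB0 : 0 < QB := by positivity
  have hPB0 : 0 < PB := by positivity
  have hC1 := C₁_pos hM1
  set r := min 1 (m / (12 * B)) with hr
  have hr0 : 0 < r := lt_min one_pos (by positivity)
  have hr1 : r ≤ 1 := min_le_left _ _
  have hrB : 3 * B * r ≤ m / 4 := by
    have : r ≤ m / (12 * B) := min_le_right _ _
    calc 3 * B * r ≤ 3 * B * (m / (12 * B)) := by gcongr
      _ = m / 4 := by field_simp; norm_num
  set R := C₁ M * M + PB with hR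
  have hR0 : 0 < R := by positivity
  set C₂ := 2 / m * R with hC₂
  have hC₂0 : 0 < C₂ := by positivity
  set η₀ := min (min (1 / (4 * (M + M ^ 2 + 1))) (m / (4 * (C₁ M + QB)))) (r * m / (4 * R))
    with hη₀
  have hη₀0 : 0 < η₀ := by
    refine lt_min (lt_min (by positivity) (by positivity)) (by positivity)
  set C₃ := C₁ M * M + 2 * B * C₂ ^ 2 + QB * C₂ with hC₃
  have hC₃0 : 0 < C₃ := by positivity
  set C := C₃ / m + M + M * C₂ with hC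
  have hball : ∀ δ ∈ K, ball (2 * δ) r ⊆ ball (0 : ℂ) M := by
    intro δ hδ s hs
    have h1 := hDK δ hδ
    rw [mem_ball, dist_eq_norm] at hs
    rw [mem_ball_zero_iff]
    have h2 : ‖(2 : ℂ) * δ‖ = 2 * ‖δ‖ := by rw [norm_mul]; simp
    calc ‖s‖ = ‖(s - 2 * δ) + 2 * δ‖ := by ring_nf
      _ ≤ ‖s - 2 * δ‖ + ‖2 * δ‖ := norm_add_le _ _
      _ < M := by rw [h2]; linarith
  refine ⟨M, r, η₀, C, hM1, hr0, hr1, hη₀0, by positivity,
    fun δ hδ => ⟨(hDK δ hδ).trans (by linarith), hball δ hδ⟩, ?_⟩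
  intro g ϑ η α dϑ ϑ0 hη hηη hα hg δ hδ F dF F0
  have hδM : ‖δ‖ ≤ M := (hDK δ hδ).trans (by linarith)
  have h2δM : ‖2 * δ‖ ≤ M := by
    rw [norm_mul]
    have := hDK δ hδ
    simp only [Complex.norm_ofNat]; linarith
  have hs0 : Complex.sin δ ≠ 0 := hKs δ hδ
  have hms := hmK δ hδ
  have hηa : η * (4 * (M + M ^ 2 + 1)) ≤ 1 := by
    have : η ≤ 1 / (4 * (M + M ^ 2 + 1)) :=
      hηη.trans ((min_le_left _ _).trans (min_le_left _ _))
    rwa [le_div_iff₀ (by positivity)] at this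
  have hηb : η * (4 * (C₁ M + QB)) ≤ m := by
    have : η ≤ m / (4 * (C₁ M + QB)) :=
      hηη.trans ((min_le_left _ _).trans (min_le_right _ _))
    rwa [le_div_iff₀ (by positivity)] at this
  have hηc : η * (4 * R) ≤ r * m := by
    have : η ≤ r * m / (4 * R) := hηη.trans (min_le_right _ _)
    rwa [le_div_iff₀ (by positivity)] at this
  have hη1 : η * (M + M ^ 2) ≤ 1 / 2 := by nlinarith
  have hηM : η * (M + 1) ≤ 1 / 2 := by nlinarith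
  have hηle1 : η ≤ 1 := by nlinarith
  -- derivative close to `sin δ`
  have hder : ∀ s ∈ ball (2 * δ) r, ‖(g s ^ 2)⁻¹ * Complex.sin (ϑ s - δ) - Complex.sin δ‖
      ≤ m / 2 := by
    intro s hs
    have hsM := hball δ hδ hs
    have hs' : ‖s‖ ≤ M := (mem_ball_zero_iff.mp hsM).le
    have p1 := point_bound hM1 hη hη1 hηM hs' hδM hα (hg s hsM) (theta_bound dϑ ϑ0 hM1 hg hsM)
    have hv : ‖s - 2 * δ‖ ≤ r := by rw [mem_ball, dist_eq_norm] at hs; exact hs.le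
    have p2 := sin_add_sub hδM (by linarith) (hv.trans hr1)
    have e1 : δ + (s - 2 * δ) = s - δ := by ring
    rw [e1] at p2
    have p3 := QQ_bound hM1 hs' hδM
    have p4 : ‖α * (s ^ 2 / 2 * Complex.cos (s - δ) - 2 * s * Complex.sin (s - δ))‖ ≤ η * QB := by
      rw [norm_mul]; exact mul_le_mul hα p3 (norm_nonneg _) hη
    have e2 : (g s ^ 2)⁻¹ * Complex.sin (ϑ s - δ) - Complex.sin δ
        = ((g s ^ 2)⁻¹ * Complex.sin (ϑ s - δ) - (Complex.sin (s - δ)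
          + α * (s ^ 2 / 2 * Complex.cos (s - δ) - 2 * s * Complex.sin (s - δ))))
          + (Complex.sin (s - δ) - Complex.sin δ)
          + α * (s ^ 2 / 2 * Complex.cos (s - δ) - 2 * s * Complex.sin (s - δ)) := by ring
    rw [e2]
    calc _ ≤ _ := norm_add₃_le
      _ ≤ C₁ M * η ^ 2 + 3 * B * ‖s - 2 * δ‖ + η * QB := add_le_add (add_le_add p1 p2) p4
      _ ≤ C₁ M * η + 3 * B * r + η * QB := by
          have : η ^ 2 ≤ η := by nlinarith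
          gcongr
      _ ≤ m / 2 := by nlinarith
  have h2b : (2 * δ) ∈ ball (2 * δ) r := mem_ball_self hr0
  have hF2 : ‖F (2 * δ)‖ ≤ η * R := by
    have p1 := F_bound dϑ ϑ0 dF F0 hM1 hη hη1 hηM hδM hα hg (hball δ hδ h2b)
    have p2 : F1 α δ (2 * δ) = α * PP δ (2 * δ) := by
      have e0 : 2 * δ - δ = δ := by ring
      rw [F1, e0]; ring
    have p3 := PP_two_bound hM1 hδM h2δM
    have p4 : ‖F1 α δ (2 * δ)‖ ≤ η * PB := by
      rw [p2, norm_mul]; exact mul_le_mul hα p3 (norm_nonneg _) hη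
    calc ‖F (2 * δ)‖ = ‖(F (2 * δ) - F1 α δ (2 * δ)) + F1 α δ (2 * δ)‖ := by
          ring_nf
      _ ≤ _ := norm_add_le _ _
      _ ≤ C₁ M * η ^ 2 * M + η * PB := add_le_add p1 p4
      _ ≤ C₁ M * η * M + η * PB := by
          have : η ^ 2 ≤ η := by nlinarith
          gcongr
      _ = η * R := by rw [hR]; ring
  have hF2' : 2 / m * ‖F (2 * δ)‖ < r := by
    have h1 : 2 / m * ‖F (2 * δ)‖ ≤ 2 / m * (η * R) := by gcongr
    have h2 : 2 / m * (η * R) ≤ r / 2 := by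
      rw [div_mul_eq_mul_div, div_le_iff₀ hm]; nlinarith
    linarith
  obtain ⟨ζ, hζ, hζ0, hζn, huniq⟩ := exists_zero hm hms
    (fun s hs => dF s (hball δ hδ hs)) hder hF2'
  have htr : ∀ ζ' ∈ ball (2 * δ) r, Complex.sin (ϑ ζ' - δ) ≠ 0 := by
    intro s hs h0
    have := hder s hs
    rw [h0, mul_zero, zero_sub, norm_neg] at this
    linarith
  set ν := ζ - 2 * δ with hν
  have hνC : ‖ν‖ ≤ C₂ * η := by
    calc ‖ν‖ ≤ 2 / m * ‖F (2 * δ)‖ := hζn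
      _ ≤ 2 / m * (η * R) := by gcongr
      _ = C₂ * η := by rw [hC₂]; ring
  have hν1 : ‖ν‖ ≤ 1 := by
    rw [mem_ball, dist_eq_norm] at hζ; exact hζ.le.trans hr1
  have hζM := hball δ hδ hζ
  have hS0 : ‖Complex.sin δ‖ ≤ B :=
    (norm_sin_le _).trans (Real.exp_le_exp.mpr (by linarith))
  have hC0 : ‖Complex.cos δ‖ ≤ B :=
    (norm_cos_le _).trans (Real.exp_le_exp.mpr (by linarith))
  -- first order equation for `ν`
  have hF1 : ‖F1 α δ ζ‖ ≤ C₁ M * η ^ 2 * M := by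
    have := F_bound dϑ ϑ0 dF F0 hM1 hη hη1 hηM hδM hα hg hζM
    rwa [hζ0, zero_sub, norm_neg] at this
  have hPPd : ‖PP δ ζ - PP δ (2 * δ)‖ ≤ QB * ‖ν‖ := by
    have := (convex_ball (0 : ℂ) M).norm_image_sub_le_of_norm_hasDerivWithin_le
      (f := PP δ) (C := QB)
      (fun x _ => (hasDerivAt_PP δ x).hasDerivWithinAt)
      (fun x hx => QQ_bound hM1 (mem_ball_zero_iff.mp hx).le hδM)
      (hball δ hδ h2b) hζM
    exact this
  have hPP2 : PP δ (2 * δ) = 2 * δ ^ 2 * Complex.sin δ + 6 * δ * Complex.cos δ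
      - 6 * Complex.sin δ := by
    have e0 : 2 * δ - δ = δ := by ring
    rw [PP, e0]; ring
  set W := ν - α * (6 - 6 * δ * (Complex.cos δ / Complex.sin δ) - 2 * δ ^ 2) with hW
  have hWeq : Complex.sin δ * W = F1 α δ ζ - Complex.cos δ * (1 - Complex.cos ν)
      - Complex.sin δ * (Complex.sin ν - ν) - α * (PP δ ζ - PP δ (2 * δ)) := by
    have e1 : ζ - δ = δ + ν := by rw [hν]; ring
    rw [hPP2, F1, e1, Complex.cos_add, hW]
    field_simp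
    ring
  have hν2 : ‖ν‖ ^ 2 ≤ C₂ ^ 2 * η ^ 2 := by
    calc ‖ν‖ ^ 2 ≤ (C₂ * η) ^ 2 := pow_le_pow_left₀ (norm_nonneg _) hνC 2
      _ = _ := by ring
  have hWb : ‖Complex.sin δ * W‖ ≤ C₃ * η ^ 2 := by
    rw [hWeq]
    have q1 : ‖Complex.cos δ * (1 - Complex.cos ν)‖ ≤ B * (C₂ ^ 2 * η ^ 2) := by
      rw [norm_mul, norm_sub_rev]
      exact mul_le_mul hC0 ((cos_sub_one hν1).trans hν2) (norm_nonneg _) hB0.le
    have q2 : ‖Complex.sin δ * (Complex.sin ν - ν)‖ ≤ B * (C₂ ^ 2 * η ^ 2) := by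
      rw [norm_mul]
      exact mul_le_mul hS0 ((sin_sub_self hν1).trans hν2) (norm_nonneg _) hB0.le
    have q3 : ‖α * (PP δ ζ - PP δ (2 * δ))‖ ≤ η * (QB * (C₂ * η)) := by
      rw [norm_mul]
      exact mul_le_mul hα (hPPd.trans (by gcongr)) (norm_nonneg _) hη
    calc _ ≤ ‖F1 α δ ζ - Complex.cos δ * (1 - Complex.cos ν)
          - Complex.sin δ * (Complex.sin ν - ν)‖ + ‖α * (PP δ ζ - PP δ (2 * δ))‖ :=
          norm_sub_le _ _
      _ ≤ ‖F1 α δ ζ - Complex.cos δ * (1 - Complex.cos ν)‖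
          + ‖Complex.sin δ * (Complex.sin ν - ν)‖ + ‖α * (PP δ ζ - PP δ (2 * δ))‖ := by
          gcongr; exact norm_sub_le _ _
      _ ≤ ‖F1 α δ ζ‖ + ‖Complex.cos δ * (1 - Complex.cos ν)‖
          + ‖Complex.sin δ * (Complex.sin ν - ν)‖ + ‖α * (PP δ ζ - PP δ (2 * δ))‖ := by
          gcongr; exact norm_sub_le _ _
      _ ≤ C₁ M * η ^ 2 * M + B * (C₂ ^ 2 * η ^ 2) + B * (C₂ ^ 2 * η ^ 2)
          + η * (QB * (C₂ * η)) := add_le_add (add_le_add (add_le_add hF1 q1) q2) q3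
      _ = C₃ * η ^ 2 := by rw [hC₃]; ring
  have hWn : ‖W‖ ≤ C₃ / m * η ^ 2 := by
    rw [norm_mul] at hWb
    have : m * ‖W‖ ≤ C₃ * η ^ 2 :=
      (mul_le_mul_of_nonneg_right hms (norm_nonneg _)).trans hWb
    rw [div_mul_eq_mul_div, le_div_iff₀ hm]; linarith
  have hζexp : ζ - (2 * δ + α * (6 - 6 * δ * (Complex.cos δ / Complex.sin δ) - 2 * δ ^ 2)) = W := by
    rw [hW, hν]; ring
  refine ⟨ζ, hζ, hζ0, htr ζ hζ, ?_, ?_, huniq, htr⟩
  · rw [hζexp]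
    refine hWn.trans (mul_le_mul_of_nonneg_right ?_ (by positivity))
    rw [hC]
    have : 0 < M * C₂ := by positivity
    linarith
  · have t1 := theta_bound dϑ ϑ0 hM1 hg hζM
    have e : ϑ ζ - δ - (δ + 6 * α * (1 - δ * (Complex.cos δ / Complex.sin δ)))
        = (ϑ ζ - ζ - α * ζ ^ 2 / 2) + W + α * (ν * ((ζ + 2 * δ) / 2)) := by
      rw [hW, hν]; ring
    have t2 : ‖α * (ν * ((ζ + 2 * δ) / 2))‖ ≤ η * ((C₂ * η) * M) := by
      rw [norm_mul, norm_mul]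
      have h3 : ‖(ζ + 2 * δ) / 2‖ ≤ M := by
        rw [norm_div]
        have : ‖ζ + 2 * δ‖ ≤ M + M := (norm_add_le _ _).trans
          (add_le_add (mem_ball_zero_iff.mp hζM).le h2δM)
        simp only [Complex.norm_ofNat]; linarith
      exact mul_le_mul hα (mul_le_mul hνC h3 (norm_nonneg _) (by positivity))
        (by positivity) hη
    rw [e]
    calc _ ≤ _ := norm_add₃_le
      _ ≤ η ^ 2 * M + C₃ / m * η ^ 2 + η * ((C₂ * η) * M) :=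
          add_le_add (add_le_add t1 hWn) t2
      _ = C * η ^ 2 := by rw [hC]; ring

/-- **The one-step map of a slowly varying circle, large chords** (normalised form, isotropic
coordinates). -/
theorem step_norm {K : Set ℂ} (hK : IsCompact K) (hKs : ∀ δ ∈ K, Complex.sin δ ≠ 0) :
    ∃ M r η₀ C : ℝ, 1 ≤ M ∧ 0 < r ∧ r ≤ 1 ∧ 0 < η₀ ∧ 0 < C ∧
      (∀ δ ∈ K, ‖δ‖ ≤ M ∧ ball (2 * δ) r ⊆ ball (0 : ℂ) M) ∧
      ∀ (g ϑ Z Zc : ℂ → ℂ) (η : ℝ) (α : ℂ), NArc g ϑ Z Zc M → 0 ≤ η → η ≤ η₀ → ‖α‖ ≤ η →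
        (∀ s ∈ ball (0 : ℂ) M, ‖g s - 1 - α * s‖ ≤ η ^ 2) → ∀ δ ∈ K,
        ∃ ζ ∈ ball (2 * δ) r, FF Z Zc δ ζ = 0 ∧ Complex.sin (ϑ ζ - δ) ≠ 0 ∧
          ‖ζ - (2 * δ + α * (6 - 6 * δ * (Complex.cos δ / Complex.sin δ) - 2 * δ ^ 2))‖
            ≤ C * η ^ 2 ∧
          ‖ϑ ζ - δ - (δ + 6 * α * (1 - δ * (Complex.cos δ / Complex.sin δ)))‖ ≤ C * η ^ 2 ∧
          (∀ ζ' ∈ ball (2 * δ) r, FF Z Zc δ ζ' = 0 → ζ' = ζ) ∧
          (∀ ζ' ∈ ball (2 * δ) r, Complex.sin (ϑ ζ' - δ) ≠ 0) := by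
  obtain ⟨M, r, η₀, C, hM, hr, hr1, hη₀, hC, hball, H⟩ := step_normF hK hKs
  refine ⟨M, r, η₀, C, hM, hr, hr1, hη₀, hC, hball, ?_⟩
  intro g ϑ Z Zc η α A hη hηη hα hg δ hδ
  exact H g ϑ η α A.dϑ A.ϑ0 hη hηη hα hg δ hδ _ (fun s hs => hasDerivAt_FF A δ hs)
    (by simp [FF, A.Z0, A.Zc0])

end Crest.Agent.R102.StepL866
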