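import Mathlib

/-!
# Row 102, T1-E: large chord near tangency (helper924)

Scaled arc near a circle: `Θ' = Y`, `Y = 1 + α s + O(η²)`, and `P' = sin (Θ - δ) / Y²` (`P s₁ = 0` says
that the line through the vertex `0` with direction `δ` meets the curve at the label `s₁`).
With `D = δ - π`, `D₁ = Θ s₁ - δ - π` (angle at the next vertex) and `s₁` near `2π`:
`D₁² = D² - 12 π α + O(η (|D| + |D₁| + η))`, for BOTH intersections near tangency.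
-/

set_option autoImplicit false

open Set Metric Complex
open scoped Real

namespace Crest.Agent.R102.StepT924

/-- scaled arc near a circle, together with the incidence function of the line of direction `δ`
through the vertex at the label `0` -/
structure Arc (Θ Y P : ℂ → ℂ) (δ α : ℂ) (η : ℝ) : Prop where
  dΘ : ∀ s ∈ ball (0 : ℂ) 9, HasDerivAt Θ (Y s) s
  dP : ∀ s ∈ ball (0 : ℂ) 9, HasDerivAt P (sin (Θ s - δ) / (Y s) ^ 2) s
  Θ0 : Θ 0 = 0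
  P0 : P 0 = 0
  hY : ∀ s ∈ ball (0 : ℂ) 9, ‖Y s - 1 - α * s‖ ≤ η ^ 2
  hα : ‖α‖ ≤ η

theorem norm_sin_le (z : ℂ) : ‖sin z‖ ≤ Real.exp ‖z‖ := by
  have h1 : ‖exp (-z * I)‖ ≤ Real.exp ‖z‖ := by
    refine (norm_exp_le_exp_norm _).trans (le_of_eq ?_)
    rw [norm_mul, norm_neg, norm_I, mul_one]
  have h2 : ‖exp (z * I)‖ ≤ Real.exp ‖z‖ := by
    refine (norm_exp_le_exp_norm _).trans (le_of_eq ?_)
    rw [norm_mul, norm_I, mul_one]
  rw [Complex.sin, norm_div, norm_mul, norm_I, mul_one]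
  have h3 := norm_sub_le (exp (-z * I)) (exp (z * I))
  have h4 : ‖(2 : ℂ)‖ = 2 := by norm_num
  rw [h4, div_le_iff₀ (by norm_num)]
  linarith

theorem norm_cos_le (z : ℂ) : ‖cos z‖ ≤ Real.exp ‖z‖ := by
  have h1 : ‖exp (-z * I)‖ ≤ Real.exp ‖z‖ := by
    refine (norm_exp_le_exp_norm _).trans (le_of_eq ?_)
    rw [norm_mul, norm_neg, norm_I, mul_one]
  have h2 : ‖exp (z * I)‖ ≤ Real.exp ‖z‖ := by
    refine (norm_exp_le_exp_norm _).trans (le_of_eq ?_)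
    rw [norm_mul, norm_I, mul_one]
  rw [Complex.cos, norm_div]
  have h3 := norm_add_le (exp (z * I)) (exp (-z * I))
  have h4 : ‖(2 : ℂ)‖ = 2 := by norm_num
  rw [h4, div_le_iff₀ (by norm_num)]
  linarith

theorem sin_lin {x : ℂ} (hx : ‖x‖ ≤ 1) : ‖sin x - x‖ ≤ ‖x‖ ^ 3 ∧ ‖sin x‖ ≤ 2 * ‖x‖ := by
  have h1 := Complex.sin_bound hx
  have h0 := norm_nonneg x
  have h2 : ‖x‖ ^ 5 ≤ ‖x‖ ^ 3 := pow_le_pow_of_le_one h0 hx (by norm_num)
  have h3 : ‖x‖ ^ 3 ≤ ‖x‖ := by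
    have := pow_le_pow_of_le_one h0 hx (show 1 ≤ 3 by norm_num)
    simpa using this
  have h4 : sin x - x = (sin x - (x - x ^ 3 / 6)) - x ^ 3 / 6 := by ring
  have h5 : ‖x ^ 3 / 6‖ = ‖x‖ ^ 3 / 6 := by
    rw [norm_div, norm_pow]; norm_num
  have h6 : ‖sin x - x‖ ≤ ‖x‖ ^ 3 := by
    rw [h4]
    refine (norm_sub_le _ _).trans ?_
    rw [h5]
    nlinarith [pow_nonneg h0 3]
  refine ⟨h6, ?_⟩
  have h7 : sin x = (sin x - x) + x := by ring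
  rw [h7]
  refine (norm_add_le _ _).trans ?_
  linarith

/-- `cos D - cos D₁` and `(D₁² - D²)/2` agree up to a relative error `O(|D|² + |D₁|²)` -/
theorem cos_sq {D D₁ : ℂ} (h : ‖D‖ + ‖D₁‖ ≤ 1 / 2) :
    ‖D₁ ^ 2 - D ^ 2 - 2 * (cos D - cos D₁)‖ ≤ 12 * (‖D‖ + ‖D₁‖) * ‖cos D - cos D₁‖ := by
  set p : ℂ := (D + D₁) / 2 with hp
  set q : ℂ := (D - D₁) / 2 with hq
  set m : ℝ := (‖D‖ + ‖D₁‖) / 2 with hm
  have hm0 : 0 ≤ m := by positivity
  have hm4 : m ≤ 1 / 4 := by rw [hm]; linarith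
  have hpm : ‖p‖ ≤ m := by
    rw [hp, hm, norm_div]
    have := norm_add_le D D₁
    have h4 : ‖(2 : ℂ)‖ = 2 := by norm_num
    rw [h4]; linarith
  have hqm : ‖q‖ ≤ m := by
    rw [hq, hm, norm_div]
    have := norm_sub_le D D₁
    have h4 : ‖(2 : ℂ)‖ = 2 := by norm_num
    rw [h4]; linarith
  have e1 : cos D - cos D₁ = -2 * sin p * sin q := by rw [Complex.cos_sub_cos]
  have e2 : D₁ ^ 2 - D ^ 2 = -4 * (p * q) := by rw [hp, hq]; ring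
  obtain ⟨hp1, hp2⟩ := sin_lin (x := p) (by linarith)
  obtain ⟨hq1, hq2⟩ := sin_lin (x := q) (by linarith)
  have e3 : sin p * sin q - p * q = (sin p - p) * sin q + p * (sin q - q) := by ring
  have hp0 := norm_nonneg p
  have hq0 := norm_nonneg q
  have hpq0 : 0 ≤ ‖p‖ * ‖q‖ := by positivity
  have hpsq : ‖p‖ ^ 2 ≤ m ^ 2 := by gcongr
  have hqsq : ‖q‖ ^ 2 ≤ m ^ 2 := by gcongr
  have h1 : ‖sin p * sin q - p * q‖ ≤ 3 * m ^ 2 * (‖p‖ * ‖q‖) := by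
    rw [e3]
    refine (norm_add_le _ _).trans ?_
    rw [norm_mul, norm_mul]
    have h2 : ‖sin p - p‖ * ‖sin q‖ ≤ ‖p‖ ^ 3 * (2 * ‖q‖) :=
      mul_le_mul hp1 hq2 (norm_nonneg _) (by positivity)
    have h3 : ‖p‖ * ‖sin q - q‖ ≤ ‖p‖ * ‖q‖ ^ 3 := mul_le_mul_of_nonneg_left hq1 hp0
    have h4 : ‖p‖ ^ 3 * (2 * ‖q‖) = 2 * ‖p‖ ^ 2 * (‖p‖ * ‖q‖) := by ring
    have h5 : ‖p‖ * ‖q‖ ^ 3 = ‖q‖ ^ 2 * (‖p‖ * ‖q‖) := by ring
    rw [h4] at h2
    rw [h5] at h3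
    have h6 : 2 * ‖p‖ ^ 2 * (‖p‖ * ‖q‖) ≤ 2 * m ^ 2 * (‖p‖ * ‖q‖) := by gcongr
    have h7 : ‖q‖ ^ 2 * (‖p‖ * ‖q‖) ≤ m ^ 2 * (‖p‖ * ‖q‖) := by gcongr
    linarith
  have hm2 : m ^ 2 ≤ 1 / 16 := by nlinarith
  have h2 : ‖p‖ * ‖q‖ ≤ 2 * ‖sin p * sin q‖ := by
    have h3 : p * q = sin p * sin q - (sin p * sin q - p * q) := by ring
    have h4 : ‖p * q‖ ≤ ‖sin p * sin q‖ + ‖sin p * sin q - p * q‖ := by
      calc ‖p * q‖ = ‖sin p * sin q - (sin p * sin q - p * q)‖ := by rw [← h3]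
        _ ≤ _ := norm_sub_le _ _
    rw [norm_mul p q] at h4
    have h5 : 3 * m ^ 2 * (‖p‖ * ‖q‖) ≤ 1 / 2 * (‖p‖ * ‖q‖) := by
      apply mul_le_mul_of_nonneg_right _ hpq0
      linarith
    linarith
  have e4 : D₁ ^ 2 - D ^ 2 - 2 * (cos D - cos D₁) = 4 * (sin p * sin q - p * q) := by
    rw [e1, e2]; ring
  have e5 : ‖cos D - cos D₁‖ = 2 * ‖sin p * sin q‖ := by
    rw [e1]
    have : -2 * sin p * sin q = (-2 : ℂ) * (sin p * sin q) := by ring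
    rw [this, norm_mul]
    norm_num
  rw [e4, e5, norm_mul]
  have h4 : ‖(4 : ℂ)‖ = 4 := by norm_num
  rw [h4]
  have h5 : 4 * ‖sin p * sin q - p * q‖ ≤ 4 * (3 * m ^ 2 * (‖p‖ * ‖q‖)) := by linarith
  have h6 : 4 * (3 * m ^ 2 * (‖p‖ * ‖q‖)) ≤ 12 * m ^ 2 * (2 * ‖sin p * sin q‖) := by
    have : 4 * (3 * m ^ 2 * (‖p‖ * ‖q‖)) = 12 * m ^ 2 * (‖p‖ * ‖q‖) := by ring
    rw [this]
    gcongr
  have h7 : 12 * m ^ 2 * (2 * ‖sin p * sin q‖) ≤
      12 * (‖D‖ + ‖D₁‖) * (2 * ‖sin p * sin q‖) := by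
    have h8 : m ^ 2 ≤ ‖D‖ + ‖D₁‖ := by
      have : ‖D‖ + ‖D₁‖ = 2 * m := by rw [hm]; ring
      rw [this]; nlinarith
    gcongr
  linarith

section
variable {Θ Y P : ℂ → ℂ} {δ α : ℂ} {η : ℝ}

theorem Arc.Y_one (h : Arc Θ Y P δ α η) (hη : 0 ≤ η) (hη1 : η ≤ 1 / 200) {s : ℂ}
    (hs : s ∈ ball (0 : ℂ) 9) : ‖Y s - 1‖ ≤ 10 * η := by
  have h1 := h.hY s hs
  have h2 : ‖s‖ ≤ 9 := by
    rw [mem_ball_zero_iff] at hs; exact hs.le
  have e : Y s - 1 = (Y s - 1 - α * s) + α * s := by ring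
  rw [e]
  refine (norm_add_le _ _).trans ?_
  rw [norm_mul]
  have h3 : ‖α‖ * ‖s‖ ≤ η * 9 := mul_le_mul h.hα h2 (norm_nonneg _) hη
  nlinarith

theorem Arc.dY (h : Arc Θ Y P δ α η) {s : ℂ} (hs : s ∈ ball (0 : ℂ) 8) :
    DifferentiableAt ℂ Y s ∧ ‖deriv Y s - α‖ ≤ η ^ 2 := by
  have hΘd : DifferentiableOn ℂ Θ (ball 0 9) := fun s hs =>
    (h.dΘ s hs).differentiableAt.differentiableWithinAt
  have hYd : DifferentiableOn ℂ Y (ball 0 9) := by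
    refine (hΘd.deriv isOpen_ball).congr ?_
    intro z hz
    exact (h.dΘ z hz).deriv.symm
  have hs9 : s ∈ ball (0 : ℂ) 9 := ball_subset_ball (by norm_num) hs
  have hYs : DifferentiableAt ℂ Y s := hYd.differentiableAt (isOpen_ball.mem_nhds hs9)
  refine ⟨hYs, ?_⟩
  set f : ℂ → ℂ := fun z => Y z - 1 - α * z with hf
  have hfd : HasDerivAt f (deriv Y s - α) s := by
    have h1 := (hYs.hasDerivAt.sub_const (1 : ℂ)).sub ((hasDerivAt_id s).const_mul α)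
    rw [mul_one] at h1
    exact h1
  rw [← hfd.deriv]
  have hsub : closedBall s 1 ⊆ ball (0 : ℂ) 9 := by
    intro z hz
    rw [mem_closedBall, dist_eq_norm] at hz
    rw [mem_ball_zero_iff] at hs ⊢
    calc ‖z‖ = ‖(z - s) + s‖ := by ring_nf
      _ ≤ ‖z - s‖ + ‖s‖ := norm_add_le _ _
      _ < 9 := by linarith
  have hfD : DiffContOnCl ℂ f (ball s 1) := by
    apply DifferentiableOn.diffContOnCl
    rw [closure_ball s one_ne_zero]
    have : DifferentiableOn ℂ f (ball 0 9) := by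
      refine (hYd.sub_const 1).sub ?_
      exact (differentiable_id.const_mul α).differentiableOn
    exact this.mono hsub
  have := norm_deriv_le_of_forall_mem_sphere_norm_le (c := s) (R := 1) (C := η ^ 2) (f := f)
    one_pos hfD (fun z hz => h.hY z (hsub (sphere_subset_closedBall hz)))
  simpa using this

theorem Arc.Θ_id (h : Arc Θ Y P δ α η) (hη : 0 ≤ η) (hη1 : η ≤ 1 / 200) {s : ℂ}
    (hs : s ∈ ball (0 : ℂ) 9) : ‖Θ s - s‖ ≤ 90 * η := by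
  have h1 := (convex_ball (0 : ℂ) 9).norm_image_sub_le_of_norm_hasDerivWithin_le
    (f := fun z => Θ z - z) (f' := fun z => Y z - 1) (C := 10 * η)
    (fun z hz => ((h.dΘ z hz).sub (hasDerivAt_id z)).hasDerivWithinAt)
    (fun z hz => h.Y_one hη hη1 hz) (mem_ball_self (by norm_num)) hs
  simp only [h.Θ0, sub_zero] at h1
  have h2 : ‖s‖ ≤ 9 := by
    rw [mem_ball_zero_iff] at hs; exact hs.le
  nlinarith [norm_nonneg s]

/-- the primitive with small derivative -/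
theorem Arc.G_diff (h : Arc Θ Y P δ α η) (hη : 0 ≤ η) (hη1 : η ≤ 1 / 1000) (hδ : ‖δ‖ ≤ 4)
    {s₁ : ℂ} (hs : s₁ ∈ ball (0 : ℂ) 8) :
    ‖(P s₁ + cos (Θ s₁ - δ) / (Y s₁) ^ 3 + 3 * α * sin (Θ s₁ - δ)) -
      (P 0 + cos (Θ 0 - δ) / (Y 0) ^ 3 + 3 * α * sin (Θ 0 - δ))‖ ≤
      3 * Real.exp 16 * (2300 * η ^ 2) * 8 := by
  have hη2 : η ≤ 1 / 200 := by linarith
  have hb : ∀ s ∈ ball (0 : ℂ) 8, ‖Y s - 1‖ ≤ 10 * η ∧ ‖Θ s - δ‖ ≤ 16 ∧ Y s ≠ 0 ∧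
      1 / 2 ≤ ‖Y s‖ ∧ ‖Y s‖ ≤ 3 / 2 := by
    intro s hs
    have hs9 : s ∈ ball (0 : ℂ) 9 := ball_subset_ball (by norm_num) hs
    have h1 := h.Y_one hη hη2 hs9
    have h2 := h.Θ_id hη hη2 hs9
    have h3 : ‖s‖ ≤ 8 := by rw [mem_ball_zero_iff] at hs; exact hs.le
    have h4 : ‖Θ s - δ‖ ≤ 16 := by
      have e : Θ s - δ = (Θ s - s) + s - δ := by ring
      rw [e]
      refine (norm_sub_le _ _).trans ?_
      have := norm_add_le (Θ s - s) s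
      linarith
    have h5 : 1 / 2 ≤ ‖Y s‖ := by
      have e : (1 : ℂ) = Y s - (Y s - 1) := by ring
      have h6 : ‖(1 : ℂ)‖ ≤ ‖Y s‖ + ‖Y s - 1‖ := by
        conv_lhs => rw [e]
        exact norm_sub_le _ _
      rw [norm_one] at h6
      linarith
    have h6 : ‖Y s‖ ≤ 3 / 2 := by
      have e : Y s = (Y s - 1) + 1 := by ring
      rw [e]
      refine (norm_add_le _ _).trans ?_
      rw [norm_one]
      linarith
    refine ⟨h1, h4, ?_, h5, h6⟩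
    rw [← norm_pos_iff]
    linarith
  have hder : ∀ s ∈ ball (0 : ℂ) 8, HasDerivAt
      (fun s => P s + cos (Θ s - δ) / (Y s) ^ 3 + 3 * α * sin (Θ s - δ))
      (-(3 * cos (Θ s - δ) * (deriv Y s / (Y s) ^ 4 - α * Y s))) s := by
    intro s hs
    obtain ⟨-, -, hY0, -, -⟩ := hb s hs
    have hs9 : s ∈ ball (0 : ℂ) 9 := ball_subset_ball (by norm_num) hs
    have hΘ := (h.dΘ s hs9).sub_const δ
    have hY := (h.dY hs).1.hasDerivAt
    have h1 := (hΘ.ccos).div (hY.pow 3) (pow_ne_zero 3 hY0)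
    have h2 := (hΘ.csin).const_mul (3 * α)
    have h3 := ((h.dP s hs9).add h1).add h2
    refine h3.congr_deriv ?_
    simp only [Pi.pow_apply]
    field_simp
    ring
  have hbd : ∀ s ∈ ball (0 : ℂ) 8,
      ‖-(3 * cos (Θ s - δ) * (deriv Y s / (Y s) ^ 4 - α * Y s))‖ ≤
        3 * Real.exp 16 * (2300 * η ^ 2) := by
    intro s hs
    obtain ⟨hY1, hΘ16, hY0, hYl, hYu⟩ := hb s hs
    have hdY := (h.dY hs).2
    rw [norm_neg, norm_mul, norm_mul]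
    have h3 : ‖(3 : ℂ)‖ = 3 := by norm_num
    rw [h3]
    have hc : ‖cos (Θ s - δ)‖ ≤ Real.exp 16 :=
      (norm_cos_le _).trans (Real.exp_le_exp.2 hΘ16)
    have e : deriv Y s / (Y s) ^ 4 - α * Y s =
        (deriv Y s - α) / (Y s) ^ 4 +
          α * ((1 - Y s) * (1 + Y s + Y s ^ 2 + Y s ^ 3 + Y s ^ 4)) / (Y s) ^ 4 := by
      field_simp
      ring
    have hY4 : 1 / 16 ≤ ‖Y s‖ ^ 4 := by
      have : ((1 : ℝ) / 2) ^ 4 ≤ ‖Y s‖ ^ 4 := by gcongr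
      norm_num at this
      linarith
    have h4 : ‖(deriv Y s - α) / (Y s) ^ 4‖ ≤ 16 * η ^ 2 := by
      rw [norm_div, norm_pow, div_le_iff₀ (by linarith)]
      nlinarith [sq_nonneg η]
    have h5 : ‖1 + Y s + Y s ^ 2 + Y s ^ 3 + Y s ^ 4‖ ≤ 14 := by
      have a1 : ‖Y s ^ 2‖ ≤ 9 / 4 := by
        rw [norm_pow]
        have : ‖Y s‖ ^ 2 ≤ (3 / 2) ^ 2 := by gcongr
        norm_num at this; linarith
      have a2 : ‖Y s ^ 3‖ ≤ 27 / 8 := by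
        rw [norm_pow]
        have : ‖Y s‖ ^ 3 ≤ (3 / 2) ^ 3 := by gcongr
        norm_num at this; linarith
      have a3 : ‖Y s ^ 4‖ ≤ 81 / 16 := by
        rw [norm_pow]
        have : ‖Y s‖ ^ 4 ≤ (3 / 2) ^ 4 := by gcongr
        norm_num at this; linarith
      have b1 := norm_add_le (1 + Y s + Y s ^ 2 + Y s ^ 3) (Y s ^ 4)
      have b2 := norm_add_le (1 + Y s + Y s ^ 2) (Y s ^ 3)
      have b3 := norm_add_le (1 + Y s) (Y s ^ 2)
      have b4 := norm_add_le (1 : ℂ) (Y s)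
      rw [norm_one] at b4
      linarith
    have h6 : ‖1 - Y s‖ ≤ 10 * η := by rw [norm_sub_rev]; exact hY1
    have h7 : ‖α * ((1 - Y s) * (1 + Y s + Y s ^ 2 + Y s ^ 3 + Y s ^ 4)) / (Y s) ^ 4‖ ≤
        16 * (η * ((10 * η) * 14)) := by
      rw [norm_div, norm_pow, div_le_iff₀ (by linarith), norm_mul, norm_mul]
      have h8 : ‖α‖ * (‖1 - Y s‖ * ‖1 + Y s + Y s ^ 2 + Y s ^ 3 + Y s ^ 4‖) ≤
          η * ((10 * η) * 14) :=
        mul_le_mul h.hα (mul_le_mul h6 h5 (norm_nonneg _) (by positivity)) (by positivity) hη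
      have h9 : 0 ≤ η * ((10 * η) * 14) := by positivity
      nlinarith
    have h8 : ‖deriv Y s / (Y s) ^ 4 - α * Y s‖ ≤ 2300 * η ^ 2 := by
      rw [e]
      refine (norm_add_le _ _).trans ?_
      nlinarith [sq_nonneg η]
    have h9 : 3 * ‖cos (Θ s - δ)‖ ≤ 3 * Real.exp 16 := by linarith
    exact mul_le_mul h9 h8 (norm_nonneg _) (by positivity)
  have hmv := (convex_ball (0 : ℂ) 8).norm_image_sub_le_of_norm_hasDerivWithin_le
    (fun z hz => (hder z hz).hasDerivWithinAt) hbd (mem_ball_self (by norm_num)) hs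
  refine hmv.trans ?_
  have h3 : ‖s₁ - 0‖ ≤ 8 := by rw [sub_zero]; rw [mem_ball_zero_iff] at hs; exact hs.le
  exact mul_le_mul_of_nonneg_left h3 (by positivity)

/-- **large chord near tangency** -/
theorem Arc.step (h : Arc Θ Y P δ α η) (hη : 0 ≤ η) (hη1 : η ≤ 1 / 1000) {s₁ : ℂ}
    (hP : P s₁ = 0) (hs : ‖s₁ - 2 * π‖ ≤ 1 / 16) (hD : ‖δ - π‖ ≤ 1 / 16) :
    ‖s₁ - 2 * π - (δ - π) - (Θ s₁ - δ - π)‖ ≤ 90 * η ∧
    ‖(Θ s₁ - δ - π) ^ 2 - (δ - π) ^ 2 + 12 * π * α‖ ≤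
      (14 * (73300 * Real.exp 16) + 240) * (η * (‖δ - π‖ + ‖Θ s₁ - δ - π‖ + η)) := by
  set D : ℂ := δ - π with hDdef
  set D₁ : ℂ := Θ s₁ - δ - π with hD₁def
  set E : ℝ := Real.exp 16 with hE
  have hE1 : 1 ≤ E := Real.one_le_exp (by norm_num)
  have hη2 : η ≤ 1 / 200 := by linarith
  have hπ3 : Real.pi ≤ 3.15 := Real.pi_lt_d2.le
  have hπC : ‖(π : ℂ)‖ = π := by
    rw [Complex.norm_real, Real.norm_eq_abs, abs_of_pos Real.pi_pos]
  have hs1n : ‖s₁‖ ≤ 7 := by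
    have e : s₁ = (s₁ - 2 * π) + 2 * π := by ring
    rw [e]
    refine (norm_add_le _ _).trans ?_
    rw [norm_mul, hπC]
    norm_num
    linarith
  have hs8 : s₁ ∈ ball (0 : ℂ) 8 := by rw [mem_ball_zero_iff]; linarith
  have hs9 : s₁ ∈ ball (0 : ℂ) 9 := by rw [mem_ball_zero_iff]; linarith
  have h09 : (0 : ℂ) ∈ ball (0 : ℂ) 9 := mem_ball_self (by norm_num)
  have hδ4 : ‖δ‖ ≤ 4 := by
    have e : δ = D + π := by rw [hDdef]; ring
    rw [e]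
    refine (norm_add_le _ _).trans ?_
    rw [hπC]; linarith
  have hΘ1 := h.Θ_id hη hη2 hs9
  have hfirst : ‖s₁ - 2 * π - D - D₁‖ ≤ 90 * η := by
    have e : s₁ - 2 * π - D - D₁ = -(Θ s₁ - s₁) := by rw [hDdef, hD₁def]; ring
    rw [e, norm_neg]; exact hΘ1
  refine ⟨hfirst, ?_⟩
  have hD₁ : ‖D₁‖ ≤ 1 / 4 := by
    have e : D₁ = (s₁ - 2 * π) - D - (s₁ - 2 * π - D - D₁) := by ring
    rw [e]
    refine (norm_sub_le _ _).trans ?_
    have := norm_sub_le (s₁ - 2 * π) D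
    linarith
  -- the bound for `G s₁ - G 0`
  have hG := h.G_diff hη hη1 hδ4 hs8
  rw [hP, h.P0, h.Θ0] at hG
  have hcδ : cos (0 - δ) = -cos D := by
    rw [zero_sub, Complex.cos_neg]
    have e : δ = D + π := by rw [hDdef]; ring
    rw [e, Complex.cos_add_pi]
  have hsδ : sin (0 - δ) = sin D := by
    rw [zero_sub, Complex.sin_neg]
    have e : δ = D + π := by rw [hDdef]; ring
    rw [e, Complex.sin_add_pi, neg_neg]
  have hc1 : cos (Θ s₁ - δ) = -cos D₁ := by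
    have e : Θ s₁ - δ = D₁ + π := by rw [hD₁def]; ring
    rw [e, Complex.cos_add_pi]
  have hs1' : sin (Θ s₁ - δ) = -sin D₁ := by
    have e : Θ s₁ - δ = D₁ + π := by rw [hD₁def]; ring
    rw [e, Complex.sin_add_pi]
  rw [hcδ, hsδ, hc1, hs1'] at hG
  have hcosD : ‖cos D‖ ≤ E := (norm_cos_le _).trans (Real.exp_le_exp.2 (by linarith))
  have hcosD₁ : ‖cos D₁‖ ≤ E := (norm_cos_le _).trans (Real.exp_le_exp.2 (by linarith))
  -- the powers of `Y`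
  have key3 : ∀ v w : ℂ, ‖v‖ ≤ 10 * η → ‖v - w‖ ≤ η ^ 2 →
      ‖1 / (1 + v) ^ 3 - (1 - 3 * w)‖ ≤ 8810 * η ^ 2 := by
    intro v w hv hvw
    have hv1 : ‖v‖ ≤ 1 / 2 := by linarith
    have h1v : 1 / 2 ≤ ‖1 + v‖ := by
      have e : (1 : ℂ) = (1 + v) - v := by ring
      have h6 : ‖(1 : ℂ)‖ ≤ ‖1 + v‖ + ‖v‖ := by
        conv_lhs => rw [e]
        exact norm_sub_le _ _
      rw [norm_one] at h6
      linarith
    have hne : (1 + v) ≠ 0 := by rw [← norm_pos_iff]; linarith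
    have e : 1 / (1 + v) ^ 3 - (1 - 3 * w) =
        (v ^ 2 * (6 + 8 * v + 3 * v ^ 2)) / (1 + v) ^ 3 - 3 * (v - w) := by
      field_simp
      ring
    rw [e]
    refine (norm_sub_le _ _).trans ?_
    have h2 : ‖3 * (v - w)‖ ≤ 3 * η ^ 2 := by
      rw [norm_mul]; norm_num; linarith
    have h3 : ‖6 + 8 * v + 3 * v ^ 2‖ ≤ 11 := by
      have a1 := norm_add_le (6 + 8 * v) (3 * v ^ 2)
      have a2 := norm_add_le (6 : ℂ) (8 * v)
      rw [norm_mul, norm_pow] at a1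
      rw [norm_mul] at a2
      norm_num at a1 a2
      nlinarith [norm_nonneg v]
    have h4 : ‖v ^ 2‖ ≤ 100 * η ^ 2 := by
      rw [norm_pow]
      have : ‖v‖ ^ 2 ≤ (10 * η) ^ 2 := by gcongr
      linarith
    have h5 : 1 / 8 ≤ ‖1 + v‖ ^ 3 := by
      have : ((1 : ℝ) / 2) ^ 3 ≤ ‖1 + v‖ ^ 3 := by gcongr
      norm_num at this
      linarith
    have h6 : ‖(v ^ 2 * (6 + 8 * v + 3 * v ^ 2)) / (1 + v) ^ 3‖ ≤ 8 * ((100 * η ^ 2) * 11) := by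
      rw [norm_div, norm_pow, div_le_iff₀ (by linarith), norm_mul]
      have h7 : ‖v ^ 2‖ * ‖6 + 8 * v + 3 * v ^ 2‖ ≤ (100 * η ^ 2) * 11 :=
        mul_le_mul h4 h3 (norm_nonneg _) (by positivity)
      have h8 : 0 ≤ (100 * η ^ 2) * 11 := by positivity
      nlinarith
    nlinarith [sq_nonneg η]
  have hY1 := key3 (Y s₁ - 1) (α * s₁) (h.Y_one hη hη2 hs9) (h.hY s₁ hs9)
  have hY0 := key3 (Y 0 - 1) 0 (h.Y_one hη hη2 h09) (by
    have := h.hY 0 h09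
    simpa using this)
  rw [show (1 : ℂ) + (Y s₁ - 1) = Y s₁ by ring] at hY1
  rw [show (1 : ℂ) + (Y 0 - 1) = Y 0 by ring] at hY0
  -- collect
  have hX : ‖(cos D - cos D₁ * (1 - 3 * (α * s₁))) - 3 * α * (sin D₁ + sin D)‖ ≤
      73000 * E * η ^ 2 := by
    have e : (cos D - cos D₁ * (1 - 3 * (α * s₁))) - 3 * α * (sin D₁ + sin D) =
        ((0 + -cos D₁ / (Y s₁) ^ 3 + 3 * α * -sin D₁) -
          (0 + -cos D / (Y 0) ^ 3 + 3 * α * sin D)) +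
        cos D₁ * (1 / (Y s₁) ^ 3 - (1 - 3 * (α * s₁))) - cos D * (1 / (Y 0) ^ 3 - (1 - 3 * 0)) := by
      ring
    rw [e]
    refine (norm_sub_le _ _).trans ?_
    have h1 := norm_add_le ((0 + -cos D₁ / (Y s₁) ^ 3 + 3 * α * -sin D₁) -
          (0 + -cos D / (Y 0) ^ 3 + 3 * α * sin D))
        (cos D₁ * (1 / (Y s₁) ^ 3 - (1 - 3 * (α * s₁))))
    have h2 : ‖cos D₁ * (1 / (Y s₁) ^ 3 - (1 - 3 * (α * s₁)))‖ ≤ E * (8810 * η ^ 2) := by
      rw [norm_mul]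
      exact mul_le_mul hcosD₁ hY1 (norm_nonneg _) (by positivity)
    have h3 : ‖cos D * (1 / (Y 0) ^ 3 - (1 - 3 * 0))‖ ≤ E * (8810 * η ^ 2) := by
      rw [norm_mul]
      exact mul_le_mul hcosD hY0 (norm_nonneg _) (by positivity)
    have h4 : 0 ≤ E * η ^ 2 := by positivity
    nlinarith
  have hcos1 : ‖1 - cos D₁‖ ≤ ‖D₁‖ := by
    have h1 := Complex.cos_bound (x := D₁) (by linarith)
    have h0 := norm_nonneg D₁
    have e : 1 - cos D₁ = D₁ ^ 2 / 2 - (cos D₁ - (1 - D₁ ^ 2 / 2)) := by ring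
    rw [e]
    refine (norm_sub_le _ _).trans ?_
    rw [norm_div, norm_pow]
    have h2 : ‖(2 : ℂ)‖ = 2 := by norm_num
    rw [h2]
    have h3 : ‖D₁‖ ^ 2 ≤ ‖D₁‖ := by nlinarith
    have h4 : ‖D₁‖ ^ 4 ≤ ‖D₁‖ := by
      have := pow_le_pow_of_le_one h0 (by linarith) (show 1 ≤ 4 by norm_num)
      simpa using this
    linarith
  have hsinD : ‖sin D‖ ≤ 2 * ‖D‖ := (sin_lin (by linarith)).2
  have hsinD₁ : ‖sin D₁‖ ≤ 2 * ‖D₁‖ := (sin_lin (by linarith)).2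
  have hD0 := norm_nonneg D
  have hD10 := norm_nonneg D₁
  have hmain : ‖cos D - cos D₁ + 6 * π * α‖ ≤ 73300 * E * (η * (‖D‖ + ‖D₁‖ + η)) := by
    have e : cos D - cos D₁ + 6 * π * α =
        ((cos D - cos D₁ * (1 - 3 * (α * s₁))) - 3 * α * (sin D₁ + sin D)) +
        (3 * α * (-(s₁ - 2 * π) + s₁ * (1 - cos D₁)) + 3 * α * (sin D₁ + sin D)) := by
      ring
    rw [e]
    refine (norm_add_le _ _).trans ?_
    have h1 : ‖3 * α * (-(s₁ - 2 * π) + s₁ * (1 - cos D₁)) + 3 * α * (sin D₁ + sin D)‖ ≤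
        3 * η * ((‖D‖ + ‖D₁‖ + 90 * η) + 7 * ‖D₁‖) + 3 * η * (2 * ‖D₁‖ + 2 * ‖D‖) := by
      refine (norm_add_le _ _).trans ?_
      have hα3 : ‖3 * α‖ ≤ 3 * η := by
        rw [norm_mul]; norm_num; linarith [h.hα]
      have h2 : ‖-(s₁ - 2 * π) + s₁ * (1 - cos D₁)‖ ≤ (‖D‖ + ‖D₁‖ + 90 * η) + 7 * ‖D₁‖ := by
        refine (norm_add_le _ _).trans ?_
        rw [norm_neg, norm_mul]
        have h3 : ‖s₁ - 2 * π‖ ≤ ‖D‖ + ‖D₁‖ + 90 * η := by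
          have e : s₁ - 2 * π = D + D₁ + (s₁ - 2 * π - D - D₁) := by ring
          rw [e]
          refine (norm_add_le _ _).trans ?_
          have := norm_add_le D D₁
          linarith
        have h4 : ‖s₁‖ * ‖1 - cos D₁‖ ≤ 7 * ‖D₁‖ :=
          mul_le_mul hs1n hcos1 (norm_nonneg _) (by norm_num)
        linarith
      have h3 : ‖sin D₁ + sin D‖ ≤ 2 * ‖D₁‖ + 2 * ‖D‖ := by
        refine (norm_add_le _ _).trans ?_
        linarith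
      have h4 : ‖3 * α * (-(s₁ - 2 * π) + s₁ * (1 - cos D₁))‖ ≤
          3 * η * ((‖D‖ + ‖D₁‖ + 90 * η) + 7 * ‖D₁‖) := by
        rw [norm_mul]
        exact mul_le_mul hα3 h2 (norm_nonneg _) (by positivity)
      have h5 : ‖3 * α * (sin D₁ + sin D)‖ ≤ 3 * η * (2 * ‖D₁‖ + 2 * ‖D‖) := by
        rw [norm_mul]
        exact mul_le_mul hα3 h3 (norm_nonneg _) (by positivity)
      linarith
    have h2 : 0 ≤ η * ‖D‖ := by positivity
    have h3 : 0 ≤ η * ‖D₁‖ := by positivity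
    have h4 : 0 ≤ η ^ 2 := by positivity
    have h5 : η * ‖D‖ ≤ E * (η * ‖D‖) := by nlinarith
    have h6 : η * ‖D₁‖ ≤ E * (η * ‖D₁‖) := by nlinarith
    have h7 : η ^ 2 ≤ E * η ^ 2 := by nlinarith
    nlinarith
  set K : ℝ := 73300 * E with hK
  have hK0 : 0 ≤ K := by positivity
  have hsq := cos_sq (D := D) (D₁ := D₁) (by linarith)
  have hα6 : ‖(6 : ℂ) * π * α‖ ≤ 19 * η := by
    rw [norm_mul, norm_mul, hπC]
    have h6 : ‖(6 : ℂ)‖ = 6 := by norm_num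
    rw [h6]
    have h1 : 6 * Real.pi * ‖α‖ ≤ 6 * 3.15 * η :=
      mul_le_mul (by linarith) h.hα (norm_nonneg _) (by norm_num)
    nlinarith
  have hcc : ‖cos D - cos D₁‖ ≤ (19 + K) * η := by
    have e : cos D - cos D₁ = (cos D - cos D₁ + 6 * π * α) - 6 * π * α := by ring
    rw [e]
    refine (norm_sub_le _ _).trans ?_
    have h1 : K * (η * (‖D‖ + ‖D₁‖ + η)) ≤ K * (η * 1) := by
      apply mul_le_mul_of_nonneg_left _ hK0
      apply mul_le_mul_of_nonneg_left _ hη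
      linarith
    nlinarith
  have e : D₁ ^ 2 - D ^ 2 + 12 * π * α =
      (D₁ ^ 2 - D ^ 2 - 2 * (cos D - cos D₁)) + 2 * (cos D - cos D₁ + 6 * π * α) := by ring
  rw [e]
  refine (norm_add_le _ _).trans ?_
  have h1 : 12 * (‖D‖ + ‖D₁‖) * ‖cos D - cos D₁‖ ≤ 12 * (‖D‖ + ‖D₁‖) * ((19 + K) * η) := by
    gcongr
  have h2 : ‖2 * (cos D - cos D₁ + 6 * π * α)‖ ≤ 2 * (K * (η * (‖D‖ + ‖D₁‖ + η))) := by
    rw [norm_mul]
    have : ‖(2 : ℂ)‖ = 2 := by norm_num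
    rw [this]
    linarith
  have h3 : 0 ≤ η ^ 2 := by positivity
  have h4 : 0 ≤ (19 + K) * η ^ 2 := by positivity
  nlinarith

end

end Crest.Agent.R102.StepT924
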