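import Crest.Agent.R102.StepL_866

/-! # Large-chord one-step map, unnormalised and window forms (helper866, row 102, T1-E)

`Arc y θ P z0 ρ`: on `ball z0 ρ`, `θ' = y` and, for every direction `φ`, `(P φ)' = sin (θ - φ)/y²`
(`P φ z` = the support value `p` of the line of direction `φ` through the point of label `z`).
The line of direction `φ` through the label `z0` meets the curve at the label `z1` iff
`P φ z1 = P φ z0`. -/

namespace Crest.Agent.R102.StepW866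

open Set Filter Topology Metric Complex
open Crest.Agent.R102.StepL866

structure Arc (y θ : ℂ → ℂ) (P : ℂ → ℂ → ℂ) (z0 : ℂ) (ρ : ℝ) : Prop where
  dθ : ∀ z ∈ ball z0 ρ, HasDerivAt θ (y z) z
  dP : ∀ φ : ℂ, ∀ z ∈ ball z0 ρ, HasDerivAt (P φ) (Complex.sin (θ z - φ) / y z ^ 2) z

/-- rescaled label -/
noncomputable def zz (y : ℂ → ℂ) (z0 s : ℂ) : ℂ := z0 + s / y z0

variable {y θ : ℂ → ℂ} {P : ℂ → ℂ → ℂ} {z0 : ℂ} {M : ℝ}

theorem zz_mem (h0 : y z0 ≠ 0) {a s : ℂ} {M : ℝ} (hs : s ∈ ball a M) :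
    zz y z0 s ∈ ball (z0 + a / y z0) (M / ‖y z0‖) := by
  have hn : 0 < ‖y z0‖ := norm_pos_iff.mpr h0
  rw [mem_ball, dist_eq_norm] at hs ⊢
  have e : zz y z0 s - (z0 + a / y z0) = (s - a) / y z0 := by rw [zz]; ring
  rw [e, norm_div]
  exact div_lt_div_of_pos_right hs hn

theorem mem_zz (h0 : y z0 ≠ 0) {a z : ℂ} {M : ℝ} (hz : z ∈ ball (z0 + a / y z0) (M / ‖y z0‖)) :
    y z0 * (z - z0) ∈ ball a M := by
  have hn : 0 < ‖y z0‖ := norm_pos_iff.mpr h0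
  rw [mem_ball, dist_eq_norm] at hz ⊢
  have e : y z0 * (z - z0) - a = y z0 * (z - (z0 + a / y z0)) := by field_simp; ring
  rw [e, norm_mul]
  rw [lt_div_iff₀ hn] at hz
  linarith

theorem zz_mul (h0 : y z0 ≠ 0) (z : ℂ) : zz y z0 (y z0 * (z - z0)) = z := by
  rw [zz]; field_simp; ring

theorem hasDerivAt_zz (s : ℂ) : HasDerivAt (zz y z0) (1 / y z0) s := by
  have := ((hasDerivAt_id s).div_const (y z0)).const_add z0
  exact this

theorem Arc.mono {ρ ρ' : ℝ} (A : Arc y θ P z0 ρ) (h : ρ' ≤ ρ) : Arc y θ P z0 ρ' :=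
  ⟨fun z hz => A.dθ z (ball_subset_ball h hz), fun φ z hz => A.dP φ z (ball_subset_ball h hz)⟩

/-- **One-step map, large chords, unnormalised.** -/
theorem step {K : Set ℂ} (hK : IsCompact K) (hKs : ∀ δ ∈ K, Complex.sin δ ≠ 0) :
    ∃ M r η₀ C : ℝ, 1 ≤ M ∧ 0 < r ∧ r ≤ 1 ∧ 0 < η₀ ∧ 0 < C ∧
      (∀ δ ∈ K, ‖δ‖ ≤ M ∧ ball (2 * δ) r ⊆ ball (0 : ℂ) M) ∧
      ∀ (y θ : ℂ → ℂ) (P : ℂ → ℂ → ℂ) (z0 : ℂ) (η : ℝ) (α : ℂ), y z0 ≠ 0 →
        Arc y θ P z0 (M / ‖y z0‖) → 0 ≤ η → η ≤ η₀ → ‖α‖ ≤ η →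
        (∀ z ∈ ball z0 (M / ‖y z0‖), ‖y z / y z0 - 1 - α * (y z0 * (z - z0))‖ ≤ η ^ 2) →
        ∀ δ ∈ K,
        ∃ z1 ∈ ball (z0 + 2 * δ / y z0) (r / ‖y z0‖), z1 ∈ ball z0 (M / ‖y z0‖) ∧
          P (θ z0 + δ) z1 = P (θ z0 + δ) z0 ∧
          Complex.sin (θ z1 - (θ z0 + δ)) ≠ 0 ∧
          ‖y z0 * (z1 - z0)
            - (2 * δ + α * (6 - 6 * δ * (Complex.cos δ / Complex.sin δ) - 2 * δ ^ 2))‖
              ≤ C * η ^ 2 ∧
          ‖θ z1 - (θ z0 + δ) - (δ + 6 * α * (1 - δ * (Complex.cos δ / Complex.sin δ)))‖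
              ≤ C * η ^ 2 ∧
          (∀ z' ∈ ball (z0 + 2 * δ / y z0) (r / ‖y z0‖),
            P (θ z0 + δ) z' = P (θ z0 + δ) z0 → z' = z1) ∧
          (∀ z' ∈ ball (z0 + 2 * δ / y z0) (r / ‖y z0‖), Complex.sin (θ z' - (θ z0 + δ)) ≠ 0) := by
  obtain ⟨M, r, η₀, C, hM, hr, hr1, hη₀, hC, hball, H⟩ := step_normF hK hKs
  refine ⟨M, r, η₀, C, hM, hr, hr1, hη₀, hC, hball, ?_⟩
  intro y θ P z0 η α h0 A hη hηη hα hg δ hδ
  have hm : ∀ s ∈ ball (0 : ℂ) M, zz y z0 s ∈ ball z0 (M / ‖y z0‖) := by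
    intro s hs
    have := zz_mem (y := y) (z0 := z0) h0 hs
    simpa using this
  have hsm : ∀ s ∈ ball (0 : ℂ) M, ‖y (zz y z0 s) / y z0 - 1 - α * s‖ ≤ η ^ 2 := by
    intro s hs
    have h2 := hg _ (hm s hs)
    have e : y z0 * (zz y z0 s - z0) = s := by rw [zz]; field_simp; ring
    rwa [e] at h2
  have hy3 : y z0 ^ 3 ≠ 0 := pow_ne_zero 3 h0
  obtain ⟨ζ, hζ, hζ0, hζs, hζ1, hζ2, hζu, hζt⟩ := H (fun s => y (zz y z0 s) / y z0)
    (fun s => θ (zz y z0 s) - θ z0) η α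
    (fun s hs => (((A.dθ _ (hm s hs)).comp s (hasDerivAt_zz s)).sub_const (θ z0)).congr_deriv
      (by ring))
    (by simp [zz]) hη hηη hα hsm δ hδ
    (fun s => y z0 ^ 3 * (P (θ z0 + δ) (zz y z0 s) - P (θ z0 + δ) z0))
    (by
      intro s hs
      have h := (((A.dP (θ z0 + δ) _ (hm s hs)).comp s (hasDerivAt_zz s)).sub_const
        (P (θ z0 + δ) z0)).const_mul (y z0 ^ 3)
      refine h.congr_deriv ?_
      have e : θ (zz y z0 s) - θ z0 - δ = θ (zz y z0 s) - (θ z0 + δ) := by ring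
      rw [e]
      field_simp)
    (by simp [zz])
  have eθ : ∀ z, θ z - (θ z0 + δ) = θ z - θ z0 - δ := fun z => by ring
  have ez : y z0 * (zz y z0 ζ - z0) = ζ := by rw [zz]; field_simp; ring
  refine ⟨zz y z0 ζ, zz_mem h0 hζ, hm _ (hball δ hδ |>.2 hζ), ?_, ?_, ?_, ?_, ?_, ?_⟩
  · exact sub_eq_zero.mp ((mul_eq_zero.mp hζ0).resolve_left hy3)
  · rw [eθ]; exact hζs
  · rw [ez]; exact hζ1
  · rw [eθ]; exact hζ2
  · intro z' hz' h
    have h1 := mem_zz h0 hz'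
    have h2 := hζu _ h1 (by
      rw [zz_mul h0, h, sub_self, mul_zero])
    rw [← h2, zz_mul h0]
  · intro z' hz'
    have h1 := hζt _ (mem_zz h0 hz')
    simp only [zz_mul h0] at h1
    rw [eθ]; exact h1

/-- quantitative bounds for the rescaled density in the window -/
structure Win (Y Y' : ℂ → ℂ) (W : Set ℂ) (ρ A : ℝ) : Prop where
  low : ∀ b ∈ W, 1 ≤ A * ‖Y b‖
  der : ∀ b ∈ W, ‖Y' b‖ ≤ A
  tay : ∀ b ∈ W, ∀ h : ℂ, ‖h‖ ≤ ρ → ‖Y (b + h) - Y b - Y' b * h‖ ≤ A * ‖h‖ ^ 2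

theorem cot_bound {K : Set ℂ} (hK : IsCompact K) (hKs : ∀ δ ∈ K, Complex.sin δ ≠ 0) :
    ∃ B : ℝ, 0 < B ∧ ∀ δ ∈ K, ‖δ‖ ≤ B ∧ ‖1 - δ * (Complex.cos δ / Complex.sin δ)‖ ≤ B ∧
      ‖6 - 6 * δ * (Complex.cos δ / Complex.sin δ) - 2 * δ ^ 2‖ ≤ B := by
  have h1 : ContinuousOn (fun δ : ℂ => δ) K := continuousOn_id
  have h2 : ContinuousOn (fun δ : ℂ => 1 - δ * (Complex.cos δ / Complex.sin δ)) K :=
    continuousOn_const.sub (continuousOn_id.mul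
      (Complex.continuous_cos.continuousOn.div Complex.continuous_sin.continuousOn hKs))
  have h3 : ContinuousOn
      (fun δ : ℂ => 6 - 6 * δ * (Complex.cos δ / Complex.sin δ) - 2 * δ ^ 2) K := by
    refine ContinuousOn.sub (continuousOn_const.sub ((continuousOn_const.mul continuousOn_id).mul
      (Complex.continuous_cos.continuousOn.div Complex.continuous_sin.continuousOn hKs))) ?_
    fun_prop
  obtain ⟨B1, hB1⟩ := hK.exists_bound_of_continuousOn h1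
  obtain ⟨B2, hB2⟩ := hK.exists_bound_of_continuousOn h2
  obtain ⟨B3, hB3⟩ := hK.exists_bound_of_continuousOn h3
  refine ⟨|B1| + |B2| + |B3| + 1, by positivity, fun δ hδ => ⟨?_, ?_, ?_⟩⟩
  · have := hB1 δ hδ; have := le_abs_self B1; have := abs_nonneg B2; have := abs_nonneg B3
    linarith
  · have := hB2 δ hδ; have := le_abs_self B2; have := abs_nonneg B1; have := abs_nonneg B3
    linarith
  · have := hB3 δ hδ; have := le_abs_self B3; have := abs_nonneg B1; have := abs_nonneg B2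
    linarith

/-- **One-step map in the window**: `z = zn + b/N`, `y (zn + b/N) = yn * Y b`, `ε = N/yn`:
`T (b, δ) = (b, δ) + ε (2δ/Y, 6 Y'/Y² (1 - δ cot δ)) + O(ε²)`. -/
theorem step_win {K : Set ℂ} (hK : IsCompact K) (hKs : ∀ δ ∈ K, Complex.sin δ ≠ 0)
    {ρ A : ℝ} (hρ : 0 < ρ) (hA : 0 < A) :
    ∃ r ε₀ C : ℝ, 0 < r ∧ r ≤ 1 ∧ 0 < ε₀ ∧ 0 < C ∧
      ∀ (y θ : ℂ → ℂ) (P : ℂ → ℂ → ℂ) (zn N yn : ℂ) (Y Y' : ℂ → ℂ) (W : Set ℂ),
        N ≠ 0 → yn ≠ 0 → ‖N / yn‖ ≤ ε₀ → Win Y Y' W ρ A →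
        (∀ b ∈ W, ∀ h : ℂ, ‖h‖ ≤ ρ → y (zn + (b + h) / N) = yn * Y (b + h)) →
        (∀ b ∈ W, Arc y θ P (zn + b / N) (ρ / ‖N‖)) →
        ∀ b ∈ W, ∀ δ ∈ K,
        ∃ b1 : ℂ, ‖b1 - (b + N / yn * (2 * δ / Y b))‖ < r * ‖N / (yn * Y b)‖ ∧ ‖b1 - b‖ < ρ ∧
          P (θ (zn + b / N) + δ) (zn + b1 / N) = P (θ (zn + b / N) + δ) (zn + b / N) ∧
          Complex.sin (θ (zn + b1 / N) - (θ (zn + b / N) + δ)) ≠ 0 ∧
          ‖b1 - b - N / yn * (2 * δ / Y b)‖ ≤ C * ‖N / yn‖ ^ 2 ∧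
          ‖θ (zn + b1 / N) - (θ (zn + b / N) + δ) - δ
            - N / yn * (6 * (Y' b / Y b ^ 2) * (1 - δ * (Complex.cos δ / Complex.sin δ)))‖
              ≤ C * ‖N / yn‖ ^ 2 ∧
          (∀ b' : ℂ, ‖b' - (b + N / yn * (2 * δ / Y b))‖ < r * ‖N / (yn * Y b)‖ →
            P (θ (zn + b / N) + δ) (zn + b' / N) = P (θ (zn + b / N) + δ) (zn + b / N) →
            b' = b1) ∧
          (∀ b' : ℂ, ‖b' - (b + N / yn * (2 * δ / Y b))‖ < r * ‖N / (yn * Y b)‖ →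
            Complex.sin (θ (zn + b' / N) - (θ (zn + b / N) + δ)) ≠ 0) := by
  obtain ⟨M, r, η₀, C, hM, hr, hr1, hη₀, hC, hball, H⟩ := step hK hKs
  obtain ⟨B, hB, hBK⟩ := cot_bound hK hKs
  set A₂ := A ^ 3 + A ^ 2 * M with hA₂
  have hA₂0 : 0 < A₂ := by positivity
  set ε₀ := min (ρ / (M * A)) (η₀ / A₂) with hε₀
  have hε₀0 : 0 < ε₀ := lt_min (by positivity) (by positivity)
  set C' := A * (A ^ 3 * B + C * A₂ ^ 2 * ε₀) + C * A₂ ^ 2 with hC'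
  refine ⟨r, ε₀, C', hr, hr1, hε₀0, by positivity, ?_⟩
  intro y θ P zn N yn Y Y' W hN hyn hε hW hy hArc b hb δ hδ
  set ε := N / yn with hεd
  have hYb : Y b ≠ 0 := by
    intro h; have := hW.low b hb; rw [h, norm_zero, mul_zero] at this; linarith
  have hYn : 0 < ‖Y b‖ := norm_pos_iff.mpr hYb
  have hYi : ‖Y b‖⁻¹ ≤ A := by
    rw [inv_le_comm₀ hYn hA, ← one_div, div_le_iff₀ hA]; linarith [hW.low b hb, mul_comm A ‖Y b‖]
  set z0 := zn + b / N with hz0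
  have hy0 : y z0 = yn * Y b := by
    have := hy b hb 0 (by simpa using hρ.le)
    simpa using this
  have hy00 : y z0 ≠ 0 := by rw [hy0]; exact mul_ne_zero hyn hYb
  have hNn : 0 < ‖N‖ := norm_pos_iff.mpr hN
  have hynn : 0 < ‖yn‖ := norm_pos_iff.mpr hyn
  have hεn : 0 < ‖ε‖ := norm_pos_iff.mpr (div_ne_zero hN hyn)
  have hNy : N / y z0 = ε / Y b := by rw [hy0, hεd]; field_simp
  have hNyn : ‖N / y z0‖ ≤ ‖ε‖ * A := by
    rw [hNy, norm_div, div_eq_mul_inv]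
    exact mul_le_mul_of_nonneg_left hYi (norm_nonneg _)
  have hε1 : ‖ε‖ * (M * A) ≤ ρ := by
    have : ‖ε‖ ≤ ρ / (M * A) := hε.trans (min_le_left _ _)
    rwa [le_div_iff₀ (by positivity)] at this
  have hε2 : A₂ * ‖ε‖ ≤ η₀ := by
    have : ‖ε‖ ≤ η₀ / A₂ := hε.trans (min_le_right _ _)
    rw [le_div_iff₀ (by positivity)] at this; linarith
  have hrad : M / ‖y z0‖ ≤ ρ / ‖N‖ := by
    have h1 : M * (‖N‖ / ‖y z0‖) ≤ ρ := by
      rw [← norm_div]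
      calc M * ‖N / y z0‖ ≤ M * (‖ε‖ * A) := by gcongr
        _ = ‖ε‖ * (M * A) := by ring
        _ ≤ ρ := hε1
    rw [le_div_iff₀ hNn]
    calc M / ‖y z0‖ * ‖N‖ = M * (‖N‖ / ‖y z0‖) := by ring
      _ ≤ ρ := h1
  set α := ε * (Y' b / Y b ^ 2) with hα
  have hαb : ‖α‖ ≤ A ^ 3 * ‖ε‖ := by
    rw [hα, norm_mul, norm_div (Y' b), norm_pow]
    have h1 : ‖Y' b‖ / ‖Y b‖ ^ 2 ≤ A ^ 3 := by
      rw [div_eq_mul_inv, ← inv_pow]
      calc ‖Y' b‖ * ‖Y b‖⁻¹ ^ 2 ≤ A * A ^ 2 := by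
            refine mul_le_mul (hW.der b hb) (pow_le_pow_left₀ (by positivity) hYi 2)
              (by positivity) hA.le
        _ = A ^ 3 := by ring
    calc ‖ε‖ * (‖Y' b‖ / ‖Y b‖ ^ 2) ≤ ‖ε‖ * A ^ 3 := by gcongr
      _ = _ := by ring
  set η := A₂ * ‖ε‖ with hη
  have hη0 : 0 ≤ η := by positivity
  have hαη : ‖α‖ ≤ η := by
    refine hαb.trans ?_
    rw [hη, hA₂]; gcongr
    have : 0 ≤ A ^ 2 * M := by positivity
    linarith
  have hgb : ∀ z ∈ ball z0 (M / ‖y z0‖), ‖y z / y z0 - 1 - α * (y z0 * (z - z0))‖ ≤ η ^ 2 := by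
    intro z hz
    rw [mem_ball, dist_eq_norm] at hz
    set h := N * (z - z0) with hh
    have hzh : z = zn + (b + h) / N := by rw [hh, hz0]; field_simp; ring
    have hhb : ‖h‖ ≤ ‖ε‖ * (M * A) := by
      rw [hh, norm_mul]
      calc ‖N‖ * ‖z - z0‖ ≤ ‖N‖ * (M / ‖y z0‖) := by gcongr
        _ = M * ‖N / y z0‖ := by rw [norm_div]; ring
        _ ≤ M * (‖ε‖ * A) := by gcongr
        _ = _ := by ring
    have hhρ : ‖h‖ ≤ ρ := hhb.trans hε1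
    have hyz : y z = yn * Y (b + h) := by rw [hzh]; exact hy b hb h hhρ
    have hzz : z - z0 = h / N := by rw [hh]; field_simp
    have e : y z / y z0 - 1 - α * (y z0 * (z - z0)) = (Y (b + h) - Y b - Y' b * h) / Y b := by
      rw [hyz, hy0, hzz, hα, hεd]
      field_simp
    rw [e, norm_div, div_eq_mul_inv]
    calc ‖Y (b + h) - Y b - Y' b * h‖ * ‖Y b‖⁻¹ ≤ (A * ‖h‖ ^ 2) * A :=
          mul_le_mul (hW.tay b hb h hhρ) hYi (by positivity) (by positivity)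
      _ ≤ (A * (‖ε‖ * (M * A)) ^ 2) * A := by gcongr
      _ = (A ^ 2 * M * ‖ε‖) ^ 2 := by ring
      _ ≤ η ^ 2 := by
          refine pow_le_pow_left₀ (by positivity) ?_ 2
          rw [hη, hA₂]; gcongr
          have : 0 ≤ A ^ 3 := by positivity
          linarith
  obtain ⟨z1, hz1, hz1M, hz1P, hz1s, hz1a, hz1b, hz1u, hz1t⟩ :=
    H y θ P z0 η α hy00 ((hArc b hb).mono hrad) hη0 hε2 hαη hgb δ hδ
  set b1 := N * (z1 - zn) with hb1
  have hz1b1 : zn + b1 / N = z1 := by rw [hb1]; field_simp; ring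
  have hεδ : N / yn * (2 * δ / Y b) = N * (2 * δ / y z0) := by
    rw [hy0]; field_simp
  have hball1 : ∀ b' : ℂ, ‖b' - (b + N / yn * (2 * δ / Y b))‖ < r * ‖N / (yn * Y b)‖ →
      zn + b' / N ∈ ball (z0 + 2 * δ / y z0) (r / ‖y z0‖) := by
    intro b' hb'
    rw [mem_ball, dist_eq_norm]
    have e : zn + b' / N - (z0 + 2 * δ / y z0) = (b' - (b + N / yn * (2 * δ / Y b))) / N := by
      rw [hεδ, hz0]; field_simp; ring
    rw [e, norm_div, div_lt_iff₀ hNn]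
    calc _ < r * ‖N / (yn * Y b)‖ := hb'
      _ = r / ‖y z0‖ * ‖N‖ := by rw [← hy0, norm_div]; ring
  have hb1b : b1 - b = N * (z1 - z0) := by rw [hb1, hz0]; field_simp; ring
  refine ⟨b1, ?_, ?_, ?_, ?_, ?_, ?_, ?_, ?_⟩
  · rw [mem_ball, dist_eq_norm] at hz1
    have e : b1 - (b + N / yn * (2 * δ / Y b)) = N * (z1 - (z0 + 2 * δ / y z0)) := by
      rw [hεδ, hb1, hz0]; field_simp; ring
    rw [e, norm_mul]
    calc ‖N‖ * ‖z1 - (z0 + 2 * δ / y z0)‖ < ‖N‖ * (r / ‖y z0‖) := by gcongr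
      _ = r * ‖N / (yn * Y b)‖ := by rw [← hy0, norm_div]; ring
  · rw [mem_ball, dist_eq_norm] at hz1M
    rw [hb1b, norm_mul]
    calc ‖N‖ * ‖z1 - z0‖ < ‖N‖ * (M / ‖y z0‖) := by gcongr
      _ ≤ ‖N‖ * (ρ / ‖N‖) := by gcongr
      _ = ρ := by field_simp
  · rw [hz1b1]; exact hz1P
  · rw [hz1b1]; exact hz1s
  · have e : b1 - b - N / yn * (2 * δ / Y b) = N / y z0 * ((y z0 * (z1 - z0)
        - (2 * δ + α * (6 - 6 * δ * (Complex.cos δ / Complex.sin δ) - 2 * δ ^ 2)))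
        + α * (6 - 6 * δ * (Complex.cos δ / Complex.sin δ) - 2 * δ ^ 2)) := by
      rw [hεδ, hb1b]; field_simp; ring
    rw [e, norm_mul]
    have h1 : ‖α * (6 - 6 * δ * (Complex.cos δ / Complex.sin δ) - 2 * δ ^ 2)‖
        ≤ A ^ 3 * ‖ε‖ * B := by
      rw [norm_mul]; exact mul_le_mul hαb (hBK δ hδ).2.2 (norm_nonneg _) (by positivity)
    calc _ ≤ (‖ε‖ * A) * (C * η ^ 2 + A ^ 3 * ‖ε‖ * B) := by
          refine mul_le_mul hNyn ((norm_add_le _ _).trans (add_le_add hz1a h1))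
            (norm_nonneg _) (by positivity)
      _ = (A * (A ^ 3 * B + C * A₂ ^ 2 * ‖ε‖)) * ‖ε‖ ^ 2 := by rw [hη]; ring
      _ ≤ C' * ‖ε‖ ^ 2 := by
          refine mul_le_mul_of_nonneg_right ?_ (by positivity)
          rw [hC']
          have h2 : C * A₂ ^ 2 * ‖ε‖ ≤ C * A₂ ^ 2 * ε₀ := by gcongr
          have h3 : 0 ≤ C * A₂ ^ 2 := by positivity
          nlinarith
  · rw [hz1b1]
    have e : θ z1 - (θ z0 + δ) - δ
        - N / yn * (6 * (Y' b / Y b ^ 2) * (1 - δ * (Complex.cos δ / Complex.sin δ)))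
        = θ z1 - (θ z0 + δ) - (δ + 6 * α * (1 - δ * (Complex.cos δ / Complex.sin δ))) := by
      rw [hα, hεd]; ring
    rw [e]
    refine hz1b.trans ?_
    calc C * η ^ 2 = (C * A₂ ^ 2) * ‖ε‖ ^ 2 := by rw [hη]; ring
      _ ≤ C' * ‖ε‖ ^ 2 := by
          refine mul_le_mul_of_nonneg_right ?_ (by positivity)
          rw [hC']
          have h2 : 0 ≤ A * (A ^ 3 * B + C * A₂ ^ 2 * ε₀) := by positivity
          linarith
  · intro b' hb' hP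
    have := hz1u _ (hball1 b' hb') hP
    rw [hb1, ← this]; field_simp; ring
  · intro b' hb'
    exact hz1t _ (hball1 b' hb')

end Crest.Agent.R102.StepW866
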