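import Mathlib

/-!
# Row 102, part (C), [T5] MEL, (ML-F): the strip theorems (helper963)

Abstract form of helper490's nonlinear proof.  `V` is the space of lines (or pairs of labels), `m`
the model leaf, `lA` the family over the right sector, `lB` over the left sector, `BA` the backward
map `l(σ + 1/2) ↦ l(σ - 1/2)` at a mirror of the right sector, `BB` the forward map
`l(σ - 1/2) ↦ l(σ + 1/2)` at a mirror of the left sector.  Everything is for one fixed small
chord parameter.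

* `half`  : continuation of `lA` to the strip `|Re s - c| < 1/4` through `n` backward steps;
* `strip` : `lA = lB` on the top part of `|Re s| < 1/4` implies `lA = lB` on the bottom part;
* `strip_mid` : the same with one reflection `RC` in a middle mirror.
-/

set_option autoImplicit false

open Set Filter Topology Metric

noncomputable section

namespace Crest.Agent.R102.StripF963

/-- the rectangle `|Re s - c| < 1/4`, `|Im s| < h` -/
def Om (c h : ℝ) : Set ℂ := {s | c - 1 / 4 < s.re ∧ s.re < c + 1 / 4 ∧ -h < s.im ∧ s.im < h}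

lemma Om_open (c h : ℝ) : IsOpen (Om c h) := by
  have h1 : IsOpen {s : ℂ | c - 1 / 4 < s.re} := isOpen_lt continuous_const Complex.continuous_re
  have h2 : IsOpen {s : ℂ | s.re < c + 1 / 4} := isOpen_lt Complex.continuous_re continuous_const
  have h3 : IsOpen {s : ℂ | -h < s.im} := isOpen_lt continuous_const Complex.continuous_im
  have h4 : IsOpen {s : ℂ | s.im < h} := isOpen_lt Complex.continuous_im continuous_const
  exact h1.inter (h2.inter (h3.inter h4))

lemma Om_convex (c h : ℝ) : Convex ℝ (Om c h) := by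
  have h1 : Convex ℝ {s : ℂ | c - 1 / 4 < s.re} := convex_halfSpace_re_gt _
  have h2 : Convex ℝ {s : ℂ | s.re < c + 1 / 4} := convex_halfSpace_re_lt _
  have h3 : Convex ℝ {s : ℂ | -h < s.im} := convex_halfSpace_im_gt _
  have h4 : Convex ℝ {s : ℂ | s.im < h} := convex_halfSpace_im_lt _
  exact h1.inter (h2.inter (h3.inter h4))

/-- one-sided data: family `l` near the model `m` at distance `n` to the right, backward map `B`
near the model; `c` = centre of the strip, `|Im s| < h`, the family is given for `R < |Im s|`. -/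
structure Side {V : Type*} [NormedAddCommGroup V] [NormedSpace ℂ V] (c R h C η ε : ℝ) (n : ℕ)
    (l m : ℂ → V) (B : ℂ → V → V) : Prop where
  C_one : 1 ≤ C
  η_nonneg : 0 ≤ η
  small : (n + 1) * C ^ n * η < ε
  diff : DifferentiableOn ℂ l (Om (c + n) h)
  near : ∀ s ∈ Om (c + n) h, ‖l s - m s‖ ≤ η
  B_diff : DifferentiableOn ℂ (fun p : ℂ × V => B p.1 p.2)
    {p | c + 1 / 4 < p.1.re ∧ p.1.re < c + n ∧ -h < p.1.im ∧ p.1.im < h ∧
      ‖p.2 - m (p.1 + 1 / 2)‖ < ε}
  B_near : ∀ σ : ℂ, ∀ v : V, c + 1 / 4 < σ.re → σ.re < c + n → -h < σ.im → σ.im < h →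
    ‖v - m (σ + 1 / 2)‖ < ε → ‖B σ v - m (σ - 1 / 2)‖ ≤ C * ‖v - m (σ + 1 / 2)‖ + η
  law : ∀ σ : ℂ, c + 1 / 4 < σ.re → σ.re < c + n → -h < σ.im → σ.im < h → R < |σ.im| →
    l (σ - 1 / 2) = B σ (l (σ + 1 / 2))

variable {V : Type*} [NormedAddCommGroup V] [NormedSpace ℂ V]

/-- the iterated backward map -/
def Q (l : ℂ → V) (B : ℂ → V → V) (n : ℕ) : ℕ → ℂ → V
  | 0, s => l (s + n)
  | k + 1, s => B (s + n - k - 1 / 2) (Q l B n k s)

lemma Q_main {c R h C η ε : ℝ} {n : ℕ} {l m : ℂ → V} {B : ℂ → V → V}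
    (H : Side c R h C η ε n l m B) (k : ℕ) (hk : k ≤ n) :
    DifferentiableOn ℂ (Q l B n k) (Om c h) ∧
    (∀ s ∈ Om c h, ‖Q l B n k s - m (s + n - k)‖ ≤ (k + 1) * C ^ k * η) ∧
    (∀ s ∈ Om c h, R < |s.im| → Q l B n k s = l (s + n - k)) := by
  have hC := H.C_one
  have hη := H.η_nonneg
  induction k with
  | zero =>
    have hmap : ∀ s ∈ Om c h, s + n ∈ Om (c + n) h := by
      intro s hs
      obtain ⟨h1, h2, h3, h4⟩ := hs
      refine ⟨?_, ?_, ?_, ?_⟩ <;> simp <;> linarith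
    refine ⟨?_, ?_, ?_⟩
    · exact H.diff.comp (f := fun s : ℂ => s + n) (by fun_prop) hmap
    · intro s hs
      have := H.near _ (hmap s hs)
      simpa [Q] using this
    · intro s hs _
      simp [Q]
  | succ k ih =>
    obtain ⟨i1, i2, i3⟩ := ih (by omega)
    have hkn : (k : ℝ) + 1 ≤ n := by exact_mod_cast hk
    have hk0 : (0 : ℝ) ≤ k := Nat.cast_nonneg k
    have hσ : ∀ s ∈ Om c h, c + 1 / 4 < (s + n - k - 1 / 2 : ℂ).re ∧
        (s + n - k - 1 / 2 : ℂ).re < c + n ∧ -h < (s + n - k - 1 / 2 : ℂ).im ∧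
        (s + n - k - 1 / 2 : ℂ).im < h ∧ (s + n - k - 1 / 2 : ℂ).im = s.im := by
      intro s hs
      obtain ⟨h1, h2, h3, h4⟩ := hs
      have hre : (s + n - k - 1 / 2 : ℂ).re = s.re + n - k - 1 / 2 := by
        simp
      have him : (s + n - k - 1 / 2 : ℂ).im = s.im := by
        simp
      rw [hre, him]
      refine ⟨by linarith, by linarith, h3, h4, rfl⟩
    have he : ∀ s : ℂ, s + n - k - 1 / 2 + 1 / 2 = s + n - k := fun s => by ring
    have he' : ∀ s : ℂ, s + n - k - 1 / 2 - 1 / 2 = s + n - ((k + 1 : ℕ) : ℂ) := fun s => by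
      push_cast; ring
    have hb : ((k : ℝ) + 1) * C ^ k * η < ε := by
      refine lt_of_le_of_lt ?_ H.small
      have h1 : C ^ k ≤ C ^ n := pow_le_pow_right₀ hC (by omega)
      have h2 : (k : ℝ) + 1 ≤ n + 1 := by linarith
      have h3 : (0 : ℝ) ≤ C ^ k := by positivity
      gcongr
    have hdom : ∀ s ∈ Om c h, ‖Q l B n k s - m (s + n - k - 1 / 2 + 1 / 2)‖ < ε := by
      intro s hs
      rw [he]
      exact (i2 s hs).trans_lt hb
    refine ⟨?_, ?_, ?_⟩
    · have h1 : DifferentiableOn ℂ (fun s : ℂ => ((s + n - k - 1 / 2 : ℂ), Q l B n k s)) (Om c h) :=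
        DifferentiableOn.prodMk (by fun_prop) i1
      refine H.B_diff.comp h1 (fun s hs => ?_)
      obtain ⟨a1, a2, a3, a4, _⟩ := hσ s hs
      exact ⟨a1, a2, a3, a4, hdom s hs⟩
    · intro s hs
      obtain ⟨a1, a2, a3, a4, _⟩ := hσ s hs
      have h1 := H.B_near _ _ a1 a2 a3 a4 (hdom s hs)
      rw [he, he'] at h1
      change ‖B (s + n - k - 1 / 2) (Q l B n k s) - m (s + n - ((k + 1 : ℕ) : ℂ))‖ ≤ _
      refine h1.trans ?_
      have h2 := i2 s hs
      have h3 : C * ‖Q l B n k s - m (s + n - k)‖ ≤ C * ((k + 1) * C ^ k * η) :=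
        mul_le_mul_of_nonneg_left h2 (by linarith)
      have h4 : (1 : ℝ) ≤ C ^ (k + 1) := one_le_pow₀ hC
      have h5 : η ≤ C ^ (k + 1) * η := le_mul_of_one_le_left hη h4
      push_cast
      have h6 : C * ((k + 1) * C ^ k * η) = (k + 1) * C ^ (k + 1) * η := by ring
      linarith
    · intro s hs hR
      obtain ⟨a1, a2, a3, a4, a5⟩ := hσ s hs
      have h1 := H.law _ a1 a2 a3 a4 (by rw [a5]; exact hR)
      rw [he, he'] at h1
      change B (s + n - k - 1 / 2) (Q l B n k s) = _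
      rw [i3 s hs hR, h1]

/-- **one half** -/
theorem half {c R h C η ε : ℝ} {n : ℕ} {l m : ℂ → V} {B : ℂ → V → V}
    (H : Side c R h C η ε n l m B) :
    ∃ P : ℂ → V, DifferentiableOn ℂ P (Om c h) ∧ (∀ s ∈ Om c h, ‖P s - m s‖ < ε) ∧
      (∀ s ∈ Om c h, R < |s.im| → P s = l s) := by
  obtain ⟨h1, h2, h3⟩ := Q_main H n le_rfl
  refine ⟨Q l B n n, h1, fun s hs => ?_, fun s hs hR => ?_⟩
  · have := h2 s hs
    rw [add_sub_cancel_right] at this
    exact this.trans_lt H.small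
  · rw [h3 s hs hR, add_sub_cancel_right]

/-- **(S2)** two sides without a middle step -/
theorem strip [CompleteSpace V] {R h C η ε : ℝ} {n : ℕ} {lA lB m : ℂ → V} {BA BB : ℂ → V → V}
    (hR : 0 ≤ R) (hRh : R < h)
    (HA : Side 0 R h C η ε n lA m BA)
    (HB : Side 0 R h C η ε n (fun s => lB (-s)) (fun s => m (-s)) (fun σ v => BB (-σ) v))
    (htop : ∀ s ∈ Om 0 h, R < s.im → lA s = lB s) :
    ∀ s ∈ Om 0 h, s.im < -R → lA s = lB s := by
  obtain ⟨P, p1, _, p3⟩ := half HA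
  obtain ⟨L, q1, _, q3⟩ := half HB
  have hneg : ∀ s ∈ Om 0 h, -s ∈ Om 0 h := by
    intro s hs
    obtain ⟨h1, h2, h3, h4⟩ := hs
    refine ⟨?_, ?_, ?_, ?_⟩ <;> simp <;> linarith
  set L' : ℂ → V := fun s => L (-s) with hL'
  have q1' : DifferentiableOn ℂ L' (Om 0 h) :=
    q1.comp (f := fun s : ℂ => -s) (by fun_prop) hneg
  have q3' : ∀ s ∈ Om 0 h, R < |s.im| → L' s = lB s := by
    intro s hs hR
    have := q3 (-s) (hneg s hs) (by simpa using hR)
    simpa [hL'] using this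
  have hPL : EqOn P L' (Om 0 h) := by
    have hz : (((R + h) / 2 : ℝ) : ℂ) * Complex.I ∈ Om 0 h := by
      refine ⟨?_, ?_, ?_, ?_⟩ <;> simp <;> linarith
    have hev : P =ᶠ[𝓝 ((((R + h) / 2 : ℝ) : ℂ) * Complex.I)] L' := by
      have h1 : {s : ℂ | R < s.im} ∈ 𝓝 ((((R + h) / 2 : ℝ) : ℂ) * Complex.I) := by
        refine (isOpen_lt continuous_const Complex.continuous_im).mem_nhds ?_
        simp; linarith
      filter_upwards [h1, (Om_open 0 h).mem_nhds hz] with s hs hs2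
      have h2 : R < |s.im| := lt_of_lt_of_le hs (le_abs_self _)
      rw [p3 s hs2 h2, q3' s hs2 h2, htop s hs2 hs]
    exact (p1.analyticOnNhd (Om_open 0 h)).eqOn_of_preconnected_of_eventuallyEq
      (q1'.analyticOnNhd (Om_open 0 h)) (Om_convex 0 h).isPreconnected hz hev
  intro s hs hb
  have h2 : R < |s.im| := by
    have : R < -s.im := by linarith
    exact lt_of_lt_of_le this (neg_le_abs _)
  rw [← p3 s hs h2, ← q3' s hs h2]
  exact hPL hs

/-- **(S3)** two sides and one reflection in a middle mirror: the strips of the two sides are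
centred at `1/2` and `-1/2`, the vertex times of the middle mirror are in `Om 0 h`. -/
theorem strip_mid [CompleteSpace V] {R h C η ε : ℝ} {n : ℕ} {lA lB m : ℂ → V}
    {BA BB RC : ℂ → V → V} (hR : 0 ≤ R) (hRh : R < h)
    (HA : Side (1 / 2) R h C η ε n lA m BA)
    (HB : Side (1 / 2) R h C η ε n (fun s => lB (-s)) (fun s => m (-s)) (fun σ v => BB (-σ) v))
    (hRC : DifferentiableOn ℂ (fun p : ℂ × V => RC p.1 p.2)
      {p | p.1 ∈ Om 0 h ∧ ‖p.2 - m (p.1 - 1 / 2)‖ < ε})
    (htop : ∀ σ ∈ Om 0 h, R < σ.im → lA (σ + 1 / 2) = RC σ (lB (σ - 1 / 2))) :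
    ∀ σ ∈ Om 0 h, σ.im < -R → lA (σ + 1 / 2) = RC σ (lB (σ - 1 / 2)) := by
  obtain ⟨P, p1, _, p3⟩ := half HA
  obtain ⟨L, q1, q2, q3⟩ := half HB
  have hplus : ∀ s ∈ Om 0 h, s + 1 / 2 ∈ Om (1 / 2) h := by
    intro s hs
    obtain ⟨h1, h2, h3, h4⟩ := hs
    refine ⟨?_, ?_, ?_, ?_⟩ <;> simp <;> linarith
  have hminus : ∀ s ∈ Om 0 h, -(s - 1 / 2) ∈ Om (1 / 2) h := by
    intro s hs
    obtain ⟨h1, h2, h3, h4⟩ := hs
    refine ⟨?_, ?_, ?_, ?_⟩ <;> simp <;> linarith
  have himp : ∀ s : ℂ, (s + 1 / 2 : ℂ).im = s.im := fun s => by simp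
  have himm : ∀ s : ℂ, (-(s - 1 / 2) : ℂ).im = -s.im := fun s => by simp
  set P' : ℂ → V := fun s => P (s + 1 / 2) with hP'
  set L' : ℂ → V := fun s => RC s (L (-(s - 1 / 2))) with hL'
  have p1' : DifferentiableOn ℂ P' (Om 0 h) :=
    p1.comp (f := fun s : ℂ => s + 1 / 2) (by fun_prop) hplus
  have q0 : DifferentiableOn ℂ (fun s : ℂ => L (-(s - 1 / 2))) (Om 0 h) :=
    q1.comp (f := fun s : ℂ => -(s - 1 / 2)) (by fun_prop) hminus
  have q1' : DifferentiableOn ℂ L' (Om 0 h) := by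
    have h1 : DifferentiableOn ℂ (fun s : ℂ => (s, L (-(s - 1 / 2)))) (Om 0 h) :=
      DifferentiableOn.prodMk (by fun_prop) q0
    refine hRC.comp h1 (fun s hs => ⟨hs, ?_⟩)
    have := q2 _ (hminus s hs)
    simpa using this
  have p3' : ∀ s ∈ Om 0 h, R < |s.im| → P' s = lA (s + 1 / 2) := by
    intro s hs hR
    exact p3 _ (hplus s hs) (by rw [himp]; exact hR)
  have q3' : ∀ s ∈ Om 0 h, R < |s.im| → L' s = RC s (lB (s - 1 / 2)) := by
    intro s hs hR
    have := q3 _ (hminus s hs) (by rw [himm, abs_neg]; exact hR)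
    simp only [hL']
    rw [this, neg_neg]
  have hPL : EqOn P' L' (Om 0 h) := by
    have hz : (((R + h) / 2 : ℝ) : ℂ) * Complex.I ∈ Om 0 h := by
      refine ⟨?_, ?_, ?_, ?_⟩ <;> simp <;> linarith
    have hev : P' =ᶠ[𝓝 ((((R + h) / 2 : ℝ) : ℂ) * Complex.I)] L' := by
      have h1 : {s : ℂ | R < s.im} ∈ 𝓝 ((((R + h) / 2 : ℝ) : ℂ) * Complex.I) := by
        refine (isOpen_lt continuous_const Complex.continuous_im).mem_nhds ?_
        simp; linarith
      filter_upwards [h1, (Om_open 0 h).mem_nhds hz] with s hs hs2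
      have h2 : R < |s.im| := lt_of_lt_of_le hs (le_abs_self _)
      rw [p3' s hs2 h2, q3' s hs2 h2, htop s hs2 hs]
    exact (p1'.analyticOnNhd (Om_open 0 h)).eqOn_of_preconnected_of_eventuallyEq
      (q1'.analyticOnNhd (Om_open 0 h)) (Om_convex 0 h).isPreconnected hz hev
  intro s hs hb
  have h2 : R < |s.im| := by
    have : R < -s.im := by linarith
    exact lt_of_lt_of_le this (neg_le_abs _)
  rw [← p3' s hs h2, ← q3' s hs h2]
  exact hPL hs

end Crest.Agent.R102.StripF963
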