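import Mathlib
import Crest.Agent.R102.StripF_963
import Crest.Agent.R266.SCV

/-!
# Row 102, part (C), [T5] MEL, (ML-F) in `ε`-`δ` form along a filter (helper963)

`half_ed`, `strip_ed`, `strip_mid_ed`: the strip theorems of `StripF_963` for a family indexed by a
filter (`w → 0+`), with moduli of continuity instead of constants.  `two_var`: equality for real
`w > 0` near one point implies equality on a connected open set.
-/

set_option autoImplicit false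

open Set Filter Topology Metric

noncomputable section

namespace Crest.Agent.R102.StripF963

/-- domain of the backward map at closeness `δ` -/
def DB {V : Type*} [NormedAddCommGroup V] (c h : ℝ) (n : ℕ) (m : ℂ → V) (δ : ℝ) : Set (ℂ × V) :=
  {p | c + 1 / 4 < p.1.re ∧ p.1.re < c + n ∧ -h < p.1.im ∧ p.1.im < h ∧
    ‖p.2 - m (p.1 + 1 / 2)‖ < δ}

/-- one-sided data along a filter -/
structure SideE {V : Type*} [NormedAddCommGroup V] [NormedSpace ℂ V] {ι : Type*} (F : Filter ι)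
    (c R h : ℝ) (n : ℕ) (l : ι → ℂ → V) (m : ℂ → V) (B : ι → ℂ → V → V) : Prop where
  fam : ∀ ε : ℝ, 0 < ε → ∀ᶠ w in F, DifferentiableOn ℂ (l w) (Om (c + n) h) ∧
    ∀ s ∈ Om (c + n) h, ‖l w s - m s‖ < ε
  back : ∀ ε : ℝ, 0 < ε → ∃ δ : ℝ, 0 < δ ∧ ∀ᶠ w in F,
    DifferentiableOn ℂ (fun p : ℂ × V => B w p.1 p.2) (DB c h n m δ) ∧
    ∀ p ∈ DB c h n m δ, ‖B w p.1 p.2 - m (p.1 - 1 / 2)‖ < ε
  law : ∀ᶠ w in F, ∀ σ : ℂ, c + 1 / 4 < σ.re → σ.re < c + n → -h < σ.im → σ.im < h →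
    R < |σ.im| → l w (σ - 1 / 2) = B w σ (l w (σ + 1 / 2))

variable {V : Type*} [NormedAddCommGroup V] [NormedSpace ℂ V] {ι : Type*} {F : Filter ι}

lemma Q_ed {c R h : ℝ} {n : ℕ} {l : ι → ℂ → V} {m : ℂ → V} {B : ι → ℂ → V → V}
    (H : SideE F c R h n l m B) (k : ℕ) (hk : k ≤ n) : ∀ ε : ℝ, 0 < ε → ∀ᶠ w in F,
    DifferentiableOn ℂ (Q (l w) (B w) n k) (Om c h) ∧
    (∀ s ∈ Om c h, ‖Q (l w) (B w) n k s - m (s + n - k)‖ < ε) ∧
    (∀ s ∈ Om c h, R < |s.im| → Q (l w) (B w) n k s = l w (s + n - k)) := by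
  induction k with
  | zero =>
    intro ε hε
    have hmap : ∀ s ∈ Om c h, s + n ∈ Om (c + n) h := by
      intro s hs
      obtain ⟨h1, h2, h3, h4⟩ := hs
      refine ⟨?_, ?_, ?_, ?_⟩ <;> simp <;> linarith
    filter_upwards [H.fam ε hε] with w hw
    refine ⟨?_, ?_, ?_⟩
    · exact hw.1.comp (f := fun s : ℂ => s + n) (by fun_prop) hmap
    · intro s hs
      have := hw.2 _ (hmap s hs)
      simpa [Q] using this
    · intro s hs _
      simp [Q]
  | succ k ih =>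
    intro ε hε
    obtain ⟨δ, hδ, hB⟩ := H.back ε hε
    have hkn : (k : ℝ) + 1 ≤ n := by exact_mod_cast hk
    have hk0 : (0 : ℝ) ≤ k := Nat.cast_nonneg k
    have hσ : ∀ s ∈ Om c h, c + 1 / 4 < (s + n - k - 1 / 2 : ℂ).re ∧
        (s + n - k - 1 / 2 : ℂ).re < c + n ∧ -h < (s + n - k - 1 / 2 : ℂ).im ∧
        (s + n - k - 1 / 2 : ℂ).im < h ∧ (s + n - k - 1 / 2 : ℂ).im = s.im := by
      intro s hs
      obtain ⟨h1, h2, h3, h4⟩ := hs
      have hre : (s + n - k - 1 / 2 : ℂ).re = s.re + n - k - 1 / 2 := by simp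
      have him : (s + n - k - 1 / 2 : ℂ).im = s.im := by simp
      rw [hre, him]
      refine ⟨by linarith, by linarith, h3, h4, rfl⟩
    have he : ∀ s : ℂ, s + n - k - 1 / 2 + 1 / 2 = s + n - k := fun s => by ring
    have he' : ∀ s : ℂ, s + n - k - 1 / 2 - 1 / 2 = s + n - ((k + 1 : ℕ) : ℂ) := fun s => by
      push_cast; ring
    filter_upwards [ih (by omega) δ hδ, hB, H.law] with w ⟨i1, i2, i3⟩ hBw hlaw
    have hdom : ∀ s ∈ Om c h, ((s + n - k - 1 / 2 : ℂ), Q (l w) (B w) n k s) ∈ DB c h n m δ := by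
      intro s hs
      obtain ⟨a1, a2, a3, a4, _⟩ := hσ s hs
      refine ⟨a1, a2, a3, a4, ?_⟩
      simp only
      rw [he]
      exact i2 s hs
    refine ⟨?_, ?_, ?_⟩
    · have h1 : DifferentiableOn ℂ (fun s : ℂ => ((s + n - k - 1 / 2 : ℂ), Q (l w) (B w) n k s))
          (Om c h) := DifferentiableOn.prodMk (by fun_prop) i1
      exact hBw.1.comp h1 hdom
    · intro s hs
      have h1 := hBw.2 _ (hdom s hs)
      simp only at h1
      rw [he'] at h1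
      exact h1
    · intro s hs hR
      obtain ⟨a1, a2, a3, a4, a5⟩ := hσ s hs
      have h1 := hlaw _ a1 a2 a3 a4 (by rw [a5]; exact hR)
      rw [he, he'] at h1
      change B w (s + n - k - 1 / 2) (Q (l w) (B w) n k s) = _
      rw [i3 s hs hR, h1]

/-- **one half**, along a filter -/
theorem half_ed {c R h : ℝ} {n : ℕ} {l : ι → ℂ → V} {m : ℂ → V} {B : ι → ℂ → V → V}
    (H : SideE F c R h n l m B) (ε : ℝ) (hε : 0 < ε) : ∀ᶠ w in F,
    ∃ P : ℂ → V, DifferentiableOn ℂ P (Om c h) ∧ (∀ s ∈ Om c h, ‖P s - m s‖ < ε) ∧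
      (∀ s ∈ Om c h, R < |s.im| → P s = l w s) := by
  filter_upwards [Q_ed H n le_rfl ε hε] with w ⟨h1, h2, h3⟩
  refine ⟨Q (l w) (B w) n n, h1, fun s hs => ?_, fun s hs hR => ?_⟩
  · have := h2 s hs
    rwa [add_sub_cancel_right] at this
  · rw [h3 s hs hR, add_sub_cancel_right]

lemma ident [CompleteSpace V] {R h : ℝ} (hR : 0 ≤ R) (hRh : R < h) {P L : ℂ → V}
    (hP : DifferentiableOn ℂ P (Om 0 h)) (hL : DifferentiableOn ℂ L (Om 0 h))
    (htop : ∀ s ∈ Om 0 h, R < s.im → P s = L s) : EqOn P L (Om 0 h) := by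
  have hz : (((R + h) / 2 : ℝ) : ℂ) * Complex.I ∈ Om 0 h := by
    refine ⟨?_, ?_, ?_, ?_⟩ <;> simp <;> linarith
  have hev : P =ᶠ[𝓝 ((((R + h) / 2 : ℝ) : ℂ) * Complex.I)] L := by
    have h1 : {s : ℂ | R < s.im} ∈ 𝓝 ((((R + h) / 2 : ℝ) : ℂ) * Complex.I) := by
      refine (isOpen_lt continuous_const Complex.continuous_im).mem_nhds ?_
      simp; linarith
    filter_upwards [h1, (Om_open 0 h).mem_nhds hz] with s hs hs2
    exact htop s hs2 hs
  exact (hP.analyticOnNhd (Om_open 0 h)).eqOn_of_preconnected_of_eventuallyEq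
    (hL.analyticOnNhd (Om_open 0 h)) (Om_convex 0 h).isPreconnected hz hev

/-- **(S2)** along a filter -/
theorem strip_ed [CompleteSpace V] {R h : ℝ} {n : ℕ} {lA lB : ι → ℂ → V} {m : ℂ → V}
    {BA BB : ι → ℂ → V → V} (hR : 0 ≤ R) (hRh : R < h)
    (HA : SideE F 0 R h n lA m BA)
    (HB : SideE F 0 R h n (fun w s => lB w (-s)) (fun s => m (-s)) (fun w σ v => BB w (-σ) v))
    (htop : ∀ᶠ w in F, ∀ s ∈ Om 0 h, R < s.im → lA w s = lB w s) :
    ∀ᶠ w in F, ∀ s ∈ Om 0 h, s.im < -R → lA w s = lB w s := by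
  have hneg : ∀ s ∈ Om 0 h, -s ∈ Om 0 h := by
    intro s hs
    obtain ⟨h1, h2, h3, h4⟩ := hs
    refine ⟨?_, ?_, ?_, ?_⟩ <;> simp <;> linarith
  filter_upwards [half_ed HA 1 one_pos, half_ed HB 1 one_pos, htop] with w
    ⟨P, p1, _, p3⟩ ⟨L, q1, _, q3⟩ hw
  have q1' : DifferentiableOn ℂ (fun s : ℂ => L (-s)) (Om 0 h) :=
    q1.comp (f := fun s : ℂ => -s) (by fun_prop) hneg
  have q3' : ∀ s ∈ Om 0 h, R < |s.im| → L (-s) = lB w s := by
    intro s hs hR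
    have := q3 (-s) (hneg s hs) (by simpa using hR)
    simpa using this
  have hPL := ident hR hRh p1 q1' (fun s hs hs2 => by
    have h2 : R < |s.im| := lt_of_lt_of_le hs2 (le_abs_self _)
    rw [p3 s hs h2, q3' s hs h2, hw s hs hs2])
  intro s hs hb
  have h2 : R < |s.im| := by
    have : R < -s.im := by linarith
    exact lt_of_lt_of_le this (neg_le_abs _)
  rw [← p3 s hs h2, ← q3' s hs h2]
  exact hPL hs

/-- **(S3)** along a filter -/
theorem strip_mid_ed [CompleteSpace V] {R h : ℝ} {n : ℕ} {lA lB : ι → ℂ → V} {m : ℂ → V}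
    {BA BB RC : ι → ℂ → V → V} (hR : 0 ≤ R) (hRh : R < h)
    (HA : SideE F (1 / 2) R h n lA m BA)
    (HB : SideE F (1 / 2) R h n (fun w s => lB w (-s)) (fun s => m (-s))
      (fun w σ v => BB w (-σ) v))
    (hRC : ∃ δ : ℝ, 0 < δ ∧ ∀ᶠ w in F, DifferentiableOn ℂ (fun p : ℂ × V => RC w p.1 p.2)
      {p | p.1 ∈ Om 0 h ∧ ‖p.2 - m (p.1 - 1 / 2)‖ < δ})
    (htop : ∀ᶠ w in F, ∀ σ ∈ Om 0 h, R < σ.im →
      lA w (σ + 1 / 2) = RC w σ (lB w (σ - 1 / 2))) :
    ∀ᶠ w in F, ∀ σ ∈ Om 0 h, σ.im < -R → lA w (σ + 1 / 2) = RC w σ (lB w (σ - 1 / 2)) := by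
  obtain ⟨δ, hδ, hRC⟩ := hRC
  have hplus : ∀ s ∈ Om 0 h, s + 1 / 2 ∈ Om (1 / 2) h := by
    intro s hs
    obtain ⟨h1, h2, h3, h4⟩ := hs
    refine ⟨?_, ?_, ?_, ?_⟩ <;> simp <;> linarith
  have hminus : ∀ s ∈ Om 0 h, -(s - 1 / 2) ∈ Om (1 / 2) h := by
    intro s hs
    obtain ⟨h1, h2, h3, h4⟩ := hs
    refine ⟨?_, ?_, ?_, ?_⟩ <;> simp <;> linarith
  have himp : ∀ s : ℂ, (s + 1 / 2 : ℂ).im = s.im := fun s => by simp
  have himm : ∀ s : ℂ, (-(s - 1 / 2) : ℂ).im = -s.im := fun s => by simp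
  filter_upwards [half_ed HA 1 one_pos, half_ed HB δ hδ, hRC, htop] with w
    ⟨P, p1, _, p3⟩ ⟨L, q1, q2, q3⟩ hRCw hw
  have p1' : DifferentiableOn ℂ (fun s : ℂ => P (s + 1 / 2)) (Om 0 h) :=
    p1.comp (f := fun s : ℂ => s + 1 / 2) (by fun_prop) hplus
  have q0 : DifferentiableOn ℂ (fun s : ℂ => L (-(s - 1 / 2))) (Om 0 h) :=
    q1.comp (f := fun s : ℂ => -(s - 1 / 2)) (by fun_prop) hminus
  have q1' : DifferentiableOn ℂ (fun s : ℂ => RC w s (L (-(s - 1 / 2)))) (Om 0 h) := by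
    have h1 : DifferentiableOn ℂ (fun s : ℂ => (s, L (-(s - 1 / 2)))) (Om 0 h) :=
      DifferentiableOn.prodMk (by fun_prop) q0
    refine hRCw.comp h1 (fun s hs => ⟨hs, ?_⟩)
    have := q2 _ (hminus s hs)
    simpa using this
  have p3' : ∀ s ∈ Om 0 h, R < |s.im| → P (s + 1 / 2) = lA w (s + 1 / 2) := by
    intro s hs hR
    exact p3 _ (hplus s hs) (by rw [himp]; exact hR)
  have q3' : ∀ s ∈ Om 0 h, R < |s.im| →
      RC w s (L (-(s - 1 / 2))) = RC w s (lB w (s - 1 / 2)) := by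
    intro s hs hR
    have := q3 _ (hminus s hs) (by rw [himm, abs_neg]; exact hR)
    rw [this, neg_neg]
  have hPL := ident hR hRh p1' q1' (fun s hs hs2 => by
    have h2 : R < |s.im| := lt_of_lt_of_le hs2 (le_abs_self _)
    rw [p3' s hs h2, q3' s hs h2, hw s hs hs2])
  intro s hs hb
  have h2 : R < |s.im| := by
    have : R < -s.im := by linarith
    exact lt_of_lt_of_le this (neg_le_abs _)
  rw [← p3' s hs h2, ← q3' s hs h2]
  exact hPL hs

/-- **two variables**: a function holomorphic on a connected open set which vanishes at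
`(w s, w)` for `s` near `s₀` and real `w` near `w₁ > 0` vanishes identically. -/
theorem two_var [CompleteSpace V] {U : Set (ℂ × ℂ)} (hU : IsOpen U) (hUc : IsPreconnected U)
    {D : ℂ × ℂ → V} (hD : DifferentiableOn ℂ D U) {s₀ : ℂ} {w₁ : ℝ} (hw₁ : 0 < w₁)
    (hmem : ((w₁ : ℂ) * s₀, (w₁ : ℂ)) ∈ U)
    (h : ∀ᶠ x in 𝓝 ((s₀, w₁) : ℂ × ℝ), D ((x.2 : ℂ) * x.1, (x.2 : ℂ)) = 0) :
    ∀ x ∈ U, D x = 0 := by
  have hDa : AnalyticOnNhd ℂ D U := Crest.Agent.R266.SCV.analyticOnNhd_of_differentiableOn hU hD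
  -- the pulled back function
  set φ : ℂ × ℂ → ℂ × ℂ := fun x => (x.2 * x.1, x.2) with hφ
  have hφc : Continuous φ := by fun_prop
  have hφa : ∀ x : ℂ × ℂ, AnalyticAt ℂ φ x := by
    intro x
    exact (analyticAt_snd.mul analyticAt_fst).prod analyticAt_snd
  obtain ⟨r, hr, hrU⟩ : ∃ r > 0, ball ((s₀, (w₁ : ℂ)) : ℂ × ℂ) r ⊆ φ ⁻¹' U :=
    Metric.isOpen_iff.1 (hU.preimage hφc) _ (by simpa [hφ] using hmem)
  obtain ⟨ρ, hρ, hρh⟩ := Metric.eventually_nhds_iff_ball.1 h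
  set e : ℝ := min r ρ with he
  have he0 : 0 < e := lt_min hr hρ
  have hzero : ∀ s ∈ ball s₀ e, ∀ w ∈ ball (w₁ : ℂ) e, D (φ (s, w)) = 0 := by
    intro s hs w hw
    have hfa : AnalyticOnNhd ℂ (fun w : ℂ => D (φ (s, w))) (ball (w₁ : ℂ) e) := by
      intro w hw
      have hin : (s, w) ∈ ball ((s₀, (w₁ : ℂ)) : ℂ × ℂ) r := by
        rw [mem_ball, Prod.dist_eq, max_lt_iff]
        exact ⟨lt_of_lt_of_le hs (min_le_left _ _), lt_of_lt_of_le hw (min_le_left _ _)⟩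
      have h1 : AnalyticAt ℂ (fun w : ℂ => ((s, w) : ℂ × ℂ)) w := by fun_prop
      have h2 : AnalyticAt ℂ (fun w : ℂ => φ (s, w)) w :=
        AnalyticAt.fun_comp (f := fun w : ℂ => ((s, w) : ℂ × ℂ)) (hφa (s, w)) h1
      exact AnalyticAt.fun_comp (f := fun w : ℂ => φ (s, w)) (hDa _ (hrU hin)) h2
    have hreal : ∀ x : ℝ, |x - w₁| < e → D (φ (s, (x : ℂ))) = 0 := by
      intro x hx
      refine hρh (s, x) ?_
      rw [mem_ball, Prod.dist_eq, max_lt_iff]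
      refine ⟨lt_of_lt_of_le hs (min_le_right _ _), ?_⟩
      rw [Real.dist_eq]
      exact hx.trans_le (min_le_right _ _)
    have hfreq : ∃ᶠ z in 𝓝[≠] (w₁ : ℂ), D (φ (s, z)) = 0 := by
      have hseq : Tendsto (fun k : ℕ => ((w₁ + e / (k + 2) : ℝ) : ℂ)) atTop (𝓝[≠] (w₁ : ℂ)) := by
        refine tendsto_nhdsWithin_iff.2 ⟨?_, ?_⟩
        · have h1 : Tendsto (fun k : ℕ => w₁ + e / ((k : ℝ) + 2)) atTop (𝓝 (w₁ + 0)) := by
            refine tendsto_const_nhds.add ?_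
            have h2 : Tendsto (fun k : ℕ => (k : ℝ) + 2) atTop atTop :=
              tendsto_atTop_add_const_right _ _ tendsto_natCast_atTop_atTop
            exact tendsto_const_nhds.div_atTop h2
          rw [add_zero] at h1
          exact (Complex.continuous_ofReal.tendsto w₁).comp h1
        · refine Eventually.of_forall (fun k => ?_)
          have h3 : (0 : ℝ) < e / ((k : ℝ) + 2) := by positivity
          simp only [mem_compl_iff, mem_singleton_iff]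
          intro h4
          have h5 : w₁ + e / ((k : ℝ) + 2) = w₁ := by exact_mod_cast h4
          linarith
      refine hseq.frequently (Frequently.of_forall (fun k => ?_))
      refine hreal _ ?_
      have h3 : (0 : ℝ) < e / ((k : ℝ) + 2) := by positivity
      have h6 : w₁ + e / ((k : ℝ) + 2) - w₁ = e / ((k : ℝ) + 2) := by ring
      rw [h6, abs_of_pos h3, div_lt_iff₀ (by positivity)]
      have : (0 : ℝ) ≤ k := Nat.cast_nonneg k
      nlinarith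
    exact hfa.eqOn_zero_of_preconnected_of_frequently_eq_zero
      (convex_ball (w₁ : ℂ) e).isPreconnected (mem_ball_self he0) hfreq hw
  -- `D` vanishes near `φ (s₀, w₁)`
  have hev : D =ᶠ[𝓝 ((w₁ : ℂ) * s₀, (w₁ : ℂ))] 0 := by
    have hw₁c : (w₁ : ℂ) ≠ 0 := by exact_mod_cast hw₁.ne'
    have hψ : ContinuousAt (fun x : ℂ × ℂ => ((x.1 / x.2, x.2) : ℂ × ℂ))
        ((w₁ : ℂ) * s₀, (w₁ : ℂ)) :=
      (continuousAt_fst.div continuousAt_snd hw₁c).prodMk continuousAt_snd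
    have hψ0 : (fun x : ℂ × ℂ => ((x.1 / x.2, x.2) : ℂ × ℂ)) ((w₁ : ℂ) * s₀, (w₁ : ℂ)) =
        (s₀, (w₁ : ℂ)) := by
      simp only
      rw [mul_div_cancel_left₀ _ hw₁c]
    have hnb : ball s₀ e ×ˢ ball (w₁ : ℂ) e ∈ 𝓝 ((s₀, (w₁ : ℂ)) : ℂ × ℂ) :=
      (isOpen_ball.prod isOpen_ball).mem_nhds ⟨mem_ball_self he0, mem_ball_self he0⟩
    rw [← hψ0] at hnb
    have hx2 : ∀ᶠ x : ℂ × ℂ in 𝓝 ((w₁ : ℂ) * s₀, (w₁ : ℂ)), x.2 ≠ 0 :=
      continuousAt_snd.eventually_ne hw₁c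
    filter_upwards [hψ.preimage_mem_nhds hnb, hx2] with x hx hx2
    have := hzero _ hx.1 _ hx.2
    simp only [hφ] at this
    rw [mul_div_cancel₀ _ hx2] at this
    exact this
  exact hDa.eqOn_zero_of_preconnected_of_eventuallyEq_zero hUc hmem hev

end Crest.Agent.R102.StripF963
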