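import Crest.Agent.R102.EndI_929

/-!
Row 102, part (A), LeafSUM: the conjuncts with exponentials (helper602).
-/

set_option autoImplicit false

open Set Filter Topology Metric Complex MeasureTheory
open scoped Real ContDiff ComplexConjugate

noncomputable section

namespace Crest.Agent.R102.Sum602

open Crest.Agent.R102.A929

/-- two sided geometric sum. -/
lemma geo {s : ℝ} (hs : 0 < s) :
    Summable (fun k : ℤ => Real.exp (-(s * |(k : ℝ)|))) ∧
      ∑' k : ℤ, Real.exp (-(s * |(k : ℝ)|)) ≤ 1 + 2 / s := by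
  set r := Real.exp (-s) with hr
  have hr0 : 0 < r := Real.exp_pos _
  have hr1 : r < 1 := by rw [hr]; simpa using hs
  have h1 : HasSum (fun n : ℕ => Real.exp (-(s * |((n : ℤ) : ℝ)|))) (1 - r)⁻¹ := by
    have h := hasSum_geometric_of_lt_one hr0.le hr1
    have e : (fun n : ℕ => Real.exp (-(s * |((n : ℤ) : ℝ)|))) = fun n : ℕ => r ^ n := by
      funext n
      rw [hr, ← Real.exp_nat_mul, Int.cast_natCast, abs_of_nonneg (by positivity)]
      ring_nf
    rw [e]; exact h
  have h2 : HasSum (fun n : ℕ => Real.exp (-(s * |((-((n : ℤ) + 1) : ℤ) : ℝ)|)))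
      (r * (1 - r)⁻¹) := by
    have h := (hasSum_geometric_of_lt_one hr0.le hr1).mul_left r
    have e : (fun n : ℕ => Real.exp (-(s * |((-((n : ℤ) + 1) : ℤ) : ℝ)|))) =
        fun n : ℕ => r * r ^ n := by
      funext n
      rw [hr, ← Real.exp_nat_mul, ← Real.exp_add]
      push_cast
      rw [abs_neg, abs_of_nonneg (by positivity)]
      ring_nf
    rw [e]; exact h
  have h3 := HasSum.of_nat_of_neg_add_one (f := fun k : ℤ => Real.exp (-(s * |(k : ℝ)|))) h1 h2
  refine ⟨h3.summable, ?_⟩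
  rw [h3.tsum_eq]
  have h4 : (1 - r)⁻¹ + r * (1 - r)⁻¹ = 1 + 2 * (r / (1 - r)) := by
    have : 1 - r ≠ 0 := by linarith
    field_simp; ring
  rw [h4]
  have h5 : r / (1 - r) ≤ 1 / s := by
    rw [div_le_div_iff₀ (by linarith) hs]
    have h6 : s + 1 ≤ Real.exp s := Real.add_one_le_exp s
    have h7 : r * Real.exp s = 1 := by rw [hr, ← Real.exp_add]; simp
    nlinarith
  have : 2 / s = 2 * (1 / s) := by ring
  rw [this]; linarith

/-- shifted two sided geometric sum. -/
lemma geo_shift {s : ℝ} (hs : 0 < s) (j : ℤ) :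
    Summable (fun k : ℤ => Real.exp (-(s * |(k : ℝ) - j|))) ∧
      ∑' k : ℤ, Real.exp (-(s * |(k : ℝ) - j|)) ≤ 1 + 2 / s := by
  obtain ⟨h1, h2⟩ := geo hs
  have he : (fun k : ℤ => Real.exp (-(s * |(k : ℝ) - j|)))
      = (fun k : ℤ => Real.exp (-(s * |(k : ℝ)|))) ∘ (Equiv.subRight j) := by
    funext k; simp
  constructor
  · rw [he]; exact (Equiv.subRight j).summable_iff.2 h1
  · rw [he]
    simp only [Function.comp_def]
    rw [(Equiv.subRight j).tsum_eq (fun k : ℤ => Real.exp (-(s * |(k : ℝ)|)))]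
    exact h2

section

variable {α : ℝ} {N n : ℕ} {a : ℤ → ℂ} {G : ℝ}

lemma om_pos (k : ℤ) : 0 < om α N k := Real.exp_pos _

lemma G_nonneg (h : WB α N G a) : 0 ≤ G := by
  refine le_trans ?_ (h 0)
  have := om_pos (α := α) (N := N) 0
  positivity

/-- `2 π η = (α min(n,N) + 16 log n) / n`. -/
lemma two_pi_etan (hn : 1 ≤ n) :
    2 * π * etan α N n = (α * min (n : ℝ) N + 16 * Real.log n) / n := by
  have hn' : (n : ℝ) ≠ 0 := by positivity
  unfold etan
  field_simp

lemma om_n : om α N n = Real.exp (α * min (n : ℝ) N) := by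
  unfold om
  rw [Int.cast_natCast, abs_of_nonneg (by positivity)]

lemma log_one_le (hn : 3 ≤ n) : 1 ≤ Real.log n := by
  have h3 : (3 : ℝ) ≤ n := by exact_mod_cast hn
  rw [Real.le_log_iff_exp_le (by linarith)]
  exact (Real.exp_one_lt_d9.le.trans (by norm_num)).trans h3

lemma log_le_self' (hn : 1 ≤ n) : Real.log n ≤ n := by
  have h3 : (1 : ℝ) ≤ n := by exact_mod_cast hn
  have := Real.log_le_sub_one_of_pos (show (0:ℝ) < n by linarith)
  linarith

lemma exp_16log (hn : 1 ≤ n) : Real.exp (16 * Real.log n) = (n : ℝ) ^ 16 := by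
  have h3 : (0 : ℝ) < n := by exact_mod_cast hn
  rw [show (16 : ℝ) * Real.log n = (16 : ℕ) * Real.log n by norm_num, Real.exp_nat_mul,
    Real.exp_log h3]

lemma min_nonneg' : 0 ≤ min (n : ℝ) N := le_min (by positivity) (by positivity)

/-- key weight inequality. -/
lemma weight (hα : 0 ≤ α) (hn : 1 ≤ n) (k : ℤ) :
    (om α N k)⁻¹ * Real.exp (-(2 * π * etan α N n * |(n : ℝ) - k|)) ≤
      (om α N n)⁻¹ * Real.exp (-(16 * Real.log n / n * |(k : ℝ) - (n : ℤ)|)) := by
  have hn0 : (0 : ℝ) < n := by exact_mod_cast hn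
  rw [two_pi_etan hn, om_n, om, ← Real.exp_neg, ← Real.exp_neg, ← Real.exp_add, ← Real.exp_add]
  apply Real.exp_le_exp.2
  rw [show |(n : ℝ) - k| = |(k : ℝ) - (n : ℤ)| by rw [abs_sub_comm]; norm_num]
  set D := |(k : ℝ) - (n : ℤ)| with hD
  set m := min (n : ℝ) N with hm
  have hm0 : 0 ≤ m := min_nonneg'
  have key : m ≤ min |(k : ℝ)| N + m * D / n := by
    have hD0 : 0 ≤ D := abs_nonneg _
    by_cases hk : (n : ℝ) ≤ |(k : ℝ)|
    · have : m ≤ min |(k : ℝ)| N := min_le_min hk le_rfl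
      have : 0 ≤ m * D / n := by positivity
      linarith
    · push Not at hk
      have h1 : (n : ℝ) - |(k : ℝ)| ≤ D := by
        rw [hD, abs_sub_comm]
        have := abs_sub_abs_le_abs_sub ((n : ℤ) : ℝ) (k : ℝ)
        rw [show |((n : ℤ) : ℝ)| = n by rw [Int.cast_natCast, abs_of_nonneg hn0.le]] at this
        exact this
      have h2 : m * |(k : ℝ)| / n ≤ min |(k : ℝ)| N := by
        apply le_min
        · rw [div_le_iff₀ hn0, mul_comm]
          exact mul_le_mul_of_nonneg_left (min_le_left _ _) (abs_nonneg _)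
        · rw [div_le_iff₀ hn0]
          exact mul_le_mul (min_le_right _ _) hk.le (abs_nonneg _) (by positivity)
      have h3 : m * ((n : ℝ) - |(k : ℝ)|) / n ≤ m * D / n := by gcongr
      have h4 : m * ((n : ℝ) - |(k : ℝ)|) / n = m - m * |(k : ℝ)| / n := by field_simp
      linarith
  have h5 : α * m ≤ α * min |(k : ℝ)| N + α * (m * D / n) := by
    rw [← mul_add]; exact mul_le_mul_of_nonneg_left key hα
  have h6 : (α * m + 16 * Real.log n) / n * D = α * (m * D / n) + 16 * Real.log n / n * D := by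
    field_simp
  rw [h6]
  linarith

/-- size of the high modes. -/
lemma aHi_le (h : WB α N G a) (k : ℤ) :
    ‖aHi a n k‖ ≤ G * (om α N k)⁻¹ * ((1 + |(k : ℝ)|) ^ 15)⁻¹ := by
  have hG := G_nonneg h
  have ho := om_pos (α := α) (N := N) k
  have hp : 0 < (1 + |(k : ℝ)|) ^ 15 := by positivity
  unfold aHi
  split_ifs with hk
  · rw [norm_zero]; positivity
  · rw [mul_assoc, ← mul_inv, ← div_eq_mul_inv, le_div_iff₀ (by positivity)]
    calc ‖a k‖ * (om α N k * (1 + |(k : ℝ)|) ^ 15) = om α N k * (1 + |(k : ℝ)|) ^ 15 * ‖a k‖ := by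
          ring
      _ ≤ G := h k

lemma aHi_zero {k : ℤ} (hk : |k| ≤ ((n / 2 : ℕ) : ℤ)) : ‖aHi a n k‖ = 0 := by
  unfold aHi; rw [if_pos hk, norm_zero]

lemma half_lt {k : ℤ} (hk : ¬ |k| ≤ ((n / 2 : ℕ) : ℤ)) : (n : ℝ) / 2 ≤ 1 + |(k : ℝ)| := by
  push Not at hk
  have h1 : ((n / 2 : ℕ) : ℤ) + 1 ≤ |k| := hk
  have h2 : (n : ℤ) ≤ 2 * ((n / 2 : ℕ) : ℤ) + 1 := by omega
  have h3 : ((n : ℤ) : ℝ) ≤ 2 * |(k : ℝ)| := by
    have : (n : ℤ) ≤ 2 * |k| := by linarith
    exact_mod_cast this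
  rw [Int.cast_natCast] at h3
  linarith

/-- pointwise bound of the weighted high modes. -/
lemma term_le (h : WB α N G a) (hα : 0 ≤ α) (hn : 1 ≤ n) (k : ℤ) :
    ‖aHi a n k‖ * Real.exp (-(2 * π * etan α N n * |(n : ℝ) - k|)) ≤
      G * 2 ^ 15 / (om α N n * (n : ℝ) ^ 15) *
        Real.exp (-(16 * Real.log n / n * |(k : ℝ) - (n : ℤ)|)) := by
  have hG := G_nonneg h
  have hn0 : (0 : ℝ) < n := by exact_mod_cast hn
  have ho := om_pos (α := α) (N := N) (n : ℤ)
  by_cases hk : |k| ≤ ((n / 2 : ℕ) : ℤ)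
  · rw [aHi_zero hk, zero_mul]; positivity
  have h1 := half_lt hk
  have h2 := aHi_le (n := n) h k
  have h3 := weight (N := N) hα hn k
  have h4 : ((1 + |(k : ℝ)|) ^ 15)⁻¹ ≤ 2 ^ 15 / (n : ℝ) ^ 15 := by
    rw [← div_pow, ← inv_pow]
    apply pow_le_pow_left₀ (by positivity)
    rw [inv_le_comm₀ (by positivity) (by positivity), inv_div]
    exact h1
  calc ‖aHi a n k‖ * Real.exp (-(2 * π * etan α N n * |(n : ℝ) - k|))
      ≤ (G * (om α N k)⁻¹ * ((1 + |(k : ℝ)|) ^ 15)⁻¹) *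
          Real.exp (-(2 * π * etan α N n * |(n : ℝ) - k|)) := by gcongr
    _ = G * ((1 + |(k : ℝ)|) ^ 15)⁻¹ * ((om α N k)⁻¹ *
          Real.exp (-(2 * π * etan α N n * |(n : ℝ) - k|))) := by ring
    _ ≤ G * (2 ^ 15 / (n : ℝ) ^ 15) * ((om α N n)⁻¹ *
          Real.exp (-(16 * Real.log n / n * |(k : ℝ) - (n : ℤ)|))) := by
        apply mul_le_mul _ h3 _ (by positivity)
        · exact mul_le_mul_of_nonneg_left h4 hG
        · have := om_pos (α := α) (N := N) k
          positivity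
    _ = _ := by field_simp

/-- conjunct (3) of `LeafSUM`, `C = 2 ^ 16 G`. -/
theorem near (h : WB α N G a) (hα : 0 ≤ α) (hn : 3 ≤ n) :
    (∑' k : ℤ, if |k| ≤ 2 * n then
        ‖aHi a n k‖ * Real.exp (-(2 * π * etan α N n * |(n : ℝ) - k|)) else 0) ≤
      (2 ^ 16 * G) / (om α N n * (n : ℝ) ^ 14 * Real.log n) := by
  have hG := G_nonneg h
  have hn1 : 1 ≤ n := by omega
  have hn0 : (0 : ℝ) < n := by exact_mod_cast hn1
  have ho := om_pos (α := α) (N := N) (n : ℤ)
  have hlog := log_one_le hn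
  have hlog2 := log_le_self' hn1
  have hs : 0 < 16 * Real.log n / n := by positivity
  obtain ⟨g1, g2⟩ := geo_shift hs (n : ℤ)
  set f : ℤ → ℝ := fun k => if |k| ≤ 2 * n then
        ‖aHi a n k‖ * Real.exp (-(2 * π * etan α N n * |(n : ℝ) - k|)) else 0 with hf
  set A := G * 2 ^ 15 / (om α N n * (n : ℝ) ^ 15) with hA
  have hA0 : 0 ≤ A := by positivity
  have hle : ∀ k, f k ≤ A * Real.exp (-(16 * Real.log n / n * |(k : ℝ) - (n : ℤ)|)) := by
    intro k
    simp only [hf]
    split_ifs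
    · exact term_le h hα hn1 k
    · positivity
  have hf0 : ∀ k, 0 ≤ f k := by
    intro k; simp only [hf]; split_ifs <;> positivity
  have hsum : Summable f := Summable.of_nonneg_of_le hf0 hle (g1.mul_left A)
  calc ∑' k, f k ≤ ∑' k : ℤ, A * Real.exp (-(16 * Real.log n / n * |(k : ℝ) - (n : ℤ)|)) :=
        hsum.tsum_le_tsum hle (g1.mul_left A)
    _ = A * ∑' k : ℤ, Real.exp (-(16 * Real.log n / n * |(k : ℝ) - (n : ℤ)|)) := tsum_mul_left
    _ ≤ A * (1 + 2 / (16 * Real.log n / n)) := mul_le_mul_of_nonneg_left g2 hA0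
    _ ≤ A * (2 * n / Real.log n) := by
        apply mul_le_mul_of_nonneg_left _ hA0
        have e1 : 1 ≤ n / Real.log n := by
          rw [le_div_iff₀ (by linarith), one_mul]; exact hlog2
        have e2 : 2 / (16 * Real.log n / n) = (1 / 8) * (n / Real.log n) := by
          field_simp; norm_num
        have e3 : 2 * (n : ℝ) / Real.log n = 2 * (n / Real.log n) := by ring
        rw [e2, e3]; linarith
    _ = _ := by
        rw [hA]; field_simp

/-- conjunct (4) of `LeafSUM`. -/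
theorem middle (h : WB α N G a) (hα : 0 ≤ α) (hn : 3 ≤ n) :
    (∑' k : ℤ, if 2 * n < |k| ∧ |k| ≤ n ^ 2 then
        ‖aHi a n k‖ * Real.exp (-(2 * π * etan α N n * |(n : ℝ) - k|)) else 0) ≤
      (G * ∑' k : ℤ, 1 / (k : ℝ) ^ 2) / (om α N n * (n : ℝ) ^ 16) := by
  have hG := G_nonneg h
  have hn1 : 1 ≤ n := by omega
  have hn0 : (0 : ℝ) < n := by exact_mod_cast hn1
  have ho := om_pos (α := α) (N := N) (n : ℤ)
  have hlog := log_one_le hn
  have hS : Summable (fun k : ℤ => 1 / (k : ℝ) ^ 2) := Real.summable_one_div_int_pow.2 (by norm_num)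
  set f : ℤ → ℝ := fun k => if 2 * n < |k| ∧ |k| ≤ n ^ 2 then
        ‖aHi a n k‖ * Real.exp (-(2 * π * etan α N n * |(n : ℝ) - k|)) else 0 with hf
  set A := G / (om α N n * (n : ℝ) ^ 16) with hA
  have hA0 : 0 ≤ A := by positivity
  have hle : ∀ k, f k ≤ A * (1 / (k : ℝ) ^ 2) := by
    intro k
    simp only [hf]
    split_ifs with hk
    · have hk1 : 2 * (n : ℝ) < |(k : ℝ)| := by exact_mod_cast hk.1
      have hk0 : 0 < |(k : ℝ)| := by linarith
      have h2 := aHi_le (n := n) h k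
      have h3 := weight (N := N) hα hn1 k
      have h4 : Real.exp (-(16 * Real.log n / n * |(k : ℝ) - (n : ℤ)|)) ≤ ((n : ℝ) ^ 16)⁻¹ := by
        rw [← exp_16log hn1, ← Real.exp_neg]
        apply Real.exp_le_exp.2
        apply neg_le_neg
        have h5 : (n : ℝ) ≤ |(k : ℝ) - (n : ℤ)| := by
          have := abs_sub_abs_le_abs_sub (k : ℝ) ((n : ℤ) : ℝ)
          rw [show |((n : ℤ) : ℝ)| = n by rw [Int.cast_natCast, abs_of_nonneg hn0.le]] at this
          linarith
        calc 16 * Real.log n = 16 * Real.log n / n * n := by field_simp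
          _ ≤ 16 * Real.log n / n * |(k : ℝ) - (n : ℤ)| := by gcongr
      have h6 : ((1 + |(k : ℝ)|) ^ 15)⁻¹ ≤ 1 / (k : ℝ) ^ 2 := by
        rw [one_div]
        apply inv_anti₀
        · rw [← sq_abs]; positivity
        · rw [← sq_abs]
          calc |(k : ℝ)| ^ 2 ≤ (1 + |(k : ℝ)|) ^ 2 := by gcongr; linarith
            _ ≤ (1 + |(k : ℝ)|) ^ 15 := pow_le_pow_right₀ (by linarith) (by norm_num)
      calc ‖aHi a n k‖ * Real.exp (-(2 * π * etan α N n * |(n : ℝ) - k|))
          ≤ (G * (om α N k)⁻¹ * ((1 + |(k : ℝ)|) ^ 15)⁻¹) *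
              Real.exp (-(2 * π * etan α N n * |(n : ℝ) - k|)) := by gcongr
        _ = G * ((1 + |(k : ℝ)|) ^ 15)⁻¹ * ((om α N k)⁻¹ *
              Real.exp (-(2 * π * etan α N n * |(n : ℝ) - k|))) := by ring
        _ ≤ G * (1 / (k : ℝ) ^ 2) * ((om α N n)⁻¹ * ((n : ℝ) ^ 16)⁻¹) := by
            apply mul_le_mul _ _ _ (by positivity)
            · exact mul_le_mul_of_nonneg_left h6 hG
            · exact h3.trans (mul_le_mul_of_nonneg_left h4 (by positivity))
            · have := om_pos (α := α) (N := N) k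
              positivity
        _ = A * (1 / (k : ℝ) ^ 2) := by rw [hA]; field_simp
    · positivity
  have hf0 : ∀ k, 0 ≤ f k := by
    intro k; simp only [hf]; split_ifs <;> positivity
  have hsum : Summable f := Summable.of_nonneg_of_le hf0 hle (hS.mul_left A)
  calc ∑' k, f k ≤ ∑' k : ℤ, A * (1 / (k : ℝ) ^ 2) := hsum.tsum_le_tsum hle (hS.mul_left A)
    _ = A * ∑' k : ℤ, 1 / (k : ℝ) ^ 2 := tsum_mul_left
    _ = _ := by rw [hA]; ring

/-- conjunct (8) of `LeafSUM`, `C = 1`. -/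
theorem last (hn : 1 ≤ n) :
    Real.exp (-(2 * π * etan α N n * n)) = 1 / (om α N n * (n : ℝ) ^ 16) := by
  have hn0 : (0 : ℝ) < n := by exact_mod_cast hn
  rw [two_pi_etan hn, div_mul_cancel₀ _ hn0.ne', Real.exp_neg, Real.exp_add, exp_16log hn, om_n,
    one_div]

/-- conjunct (7) of `LeafSUM`, `C = 16 e ^ 17`. -/
theorem expsq (hα : 0 ≤ α) (hα1 : α ≤ 1) (hn : 3 ≤ n) :
    (∑' k : ℤ, if |k| ≤ ((n / 2 : ℕ) : ℤ) then 0 else
      Real.exp (-(2 * π * etan α N n * |(k : ℝ)|))) ^ 2 ≤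
      (16 * Real.exp 17) * (n : ℝ) ^ 2 / (om α N n * (n : ℝ) ^ 16) := by
  have hn1 : 1 ≤ n := by omega
  have hn0 : (0 : ℝ) < n := by exact_mod_cast hn1
  have ho := om_pos (α := α) (N := N) (n : ℤ)
  have hlog := log_one_le hn
  have hlog2 := log_le_self' hn1
  set s := 2 * π * etan α N n with hs
  have hseq : s = (α * min (n : ℝ) N + 16 * Real.log n) / n := two_pi_etan hn1
  have hm0 : 0 ≤ min (n : ℝ) N := min_nonneg'
  have hs1 : 16 / n ≤ s := by
    rw [hseq]
    gcongr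
    nlinarith
  have hs0 : 0 < s := lt_of_lt_of_le (by positivity) hs1
  have hs2 : s ≤ 17 := by
    rw [hseq, div_le_iff₀ hn0]
    have : α * min (n : ℝ) N ≤ 1 * n := mul_le_mul hα1 (min_le_left _ _) hm0 (by norm_num)
    nlinarith
  set m : ℤ := ((n / 2 : ℕ) : ℤ) with hm
  obtain ⟨g1, g2⟩ := geo_shift hs0 m
  obtain ⟨g3, g4⟩ := geo_shift hs0 (-m)
  set f : ℤ → ℝ := fun k => if |k| ≤ m then 0 else Real.exp (-(s * |(k : ℝ)|)) with hf
  have hle : ∀ k, f k ≤ Real.exp (-(s * m)) * (Real.exp (-(s * |(k : ℝ) - m|)) +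
      Real.exp (-(s * |(k : ℝ) - ((-m : ℤ) : ℝ)|))) := by
    intro k
    simp only [hf]
    split_ifs with hk
    · positivity
    · push Not at hk
      rw [mul_add, ← Real.exp_add, ← Real.exp_add]
      rcases le_or_gt 0 k with h0 | h0
      · have hk' : (m : ℝ) < k := by
          rw [abs_of_nonneg h0] at hk; exact_mod_cast hk
        have : Real.exp (-(s * |(k : ℝ)|)) = Real.exp (-(s * m) + -(s * |(k : ℝ) - m|)) := by
          congr 1
          rw [abs_of_nonneg (by exact_mod_cast h0 : (0:ℝ) ≤ k), abs_of_pos (by linarith)]; ring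
        rw [this]
        have := Real.exp_pos (-(s * m) + -(s * |(k : ℝ) - ((-m : ℤ) : ℝ)|))
        linarith
      · have hk' : (k : ℝ) < -m := by
          rw [abs_of_neg h0] at hk
          have : k < -m := by linarith
          exact_mod_cast this
        have : Real.exp (-(s * |(k : ℝ)|)) =
            Real.exp (-(s * m) + -(s * |(k : ℝ) - ((-m : ℤ) : ℝ)|)) := by
          congr 1
          push_cast
          rw [abs_of_neg (by exact_mod_cast h0 : (k:ℝ) < 0), abs_of_neg (by linarith)]; ring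
        rw [this]
        have := Real.exp_pos (-(s * m) + -(s * |(k : ℝ) - m|))
        linarith
  have hf0 : ∀ k, 0 ≤ f k := by
    intro k; simp only [hf]; split_ifs <;> positivity
  have gs := (g1.add g3).mul_left (Real.exp (-(s * m)))
  have hsum : Summable f := Summable.of_nonneg_of_le hf0 hle gs
  have hT : ∑' k, f k ≤ Real.exp (-(s * m)) * (4 * n) := by
    calc ∑' k, f k ≤ ∑' k : ℤ, Real.exp (-(s * m)) * (Real.exp (-(s * |(k : ℝ) - m|)) +
          Real.exp (-(s * |(k : ℝ) - ((-m : ℤ) : ℝ)|))) := hsum.tsum_le_tsum hle gs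
      _ = Real.exp (-(s * m)) * (∑' k : ℤ, Real.exp (-(s * |(k : ℝ) - m|)) +
          ∑' k : ℤ, Real.exp (-(s * |(k : ℝ) - ((-m : ℤ) : ℝ)|))) := by
            rw [tsum_mul_left, g1.tsum_add g3]
      _ ≤ Real.exp (-(s * m)) * ((1 + 2 / s) + (1 + 2 / s)) := by gcongr
      _ ≤ Real.exp (-(s * m)) * (4 * n) := by
          apply mul_le_mul_of_nonneg_left _ (Real.exp_pos _).le
          have h3 : (3 : ℝ) ≤ n := by exact_mod_cast hn
          have : 2 / s ≤ n / 8 := by
            rw [div_le_iff₀ hs0]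
            calc (2 : ℝ) = n / 8 * (16 / n) := by field_simp; norm_num
              _ ≤ n / 8 * s := by gcongr
          linarith
  have hT0 : 0 ≤ ∑' k, f k := tsum_nonneg hf0
  calc (∑' k, f k) ^ 2 ≤ (Real.exp (-(s * m)) * (4 * n)) ^ 2 := pow_le_pow_left₀ hT0 hT 2
    _ = 16 * (n : ℝ) ^ 2 * Real.exp (-(2 * s * m)) := by
        rw [mul_pow, ← Real.exp_nat_mul]; push_cast; ring_nf
    _ ≤ 16 * (n : ℝ) ^ 2 * (Real.exp 17 * Real.exp (-(s * n))) := by
        apply mul_le_mul_of_nonneg_left _ (by positivity)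
        rw [← Real.exp_add]
        apply Real.exp_le_exp.2
        have h2 : (n : ℤ) ≤ 2 * m + 1 := by omega
        have h2' : (n : ℝ) ≤ 2 * m + 1 := by exact_mod_cast h2
        nlinarith
    _ = _ := by
        rw [hs, last hn1]; field_simp

end

end Crest.Agent.R102.Sum602
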