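import Mathlib

/-! Row 102, EDGE / SLOW regime, leaf SL2 (SUM) of helper909 #29278: if the oscillations over the tree
of interior windows are bounded by a power of the scale, the label over every `x` near the chain point
stays near the interior label. -/

namespace Crest.Agent.R102.Sum148

/-- `V b b0 s1 κ x η`: all ancestors (windows over `x` of scale in `[η, s1]`) have label within `κ`
of `b0`. -/
def V (b : ℝ → ℝ → ℂ) (b0 : ℂ) (s1 κ x η : ℝ) : Prop :=
  ∀ η', η ≤ η' → η' ≤ s1 → ‖b x η' - b0‖ ≤ κ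

theorem V_mono {b : ℝ → ℝ → ℂ} {b0 : ℂ} {s1 κ κ' x η η' : ℝ} (h : V b b0 s1 κ x η) (hκ : κ ≤ κ')
    (hη : η ≤ η') : V b b0 s1 κ' x η' :=
  fun t h1 h2 => (h t (hη.trans h1) h2).trans hκ

/-- The one-column induction. -/
theorem column {b : ℝ → ℝ → ℂ} {e : ℝ → ℝ → ℝ} {b0 : ℂ} {C k th s1 η0 x : ℝ}
    (hC : 0 < C) (hth : 0 < th) (hη0 : 0 < η0) (hη1 : η0 ≤ s1)
    (hosc : ∀ η η', 0 < η → η ≤ s1 → η / 2 ≤ η' → η' ≤ η → V b b0 s1 k x η →
      ‖b x η - b x η'‖ ≤ C * e x η)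
    (hE : ∀ η, 0 < η → η ≤ η0 → V b b0 s1 k x η → e x η ≤ η ^ th)
    (htop : ∀ η, η0 ≤ η → η ≤ s1 → ‖b x η - b0‖ ≤ k / 2)
    (hk : 0 < k)
    (hsmall : C * η0 ^ th * (1 - (1 / 2) ^ th)⁻¹ ≤ k / 2) :
    ∀ η, 0 < η → η ≤ s1 → ‖b x η - b0‖ ≤ k := by
  set q : ℝ := (1 / 2 : ℝ) ^ th with hq
  have hq0 : 0 < q := Real.rpow_pos_of_pos (by norm_num) _
  have hq1 : q < 1 := by
    have := Real.rpow_lt_one (by norm_num : (0:ℝ) ≤ 1 / 2) (by norm_num) hth
    simpa [hq] using this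
  -- partial sums
  have hsum : ∀ n : ℕ, (∑ j ∈ Finset.range n, q ^ j) ≤ (1 - q)⁻¹ := by
    intro n
    have h1 : (∑ j ∈ Finset.range n, q ^ j) = (1 - q ^ n) / (1 - q) := by
      have := geom_sum_eq (ne_of_lt hq1) n
      rw [this]
      rw [← neg_div_neg_eq]
      congr 1 <;> ring
    rw [h1, div_eq_mul_inv]
    have h2 : 0 < (1 - q)⁻¹ := inv_pos.mpr (by linarith)
    have h3 : 1 - q ^ n ≤ 1 := by
      have : 0 < q ^ n := pow_pos hq0 n
      linarith
    calc (1 - q ^ n) * (1 - q)⁻¹ ≤ 1 * (1 - q)⁻¹ := mul_le_mul_of_nonneg_right h3 h2.le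
      _ = _ := one_mul _
  have hA : ∀ n : ℕ, C * η0 ^ th * (∑ j ∈ Finset.range n, q ^ j) ≤ k / 2 := by
    intro n
    have h1 : 0 ≤ C * η0 ^ th := by positivity
    exact (mul_le_mul_of_nonneg_left (hsum n) h1).trans hsmall
  -- main induction
  have main : ∀ n : ℕ, ∀ η, η0 * (1 / 2) ^ n ≤ η → η ≤ η0 →
      ‖b x η - b0‖ ≤ k / 2 + C * η0 ^ th * (∑ j ∈ Finset.range n, q ^ j) := by
    intro n
    induction n with
    | zero =>
      intro η h1 h2
      have : η = η0 := le_antisymm h2 (by simpa using h1)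
      subst this
      simpa using htop η le_rfl hη1
    | succ n ih =>
      intro η h1 h2
      have hp : (0:ℝ) < (1 / 2) ^ n := by positivity
      have hpos : 0 < η0 * (1 / 2) ^ n := by positivity
      have hsucc : (∑ j ∈ Finset.range (n + 1), q ^ j) =
          (∑ j ∈ Finset.range n, q ^ j) + q ^ n := Finset.sum_range_succ _ _
      have hCη : 0 ≤ C * η0 ^ th := by positivity
      rcases le_or_gt (η0 * (1 / 2) ^ n) η with h | h
      · have h3 := ih η h h2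
        rw [hsucc, mul_add]
        have : 0 ≤ C * η0 ^ th * q ^ n := by positivity
        linarith
      · -- the window of scale η0 / 2^n
        set t := η0 * (1 / 2) ^ n with ht
        have ht1 : t ≤ η0 := by
          have : ((1:ℝ) / 2) ^ n ≤ 1 := pow_le_one₀ (by norm_num) (by norm_num)
          calc t = η0 * (1 / 2) ^ n := rfl
            _ ≤ η0 * 1 := mul_le_mul_of_nonneg_left this hη0.le
            _ = η0 := mul_one _
        have hV : V b b0 s1 k x t := by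
          intro η' h4 h5
          rcases le_or_gt η' η0 with h6 | h6
          · have := ih η' h4 h6
            have := hA n
            linarith
          · have := htop η' h6.le h5
            linarith
        have h7 : η0 * (1 / 2) ^ (n + 1) = t / 2 := by rw [ht, pow_succ]; ring
        have h8 := hosc t η hpos (ht1.trans hη1) (by rw [← h7]; exact h1) h.le hV
        have h9 := hE t hpos ht1 hV
        have h10 : t ^ th = η0 ^ th * q ^ n := by
          rw [ht, Real.mul_rpow hη0.le hp.le, hq]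
          congr 1
          rw [← Real.rpow_natCast, ← Real.rpow_natCast, ← Real.rpow_mul (by norm_num),
            ← Real.rpow_mul (by norm_num), mul_comm]
        have h11 := ih t le_rfl ht1
        have h12 : ‖b x η - b0‖ ≤ ‖b x t - b x η‖ + ‖b x t - b0‖ := by
          have : b x η - b0 = (b x t - b0) - (b x t - b x η) := by ring
          rw [this]
          have := norm_sub_le (b x t - b0) (b x t - b x η)
          linarith
        have h13 : C * e x t ≤ C * (η0 ^ th * q ^ n) := by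
          rw [← h10]; exact mul_le_mul_of_nonneg_left h9 hC.le
        rw [hsucc, mul_add]
        have h14 : C * η0 ^ th * q ^ n = C * (η0 ^ th * q ^ n) := by ring
        linarith
  intro η h1 h2
  rcases le_or_gt η η0 with h | h
  · obtain ⟨n, hn⟩ : ∃ n : ℕ, ((1:ℝ) / 2) ^ n < η / η0 :=
      exists_pow_lt_of_lt_one (by positivity) (by norm_num)
    have h3 : η0 * (1 / 2) ^ n ≤ η := by
      have := mul_lt_mul_of_pos_left hn hη0
      rw [mul_div_cancel₀ _ hη0.ne'] at this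
      exact this.le
    have := main n η h3 h
    have := hA n
    linarith
  · have := htop η h.le h2
    linarith

/-- **SL2 (SUM)**. -/
theorem sum {b : ℝ → ℝ → ℂ} {e : ℝ → ℝ → ℝ} {b0 : ℂ} {C k eps th s1 x0 : ℝ}
    (hC : 0 < C) (hk : 0 < k) (hth : 0 < th) (hs1 : 0 < s1)
    (hosc : ∀ x x' η η', 0 < η → η ≤ s1 → |x - x'| ≤ η / 2 → η / 2 ≤ η' → η' ≤ η →
      V b b0 s1 k x η → ‖b x η - b x' η'‖ ≤ C * e x η)
    (heps : ∀ x η, 0 < η → η ≤ s1 → V b b0 s1 k x η → e x η ≤ eps) (hCe : C * eps ≤ k / 4)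
    (hchain : ∀ η, 0 < η → η ≤ s1 → ‖b x0 η - b0‖ ≤ k / 4)
    (hE : ∃ s2 > 0, ∀ x η, 0 < η → η ≤ s2 → V b b0 s1 k x η → e x η ≤ η ^ th) :
    ∃ η0 > 0, η0 ≤ s1 ∧ ∀ x, |x - x0| ≤ η0 / 2 → ∀ η, 0 < η → η ≤ s1 → ‖b x η - b0‖ ≤ k := by
  obtain ⟨s2, hs2, hE⟩ := hE
  set q : ℝ := (1 / 2 : ℝ) ^ th with hq
  have hq1 : q < 1 := by
    have := Real.rpow_lt_one (by norm_num : (0:ℝ) ≤ 1 / 2) (by norm_num) hth
    simpa [hq] using this
  have hD : 0 < C * (1 - q)⁻¹ := mul_pos hC (inv_pos.mpr (by linarith))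
  -- choose η0 with C η0^th (1-q)⁻¹ ≤ k/2
  set a : ℝ := (k / 2 / (C * (1 - q)⁻¹)) ^ (1 / th) with ha
  have ha0 : 0 < a := Real.rpow_pos_of_pos (by positivity) _
  have hath : a ^ th = k / 2 / (C * (1 - q)⁻¹) := by
    rw [ha, ← Real.rpow_mul (by positivity), one_div_mul_cancel hth.ne', Real.rpow_one]
  set η0 : ℝ := min (min s1 s2) a with hη0
  have h0 : 0 < η0 := lt_min (lt_min hs1 hs2) ha0
  have h1 : η0 ≤ s1 := (min_le_left _ _).trans (min_le_left _ _)
  have h2 : η0 ≤ s2 := (min_le_left _ _).trans (min_le_right _ _)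
  have h3 : η0 ≤ a := min_le_right _ _
  refine ⟨η0, h0, h1, ?_⟩
  intro x hx
  have hV0 : ∀ η, 0 < η → V b b0 s1 k x0 η := fun η hη η' h4 h5 =>
    (hchain η' (hη.trans_le h4) h5).trans (by linarith)
  refine column hC hth h0 h1 ?_ (fun η h4 h5 h6 => hE x η h4 (h5.trans h2) h6) ?_ hk ?_
  · intro η η' h4 h5 h6 h7 h8
    exact hosc x x η η' h4 h5 (by simpa using (by linarith : (0:ℝ) ≤ η / 2)) h6 h7 h8
  · intro η h4 h5
    have h6 : 0 < η := h0.trans_le h4
    have h7 := hosc x0 x η η h6 h5 (by rw [abs_sub_comm]; linarith) (by linarith) le_rfl (hV0 η h6)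
    have h8 := heps x0 η h6 h5 (hV0 η h6)
    have h9 := hchain η h6 h5
    have h10 : C * e x0 η ≤ C * eps := mul_le_mul_of_nonneg_left h8 hC.le
    have h11 : ‖b x η - b0‖ ≤ ‖b x0 η - b x η‖ + ‖b x0 η - b0‖ := by
      have : b x η - b0 = (b x0 η - b0) - (b x0 η - b x η) := by ring
      rw [this]
      have := norm_sub_le (b x0 η - b0) (b x0 η - b x η)
      linarith
    linarith
  · have h4 : η0 ^ th ≤ a ^ th := Real.rpow_le_rpow h0.le h3 hth.le
    rw [hath] at h4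
    have h5 : C * η0 ^ th * (1 - q)⁻¹ = η0 ^ th * (C * (1 - q)⁻¹) := by ring
    rw [h5]
    calc η0 ^ th * (C * (1 - q)⁻¹) ≤ k / 2 / (C * (1 - q)⁻¹) * (C * (1 - q)⁻¹) :=
          mul_le_mul_of_nonneg_right h4 hD.le
      _ = k / 2 := div_mul_cancel₀ _ hD.ne'

/-- Contrapositive form: if on every interval around `x0` some column leaves the `k`-ball, then there
are windows of the tree, of arbitrarily small scale, with `e > η ^ th`. -/
theorem not_small {b : ℝ → ℝ → ℂ} {e : ℝ → ℝ → ℝ} {b0 : ℂ} {C k eps th s1 x0 : ℝ}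
    (hC : 0 < C) (hk : 0 < k) (hth : 0 < th) (hs1 : 0 < s1)
    (hosc : ∀ x x' η η', 0 < η → η ≤ s1 → |x - x'| ≤ η / 2 → η / 2 ≤ η' → η' ≤ η →
      V b b0 s1 k x η → ‖b x η - b x' η'‖ ≤ C * e x η)
    (heps : ∀ x η, 0 < η → η ≤ s1 → V b b0 s1 k x η → e x η ≤ eps) (hCe : C * eps ≤ k / 4)
    (hchain : ∀ η, 0 < η → η ≤ s1 → ‖b x0 η - b0‖ ≤ k / 4)
    (hleave : ∀ η0 > 0, η0 ≤ s1 → ∃ x, |x - x0| ≤ η0 / 2 ∧ ∃ η, 0 < η ∧ η ≤ s1 ∧ k < ‖b x η - b0‖) :
    ∀ s2 > 0, ∃ x η, 0 < η ∧ η ≤ s2 ∧ V b b0 s1 k x η ∧ η ^ th < e x η := by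
  intro s2 hs2
  by_contra hcon
  push Not at hcon
  obtain ⟨η0, h0, h1, h⟩ := sum hC hk hth hs1 hosc heps hCe hchain
    ⟨s2, hs2, fun x η h3 h4 h5 => hcon x η h3 h4 h5⟩
  obtain ⟨x, hx, η, h2, h3, h4⟩ := hleave η0 h0 h1
  exact absurd (h x hx η h2 h3) (not_le.mpr h4)

end Crest.Agent.R102.Sum148
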