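import Crest.Agent.R102.BirthsOf_150
import Crest.Agent.R102.SheetD_982

/-!
Row 102, T1-B (helper150): the sheets of 982 in the exact coordinates: components of the joint
`Sup115.Dat`.
-/

set_option autoImplicit false

open Set Filter Topology Metric Complex MeasureTheory
open scoped Real

noncomputable section

namespace Crest.Agent.R102.PartII150

open Crest.Agent.R102.K669
open Crest.Agent.R102.C0 (LineFam OnLine)
open Crest.Agent.R102.Out559 (OmL OmX)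
open Crest.Agent.R102.F300 (Sreg ZZ ZZc)
open Crest.Agent.R102.Rule982 (Sg)
open Crest.Agent.R102.Sup115 (HDu)
open Crest.Agent.R102.Sh982 (Dat SL SB φe pe be sh)
open Crest.Agent.R102.Step7559 (dn)

variable {q : C(ℂ, ℂ)} {η ρ r Bc : ℝ} {b φ p : ℂ × ℂ → ℂ} {m₀ : ℂ → ℂ} {h : ℝ} {ψ H : ℂ → ℂ}

/-- the zeros of `ψ'` are countable -/
theorem countable_zeros {S : Set ℂ} (hS : IsOpen S) {ψ H : ℂ → ℂ} {c : ℂ} (hc : c ≠ 0)
    (hψ : DifferentiableOn ℂ ψ S) (hrel : F300.Rel S ψ H c) : (S \ Sreg S ψ).Countable := by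
  apply (HereditarilyLindelofSpace.isLindelof _).countable_of_isDiscrete
  refine IsDiscrete.of_nhdsWithin ?_
  rintro z ⟨hz, hz'⟩
  have hz0 : deriv ψ z = 0 := by
    by_contra hne
    exact hz' ⟨hz, hne⟩
  have ha : AnalyticAt ℂ (deriv ψ) z := (hψ.analyticAt (hS.mem_nhds hz)).deriv
  rcases ha.eventually_eq_zero_or_eventually_ne_zero with h1 | h1
  · exfalso
    have h5 : deriv ψ =ᶠ[𝓝 z] fun _ => (0 : ℂ) := h1
    have h6 : deriv (deriv ψ) z = 0 := by rw [h5.deriv_eq]; simp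
    have h7 := hrel z hz
    rw [h6, h1.self_of_nhds] at h7
    apply hc
    rw [← h7]; ring
  · intro s hs
    rw [mem_pure] at hs
    rw [eventually_nhdsWithin_iff] at h1
    rw [mem_nhdsWithin_iff_exists_mem_nhds_inter]
    refine ⟨_, h1, ?_⟩
    rintro y ⟨hy1, hy2, hy3⟩
    by_cases hyz : y = z
    · rw [hyz]; exact hs
    · exact absurd ⟨hy2, hy1 hyz⟩ hy3

/-- incidence, in the form of `End613` -/
theorem inc613 {φ₀ p₀ z : ℂ} (hz : deriv ψ z ≠ 0) (h : F300.Inc ψ H φ₀ p₀ z) :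
    End613.Inc φ₀ p₀ (ZZ ψ H z) (ZZc ψ H z) = 0 := by
  have h1 := (F300.onLine_iff ψ H hz).2 h
  unfold OnLine at h1
  unfold End613.Inc
  linear_combination h1

theorem exp_ne_one {T φ₀ : ℂ} (h : Complex.sin (φ₀ - T) ≠ 0) : cexp (2 * I * (T - φ₀)) ≠ 1 := by
  intro h1
  apply h
  rw [Complex.sin]
  have h2 : cexp (2 * I * (T - φ₀)) = cexp (-(φ₀ - T) * I) * cexp (-(φ₀ - T) * I) := by
    rw [← Complex.exp_add]; congr 1; ring
  have h3 : cexp (-(φ₀ - T) * I) * cexp ((φ₀ - T) * I) = 1 := by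
    rw [← Complex.exp_add]
    have : -(φ₀ - T) * I + (φ₀ - T) * I = 0 := by ring
    rw [this, Complex.exp_zero]
  have h4 : cexp (-(φ₀ - T) * I) = cexp ((φ₀ - T) * I) := by
    rw [h2] at h1
    calc cexp (-(φ₀ - T) * I) = cexp (-(φ₀ - T) * I) * (cexp (-(φ₀ - T) * I) *
          cexp ((φ₀ - T) * I)) := by rw [h3, mul_one]
      _ = (cexp (-(φ₀ - T) * I) * cexp (-(φ₀ - T) * I)) * cexp ((φ₀ - T) * I) := by ring
      _ = cexp ((φ₀ - T) * I) := by rw [h1, one_mul]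
  rw [h4]; ring

theorem ln_eq (G : ℂ → ℂ) (x : ℂ × ℂ) : ln G x = sh (-1) (ex G x) := by
  unfold ln ex
  simp only [sh]
  ext1
  · simp only; ring
  · rfl

section Sheets

variable (D : Dat q η ρ r Bc b φ p m₀ h ψ H) {G : ℂ → ℂ} {u0 R d : ℝ}
include D

theorem ex_mem_SB (hG0 : ∀ w ∈ HDu u0 R, 0 ≤ (G w).im) (hdρ : d ≤ ρ / 4)
    {x : ℂ × ℂ} (h1 : -d < x.1.im) (h2 : x.2 ∈ HDu u0 R)
    (h3 : ex G x ∈ OmX b (T5.Str h) (-(ρ / 2)) (ρ / 2) r) : ex G x ∈ SB b h ρ r := by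
  have hρ := D.ρ_pos
  rw [Sh982.SB_iff]
  refine ⟨h3, ?_⟩
  unfold ex
  rw [Complex.add_im]
  linarith [hG0 _ h2]

theorem ln_mem_SL (hball : ball (u0 : ℂ) R ⊆ ball 0 r) (hG0 : ∀ w ∈ HDu u0 R, 0 ≤ (G w).im)
    (hdρ : d ≤ ρ / 4) {x : ℂ × ℂ} (h1 : -d < x.1.im) (h2 : x.2 ∈ HDu u0 R)
    (h3 : ln G x ∈ OmL φ p (-(ρ / 2)) (ρ / 2) r) : ln G x ∈ SL φ p ρ r := by
  have hρ := D.ρ_pos
  rw [Sh982.SL_iff]
  refine ⟨h3, ?_⟩
  have hx2 : x.2.im < r := by
    have h4 := hball h2.1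
    rw [mem_ball_zero_iff] at h4
    exact ((le_abs_self _).trans (Complex.abs_im_le_norm _)).trans_lt h4
  have hr := D.r_le
  unfold ln
  have h5 : (x.1 + G x.2 - x.2 / 2).im = x.1.im + (G x.2).im - x.2.im / 2 := by
    simp
  rw [h5]
  linarith [hG0 _ h2]

/-- maximality of the vertex sheet in exact coordinates -/
theorem maxi_ex (hball : ball (u0 : ℂ) R ⊆ ball 0 r) (hG : DifferentiableOn ℂ G (HDu u0 R))
    (hG0 : ∀ w ∈ HDu u0 R, 0 ≤ (G w).im) (hdρ : d ≤ ρ / 4) (x : ℂ × ℂ) (h1 : -d < x.1.im)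
    (h2 : x.2 ∈ HDu u0 R) (g : ℂ × ℂ → ℂ) (hg : AnalyticAt ℂ g x) (hgh : |(g x).im| < h)
    (hlow : ∀ᶠ τ : ℝ in 𝓝[>] 0, ex G (dn x τ) ∈ OmX b (T5.Str h) (-(ρ / 2)) (ρ / 2) r ∧
      g =ᶠ[𝓝 (dn x τ)] fun y => be b h ρ r (ex G y)) :
    ex G x ∈ OmX b (T5.Str h) (-(ρ / 2)) (ρ / 2) r := by
  have hρ := D.ρ_pos
  have hHo : IsOpen (HDu u0 R) := isOpen_ball.inter (isOpen_lt continuous_const Complex.continuous_im)
  have hGa : AnalyticAt ℂ G x.2 := hG.analyticAt (hHo.mem_nhds h2)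
  have hexi : AnalyticAt ℂ (exi G) (ex G x) := analyticAt_exi hGa
  have him : (ex G x).1.im = x.1.im + (G x.2).im := by unfold ex; rw [Complex.add_im]
  have hmax := Step7559.maximal_Sh (F := b) (C := Sg h) (y1 := -(ρ / 2)) (y0 := ρ / 2)
    (W := ball (0 : ℂ) r) D.h10 isOpen_ball D.b_diff (Rule982.isOpen_Sg h) D.b_maps
    (q := ex G x) (by rw [him]; linarith [hG0 _ h2]) (hball h2.1)
    (G := fun z => g (exi G z))
    (AnalyticAt.comp (g := g) (by rw [exi_ex]; exact hg) hexi)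
    (by show g (exi G (ex G x)) ∈ Sg h; rw [exi_ex]; exact hgh) ?_
  · exact hmax.1.1
  · have h3 : ∀ᶠ τ : ℝ in 𝓝[>] 0, τ ∈ Ioo (0 : ℝ) (d + x.1.im) := Ioo_mem_nhdsGT (by linarith)
    filter_upwards [hlow, h3] with τ hτ hτ'
    have h4 : dn (ex G x) τ = ex G (dn x τ) := by
      unfold dn ex
      ext1
      · simp only; ring
      · rfl
    rw [h4]
    refine ⟨⟨hτ.1, ?_⟩, ?_⟩
    · have h5 : (ex G (dn x τ)).1.im = x.1.im - τ + (G x.2).im := by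
        unfold ex dn; simp
      rw [h5]
      linarith [hG0 _ h2, hτ'.2]
    · have h5 : AnalyticAt ℂ (exi G) (ex G (dn x τ)) := analyticAt_exi (by
        show AnalyticAt ℂ G (dn x τ).2
        exact hGa)
      have h6 : exi G (ex G (dn x τ)) = dn x τ := exi_ex G _
      have h7 := h5.continuousAt.eventually (by rw [h6]; exact hτ.2)
      filter_upwards [h7] with z hz
      rw [hz, ex_exi]
      rfl

end Sheets

end Crest.Agent.R102.PartII150
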