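import Crest.Agent.R102.Div_821

/-!
Row 102, part (B) (helper821): supplements to the Fourier toolbox: partial derivatives and Cauchy
estimates, division by powers of `w`, symmetries (reality, parity), the divisor lemma with weights
`|w|^M` and symmetries.
-/

set_option autoImplicit false

open Set Filter Topology Metric Complex MeasureTheory
open scoped Real ContDiff ComplexConjugate

noncomputable section

namespace Crest.Agent.R102.B821

open Crest.Agent.R266.SCV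

section Deriv

variable {k ρ r d A : ℝ} {f g : ℂ × ℂ → ℂ} {M : ℕ}

/-- partial derivative in the first variable -/
def q1 (F : ℂ × ℂ → ℂ) (p : ℂ × ℂ) : ℂ := fderiv ℂ F p (1, 0)

/-- partial derivative in the second variable -/
def q2 (F : ℂ × ℂ → ℂ) (p : ℂ × ℂ) : ℂ := fderiv ℂ F p (0, 1)

lemma IsH.analytic (hf : IsH k ρ r f) : AnalyticOnNhd ℂ f (Dom k ρ r) :=
  analyticOnNhd_of_differentiableOn (isOpen_Dom k ρ r) hf.diff

lemma IsH.differentiableAt (hf : IsH k ρ r f) {p : ℂ × ℂ} (hp : p ∈ Dom k ρ r) :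
    DifferentiableAt ℂ f p := hf.diff.differentiableAt ((isOpen_Dom k ρ r).mem_nhds hp)

lemma IsH.fderiv_per (hf : IsH k ρ r f) {t w : ℂ} (hp : (t, w) ∈ Dom k ρ r) :
    fderiv ℂ f (t + 1, w) = fderiv ℂ f (t, w) := by
  have h1 : (fun p : ℂ × ℂ => f (p + (1, 0))) =ᶠ[𝓝 (t, w)] f := by
    filter_upwards [(isOpen_Dom k ρ r).mem_nhds hp] with p hp'
    have := hf.per p.1 p.2 hp'
    rw [← this]
    congr 1
    ext <;> simp
  have h2 := h1.fderiv_eq (𝕜 := ℂ)
  rw [fderiv_comp_add_right] at h2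
  rw [← h2]
  congr 1
  ext <;> simp

lemma IsH.fderiv_apply (hf : IsH k ρ r f) (v : ℂ × ℂ) :
    IsH k ρ r (fun p => fderiv ℂ f p v) := by
  refine ⟨?_, fun t w h => by rw [hf.fderiv_per h]⟩
  have h1 : AnalyticOnNhd ℂ (fderiv ℂ f) (Dom k ρ r) := hf.analytic.fderiv
  intro p hp
  exact ((h1 p hp).differentiableAt.clm_apply (differentiableAt_const v)).differentiableWithinAt

lemma IsH.q1 (hf : IsH k ρ r f) : IsH k ρ r (q1 f) := hf.fderiv_apply (1, 0)

lemma IsH.q2 (hf : IsH k ρ r f) : IsH k ρ r (q2 f) := hf.fderiv_apply (0, 1)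

lemma hasDerivAt_fst {F : ℂ × ℂ → ℂ} {t w : ℂ} (h : DifferentiableAt ℂ F (t, w)) :
    HasDerivAt (fun s => F (s, w)) (B821.q1 F (t, w)) t := by
  have h1 : HasDerivAt (fun s : ℂ => (s, w)) ((1 : ℂ), (0 : ℂ)) t :=
    (hasDerivAt_id t).prodMk (hasDerivAt_const t w)
  exact h.hasFDerivAt.comp_hasDerivAt t h1

lemma hasDerivAt_snd {F : ℂ × ℂ → ℂ} {t w : ℂ} (h : DifferentiableAt ℂ F (t, w)) :
    HasDerivAt (fun s => F (t, s)) (B821.q2 F (t, w)) w := by
  have h1 : HasDerivAt (fun s : ℂ => (t, s)) ((0 : ℂ), (1 : ℂ)) w :=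
    (hasDerivAt_const w t).prodMk (hasDerivAt_id w)
  exact h.hasFDerivAt.comp_hasDerivAt w h1

/-- Cauchy estimate in `t` -/
theorem Bdd.q1 (hf : IsH k ρ r f) (hb : Bdd k ρ r M A f) (hd : 0 < d) :
    Bdd k (ρ - d) r M (A / d) (B821.q1 f) := by
  rintro ⟨t, w⟩ hp
  have hw : ‖w‖ < r := hp.2
  have h1 : |t.im| + k * |w.im| < ρ - d := hp.1
  have hmem : ∀ s ∈ closedBall t d, (s, w) ∈ Dom k ρ r := by
    intro s hs
    rw [mem_closedBall, dist_eq_norm] at hs
    have h2 : |s.im| ≤ |t.im| + d := by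
      have h3 := (Complex.abs_im_le_norm (s - t)).trans hs
      rw [Complex.sub_im] at h3
      have := abs_sub_abs_le_abs_sub s.im t.im
      linarith
    exact ⟨by simp only; linarith, hw⟩
  have hdiff : ∀ s ∈ closedBall t d, DifferentiableAt ℂ (fun s => f (s, w)) s := fun s hs =>
    (hasDerivAt_fst (hf.differentiableAt (hmem s hs))).differentiableAt
  have h3 := norm_deriv_le_of_forall_mem_sphere_norm_le (c := t) (R := d)
    (C := A * ‖w‖ ^ M) (f := fun s : ℂ => f (s, w)) hd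
    (DifferentiableOn.diffContOnCl (fun z hz => (hdiff z (closure_ball_subset_closedBall
      hz)).differentiableWithinAt))
    (fun z hz => hb _ (hmem z (sphere_subset_closedBall hz)))
  rw [(hasDerivAt_fst (hf.differentiableAt (hmem t (mem_closedBall_self hd.le)))).deriv] at h3
  refine h3.trans (le_of_eq ?_)
  simp only
  ring

/-- bounds off `w = 0` extend to `w = 0` -/
lemma bdd_of_ne (_hk : 0 ≤ k) (hf : ContinuousOn f (Dom k ρ r))
    (h : ∀ t w : ℂ, (t, w) ∈ Dom k ρ r → w ≠ 0 → ‖f (t, w)‖ ≤ A * ‖w‖ ^ M) : Bdd k ρ r M A f := by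
  rintro ⟨t, w⟩ hp
  by_cases hw : w = 0
  · subst hw
    have hc : ContinuousAt (fun w : ℂ => ‖f (t, w)‖) 0 := by
      have h1 : ContinuousAt f (t, 0) := hf.continuousAt ((isOpen_Dom k ρ r).mem_nhds hp)
      exact (h1.comp (f := fun w : ℂ => (t, w)) (by fun_prop)).norm
    have hc2 : ContinuousAt (fun w : ℂ => A * ‖w‖ ^ M) 0 := by fun_prop
    refine le_of_tendsto_of_tendsto (hc.tendsto.mono_left nhdsWithin_le_nhds)
      (hc2.tendsto.mono_left nhdsWithin_le_nhds) (b := 𝓝[≠] 0) ?_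
    have hmem : ∀ᶠ w : ℂ in 𝓝 0, (t, w) ∈ Dom k ρ r := by
      have hcont : Continuous (fun w : ℂ => (t, w)) := by fun_prop
      exact hcont.continuousAt.preimage_mem_nhds ((isOpen_Dom k ρ r).mem_nhds hp)
    filter_upwards [self_mem_nhdsWithin, mem_nhdsWithin_of_mem_nhds hmem] with z hz1 hz2
    exact h t z hz2 hz1
  · exact h t w hp hw

/-- Cauchy estimate in `w` -/
theorem Bdd.q2 (hk : 0 ≤ k) (hr : r ≤ 1) (hA : 0 ≤ A) (hf : IsH k ρ r f)
    (hb : Bdd k ρ r (M + 1) A f) (hd : 0 < d) (hd1 : d ≤ 1) :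
    Bdd k (ρ - k * d) (r - d) M (2 ^ (M + 1) * A / d) (B821.q2 f) := by
  have hf' : IsH k (ρ - k * d) (r - d) f :=
    hf.mono le_rfl (by nlinarith) (by linarith)
  refine bdd_of_ne hk hf'.q2.continuousOn (fun t w hp hw0 => ?_)
  have hw : ‖w‖ < r - d := hp.2
  have hw1 : ‖w‖ ≤ 1 := by linarith
  have hwpos : 0 < ‖w‖ := norm_pos_iff.2 hw0
  have h1 : |t.im| + k * |w.im| < ρ - k * d := hp.1
  set s : ℝ := d * ‖w‖ with hs
  have hs0 : 0 < s := by positivity
  have hsd : s ≤ d := by rw [hs]; nlinarith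
  have hmem : ∀ z ∈ closedBall w s, (t, z) ∈ Dom k ρ r ∧ ‖z‖ ≤ 2 * ‖w‖ := by
    intro z hz
    rw [mem_closedBall, dist_eq_norm] at hz
    have h2 : |z.im| ≤ |w.im| + s := by
      have h3 := (Complex.abs_im_le_norm (z - w)).trans hz
      rw [Complex.sub_im] at h3
      have := abs_sub_abs_le_abs_sub z.im w.im
      linarith
    have h4 : ‖z‖ ≤ ‖w‖ + s := by
      have := norm_add_le (z - w) w
      rw [sub_add_cancel] at this
      linarith
    refine ⟨⟨?_, ?_⟩, ?_⟩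
    · simp only
      have := mul_le_mul_of_nonneg_left h2 hk
      nlinarith
    · simp only
      linarith
    · rw [hs] at h4
      nlinarith
  have hdiff : ∀ z ∈ closedBall w s, DifferentiableAt ℂ (fun z => f (t, z)) z := fun z hz =>
    (hasDerivAt_snd (hf.differentiableAt (hmem z hz).1)).differentiableAt
  have h3 := norm_deriv_le_of_forall_mem_sphere_norm_le (c := w) (R := s)
    (C := A * (2 * ‖w‖) ^ (M + 1)) (f := fun z : ℂ => f (t, z)) hs0
    (DifferentiableOn.diffContOnCl (fun z hz => (hdiff z (closure_ball_subset_closedBall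
      hz)).differentiableWithinAt))
    (fun z hz => by
      have h5 := hmem z (sphere_subset_closedBall hz)
      refine (hb _ h5.1).trans ?_
      simp only
      gcongr
      exact h5.2)
  rw [(hasDerivAt_snd (hf.differentiableAt (hmem w (mem_closedBall_self hs0.le)).1)).deriv] at h3
  refine h3.trans (le_of_eq ?_)
  rw [hs]
  field_simp
  ring

/-- Cauchy estimate in `w`, no weight -/
theorem Bdd.q2_zero (hk : 0 ≤ k) (hf : IsH k ρ r f)
    (hb : Bdd k ρ r 0 A f) (hd : 0 < d) :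
    Bdd k (ρ - k * d) (r - d) 0 (A / d) (B821.q2 f) := by
  rintro ⟨t, w⟩ hp
  have hw : ‖w‖ < r - d := hp.2
  have h1 : |t.im| + k * |w.im| < ρ - k * d := hp.1
  have hmem : ∀ z ∈ closedBall w d, (t, z) ∈ Dom k ρ r := by
    intro z hz
    rw [mem_closedBall, dist_eq_norm] at hz
    have h2 : |z.im| ≤ |w.im| + d := by
      have h3 := (Complex.abs_im_le_norm (z - w)).trans hz
      rw [Complex.sub_im] at h3
      have := abs_sub_abs_le_abs_sub z.im w.im
      linarith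
    have h4 : ‖z‖ ≤ ‖w‖ + d := by
      have := norm_add_le (z - w) w
      rw [sub_add_cancel] at this
      linarith
    refine ⟨?_, ?_⟩
    · simp only
      have := mul_le_mul_of_nonneg_left h2 hk
      nlinarith
    · simp only
      linarith
  have hdiff : ∀ z ∈ closedBall w d, DifferentiableAt ℂ (fun z => f (t, z)) z := fun z hz =>
    (hasDerivAt_snd (hf.differentiableAt (hmem z hz))).differentiableAt
  have h3 := norm_deriv_le_of_forall_mem_sphere_norm_le (c := w) (R := d)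
    (C := A) (f := fun z : ℂ => f (t, z)) hd
    (DifferentiableOn.diffContOnCl (fun z hz => (hdiff z (closure_ball_subset_closedBall
      hz)).differentiableWithinAt))
    (fun z hz => by
      have h5 := hb _ (hmem z (sphere_subset_closedBall hz))
      simpa using h5)
  rw [(hasDerivAt_snd (hf.differentiableAt (hmem w (mem_closedBall_self hd.le)))).deriv] at h3
  simpa using h3

end Deriv

section Division

variable {k ρ r d A : ℝ} {f g : ℂ × ℂ → ℂ} {M : ℕ}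

lemma Dom_star (hk : 0 ≤ k) {t w : ℂ} (hp : (t, w) ∈ Dom k ρ r) {s : ℝ} (hs : s ∈ Icc (0 : ℝ) 1) :
    (t, (s : ℂ) * w) ∈ Dom k ρ r := by
  have h1 : |t.im| + k * |w.im| < ρ := hp.1
  have h2 : ‖w‖ < r := hp.2
  refine ⟨?_, ?_⟩
  · simp only
    have h3 : |((s : ℂ) * w).im| ≤ |w.im| := by
      have : ((s : ℂ) * w).im = s * w.im := by simp
      rw [this, abs_mul, abs_of_nonneg hs.1]
      have := abs_nonneg w.im
      nlinarith [hs.2]
    have := mul_le_mul_of_nonneg_left h3 hk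
    linarith
  · simp only
    rw [norm_mul, Complex.norm_real, Real.norm_of_nonneg hs.1]
    have := norm_nonneg w
    nlinarith [hs.2]

/-- division by `w` -/
theorem IsH.exists_div_w (hk : 0 ≤ k) (hf : IsH k ρ r f)
    (h0 : ∀ t : ℂ, (t, 0) ∈ Dom k ρ r → f (t, 0) = 0) :
    ∃ g, IsH k ρ r g ∧ ∀ t w : ℂ, (t, w) ∈ Dom k ρ r → f (t, w) = w * g (t, w) := by
  have h2 := hf.q2
  refine ⟨fun p => ∫ s in (0 : ℝ)..1, B821.q2 f (p.1, (s : ℂ) * p.2), ⟨?_, ?_⟩, ?_⟩
  · refine (analyticOnNhd_intervalIntegral (E := ℂ × ℂ) (F := ℂ)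
      (f := fun q : (ℂ × ℂ) × ℝ => B821.q2 f (q.1.1, (q.2 : ℂ) * q.1.2)) (a := 0) (b := 1)
      (U := Dom k ρ r) (isOpen_Dom k ρ r) ?_ ?_).differentiableOn
    · refine h2.continuousOn.comp (by fun_prop) ?_
      rintro ⟨⟨t, w⟩, s⟩ ⟨hp, hs⟩
      rw [uIcc_of_le zero_le_one] at hs
      exact Dom_star hk hp hs
    · intro s hs
      rw [uIcc_of_le zero_le_one] at hs
      refine h2.diff.comp (f := fun p : ℂ × ℂ => (p.1, (s : ℂ) * p.2)) (by fun_prop) ?_
      rintro ⟨t, w⟩ hp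
      exact Dom_star hk hp hs
  · intro t w hp
    refine intervalIntegral.integral_congr (fun s hs => ?_)
    rw [uIcc_of_le zero_le_one] at hs
    exact h2.per _ _ (Dom_star hk hp hs)
  · intro t w hp
    have hd : ∀ s ∈ uIcc (0 : ℝ) 1, HasDerivAt (fun s : ℝ => f (t, (s : ℂ) * w))
        (w * B821.q2 f (t, (s : ℂ) * w)) s := by
      intro s hs
      rw [uIcc_of_le zero_le_one] at hs
      have h3 := hasDerivAt_snd (hf.differentiableAt (Dom_star hk hp hs))
      have h4 : HasDerivAt (fun s : ℂ => s * w) w (s : ℂ) := by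
        simpa using (hasDerivAt_id (s : ℂ)).mul_const w
      have h5 := (h3.comp (s : ℂ) h4).comp_ofReal
      rw [mul_comm] at h5
      exact h5
    have hint : IntervalIntegrable (fun s : ℝ => w * B821.q2 f (t, (s : ℂ) * w)) volume 0 1 := by
      refine ContinuousOn.intervalIntegrable ?_
      refine continuousOn_const.mul ?_
      refine h2.continuousOn.comp (by fun_prop) ?_
      intro s hs
      rw [uIcc_of_le zero_le_one] at hs
      exact Dom_star hk hp hs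
    have h6 := intervalIntegral.integral_eq_sub_of_hasDerivAt hd hint
    rw [intervalIntegral.integral_const_mul] at h6
    simp only [Complex.ofReal_one, one_mul, Complex.ofReal_zero, zero_mul] at h6
    have h7 : f (t, 0) = 0 := h0 t (by
      have := Dom_star hk hp (s := 0) ⟨le_rfl, zero_le_one⟩
      simpa using this)
    rw [h7, sub_zero] at h6
    exact h6.symm

/-- division by `w^M` -/
theorem IsH.exists_div_pow (hk : 0 ≤ k) : ∀ (M : ℕ) {f : ℂ × ℂ → ℂ} (_ : IsH k ρ r f)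
    (_ : Bdd k ρ r M A f),
    ∃ g, IsH k ρ r g ∧ Bdd k ρ r 0 A g ∧
      ∀ t w : ℂ, (t, w) ∈ Dom k ρ r → f (t, w) = w ^ M * g (t, w) := by
  intro M
  induction M with
  | zero =>
    intro f hf hb
    exact ⟨f, hf, hb, fun t w _ => by simp⟩
  | succ M ih =>
    intro f hf hb
    obtain ⟨g, hg, hfg⟩ := hf.exists_div_w hk (fun t ht => by
      have := hb _ ht
      simp only [norm_zero] at this
      rw [zero_pow (Nat.succ_ne_zero M), mul_zero] at this
      exact norm_le_zero_iff.1 this)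
    have hgb : Bdd k ρ r M A g := by
      refine bdd_of_ne hk hg.continuousOn (fun t w hp hw => ?_)
      have h1 := hb _ hp
      rw [hfg t w hp, norm_mul] at h1
      simp only at h1
      have hw' : 0 < ‖w‖ := norm_pos_iff.2 hw
      have h2 : ‖w‖ * ‖g (t, w)‖ ≤ ‖w‖ * (A * ‖w‖ ^ M) := by
        calc ‖w‖ * ‖g (t, w)‖ ≤ A * ‖w‖ ^ (M + 1) := h1
          _ = ‖w‖ * (A * ‖w‖ ^ M) := by ring
      exact le_of_mul_le_mul_left h2 hw'
    obtain ⟨h, hh, hhb, hgh⟩ := ih hg hgb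
    refine ⟨h, hh, hhb, fun t w hp => ?_⟩
    rw [hfg t w hp, hgh t w hp]
    ring

lemma IsH.pow_w (hf : IsH k ρ r f) (M : ℕ) : IsH k ρ r (fun p => p.2 ^ M * f p) := by
  refine ⟨?_, fun t w h => ?_⟩
  · exact (differentiable_snd.pow M).differentiableOn.mul hf.diff
  · simp only
    rw [hf.per t w h]

lemma Bdd.pow_w {M' : ℕ} (hb : Bdd k ρ r M' A f) (M : ℕ) :
    Bdd k ρ r (M + M') A (fun p => p.2 ^ M * f p) := by
  intro p hp
  rw [norm_mul, norm_pow, pow_add]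
  have := hb p hp
  calc ‖p.2‖ ^ M * ‖f p‖ ≤ ‖p.2‖ ^ M * (A * ‖p.2‖ ^ M') :=
        mul_le_mul_of_nonneg_left this (by positivity)
    _ = _ := by ring

end Division

section Symmetry

variable {k ρ r d A : ℝ} {f g : ℂ × ℂ → ℂ} {M : ℕ}

lemma mem_Dom_conj {t w : ℂ} : (conj t, conj w) ∈ Dom k ρ r ↔ (t, w) ∈ Dom k ρ r := by
  simp [mem_Dom]

lemma mem_Dom_neg {t w : ℂ} : (t, -w) ∈ Dom k ρ r ↔ (t, w) ∈ Dom k ρ r := by
  simp [mem_Dom]

/-- complex conjugate function -/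
def cj (f : ℂ × ℂ → ℂ) (p : ℂ × ℂ) : ℂ := conj (f (conj p.1, conj p.2))

/-- reflection `w → -w` -/
def rf (f : ℂ × ℂ → ℂ) (p : ℂ × ℂ) : ℂ := f (p.1, -p.2)

lemma IsH.cj (hf : IsH k ρ r f) : IsH k ρ r (cj f) := by
  refine ⟨?_, ?_⟩
  · refine (analyticOnNhd_of_separately (isOpen_Dom k ρ r) ?_ ?_ ?_).differentiableOn
    · refine Complex.continuous_conj.comp_continuousOn ?_
      refine hf.continuousOn.comp (by fun_prop) ?_
      rintro ⟨t, w⟩ hp
      exact mem_Dom_conj.2 hp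
    · rintro ⟨t, w⟩ hp
      have h1 := (hasDerivAt_fst (hf.differentiableAt (mem_Dom_conj.2 hp))).differentiableAt
      have h2 := DifferentiableAt.conj_conj h1
      rw [Complex.conj_conj] at h2
      exact h2
    · rintro ⟨t, w⟩ hp
      have h1 := (hasDerivAt_snd (hf.differentiableAt (mem_Dom_conj.2 hp))).differentiableAt
      have h2 := DifferentiableAt.conj_conj h1
      rw [Complex.conj_conj] at h2
      exact h2
  · intro t w hp
    unfold B821.cj
    simp only [map_add, map_one]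
    rw [hf.per _ _ (mem_Dom_conj.2 hp)]

lemma Bdd.cj (hb : Bdd k ρ r M A f) : Bdd k ρ r M A (cj f) := by
  rintro ⟨t, w⟩ hp
  have := hb _ (mem_Dom_conj.2 hp)
  simpa [B821.cj] using this

lemma IsH.rf (hf : IsH k ρ r f) : IsH k ρ r (rf f) := by
  refine ⟨?_, ?_⟩
  · refine hf.diff.comp (by fun_prop) ?_
    rintro ⟨t, w⟩ hp
    exact mem_Dom_neg.2 hp
  · intro t w hp
    exact hf.per _ _ (mem_Dom_neg.2 hp)

lemma Bdd.rf (hb : Bdd k ρ r M A f) : Bdd k ρ r M A (rf f) := by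
  rintro ⟨t, w⟩ hp
  have := hb _ (mem_Dom_neg.2 hp)
  simpa [B821.rf] using this

lemma del_cj (f : ℂ × ℂ → ℂ) : del (cj f) = cj (del f) := by
  ext ⟨t, w⟩
  unfold cj
  simp only
  rw [del_apply, del_apply, map_sub]
  simp only [map_add, map_sub, map_div₀]
  have h2 : (conj (2 : ℂ)) = 2 := Complex.conj_ofNat 2
  rw [h2]

lemma del_rf (f : ℂ × ℂ → ℂ) (p : ℂ × ℂ) : del (rf f) p = - rf (del f) p := by
  obtain ⟨t, w⟩ := p
  unfold rf
  rw [del_apply]
  simp only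
  rw [del_apply]
  have e1 : t + -w / 2 = t - w / 2 := by ring
  have e2 : t - -w / 2 = t + w / 2 := by ring
  rw [e1, e2]
  ring

lemma fc_cj (f : ℂ × ℂ → ℂ) (n : ℤ) (w : ℂ) : fc (cj f) n w = conj (fc f (-n) (conj w)) := by
  unfold fc
  rw [← intervalIntegral.intervalIntegral_conj]
  refine intervalIntegral.integral_congr (fun x _ => ?_)
  unfold cj
  simp only
  rw [map_mul, Complex.conj_ofReal]
  congr 1
  unfold ee
  rw [← Complex.exp_conj]
  congr 1
  simp only [map_mul, map_neg, Complex.conj_I, Complex.conj_ofReal, map_intCast, Int.cast_neg]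
  have h2 : (conj (2 : ℂ)) = 2 := Complex.conj_ofNat 2
  rw [h2]
  ring

lemma fc_rf (f : ℂ × ℂ → ℂ) (n : ℤ) (w : ℂ) : fc (rf f) n w = fc f n (-w) := rfl

/-- the divisor lemma with weights `|w|^M` -/
theorem divisor_weight {k ρ r d B η : ℝ} {N M : ℕ} (hk0 : 0 ≤ k) (hk1 : k ≤ 1) (hr0 : 0 < r)
    (hr : r ≤ 1) (hρ : 2 * r ≤ ρ) (hd : 0 < d) (hdr : 2 * d ≤ r) (hB : 0 ≤ B) (hη : 0 ≤ η)
    {F : ℂ × ℂ → ℂ} (hF : IsH (k + 1 / 2) ρ r F) (hFb : Bdd (k + 1 / 2) ρ r (M + 1) B F)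
    (h0 : ∀ w : ℂ, ‖w‖ < r → fc F 0 w = 0)
    (hres : ∀ n : ℤ, n ≠ 0 → |(n : ℝ)| ≤ N → ∀ j : ℤ, j ≠ 0 → |(j : ℝ) / n| < r →
      ‖fc F n ((j : ℂ) / n)‖ ≤ η * |(j : ℝ) / n| ^ (M + 1) * Real.exp (-(2 * π * |(n : ℝ)| * ρ))) :
    ∃ S R : ℂ × ℂ → ℂ, IsH k (ρ - d) (r - d) S ∧ IsH (k + 1 / 2) (ρ - d) (r - d) R ∧
      (∀ p ∈ Dom (k + 1 / 2) (ρ - d) (r - d), F p = del S p + R p) ∧
      Bdd k (ρ - d) (r - d) M (10000 / d ^ 3 * (B + η)) S ∧
      Bdd (k + 1 / 2) (ρ - d) (r - d) (M + 1)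
        (10 / d ^ 2 * η + 3 / d * (B * Real.exp (-(π * d * N)))) R ∧
      (∀ w : ℂ, ‖w‖ < r - d → fc S 0 w = 0) := by
  obtain ⟨g, hg, hgb, hFg⟩ := hF.exists_div_pow (by linarith) (M + 1) hFb
  have hkw : ∀ w : ℂ, ‖w‖ < r → (k + 1 / 2) * |w.im| < ρ := fun w hw =>
    k_im_lt (by linarith) (by linarith) (by nlinarith) hw
  have hfc : ∀ (n : ℤ) (w : ℂ), ‖w‖ < r → fc F n w = w ^ (M + 1) * fc g n w := by
    intro n w hw
    rw [← fc_mul_w (fun w => w ^ (M + 1)) g]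
    exact fc_congr (fun x => hFg _ _ (real_mem_Dom.2 ⟨hkw w hw, hw⟩)) n
  have hg0 : ∀ w : ℂ, ‖w‖ < r → fc g 0 w = 0 := by
    -- off `w = 0` from `h0`, at `w = 0` by continuity
    have hcont : ContinuousOn (fc g 0) (ball 0 r) :=
      (differentiableOn_fc hg 0 isOpen_ball (fun w hw => by
        rw [mem_ball_zero_iff] at hw
        exact ⟨hw, hkw w hw⟩)).continuousOn
    intro w hw
    by_cases hw0 : w = 0
    · subst hw0
      have hca : ContinuousAt (fc g 0) 0 :=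
        hcont.continuousAt (isOpen_ball.mem_nhds (by simpa using hw))
      have h1 : Tendsto (fc g 0) (𝓝[≠] 0) (𝓝 (fc g 0 0)) := hca.tendsto.mono_left nhdsWithin_le_nhds
      have h2 : Tendsto (fc g 0) (𝓝[≠] 0) (𝓝 0) := by
        refine tendsto_const_nhds.congr' ?_
        have h3 : ∀ᶠ z : ℂ in 𝓝 0, ‖z‖ < r := by
          have := isOpen_ball.mem_nhds (show (0 : ℂ) ∈ ball 0 r by simpa using hr0)
          filter_upwards [this] with z hz
          simpa using hz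
        filter_upwards [self_mem_nhdsWithin, mem_nhdsWithin_of_mem_nhds h3] with z hz1 hz2
        have h4 := hfc 0 z hz2
        rw [h0 z hz2] at h4
        have h5 : z ^ (M + 1) ≠ 0 := pow_ne_zero _ hz1
        exact ((mul_eq_zero.1 h4.symm).resolve_left h5).symm
      exact tendsto_nhds_unique h1 h2
    · have h4 := hfc 0 w hw
      rw [h0 w hw] at h4
      exact (mul_eq_zero.1 h4.symm).resolve_left (pow_ne_zero _ hw0)
  obtain ⟨S, R, hS, hR, hSR, hSb, hRb, hS0⟩ := divisor (N := N) hk0 hk1 hr0 hr hρ hd hdr hB hη hg hgb hg0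
    (by
      intro n hn hnN j hj hjr
      have h1 := hres n hn hnN j hj hjr
      have hnorm : ‖(j : ℂ) / n‖ = |(j : ℝ) / n| := by
        rw [norm_div, abs_div]; simp
      rw [hfc n _ (by rw [hnorm]; exact hjr), norm_mul, norm_pow, hnorm] at h1
      have hpos : 0 < |(j : ℝ) / n| ^ (M + 1) := by
        have : (j : ℝ) / n ≠ 0 := div_ne_zero (by exact_mod_cast hj) (by exact_mod_cast hn)
        positivity
      have h2 : |(j : ℝ) / n| ^ (M + 1) * ‖fc g n ((j : ℂ) / n)‖ ≤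
          |(j : ℝ) / n| ^ (M + 1) * (η * Real.exp (-(2 * π * |(n : ℝ)| * ρ))) := by
        calc _ ≤ _ := h1
          _ = _ := by ring
      exact le_of_mul_le_mul_left h2 hpos)
  refine ⟨fun p => p.2 ^ M * S p, fun p => p.2 ^ (M + 1) * R p, hS.pow_w M, hR.pow_w (M + 1), ?_,
    ?_, ?_, ?_⟩
  · rintro ⟨t, w⟩ hp
    have h1 := hSR _ hp
    have h2 := hFg t w (Dom_mono le_rfl (by linarith) (by linarith) hp)
    have h3 : del (fun p => p.2 ^ M * S p) (t, w) = w ^ M * del S (t, w) := by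
      rw [del_apply, del_apply]
      ring
    rw [h2, h3]
    simp only at h1 ⊢
    linear_combination w ^ M * h1
  · have := hSb.pow_w M
    simpa using this
  · have := hRb.pow_w (M + 1)
    simpa using this
  · intro w hw
    rw [fc_mul_w (fun w => w ^ M) S, hS0 w hw, mul_zero]

/-- reality -/
def IsRe (k ρ r : ℝ) (f : ℂ × ℂ → ℂ) : Prop := ∀ p ∈ Dom k ρ r, cj f p = f p

/-- parity `s = ± 1` -/
def IsPar (k ρ r : ℝ) (s : ℂ) (f : ℂ × ℂ → ℂ) : Prop := ∀ p ∈ Dom k ρ r, rf f p = s * f p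

lemma IsH.lin (hf : IsH k ρ r f) (hg : IsH k ρ r g) (c : ℂ) :
    IsH k ρ r (fun p => (f p + c * g p) / 2) := by
  have h1 : IsH k ρ r (fun p => (1 / 2 : ℂ) * (f p + c * g p)) :=
    (IsH.const (1 / 2)).mul (hf.add ((IsH.const c).mul hg))
  exact h1.congr (fun p _ => by ring)

lemma Bdd.lin (hf : Bdd k ρ r M A f) (hg : Bdd k ρ r M A g) {c : ℂ} (hc : ‖c‖ = 1) :
    Bdd k ρ r M A (fun p => (f p + c * g p) / 2) := by
  intro p hp
  rw [norm_div]
  have h1 : ‖f p + c * g p‖ ≤ A * ‖p.2‖ ^ M + A * ‖p.2‖ ^ M := by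
    refine (norm_add_le _ _).trans ?_
    rw [norm_mul, hc, one_mul]
    exact add_le_add (hf p hp) (hg p hp)
  have h2 : ‖(2 : ℂ)‖ = 2 := by simp
  rw [h2]
  linarith

lemma cj_cj (f : ℂ × ℂ → ℂ) (p : ℂ × ℂ) : cj (cj f) p = f p := by
  simp [cj]

lemma rf_rf (f : ℂ × ℂ → ℂ) (p : ℂ × ℂ) : rf (rf f) p = f p := by
  simp [rf]

lemma rf_cj (f : ℂ × ℂ → ℂ) (p : ℂ × ℂ) : rf (cj f) p = cj (rf f) p := by
  simp [rf, cj]

lemma conj_mem_Dom {p : ℂ × ℂ} (hp : p ∈ Dom k ρ r) : (conj p.1, conj p.2) ∈ Dom k ρ r :=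
  mem_Dom_conj.2 hp

lemma neg_mem_Dom {p : ℂ × ℂ} (hp : p ∈ Dom k ρ r) : (p.1, -p.2) ∈ Dom k ρ r :=
  mem_Dom_neg.2 hp

/-- the divisor lemma with weights and symmetries -/
theorem divisor_sym {k ρ r d B η : ℝ} {N M : ℕ} (hk0 : 0 ≤ k) (hk1 : k ≤ 1) (hr0 : 0 < r)
    (hr : r ≤ 1) (hρ : 2 * r ≤ ρ) (hd : 0 < d) (hdr : 2 * d ≤ r) (hB : 0 ≤ B) (hη : 0 ≤ η)
    {s : ℂ} (hs : s = 1 ∨ s = -1)
    {F : ℂ × ℂ → ℂ} (hF : IsH (k + 1 / 2) ρ r F) (hFb : Bdd (k + 1 / 2) ρ r (M + 1) B F)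
    (hFre : IsRe (k + 1 / 2) ρ r F) (hFpar : IsPar (k + 1 / 2) ρ r s F)
    (h0 : ∀ w : ℂ, ‖w‖ < r → fc F 0 w = 0)
    (hres : ∀ n : ℤ, n ≠ 0 → |(n : ℝ)| ≤ N → ∀ j : ℤ, j ≠ 0 → |(j : ℝ) / n| < r →
      ‖fc F n ((j : ℂ) / n)‖ ≤ η * |(j : ℝ) / n| ^ (M + 1) * Real.exp (-(2 * π * |(n : ℝ)| * ρ))) :
    ∃ S R : ℂ × ℂ → ℂ, IsH k (ρ - d) (r - d) S ∧ IsH (k + 1 / 2) (ρ - d) (r - d) R ∧
      (∀ p ∈ Dom (k + 1 / 2) (ρ - d) (r - d), F p = del S p + R p) ∧
      Bdd k (ρ - d) (r - d) M (10000 / d ^ 3 * (B + η)) S ∧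
      Bdd (k + 1 / 2) (ρ - d) (r - d) (M + 1)
        (10 / d ^ 2 * η + 3 / d * (B * Real.exp (-(π * d * N)))) R ∧
      (∀ w : ℂ, ‖w‖ < r - d → fc S 0 w = 0) ∧
      IsRe k (ρ - d) (r - d) S ∧ IsPar k (ρ - d) (r - d) (-s) S ∧
      IsRe (k + 1 / 2) (ρ - d) (r - d) R ∧ IsPar (k + 1 / 2) (ρ - d) (r - d) s R := by
  obtain ⟨S, R, hS, hR, hSR, hSb, hRb, hS0⟩ := divisor_weight (M := M) (N := N) hk0 hk1 hr0 hr hρ
    hd hdr hB hη hF hFb h0 hres
  have hss : s * s = 1 := by rcases hs with rfl | rfl <;> norm_num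
  have hsn : ‖s‖ = 1 := by rcases hs with rfl | rfl <;> simp
  have hsn' : ‖-s‖ = 1 := by rw [norm_neg, hsn]
  have hsc : conj s = s := by rcases hs with rfl | rfl <;> simp
  have hone : ‖(1 : ℂ)‖ = 1 := norm_one
  have hsub : Dom (k + 1 / 2) (ρ - d) (r - d) ⊆ Dom (k + 1 / 2) ρ r :=
    Dom_mono le_rfl (by linarith) (by linarith)
  have hk0' : ∀ w : ℂ, ‖w‖ < r - d → k * |w.im| < ρ - d := fun w hw => by
    have h1 : (k + 1 / 2) * |w.im| < ρ - d :=
      k_im_lt (by linarith) (by linarith) (by nlinarith) hw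
    have := abs_nonneg w.im
    linarith
  -- reality
  set S1 : ℂ × ℂ → ℂ := fun p => (S p + 1 * cj S p) / 2 with hS1
  set R1 : ℂ × ℂ → ℂ := fun p => (R p + 1 * cj R p) / 2 with hR1
  have hS1H : IsH k (ρ - d) (r - d) S1 := hS.lin hS.cj 1
  have hR1H : IsH (k + 1 / 2) (ρ - d) (r - d) R1 := hR.lin hR.cj 1
  have hS1b := hSb.lin hSb.cj hone
  have hR1b := hRb.lin hRb.cj hone
  have hSR1 : ∀ p ∈ Dom (k + 1 / 2) (ρ - d) (r - d), F p = del S1 p + R1 p := by
    intro p hp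
    have h1 := hSR p hp
    have h2 := hSR _ (conj_mem_Dom hp)
    have h3 := hFre p (hsub hp)
    have h4 : del (cj S) p = cj (del S) p := by rw [del_cj]
    have h5 : del S1 p = (del S p + del (cj S) p) / 2 := by
      obtain ⟨t, w⟩ := p
      rw [del_apply, del_apply, del_apply, hS1]
      ring
    have h6 : F p = cj (del S) p + cj R p := by
      rw [← h3]
      unfold cj
      rw [h2, map_add]
    have h7 : R1 p = (R p + 1 * cj R p) / 2 := rfl
    rw [h5, h4, h7]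
    linear_combination (1 / 2 : ℂ) * h1 + (1 / 2 : ℂ) * h6
  have hS1re : ∀ p, cj S1 p = S1 p := by
    intro p
    have h2 : (conj (2 : ℂ)) = 2 := Complex.conj_ofNat 2
    have h1 : cj S1 p = (cj S p + cj (cj S) p) / 2 := by
      rw [hS1]; unfold cj; simp only [one_mul, map_div₀, map_add, h2]
    rw [h1, cj_cj, hS1]
    ring
  have hR1re : ∀ p, cj R1 p = R1 p := by
    intro p
    have h2 : (conj (2 : ℂ)) = 2 := Complex.conj_ofNat 2
    have h1 : cj R1 p = (cj R p + cj (cj R) p) / 2 := by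
      rw [hR1]; unfold cj; simp only [one_mul, map_div₀, map_add, h2]
    rw [h1, cj_cj, hR1]
    ring
  -- parity
  refine ⟨fun p => (S1 p + (-s) * rf S1 p) / 2, fun p => (R1 p + s * rf R1 p) / 2,
    hS1H.lin hS1H.rf (-s), hR1H.lin hR1H.rf s, ?_, hS1b.lin hS1b.rf hsn', hR1b.lin hR1b.rf hsn,
    ?_, ?_, ?_, ?_, ?_⟩
  · intro p hp
    have h1 := hSR1 p hp
    have h2 := hSR1 _ (neg_mem_Dom hp)
    have h3 := hFpar p (hsub hp)
    have h4 := del_rf S1 p
    have h5 : del (fun p => (S1 p + (-s) * rf S1 p) / 2) p =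
        (del S1 p + (-s) * del (rf S1) p) / 2 := by
      obtain ⟨t, w⟩ := p
      rw [del_apply, del_apply, del_apply]
      ring
    rw [h5, h4]
    have h6 : rf F p = rf (del S1) p + rf R1 p := h2
    rw [h3] at h6
    linear_combination (1 / 2 : ℂ) * h1 + (s / 2 : ℂ) * h6 - (F p / 2) * hss
  · intro w hw
    have hS0' : fc S1 0 w = 0 := by
      have h1 : fc S1 0 w = (1 / 2 : ℂ) * (fc S 0 w + fc (cj S) 0 w) := by
        rw [← fc_add hS hS.cj 0 hw (hk0' w hw), ← fc_mul_w (fun _ => (1 / 2 : ℂ))]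
        refine fc_congr (fun x => ?_) 0
        rw [hS1]; ring
      rw [h1, fc_cj, neg_zero, hS0 w hw, hS0 _ (by simpa using hw)]
      simp
    have hS0'' : fc S1 0 (-w) = 0 := by
      have hw' : ‖-w‖ < r - d := by rwa [norm_neg]
      have h1 : fc S1 0 (-w) = (1 / 2 : ℂ) * (fc S 0 (-w) + fc (cj S) 0 (-w)) := by
        rw [← fc_add hS hS.cj 0 hw' (hk0' _ hw'), ← fc_mul_w (fun _ => (1 / 2 : ℂ))]
        refine fc_congr (fun x => ?_) 0
        rw [hS1]; ring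
      rw [h1, fc_cj, neg_zero, hS0 _ hw', hS0 _ (by simpa using hw')]
      simp
    have h1 : fc (fun p => (S1 p + (-s) * rf S1 p) / 2) 0 w =
        (1 / 2 : ℂ) * (fc S1 0 w + (-s) * fc (rf S1) 0 w) := by
      rw [← fc_mul_w (fun _ => -s) (rf S1),
        ← fc_add hS1H ((IsH.const (-s)).mul hS1H.rf) 0 hw (hk0' w hw),
        ← fc_mul_w (fun _ => (1 / 2 : ℂ))]
      refine fc_congr (fun x => ?_) 0
      ring
    rw [h1, fc_rf, hS0', hS0'']
    simp
  · intro p hp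
    have h2 : (conj (2 : ℂ)) = 2 := Complex.conj_ofNat 2
    have h3 := hS1re p
    have h4 := hS1re (p.1, -p.2)
    unfold cj at h3 h4 ⊢
    simp only [rf, map_div₀, map_add, map_mul, map_neg, hsc, h2] at h3 h4 ⊢
    rw [h3, h4]
  · intro p hp
    simp only [rf, neg_neg]
    linear_combination (- (S1 (p.1, -p.2)) / 2) * hss
  · intro p hp
    have h2 : (conj (2 : ℂ)) = 2 := Complex.conj_ofNat 2
    have h3 := hR1re p
    have h4 := hR1re (p.1, -p.2)
    unfold cj at h3 h4 ⊢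
    simp only [rf, map_div₀, map_add, map_mul, map_neg, hsc, h2] at h3 h4 ⊢
    rw [h3, h4]
  · intro p hp
    simp only [rf, neg_neg]
    linear_combination (- (R1 (p.1, -p.2)) / 2) * hss

end Symmetry

end Crest.Agent.R102.B821
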