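import Crest.Agent.R102.BoxM_628
import Crest.Agent.R102.CCa_350
import Crest.Agent.R102.T1ETop_314

/-!
Row 102, T1-E (helper314): 350's `BaseL` from 628's sheets of Case E.
-/

set_option autoImplicit false

open Set Filter Topology Metric
open scoped ComplexConjugate

noncomputable section

namespace Crest.Agent.R102.T1EBase314

open Crest.Agent.R102.T5 Crest.Agent.R102.C0 Crest.Agent.R102.C1 Crest.Agent.R102.A929
open Crest.Agent.R102.Sh982 Crest.Agent.R102.ShE628 Crest.Agent.R102.ColE350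
open Crest.Agent.R102.CC350 Crest.Agent.R102.StepE599 Crest.Agent.R102.K669

variable {q : C(ℂ, ℂ)} {η ρ r Bc : ℝ} {b φ p : ℂ × ℂ → ℂ} {m₀ θ H K : ℂ → ℂ} {s b1 R : ℝ}

/-- **`BaseL` from the sheets** -/
theorem baseL_of (hD : Spine.DataE q η ρ r Bc b φ p m₀ θ H) (hs : 0 < s) (hsρ : 8 * s ≤ ρ)
    (hR : 0 < R) (hb1 : 0 < b1)
    (hSL : ∀ t w : ℂ, w ∈ Wd s → -(ρ / 2) < t.im → t.im < b1 → (t, w) ∈ SL φ p ρ r)
    (hSB : ∀ t w : ℂ, w ∈ Wd s → -(ρ / 2) < t.im → t.im < b1 → (t, w) ∈ SBE b ρ r)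
    (near : ∀ t w : ℂ, (t, w) ∈ DL s b1 → ‖beE b ρ r (t, w) - t‖ ≤ R / 100)
    (step : ∀ t w : ℂ, (t, w) ∈ DL s b1 → (t - w, w) ∈ DL s b1 →
      ‖beE b ρ r (t, w) - beE b ρ r (t - w, w) - w‖ ≤ ‖w‖ / 1000)
    (good : ∀ t w : ℂ, (t, w) ∈ DL s b1 → Good θ K (beE b ρ r (t, w)) (10 * s)) :
    BaseL θ H K (φe φ p ρ r) (pe φ p ρ r) (beE b ρ r) s b1 R := by
  have hρ := hD.fam.ρ_pos
  have hL : ∀ t w : ℂ, (t, w) ∈ DL s b1 → (t, w) ∈ SL φ p ρ r := fun t w h =>
    hSL t w h.1 (by have : -(4 * s) < t.im := h.2.1; linarith) h.2.2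
  have hB : ∀ t w : ℂ, (t, w) ∈ DL s b1 → (t, w) ∈ SBE b ρ r := fun t w h =>
    hSB t w h.1 (by have : -(4 * s) < t.im := h.2.1; linarith) h.2.2
  refine ⟨hs, hR, ?_, ?_, near, step, ?_, ?_, ?_, good, ?_⟩
  · exact (beE_an hD).differentiableOn.mono fun x hx => hB x.1 x.2 hx
  · exact (φe_anE hD).continuousOn.mono fun x hx => hL x.1 x.2 hx
  · intro t w h1 h2
    have e : sh (-1) ((t + w / 2, w) : ℂ × ℂ) = (t, w) := by
      unfold sh
      refine Prod.ext ?_ rfl
      simp only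
      ring
    have h3 := inc_allE hD (s := -1) (Or.inr rfl) (hB _ _ h2) (by rw [e]; exact hL _ _ h1)
    rw [e] at h3
    exact incS_of h3
  · intro t w h1 h2
    have e : sh 1 ((t - w / 2, w) : ℂ × ℂ) = (t, w) := by
      unfold sh
      refine Prod.ext ?_ rfl
      simp only
      ring
    have h3 := inc_allE hD (s := 1) (Or.inl rfl) (hB _ _ h2) (by rw [e]; exact hL _ _ h1)
    rw [e] at h3
    exact incS_of h3
  · intro t w h1 h2 h3
    have e1 : sh 1 ((t, w) : ℂ × ℂ) = (t + w / 2, w) := by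
      unfold sh
      refine Prod.ext ?_ rfl
      simp only
      ring
    have e2 : sh (-1) ((t, w) : ℂ × ℂ) = (t - w / 2, w) := by
      unfold sh
      refine Prod.ext ?_ rfl
      simp only
      ring
    have h4 := refl_allE hD (s := 1) (Or.inl rfl) (hB _ _ h1) (by rw [e1]; exact hL _ _ h3)
      (by rw [e2]; exact hL _ _ h2)
    rw [e1, e2] at h4
    exact h4
  · have hr := hD.fam.r_pos
    set ε : ℝ := min (min s b1) (min r ρ) / 2 with hε
    have k1 : min (min s b1) (min r ρ) ≤ s := (min_le_left _ _).trans (min_le_left _ _)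
    have k2 : min (min s b1) (min r ρ) ≤ b1 := (min_le_left _ _).trans (min_le_right _ _)
    have k3 : min (min s b1) (min r ρ) ≤ r := (min_le_right _ _).trans (min_le_left _ _)
    have k4 : min (min s b1) (min r ρ) ≤ ρ := (min_le_right _ _).trans (min_le_right _ _)
    have k0 : 0 < min (min s b1) (min r ρ) := lt_min (lt_min hs hb1) (lt_min hr hρ)
    have hε0 : 0 < ε := by positivity
    set w : ℂ := ε * Complex.I with hw
    have hwn : ‖w‖ = ε := by
      rw [hw, norm_mul, Complex.norm_I, mul_one, Complex.norm_real, Real.norm_of_nonneg hε0.le]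
    have hwi : w.im = ε := by simp [hw]
    have hw2 : (w / 2).im = ε / 2 := by
      rw [hw]
      simp
    have hWd : w ∈ Wd s := by
      refine ⟨?_, ?_⟩
      · rw [hwn]; linarith
      · rw [hwn, hwi]; linarith
    have m0 : ((0 : ℂ), w) ∈ DL s b1 := ⟨hWd, by simp [hs], by simp [hb1]⟩
    have m1 : (w / 2, w) ∈ DL s b1 := by
      refine ⟨hWd, ?_, ?_⟩
      · show -(4 * s) < (w / 2).im
        rw [hw2]; linarith
      · show (w / 2).im < b1
        rw [hw2]; linarith
    have m2 : (w / 2 + w / 2, w) ∈ DL s b1 := by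
      refine ⟨hWd, ?_, ?_⟩
      · show -(4 * s) < (w / 2 + w / 2).im
        rw [Complex.add_im, hw2]; linarith
      · show (w / 2 + w / 2).im < b1
        rw [Complex.add_im, hw2]; linarith
    have e0 : w / 2 - w / 2 = 0 := sub_self _
    refine ⟨w / 2, w, m1, by rw [e0]; exact m0, m2, ?_⟩
    rw [e0]
    have p0 : ((0 : ℂ), w) ∈ PD ρ r := ⟨by simpa using hρ, by simp only [hwn]; linarith⟩
    have p1 : ((0 : ℂ) + w / 2, w) ∈ PD ρ r := by
      refine ⟨?_, by simp only [hwn]; linarith⟩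
      simp only [zero_add]
      rw [hw2, abs_of_pos (by positivity)]
      linarith
    have h1 := hD.fam.δ_small 0 w p0 p1
    rw [zero_add] at h1
    have s0 : ((0 : ℂ), w) ∈ Slab (-(ρ / 2)) (ρ / 2) (ball (0 : ℂ) r) :=
      ⟨by simp only [Complex.zero_im]; linarith, by simp only [Complex.zero_im]; linarith,
        by rw [mem_ball_zero_iff]; simp only [hwn]; linarith⟩
    have s1 : (w / 2, w) ∈ Slab (-(ρ / 2)) (ρ / 2) (ball (0 : ℂ) r) :=
      ⟨by simp only [hw2]; linarith, by simp only [hw2]; linarith,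
        by rw [mem_ball_zero_iff]; simp only [hwn]; linarith⟩
    rw [beE_slab hD s0, (datE hD le_rfl).φe_slab s1]
    have hb : b (0, w) ∈ Str η := (datE hD le_rfl).b_mem_Str p0
    rw [hD.ext.θ_eq _ hb]
    linarith
end Crest.Agent.R102.T1EBase314
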