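import Crest.Agent.R102.Col_516
import Crest.Agent.R102.WinW_486

/-!
Row 102, T1-E (helper314): the good column (516's `col`) over a window of a concave height `M`.
-/

set_option autoImplicit false

open Set Filter Topology Metric

noncomputable section

namespace Crest.Agent.R102.T1EColJ314

/-- numerics for large `τ` -/
lemma ev_num {C' : ℝ} (hC' : 1 ≤ C') (T1 τ0 L0 : ℝ) : ∀ᶠ τ : ℝ in atTop,
    (C' * Real.log τ) ^ 3 + 1 ≤ ((C' + 1) * Real.log τ) ^ 3 ∧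
    (C' * Real.log τ) ^ 3 + 1 ≤ τ / 2 ∧ 2 * Real.exp (-(τ / 2)) ≤ 1 / (2 * τ ^ 2) ∧
    1 ≤ (C' * Real.log τ) ^ 3 ∧ T1 ≤ τ / 2 ∧ 3 * τ0 ≤ τ ∧ L0 ≤ τ ∧ 4 ≤ τ := by
  have h1 := WinW486.eventually_polylog C' (1 / 2) (by norm_num)
  have h2 : ∀ᶠ τ : ℝ in atTop, 1 ≤ Real.log τ := by
    filter_upwards [Real.tendsto_log_atTop.eventually_ge_atTop 1] with τ h
    exact h
  have h3 : ∀ᶠ τ : ℝ in atTop, 2 * Real.exp (-(τ / 2)) ≤ 1 / (2 * τ ^ 2) := by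
    have h := Real.tendsto_pow_mul_exp_neg_atTop_nhds_zero 2
    have h' : Tendsto (fun τ : ℝ => (τ / 2) ^ 2 * Real.exp (-(τ / 2))) atTop (𝓝 0) :=
      h.comp (tendsto_id.atTop_div_const (by norm_num))
    filter_upwards [h'.eventually (gt_mem_nhds (show (0 : ℝ) < 1 / 16 by norm_num)),
      eventually_gt_atTop (0 : ℝ)] with τ ht h0
    rw [le_div_iff₀ (by positivity)]
    nlinarith
  filter_upwards [h1, h2, h3, eventually_ge_atTop (2 * T1), eventually_ge_atTop (3 * τ0),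
    eventually_ge_atTop L0, eventually_ge_atTop 4] with τ a1 a2 a3 a4 a5 a6 a7
  have b1 : 1 ≤ C' * Real.log τ := by nlinarith
  have b3 : 1 ≤ (C' * Real.log τ) ^ 3 := one_le_pow₀ b1
  refine ⟨?_, ?_, a3, b3, by linarith, a5, a6, a7⟩
  · have e : ((C' + 1) * Real.log τ) = C' * Real.log τ + Real.log τ := by ring
    rw [e]
    have h0 : 0 ≤ C' * Real.log τ := by linarith
    have hl : 0 ≤ Real.log τ := by linarith
    have : (C' * Real.log τ + Real.log τ) ^ 3 ≥ (C' * Real.log τ) ^ 3 + Real.log τ ^ 3 := by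
      have p1 : 0 ≤ (C' * Real.log τ) ^ 2 * Real.log τ := by positivity
      have p2 : 0 ≤ (C' * Real.log τ) * Real.log τ ^ 2 := by positivity
      nlinarith
    have p3 : 1 ≤ Real.log τ ^ 3 := one_le_pow₀ a2
    linarith
  · set A := (C' * Real.log τ) ^ 3 with hA
    have : A + 1 ≤ (2 * A + 1) ^ 2 := by nlinarith
    nlinarith

/-- `M τ ≥ S τ / 2` -/
lemma low_of_win {M : ℝ → ℝ} {τ0 τ S : ℝ} (hconc : ConcaveOn ℝ (Ici τ0) M) (hM0 : 0 ≤ M τ0)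
    (h0 : 0 < τ0) (hτ : 3 * τ0 ≤ τ) (hS : 0 < S) (hlin : |M (τ + 1) - M τ - S * 1| ≤ 1 / 10 * S) :
    S * τ / 2 ≤ M τ := by
  have h1 : τ0 < τ := by linarith
  have h2 := hconc.slope_anti_adjacent (x := τ0) (y := τ) (z := τ + 1) (mem_Ici.2 le_rfl)
    (mem_Ici.2 (by linarith)) h1 (by linarith)
  have h3 : (τ + 1 - τ) = 1 := by ring
  rw [h3, div_one] at h2
  have h4 : S - 1 / 10 * S ≤ M (τ + 1) - M τ := by
    have := (abs_le.1 hlin).1
    linarith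
  rw [le_div_iff₀ (by linarith)] at h2
  have h5 : (S - 1 / 10 * S) * (τ - τ0) ≤ M τ - M τ0 :=
    (mul_le_mul_of_nonneg_right h4 (by linarith)).trans h2
  nlinarith

/-- **the good column over a window** -/
theorem col_joint {M : ℝ → ℝ} {y G : ℂ → ℂ} (hy : Differentiable ℂ y) (hG : Differentiable ℂ G)
    (hyG : ∀ z, deriv (deriv y) z = G z * y z) (hper : ∀ z, y (z + 1) = y z)
    (hreal : ∀ x : ℝ, (y x).im = 0 ∧ 0 < (y x).re) {C1 T1 τ0 : ℝ} (hC1 : 0 < C1)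
    (hconc : ConcaveOn ℝ (Ici τ0) M) (hτ0 : 0 < τ0) (hM0 : 0 ≤ M τ0)
    (hAP : ∀ τ' : ℝ, T1 ≤ τ' → ∀ z : ℂ, |z.im| ≤ M τ' - 2 * Real.exp (-τ') →
      ‖y z‖ ≤ C1 * √τ' * Real.exp τ') {C' κ : ℝ} (hC' : 1 ≤ C') (hκ : 0 < κ) :
    ∃ T : ℝ, ∀ τ ≥ T, ∀ S : ℝ, 1 / τ ^ 2 ≤ S →
      (∀ β : ℝ, |β| ≤ ((C' + 1) * Real.log τ) ^ 3 → |M (τ + β) - M τ - S * β| ≤ 1 / 10 * S) →
      ∃ x : ℝ, ∀ z ∈ closedBall ((x : ℂ) + M τ * Complex.I) (C' * Real.log τ * S),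
        ‖y z‖ ≤ κ * Real.exp τ ∧ ‖G z‖ ≤ κ ^ 2 * Real.exp (2 * τ) := by
  obtain ⟨L0, hL0⟩ := Col516.col hy hG hyG hper hreal hC' (C1 := 4 * C1) (by linarith) hκ
  obtain ⟨T, hT⟩ := eventually_atTop.1 (ev_num hC' T1 τ0 L0)
  refine ⟨T, fun τ hτ S hS hlin => ?_⟩
  obtain ⟨a1, a2, a3, a4, a5, a6, a7, a8⟩ := hT τ hτ
  have hτ1 : (0 : ℝ) < τ := by linarith
  have hS0 : 0 < S := lt_of_lt_of_le (by positivity) hS
  have hlow : S * τ / 2 ≤ M τ := low_of_win hconc hM0 hτ0 a6 hS0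
    (hlin 1 (by rw [abs_one]; linarith))
  refine hL0 τ a7 (M τ) S hS hlow fun β hβ z hz => ?_
  have hβ' : |β + 1| ≤ ((C' + 1) * Real.log τ) ^ 3 := by
    refine (abs_add_le β 1).trans ?_
    rw [abs_one]
    linarith
  have h1 := (abs_le.1 (hlin (β + 1) hβ')).1
  have hβl := (abs_le.1 hβ).1
  have hβu := (abs_le.1 hβ).2
  have hτ' : τ / 2 ≤ τ + (β + 1) := by linarith
  have hτ'2 : τ + (β + 1) ≤ 2 * τ := by linarith
  have he : 2 * Real.exp (-(τ + (β + 1))) ≤ S / 2 := by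
    have e1 : Real.exp (-(τ + (β + 1))) ≤ Real.exp (-(τ / 2)) := Real.exp_le_exp.2 (by linarith)
    have e2 : 1 / (2 * τ ^ 2) = 1 / τ ^ 2 / 2 := by
      field_simp
    rw [e2] at a3
    linarith
  have h2 := hAP (τ + (β + 1)) (by linarith) z (by linarith)
  refine h2.trans ?_
  have e3 : √(τ + (β + 1)) ≤ √2 * √τ := by
    rw [← Real.sqrt_mul (by norm_num)]
    exact Real.sqrt_le_sqrt hτ'2
  have e4 : Real.exp (τ + (β + 1)) = Real.exp 1 * Real.exp (τ + β) := by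
    rw [← Real.exp_add]
    ring_nf
  have e5 : √2 * Real.exp 1 ≤ 4 := by
    have k1 : √2 ≤ 1.415 := by
      rw [Real.sqrt_le_left (by norm_num)]
      norm_num
    have k2 := Real.exp_one_lt_d9
    have k3 := Real.exp_pos 1
    have k4 : √2 * Real.exp 1 ≤ 1.415 * 2.7182818286 := by
      gcongr
    refine k4.trans ?_
    norm_num
  calc C1 * √(τ + (β + 1)) * Real.exp (τ + (β + 1))
      ≤ C1 * (√2 * √τ) * (Real.exp 1 * Real.exp (τ + β)) := by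
        rw [e4]
        gcongr
    _ = C1 * (√2 * Real.exp 1) * √τ * Real.exp (τ + β) := by ring
    _ ≤ C1 * 4 * √τ * Real.exp (τ + β) := by gcongr
    _ = 4 * C1 * √τ * Real.exp (τ + β) := by ring

end Crest.Agent.R102.T1EColJ314
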