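import Crest.Agent.R102.BaseST_942
import Crest.Agent.R102.T1EBase_314
import Crest.Agent.R102.T1EColJ_314
import Crest.Agent.R102.CC_350
import Crest.Agent.R102.EndE_712

/-!
Row 102, **T1-E: the assembly** (helper314), proof of helper516: `Spine.T1E` from the rule of the
vertices of Case E (`ShE628.RuleV`).
-/

set_option autoImplicit false

open Set Filter Topology Metric
open scoped ComplexConjugate

noncomputable section

namespace Crest.Agent.R102.T1EAsm314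

open Crest.Agent.R102.T5 Crest.Agent.R102.C0 Crest.Agent.R102.C1 Crest.Agent.R102.A929
open Crest.Agent.R102.Sh982 Crest.Agent.R102.ShE628 Crest.Agent.R102.ColE350
open Crest.Agent.R102.CC350 Crest.Agent.R102.StepE599 Crest.Agent.R102.Mir151
open Crest.Agent.R102.APJ628 Crest.Agent.R102.BaseST942 Crest.Agent.R102.Pick628
open Crest.Agent.R102.T1EJ712 Crest.Agent.R102.T1ETop314

variable {q : C(ℂ, ℂ)} {η ρ r Bc : ℝ} {b φ p : ℂ × ℂ → ℂ} {m₀ θ H K G : ℂ → ℂ}

/-- **(AP)** in logarithmic scale, on the official line set -/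
theorem ap_log (hD : Spine.DataE q η ρ r Bc b φ p m₀ θ H) (hM : MirE q η θ H K G)
    (hV : RuleV b φ p ρ r) : ∃ C1 T1 : ℝ, 0 < C1 ∧ 1 ≤ T1 ∧ ∀ τ : ℝ, T1 ≤ τ → ∀ h : ℝ,
      Real.exp (-τ) < h →
      (∀ t w : ℂ, t.im < h → ‖w‖ < Real.exp (-τ) → (t, w) ∈ Om φ p ρ r) →
      ∀ z : ℂ, |z.im| ≤ h - 2 * Real.exp (-τ) →
        ‖deriv θ z‖ ≤ C1 * √τ * Real.exp τ ∧ ‖G z‖ ≤ C1 ^ 2 * τ * Real.exp (2 * τ) := by
  obtain ⟨C, hC, hAP⟩ := AP hD hM hV
  have hL := Lm_ge
  have hr := hD.fam.r_pos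
  have hρ := hD.fam.ρ_pos
  have hev : ∀ᶠ τ : ℝ in atTop, Real.exp (-τ) < r :=
    (Real.tendsto_exp_neg_atTop_nhds_zero).eventually (gt_mem_nhds hr)
  obtain ⟨T, hT⟩ := eventually_atTop.1 hev
  refine ⟨C * √Lm, max T 1, by positivity, le_max_right _ _, fun τ hτ h hh hsub z hz => ?_⟩
  have hτ1 : 1 ≤ τ := (le_max_right _ _).trans hτ
  have he0 := Real.exp_pos (-τ)
  have he1 : Real.exp (-τ) ≤ 1 := Real.exp_le_one_iff.2 (by linarith)
  have her := hT τ ((le_max_left _ _).trans hτ)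
  have h1 : Sab (-(3 * ρ / 8)) h ×ˢ ball (0 : ℂ) (Real.exp (-τ)) ⊆ SL φ p ρ r := by
    rintro ⟨t, w⟩ ⟨⟨a1, a2⟩, a3⟩
    rw [mem_ball_zero_iff] at a3
    exact (mem_SL (by linarith)).2 (hsub t w a2 a3)
  obtain ⟨h2, -⟩ := hAP h (Real.exp (-τ)) he0 he1 her.le hh h1
  obtain ⟨h3, h4⟩ := h2 z hz
  rw [log_exp_neg] at h3 h4
  have h5 := log_le_Lm hτ1
  have e1 : (Real.exp (-τ))⁻¹ = Real.exp τ := by rw [Real.exp_neg, inv_inv]
  constructor
  · refine h3.trans ?_
    rw [div_eq_mul_inv, e1]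
    calc C * (√(Real.log (8 * K0) + τ) * Real.exp τ)
        ≤ C * (√(Lm * τ) * Real.exp τ) := by gcongr
      _ = C * √Lm * √τ * Real.exp τ := by
        rw [Real.sqrt_mul (by linarith)]
        ring
  · refine h4.trans ?_
    have e2 : (Real.exp (-τ) ^ 2)⁻¹ = Real.exp (2 * τ) := by
      rw [← inv_pow, e1, ← Real.exp_nat_mul]
      norm_num
    rw [div_eq_mul_inv, e2, mul_pow, Real.sq_sqrt (by linarith)]
    calc C ^ 2 * ((Real.log (8 * K0) + τ) * Real.exp (2 * τ))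
        ≤ C ^ 2 * ((Lm * τ) * Real.exp (2 * τ)) := by gcongr
      _ = C ^ 2 * Lm * τ * Real.exp (2 * τ) := by ring

/-- an entire function bounded on `ℂ` is constant -/
lemma const_of_bdd {f : ℂ → ℂ} (hf : Differentiable ℂ f) {C : ℝ} (h : ∀ z, ‖f z‖ ≤ C) (z : ℂ) :
    f z = f 0 := by
  refine hf.apply_eq_apply_of_bounded ?_ z 0
  refine (Metric.isBounded_closedBall (x := (0 : ℂ)) (r := C)).subset ?_
  rintro _ ⟨z, rfl⟩
  simpa using h z

/-- **no full slab is regular** -/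
theorem finE (hD : Spine.DataE q η ρ r Bc b φ p m₀ θ H) (hM : MirE q η θ H K G)
    (hV : RuleV b φ p ρ r) {r' : ℝ} (hr' : 0 < r') : Fin' (Om φ p ρ r) r' := by
  by_contra hcon
  unfold Fin' at hcon
  push Not at hcon
  obtain ⟨C1, T1, hC1, hT1, hAP⟩ := ap_log hD hM hV
  set τ : ℝ := max T1 (-Real.log r') with hτ
  have hτ1 : T1 ≤ τ := le_max_left _ _
  have hτ2 : Real.exp (-τ) ≤ r' := by
    have : -τ ≤ Real.log r' := by
      have := le_max_right T1 (-Real.log r')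
      linarith
    calc Real.exp (-τ) ≤ Real.exp (Real.log r') := Real.exp_le_exp.2 this
      _ = r' := Real.exp_log hr'
  have he0 := Real.exp_pos (-τ)
  have hb : ∀ z : ℂ, ‖deriv θ z‖ ≤ C1 * √τ * Real.exp τ ∧
      ‖G z‖ ≤ C1 ^ 2 * τ * Real.exp (2 * τ) := by
    intro z
    refine hAP τ hτ1 (|z.im| + 2 * Real.exp (-τ)) ?_ (fun t w _ hw => ?_) z (by linarith)
    · have := abs_nonneg z.im
      linarith
    · exact hcon w t (hw.le.trans hτ2)
  have hy : Differentiable ℂ (deriv θ) := hM.mir.θd.deriv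
  have h1 := const_of_bdd hy (fun z => (hb z).1)
  have h2 := const_of_bdd hM.Gd (fun z => (hb z).2)
  refine hM.K_nc ⟨G 0 + 2 * deriv θ 0 ^ 2, fun z => ?_⟩
  have h3 := hM.G_eq z
  rw [h1 z, h2 z] at h3
  rw [h3]
  ring

/-- heights: points below `MM` are regular -/
lemma mem_MM (hD : Spine.DataE q η ρ r Bc b φ p m₀ θ H) {τ : ℝ} (hτ : Real.exp (-τ) < r) {t w : ℂ}
    (hw : ‖w‖ ≤ Real.exp (-τ)) (ht : t.im < MM (Om φ p ρ r) τ) : (t, w) ∈ Om φ p ρ r :=
  mem_of_lt_mm (LS.of_LV (lvE hD)) hτ hw ht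

set_option maxHeartbeats 4000000 in
/-- **(CC) for the official line set** -/
theorem ccol (hD : Spine.DataE q η ρ r Bc b φ p m₀ θ H) (hM : MirE q η θ H K G)
    (hV : RuleV b φ p ρ r) : CCol (Om φ p ρ r) := by
  have hr := hD.fam.r_pos
  have hρ := hD.fam.ρ_pos
  have hLS : LS (ρ / 2) (ball 0 r) (Om φ p ρ r) := LS.of_LV (lvE hD)
  have hper := perE hD
  have hF : ∀ r', 0 < r' → Fin' (Om φ p ρ r) r' := fun r' h => finE hD hM hV h
  have htend : Tendsto (MM (Om φ p ρ r)) atTop atTop := MM_tendsto hF (hextE hD)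
  have hev1 : ∀ᶠ τ : ℝ in atTop, Real.exp (-τ) < min (r / 2) (ρ / 16) :=
    (Real.tendsto_exp_neg_atTop_nhds_zero).eventually
      (gt_mem_nhds (lt_min (by positivity) (by positivity)))
  obtain ⟨C1, T1, hC1, hT1, hAP⟩ := ap_log hD hM hV
  obtain ⟨B0, hB0⟩ := eventually_atTop.1 (hev1.and ((htend.eventually_ge_atTop 1).and
    (eventually_ge_atTop (max T1 1))))
  refine ⟨B0, fun Kc' bb hbb => ?_⟩
  set T₀ : ℝ := bb with hT₀
  have q1 : ∀ τ, T₀ ≤ τ → Real.exp (-τ) < r / 2 ∧ Real.exp (-τ) < ρ / 16 ∧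
      1 ≤ MM (Om φ p ρ r) τ ∧ T1 ≤ τ ∧ 1 ≤ τ := by
    intro τ hτ
    obtain ⟨a1, a2, a3⟩ := hB0 τ (hbb.trans hτ)
    exact ⟨a1.trans_le (min_le_left _ _), a1.trans_le (min_le_right _ _), a2,
      (le_max_left _ _).trans a3, (le_max_right _ _).trans a3⟩
  obtain ⟨q2, q3, q4, q5, q6⟩ := q1 T₀ le_rfl
  have hmono : MonotoneOn (MM (Om φ p ρ r)) (Ici T₀) := by
    intro x hx y hy hxy
    exact MM_mono hLS hF (by have := (q1 x hx).1; linarith) hxy
  -- the boxes
  have hBox : ∀ τ, T₀ ≤ τ → Box θ H (-(3 * ρ / 8)) (MM (Om φ p ρ r) τ) (Real.exp (-τ))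
      (φe φ p ρ r) (pe φ p ρ r) (beE b ρ r) := by
    intro τ hτ
    obtain ⟨a1, a2, a3, a4, a5⟩ := q1 τ hτ
    have he1 : Real.exp (-τ) < 1 := by
      rw [Real.exp_lt_one_iff]
      linarith
    refine boxM hD hV (Real.exp_pos _) he1.le (by linarith) (by linarith) ?_
    rintro ⟨t, w⟩ ⟨⟨b1, b2⟩, b3⟩
    rw [mem_ball_zero_iff] at b3
    exact (mem_SL (by linarith)).2 (mem_MM hD (by linarith) b3.le b2)
  -- (AP3)
  obtain ⟨c₀, hc₀⟩ := ap3 hD hM
  have hAP3 : ∀ x : ℝ, iteratedDeriv 3 (fun w => stp (beE b ρ r) (x, w)) 0 =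
      2 / 5 * ((K x - 2 * deriv θ x ^ 2) + deriv θ x ^ 2 / 8) + c₀ := by
    intro x
    rw [(stp_real hD x).iteratedDeriv_eq 3, ← hM.G_eq]
    exact hc₀ x (by simpa using hρ)
  -- the base bound
  have hbase : ∀ t w : ℂ, |t.im| ≤ min (ρ / 4) r → ‖w‖ < min (ρ / 4) r →
      ‖beE b ρ r (t, w) - t‖ ≤ |Bc| * ‖w‖ ^ 2 := by
    intro t w h1 h2
    have h3 : |t.im| ≤ ρ / 4 := h1.trans (min_le_left _ _)
    have h4 : ‖w‖ < r := h2.trans_le (min_le_right _ _)
    have h5 := abs_le.1 h3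
    have h6 : (t, w) ∈ K669.Slab (-(ρ / 2)) (ρ / 2) (ball (0 : ℂ) r) :=
      ⟨by simp only; linarith, by simp only; linarith, by simpa using h4⟩
    rw [beE_slab hD h6]
    refine (hD.fam.b_near (t, w) ⟨by simp only; linarith, h4⟩).trans ?_
    gcongr
    exact le_abs_self _
  obtain ⟨Kc, hKc1, hKc⟩ := base_st (lab_of hM) (ent_of hM) hM.yper hM.yconj hM.Kconj hAP3 q6
    hmono q4 hBox (lt_min (by positivity) hr) (abs_nonneg _) hbase
  obtain ⟨T2, hT2⟩ := hKc Kc le_rfl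
  obtain ⟨T3, hT3⟩ := b1_window (C' := 1000) (δ := 1 / 10) (Kc := Kc) (by norm_num) (by norm_num)
    hKc1
  -- the good column
  obtain ⟨T4, hT4⟩ := T1EColJ314.col_joint (M := MM (Om φ p ρ r)) (y := deriv θ) (G := G)
    hM.mir.θd.deriv hM.Gd hM.hG hM.yper (fun x => ⟨(hM.y_pos x).2, (hM.y_pos x).1⟩)
    (C1 := C1) (T1 := T₀) (τ0 := T₀) hC1
    (MM_concave hLS one_pos hper hF (by linarith)) (by linarith) (by linarith)
    (fun τ' hτ' z hz => by
      obtain ⟨a1, a2, a3, a4, a5⟩ := q1 τ' hτ'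
      refine (hAP τ' a4 (MM (Om φ p ρ r) τ') ?_ (fun t w h1 h2 => mem_MM hD (by linarith) h2.le h1)
        z hz).1
      have he1 : Real.exp (-τ') < 1 := by
        rw [Real.exp_lt_one_iff]
        linarith
      linarith) (C' := 1000) (κ := 1 / 10 ^ 4) (by norm_num) (by norm_num)
  -- numerics at infinity
  have hev2 : ∀ᶠ τ : ℝ in atTop, 120 * |Kc'| ≤ 1000 * Real.log τ ∧ 1 ≤ Real.log τ :=
    (Real.tendsto_log_atTop.eventually (eventually_ge_atTop (120 * |Kc'| / 1000))).and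
      (Real.tendsto_log_atTop.eventually_ge_atTop 1) |>.mono fun τ h => ⟨by linarith [h.1], h.2⟩
  have hev3 : ∀ᶠ τ : ℝ in atTop, Real.log τ ≤ τ / 10 := by
    have h := Real.isLittleO_log_id_atTop.bound (show (0 : ℝ) < 1 / 10 by norm_num)
    filter_upwards [h, eventually_ge_atTop (0 : ℝ)] with τ h1 h2
    simp only [id_eq, Real.norm_eq_abs, abs_of_nonneg h2] at h1
    exact (le_abs_self _).trans (by linarith)
  obtain ⟨T5, hT5⟩ := eventually_atTop.1 (hev2.and (hev3.and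
    (eventually_ge_atTop (max (max (max T2 T3) (max T4 (2 * (T₀ + Real.log Kc)))) (max (3 * T₀) 4)))))
  refine ⟨1001, 1 / 10, T5, by norm_num, by norm_num, fun τ S hτ hW => ?_⟩
  obtain ⟨⟨n1, n2⟩, n3, n4⟩ := hT5 τ hτ
  have k1 : T2 ≤ τ := by
    refine le_trans ?_ n4
    exact (le_max_left _ _).trans ((le_max_left _ _).trans (le_max_left _ _))
  have k2 : T3 ≤ τ := by
    refine le_trans ?_ n4
    exact (le_max_right _ _).trans ((le_max_left _ _).trans (le_max_left _ _))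
  have k3 : T4 ≤ τ := by
    refine le_trans ?_ n4
    exact (le_max_left _ _).trans ((le_max_right _ _).trans (le_max_left _ _))
  have k4 : 2 * (T₀ + Real.log Kc) ≤ τ := by
    refine le_trans ?_ n4
    exact (le_max_right _ _).trans ((le_max_right _ _).trans (le_max_left _ _))
  have k5 : 3 * T₀ ≤ τ := by
    refine le_trans ?_ n4
    exact (le_max_left _ _).trans (le_max_right _ _)
  have k6 : 4 ≤ τ := by
    refine le_trans ?_ n4
    exact (le_max_right _ _).trans (le_max_right _ _)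
  have hτ0 : (0 : ℝ) < τ := by linarith
  have hS0 : 0 < S := lt_of_lt_of_le (by positivity) hW.hS
  have hW' : Wdw (MM (Om φ p ρ r)) 1000 (1 / 10) bb τ S :=
    hW.mono (by norm_num) (by norm_num) le_rfl (by linarith)
  set s : ℝ := Real.exp (-τ) with hs
  have hs0 : 0 < s := Real.exp_pos _
  have hsinv : Real.exp τ = 1 / s := by rw [hs, Real.exp_neg]; simp
  set R : ℝ := 1000 * Real.log τ * S with hR
  have hR0 : 0 < R := by positivity
  obtain ⟨s1, s2, s3, s4, s5⟩ := q1 τ (by linarith)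
  -- the column
  obtain ⟨x, hx⟩ := hT4 τ k3 S (by rw [one_div]; exact hW.hS) (fun β hβ => hW.lin β (by
    have e : ((1000 : ℝ) + 1) = 1001 := by norm_num
    rwa [e] at hβ))
  set c : ℂ := (x : ℂ) + MM (Om φ p ρ r) τ * Complex.I with hc
  have hcre : c.re = x := by simp [hc]
  have hcim : c.im = MM (Om φ p ρ r) τ := by simp [hc]
  obtain ⟨w1, w2, w3⟩ := hT3 τ k2 S (MM (Om φ p ρ r)) hW.hS hW'.lin
  obtain ⟨near, step, good⟩ := hT2 τ k1 S hW.hS hW.rcd
  have e2τ : Real.exp (2 * τ) = 1 / s ^ 2 := by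
    rw [two_mul, Real.exp_add, hsinv]
    ring
  have hSm : SmallD θ K c R s (1 / 10 ^ 4) := by
    refine ⟨hs0, w2, by norm_num, le_rfl, fun z hz => ?_, fun z hz => ?_⟩
    · have := (hx z (by rw [mem_closedBall, dist_eq_norm]; exact hz)).1
      rw [hsinv] at this
      rw [div_eq_mul_one_div]
      exact this
    · obtain ⟨h1, h2⟩ := hx z (by rw [mem_closedBall, dist_eq_norm]; exact hz)
      have h3 := hM.G_eq z
      have h4 : K z = G z + 2 * deriv θ z ^ 2 := by rw [h3]; ring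
      rw [e2τ] at h2
      rw [hsinv] at h1
      rw [h4]
      have h5 : ‖deriv θ z‖ ^ 2 ≤ (1 / 10 ^ 4 * (1 / s)) ^ 2 := by gcongr
      calc ‖G z + 2 * deriv θ z ^ 2‖ ≤ ‖G z‖ + 2 * ‖deriv θ z‖ ^ 2 := by
            refine (norm_add_le _ _).trans (le_of_eq ?_)
            rw [norm_mul, norm_pow]
            norm_num
        _ ≤ (1 / 10 ^ 4) ^ 2 * (1 / s ^ 2) + 2 * (1 / 10 ^ 4 * (1 / s)) ^ 2 := by linarith
        _ = 3 * (1 / 10 ^ 4) ^ 2 / s ^ 2 := by ring
  -- the base height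
  set bτ : ℝ := b1 (MM (Om φ p ρ r)) Kc τ S with hbτ
  have hlow : S * τ / 2 ≤ MM (Om φ p ρ r) τ :=
    T1EColJ314.low_of_win (MM_concave hLS one_pos hper hF (τ0 := T₀) (by linarith)) (by linarith)
      (by linarith) k5 hS0 (hW.lin 1 (by
        rw [abs_one]
        refine one_le_pow₀ ?_
        nlinarith))
  have hb1 : 0 < bτ := by
    have h1 := (abs_le.1 w1).1
    have h2 : 1000 * Real.log τ * S / 400 ≤ S * τ / 4 := by nlinarith
    nlinarith
  -- the radius of the base height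
  set τb : ℝ := τ - Real.log Kc - Real.log τ / 2 with hτb
  have hτbT : T₀ ≤ τb := by
    rw [hτb]
    linarith
  obtain ⟨t1, t2, t3, t4, t5⟩ := q1 τb hτbT
  have hsb : 2 * s ≤ Real.exp (-τb) := by
    have e1 : Real.exp (-τb) = s * (Kc * √τ) := by
      rw [hτb, hs, show -(τ - Real.log Kc - Real.log τ / 2) =
        -τ + (Real.log Kc + Real.log τ / 2) by ring, Real.exp_add, Real.exp_add,
        Real.exp_log (by linarith)]
      congr 2
      rw [Real.sqrt_eq_rpow, Real.rpow_def_of_pos hτ0]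
      ring_nf
    have e2 : 2 ≤ √τ := by
      rw [show (2 : ℝ) = √4 by
        rw [show (4 : ℝ) = 2 ^ 2 by norm_num, Real.sqrt_sq (by norm_num)]]
      exact Real.sqrt_le_sqrt k6
    rw [e1]
    have : 2 ≤ Kc * √τ := by nlinarith
    nlinarith
  have hbτle : bτ + s ≤ MM (Om φ p ρ r) τb := by
    have : bτ = MM (Om φ p ρ r) τb - 2 * Real.exp (-τb) - S := rfl
    linarith
  have hOmb : ∀ t w : ℂ, ‖w‖ < 2 * s → t.im < bτ + s → (t, w) ∈ Om φ p ρ r := fun t w h1 h2 =>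
    mem_MM hD (by linarith) (by linarith) (by linarith)
  have hSL : ∀ t w : ℂ, w ∈ Wd s → -(ρ / 2) < t.im → t.im < bτ → (t, w) ∈ SL φ p ρ r :=
    fun t w h1 h2 h3 => (mem_SL h2).2 (hOmb t w h1.1 (by linarith))
  have hSB : ∀ t w : ℂ, w ∈ Wd s → -(ρ / 2) < t.im → t.im < bτ → (t, w) ∈ SBE b ρ r := by
    intro t w h1 h2 h3
    rcases lt_or_ge t.im (ρ / 2) with h4 | h4
    · refine slab_SBE hD ⟨h2, h4, ?_⟩
      have := h1.1
      rw [mem_ball_zero_iff]
      simp only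
      linarith
    · have h5 : |(w / 2).im| < s := by
        refine (Complex.abs_im_le_norm _).trans_lt ?_
        rw [norm_div]
        have := h1.1
        norm_num
        linarith
      obtain ⟨h6, h7⟩ := abs_lt.1 h5
      have e1 : sh 1 ((t, w) : ℂ × ℂ) = (t + w / 2, w) := by
        unfold sh
        refine Prod.ext ?_ rfl
        simp only
        ring
      have e2 : sh (-1) ((t, w) : ℂ × ℂ) = (t - w / 2, w) := by
        unfold sh
        refine Prod.ext ?_ rfl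
        simp only
        ring
      refine hV (t, w) ?_ ?_ (by simp only; linarith)
      · rw [e1]
        refine (mem_SL ?_).2 (hOmb _ _ h1.1 ?_)
        · rw [Complex.add_im]; linarith
        · rw [Complex.add_im]; linarith
      · rw [e2]
        refine (mem_SL ?_).2 (hOmb _ _ h1.1 ?_)
        · rw [Complex.sub_im]; linarith
        · rw [Complex.sub_im]; linarith
  have hBL : BaseL θ H K (φe φ p ρ r) (pe φ p ρ r) (beE b ρ r) s bτ R :=
    T1EBase314.baseL_of hD hs0 (by linarith) hR0 hb1 hSL hSB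
      (fun t w h => (near t w h).trans w3) step good
  have hcc := CC350.cc hD.fam (ent_of hM) hSm hBL (by rw [hcim]; exact w1) hb1.le (by linarith) hSL
    (fun t w h => (mem_SL h.2.1).2 (evenE hD ((mem_SL h.2.1).1 h)))
  have hKS : Kc' * S ≤ R / 120 := by
    have h1 : Kc' ≤ |Kc'| := le_abs_self _
    have h2 : 120 * (Kc' * S) ≤ R := by
      rw [hR]
      nlinarith
    linarith
  refine ⟨x, fun t w h1 h2 h3 h4 => ?_⟩
  rcases lt_or_ge t.im (ρ / 2) with h5 | h5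
  · exact lowE hD h5 (by linarith)
  by_cases hw : w = 0
  · subst hw
    obtain ⟨δ, hδ, hh⟩ := hextE hD (t.im + 1)
    exact hh 0 (by simpa using hδ) t (by linarith)
  have hwi : w.im ≠ 0 := by
    intro h
    rw [h, abs_zero, mul_zero] at h4
    exact hw (norm_le_zero_iff.1 h4)
  have hwi' : 0 < |w.im| := abs_pos.2 hwi
  have hmm : mm (Om φ p ρ r) (2 * Real.exp (-τ)) ≤ MM (Om φ p ρ r) τ :=
    mm_anti hLS (by linarith) (by linarith) (hF _ (Real.exp_pos _))
  refine (mem_SL (by linarith)).1 (hcc t w ?_ (by linarith) ?_ h3 (by linarith))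
  · rw [hcre]
    linarith
  · rw [hcim]
    linarith

/-- **T1-E** from the rule of the vertices -/
theorem t1e_of_rule (hrule : ∀ (q : C(ℂ, ℂ)) (η ρ r Bc : ℝ) (b φ p : ℂ × ℂ → ℂ) (m₀ θ H K G : ℂ → ℂ),
    Spine.DataE q η ρ r Bc b φ p m₀ θ H → MirE q η θ H K G → RuleV b φ p ρ r) : Spine.T1E := by
  intro q η ρ r Bc b φ p m₀ θ H hD hc hcount
  obtain ⟨K, G, hM⟩ := mir hD hc
  have hV := hrule q η ρ r Bc b φ p m₀ θ H K G hD hM
  have hr := hD.fam.r_pos
  have hρ := hD.fam.ρ_pos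
  refine endE' (lvE hD) hr (perE hD) (fun t w h => evenE hD h) (fun r' h => finE hD hM hV h)
    (hextE hD) (ccol hD hM hV) hr (hcount.mono ?_)
  rintro u ⟨hirr, hu0, hur, U, h1, h2, h3⟩
  refine goodW hD hu0 hur hirr (fun t h0 h4 h5 => ?_) h1 h2 h3
  have e1 : sh 1 ((t, (u : ℂ)) : ℂ × ℂ) = (t + u / 2, (u : ℂ)) := by
    unfold sh
    refine Prod.ext ?_ rfl
    simp only
    ring
  have e2 : sh (-1) ((t, (u : ℂ)) : ℂ × ℂ) = (t - u / 2, (u : ℂ)) := by
    unfold sh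
    refine Prod.ext ?_ rfl
    simp only
    ring
  have h6 : (t, (u : ℂ)) ∈ SBE b ρ r := by
    refine hV _ ?_ ?_ (by simp only; linarith)
    · rw [e1]
      refine (mem_SL ?_).2 h5
      have : (t + u / 2 : ℂ).im = t.im := by simp
      rw [this]
      linarith
    · rw [e2]
      refine (mem_SL ?_).2 h4
      have : (t - u / 2 : ℂ).im = t.im := by simp
      rw [this]
      linarith
  exact h6.2.2

end Crest.Agent.R102.T1EAsm314
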