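import Crest.Agent.R266.SCV

/-!
Row 102, part (C), leaf T2 (helper312): tubes, star domains, start dichotomy.

* `Cls A` : `A F p` = "the germ of `F : ℂ × ℂ → Y` at `p` is holomorphic" for an abstract target
  (local, open, identity theorem). Instances: `AnalyticAt ℂ` (`cls_an`), maps to `ℙ ℂ (Fin 3 → ℂ)`
  (`AnP`, `cls_proj`), products (`Cls.prod`).
* `RelC A R` : the relation `R` on `Y` is analytic and closed (principle of permanence).
* `Reg A f p` : `f` (given near the real points) extends holomorphically to a tube from the real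
  axis to `p`; `ext A f` the extension; `ext_eq_of_tube`, `Reg.eventually`, `ext_an`, `Reg.down`.
* `reg_of_glue` : STAR (the boundary point of the tube domain is regular if there is a holomorphic
  germ at the boundary point which agrees somewhere below).
* `implicit` : analytic implicit function theorem with local uniqueness.
* `start_dich` : DICH.
-/

set_option autoImplicit false
set_option linter.unusedSectionVars false
set_option linter.unusedVariables false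

open Set Filter Topology Metric Complex
open scoped LinearAlgebra.Projectivization

noncomputable section

namespace Crest.Agent.R102.T2C312

/-! ### holomorphic germs with values in an abstract target -/

/-- a class of holomorphic germs -/
structure Cls {Y : Type*} (A : (ℂ × ℂ → Y) → ℂ × ℂ → Prop) : Prop where
  congr : ∀ {F G : ℂ × ℂ → Y} {p : ℂ × ℂ}, A F p → F =ᶠ[𝓝 p] G → A G p
  nhds : ∀ {F : ℂ × ℂ → Y} {p : ℂ × ℂ}, A F p → ∀ᶠ q in 𝓝 p, A F q
  ident : ∀ {F G : ℂ × ℂ → Y} {p : ℂ × ℂ}, A F p → A G p →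
    (∃ᶠ q in 𝓝 p, F =ᶠ[𝓝 q] G) → F =ᶠ[𝓝 p] G

/-- an analytic closed relation: permanence -/
def RelC {Y : Type*} (A : (ℂ × ℂ → Y) → ℂ × ℂ → Prop) (R : Y → Prop) : Prop :=
  ∀ {F : ℂ × ℂ → Y} {p : ℂ × ℂ}, A F p → (∃ᶠ q in 𝓝 p, ∀ᶠ r in 𝓝 q, R (F r)) →
    ∀ᶠ r in 𝓝 p, R (F r)

section Instances

/-- identity theorem, local form -/
theorem an_ident {E : Type*} [NormedAddCommGroup E] [NormedSpace ℂ E] [CompleteSpace E]
    {F : ℂ × ℂ → E} {p : ℂ × ℂ}
    (hF : AnalyticAt ℂ F p) (h : ∃ᶠ q in 𝓝 p, F =ᶠ[𝓝 q] 0) : F =ᶠ[𝓝 p] 0 := by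
  obtain ⟨e, he, hball⟩ := Metric.eventually_nhds_iff_ball.1 hF.eventually_analyticAt
  obtain ⟨q, hq, hqb⟩ := (h.and_eventually (ball_mem_nhds p he)).exists
  have h1 : AnalyticOnNhd ℂ F (ball p e) := fun x hx => hball x hx
  have h2 := h1.eqOn_of_preconnected_of_eventuallyEq (g := 0) analyticOnNhd_const
    (convex_ball p e).isPreconnected hqb hq
  filter_upwards [ball_mem_nhds p he] with x hx
  exact h2 hx

theorem cls_an {E : Type*} [NormedAddCommGroup E] [NormedSpace ℂ E] [CompleteSpace E] :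
    Cls (fun (F : ℂ × ℂ → E) p => AnalyticAt ℂ F p) where
  congr h1 h2 := h1.congr h2
  nhds h := h.eventually_analyticAt
  ident {F G p} hF hG h := by
    have h1 : (F - G) =ᶠ[𝓝 p] 0 := by
      refine an_ident (hF.sub hG) (h.mono fun q hq => ?_)
      filter_upwards [hq] with x hx
      simp [hx]
    filter_upwards [h1] with x hx
    exact sub_eq_zero.1 (by simpa using hx)

/-- vectors in `ℂ³` -/
abbrev V3 := Fin 3 → ℂ

/-- the projective plane (points or lines) -/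
abbrev P2 := ℙ ℂ V3

/-- holomorphic germ of a map to the projective plane -/
def AnP (F : ℂ × ℂ → P2) (p : ℂ × ℂ) : Prop :=
  ∃ G : ℂ × ℂ → V3, AnalyticAt ℂ G p ∧
    ∀ᶠ q in 𝓝 p, ∃ h : G q ≠ 0, F q = Projectivization.mk ℂ (G q) h

/-- cross product -/
def cr (u v : V3) : V3 := ![u 1 * v 2 - u 2 * v 1, u 2 * v 0 - u 0 * v 2, u 0 * v 1 - u 1 * v 0]

/-- incidence pairing -/
def pr (u v : V3) : ℂ := u 0 * v 0 + u 1 * v 1 + u 2 * v 2

theorem cr_smul_smul (a b : ℂ) (u v : V3) : cr (a • u) (b • v) = (a * b) • cr u v := by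
  funext i
  fin_cases i <;> simp [cr] <;> ring

theorem cr_self (u : V3) : cr u u = 0 := by
  funext i
  fin_cases i <;> simp [cr] <;> ring

theorem cr_swap (u v : V3) : cr u v = - cr v u := by
  funext i
  fin_cases i <;> simp [cr] <;> ring

theorem exists_smul_of_cr {u v : V3} (hu : u ≠ 0) (h : cr u v = 0) : ∃ a : ℂ, a • u = v := by
  have h0 : u 1 * v 2 - u 2 * v 1 = 0 := by simpa [cr] using congrFun h 0
  have h1 : u 2 * v 0 - u 0 * v 2 = 0 := by simpa [cr] using congrFun h 1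
  have h2 : u 0 * v 1 - u 1 * v 0 = 0 := by simpa [cr] using congrFun h 2
  obtain ⟨i, hi⟩ := Function.ne_iff.1 hu
  have hi' : u i ≠ 0 := hi
  refine ⟨v i / u i, ?_⟩
  have key : ∀ j : Fin 3, v i * u j = v j * u i := by
    intro j
    fin_cases i <;> fin_cases j <;> simp <;> first
      | rfl
      | linear_combination h0
      | linear_combination h1
      | linear_combination h2
      | linear_combination -h0
      | linear_combination -h1
      | linear_combination -h2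
  funext j
  simp only [Pi.smul_apply, smul_eq_mul]
  rw [div_mul_eq_mul_div, div_eq_iff hi']
  exact key j

theorem mk_eq_iff_cr {u v : V3} (hu : u ≠ 0) (hv : v ≠ 0) :
    (Projectivization.mk ℂ u hu : P2) = Projectivization.mk ℂ v hv ↔ cr u v = 0 := by
  rw [Projectivization.mk_eq_mk_iff']
  constructor
  · rintro ⟨a, rfl⟩
    have := cr_smul_smul a 1 v v
    rw [one_smul] at this
    rw [this, cr_self, smul_zero]
  · intro h
    refine exists_smul_of_cr hv ?_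
    rw [cr_swap, h, neg_zero]

theorem an_apply {G : ℂ × ℂ → V3} {p : ℂ × ℂ} (hG : AnalyticAt ℂ G p) (i : Fin 3) :
    AnalyticAt ℂ (fun q => G q i) p :=
  ((ContinuousLinearMap.proj (R := ℂ) (φ := fun _ : Fin 3 => ℂ) i).analyticAt _).comp hG

theorem an_pi {G : ℂ × ℂ → V3} {p : ℂ × ℂ} (hG : ∀ i, AnalyticAt ℂ (fun q => G q i) p) :
    AnalyticAt ℂ G p := by
  have := (analyticAt_pi_iff (𝕜 := ℂ) (f := fun i q => G q i) (e := p)).2 hG
  exact this

theorem an_cr {G H : ℂ × ℂ → V3} {p : ℂ × ℂ} (hG : AnalyticAt ℂ G p) (hH : AnalyticAt ℂ H p) :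
    AnalyticAt ℂ (fun q => cr (G q) (H q)) p := by
  refine an_pi (fun i => ?_)
  fin_cases i
  · exact ((an_apply hG 1).mul (an_apply hH 2)).sub ((an_apply hG 2).mul (an_apply hH 1))
  · exact ((an_apply hG 2).mul (an_apply hH 0)).sub ((an_apply hG 0).mul (an_apply hH 2))
  · exact ((an_apply hG 0).mul (an_apply hH 1)).sub ((an_apply hG 1).mul (an_apply hH 0))

theorem an_pr {G H : ℂ × ℂ → V3} {p : ℂ × ℂ} (hG : AnalyticAt ℂ G p) (hH : AnalyticAt ℂ H p) :
    AnalyticAt ℂ (fun q => pr (G q) (H q)) p :=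
  (((an_apply hG 0).mul (an_apply hH 0)).add ((an_apply hG 1).mul (an_apply hH 1))).add
    ((an_apply hG 2).mul (an_apply hH 2))

theorem cls_proj : Cls AnP where
  congr {F G p} h1 h2 := by
    obtain ⟨K, hK, hK2⟩ := h1
    refine ⟨K, hK, ?_⟩
    filter_upwards [hK2, h2] with q hq hq2
    obtain ⟨h, hh⟩ := hq
    exact ⟨h, by rw [← hq2, hh]⟩
  nhds {F p} h := by
    obtain ⟨K, hK, hK2⟩ := h
    filter_upwards [hK.eventually_analyticAt, hK2.eventually_nhds] with q hq hq2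
    exact ⟨K, hq, hq2⟩
  ident {F G p} hF hG h := by
    obtain ⟨f, hf, hf2⟩ := hF
    obtain ⟨g, hg, hg2⟩ := hG
    have h1 : (fun q => cr (f q) (g q)) =ᶠ[𝓝 p] 0 := by
      refine an_ident (an_cr hf hg) ?_
      have h3 := h.and_eventually (hf2.eventually_nhds.and hg2.eventually_nhds)
      refine h3.mono ?_
      rintro q ⟨hq1, hq2, hq3⟩
      filter_upwards [hq1, hq2, hq3] with r hr1 hr2 hr3
      obtain ⟨a, ha⟩ := hr2
      obtain ⟨b, hb⟩ := hr3
      rw [ha, hb, mk_eq_iff_cr] at hr1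
      exact hr1
    filter_upwards [h1, hf2, hg2] with q hq1 hq2 hq3
    obtain ⟨a, ha⟩ := hq2
    obtain ⟨b, hb⟩ := hq3
    rw [ha, hb, mk_eq_iff_cr]
    exact hq1

/-- product class -/
def prodA {Y Z : Type*} (A : (ℂ × ℂ → Y) → ℂ × ℂ → Prop) (B : (ℂ × ℂ → Z) → ℂ × ℂ → Prop) :
    (ℂ × ℂ → Y × Z) → ℂ × ℂ → Prop :=
  fun F p => A (fun q => (F q).1) p ∧ B (fun q => (F q).2) p

theorem Cls.prod {Y Z : Type*} {A : (ℂ × ℂ → Y) → ℂ × ℂ → Prop}
    {B : (ℂ × ℂ → Z) → ℂ × ℂ → Prop} (hA : Cls A) (hB : Cls B) : Cls (prodA A B) where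
  congr {F G p} h1 h2 := by
    refine ⟨hA.congr h1.1 ?_, hB.congr h1.2 ?_⟩
    · filter_upwards [h2] with q hq
      rw [hq]
    · filter_upwards [h2] with q hq
      rw [hq]
  nhds {F p} h := by
    filter_upwards [hA.nhds h.1, hB.nhds h.2] with q h1 h2
    exact ⟨h1, h2⟩
  ident {F G p} hF hG h := by
    have h1 : (fun q => (F q).1) =ᶠ[𝓝 p] fun q => (G q).1 := by
      refine hA.ident hF.1 hG.1 (h.mono fun q hq => ?_)
      filter_upwards [hq] with r hr
      rw [hr]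
    have h2 : (fun q => (F q).2) =ᶠ[𝓝 p] fun q => (G q).2 := by
      refine hB.ident hF.2 hG.2 (h.mono fun q hq => ?_)
      filter_upwards [hq] with r hr
      rw [hr]
    filter_upwards [h1, h2] with q hq1 hq2
    exact Prod.ext hq1 hq2

end Instances

/-! ### identity theorem along preconnected sets -/

section Path

variable {Y : Type*} {A : (ℂ × ℂ → Y) → ℂ × ℂ → Prop}

theorem Cls.ident_on (hA : Cls A) {F G : ℂ × ℂ → Y} {K : Set (ℂ × ℂ)} (hK : IsPreconnected K)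
    (hF : ∀ p ∈ K, A F p) (hG : ∀ p ∈ K, A G p) {p₀ : ℂ × ℂ} (hp₀ : p₀ ∈ K)
    (h : F =ᶠ[𝓝 p₀] G) : ∀ p ∈ K, F =ᶠ[𝓝 p] G := by
  have hu : IsOpen {q | F =ᶠ[𝓝 q] G} := by
    rw [isOpen_iff_mem_nhds]
    intro q hq
    exact Filter.Eventually.eventually_nhds hq
  refine hK.subset_of_closure_inter_subset hu ⟨p₀, hp₀, h⟩ ?_
  rintro p ⟨hp, hpK⟩
  exact hA.ident (hF p hpK) (hG p hpK) (mem_closure_iff_frequently.1 hp)

theorem RelC.on {R : Y → Prop} (hR : RelC A R) {F : ℂ × ℂ → Y} {K : Set (ℂ × ℂ)}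
    (hK : IsPreconnected K) (hF : ∀ p ∈ K, A F p) {p₀ : ℂ × ℂ} (hp₀ : p₀ ∈ K)
    (h : ∀ᶠ r in 𝓝 p₀, R (F r)) : ∀ p ∈ K, ∀ᶠ r in 𝓝 p, R (F r) := by
  have hu : IsOpen {q | ∀ᶠ r in 𝓝 q, R (F r)} := by
    rw [isOpen_iff_mem_nhds]
    intro q hq
    exact Filter.Eventually.eventually_nhds hq
  refine hK.subset_of_closure_inter_subset hu ⟨p₀, hp₀, h⟩ ?_
  rintro p ⟨hp, hpK⟩
  exact hR (hF p hpK) (mem_closure_iff_frequently.1 hp)

end Path

/-! ### tubes -/

section Tubes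

variable {Y : Type*} {A : (ℂ × ℂ → Y) → ℂ × ℂ → Prop}

/-- tube over the vertical segment from the real point `x` to `x + i y`, times a disc -/
def Tube (x y : ℝ) (w : ℂ) (e : ℝ) : Set (ℂ × ℂ) :=
  {p | |p.1.re - x| < e ∧ min 0 y - e < p.1.im ∧ p.1.im < max 0 y + e ∧ ‖p.2 - w‖ < e}

theorem Tube_eq (x y : ℝ) (w : ℂ) (e : ℝ) :
    Tube x y w e = (reLm ⁻¹' (Ioo (x - e) (x + e)) ∩
      imLm ⁻¹' (Ioo (min 0 y - e) (max 0 y + e))) ×ˢ ball w e := by
  ext p
  simp only [Tube, mem_ofPred_eq, mem_prod, mem_inter_iff, mem_preimage, mem_Ioo, abs_lt,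
    mem_ball, dist_eq_norm, Complex.reLm_coe, Complex.imLm_coe]
  constructor
  · rintro ⟨⟨h1, h2⟩, h3, h4, h5⟩
    exact ⟨⟨⟨by linarith, by linarith⟩, h3, h4⟩, h5⟩
  · rintro ⟨⟨⟨h1, h2⟩, h3, h4⟩, h5⟩
    exact ⟨⟨by linarith, by linarith⟩, h3, h4, h5⟩

theorem Tube_isOpen (x y : ℝ) (w : ℂ) (e : ℝ) : IsOpen (Tube x y w e) := by
  rw [Tube_eq]
  exact ((isOpen_Ioo.preimage Complex.continuous_re).inter
    (isOpen_Ioo.preimage Complex.continuous_im)).prod isOpen_ball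

theorem Tube_convex (x y : ℝ) (w : ℂ) (e : ℝ) : Convex ℝ (Tube x y w e) := by
  rw [Tube_eq]
  exact (((convex_Ioo _ _).linear_preimage _).inter ((convex_Ioo _ _).linear_preimage _)).prod
    (convex_ball _ _)

/-- `f`, given near the real points, extends holomorphically to a tube through `p` -/
def Reg (A : (ℂ × ℂ → Y) → ℂ × ℂ → Prop) (f : ℂ × ℂ → Y) (p : ℂ × ℂ) : Prop :=
  ∃ e > 0, ∃ G : ℂ × ℂ → Y, (∀ q ∈ Tube p.1.re p.1.im p.2 e, A G q) ∧
    G =ᶠ[𝓝 ((p.1.re : ℂ), p.2)] f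

open Classical in
/-- the extension of `f` along vertical segments -/
def ext (A : (ℂ × ℂ → Y) → ℂ × ℂ → Prop) (f : ℂ × ℂ → Y) (p : ℂ × ℂ) : Y :=
  if h : Reg A f p then (h.choose_spec.2).choose p else f p

theorem mem_Tube {x y y' : ℝ} {w : ℂ} {e : ℝ} (he : 0 < e) (h1 : min 0 y ≤ y')
    (h2 : y' ≤ max 0 y) : ((⟨x, y'⟩ : ℂ), w) ∈ Tube x y w e :=
  ⟨by simpa using he, by show min 0 y - e < y'; linarith, by show y' < max 0 y + e; linarith,
    by simpa using he⟩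

theorem mem_Tube_self {p : ℂ × ℂ} {e : ℝ} (he : 0 < e) : p ∈ Tube p.1.re p.1.im p.2 e :=
  mem_Tube (x := p.1.re) (y' := p.1.im) (w := p.2) he (min_le_right _ _) (le_max_right _ _)

theorem base_mem_Tube {x y : ℝ} {w : ℂ} {e : ℝ} (he : 0 < e) : ((x : ℂ), w) ∈ Tube x y w e :=
  mem_Tube (x := x) (y' := 0) (w := w) he (min_le_left _ _) (le_max_left _ _)

theorem Tube_mono {x y : ℝ} {w : ℂ} {e e' : ℝ} (h : e ≤ e') : Tube x y w e ⊆ Tube x y w e' :=
  fun _ hp => ⟨hp.1.trans_le h, by linarith [hp.2.1], by linarith [hp.2.2.1], hp.2.2.2.trans_le h⟩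

theorem Tube_sub {x y : ℝ} {w : ℂ} {e k : ℝ} {q : ℂ × ℂ} (hq : q ∈ Tube x y w k)
    (hk : k ≤ e / 2) : Tube q.1.re q.1.im q.2 (e / 2) ⊆ Tube x y w e := by
  obtain ⟨hq1, hq2, hq3, hq4⟩ := hq
  have hk0 : 0 < k := (abs_nonneg _).trans_lt hq1
  have h1 : min 0 y - k ≤ min 0 q.1.im :=
    le_min (by linarith [min_le_left 0 y]) hq2.le
  have h2 : max 0 q.1.im ≤ max 0 y + k :=
    max_le (by linarith [le_max_left 0 y]) hq3.le
  rintro r ⟨hr1, hr2, hr3, hr4⟩
  refine ⟨?_, by linarith, by linarith, ?_⟩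
  · have : r.1.re - x = (r.1.re - q.1.re) + (q.1.re - x) := by ring
    rw [this]
    refine (abs_add_le _ _).trans_lt ?_
    linarith
  · have : r.2 - w = (r.2 - q.2) + (q.2 - w) := by ring
    rw [this]
    refine (norm_add_le _ _).trans_lt ?_
    linarith

/-- a holomorphic function on a tube which agrees with `f` near the base is `ext f` near `p` -/
theorem tube_ext (hA : Cls A) {f G : ℂ × ℂ → Y} {x y : ℝ} {w : ℂ} {e : ℝ} (he : 0 < e)
    (hG : ∀ q ∈ Tube x y w e, A G q) (hGf : G =ᶠ[𝓝 ((x : ℂ), w)] f) :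
    ∃ e' > 0, e' ≤ e ∧ ∀ q ∈ Tube x y w e', Reg A f q ∧ ext A f q = G q := by
  obtain ⟨d, hd, hball⟩ := Metric.eventually_nhds_iff_ball.1 hGf.eventually_nhds
  have hk : 0 < min (e / 2) d := lt_min (by linarith) hd
  refine ⟨min (e / 2) d, hk, (min_le_left _ _).trans (by linarith), ?_⟩
  intro q hq
  have hsub : Tube q.1.re q.1.im q.2 (e / 2) ⊆ Tube x y w e := Tube_sub hq (min_le_left _ _)
  set k := min (e / 2) d with hkdef
  have hk2 : k ≤ d := min_le_right _ _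
  obtain ⟨hq1, hq2, hq3, hq4⟩ := hq
  have hbase : ((q.1.re : ℂ), q.2) ∈ ball ((x : ℂ), w) d := by
    rw [mem_ball, dist_eq_norm]
    have : ((q.1.re : ℂ), q.2) - ((x : ℂ), w) = (((q.1.re - x : ℝ) : ℂ), q.2 - w) := by
      simp
    rw [this, Prod.norm_def]
    simp only [Complex.norm_real, Real.norm_eq_abs]
    exact max_lt (hq1.trans_le hk2) (hq4.trans_le hk2)
  have hGq : G =ᶠ[𝓝 ((q.1.re : ℂ), q.2)] f := hball _ hbase
  have hreg : Reg A f q := ⟨e / 2, by linarith, G, fun r hr => hG r (hsub hr), hGq⟩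
  refine ⟨hreg, ?_⟩
  unfold ext
  rw [dif_pos hreg]
  have hc1 : 0 < hreg.choose := hreg.choose_spec.1
  set e1 := hreg.choose with he1
  have hsp := (hreg.choose_spec.2).choose_spec
  set G1 := (hreg.choose_spec.2).choose with hG1
  obtain ⟨hs1, hs2⟩ := hsp
  -- both on the smaller tube
  set m := min e1 (e / 2) with hm
  have hm0 : 0 < m := lt_min hc1 (by linarith)
  have := hA.ident_on (F := G1) (G := G) (Tube_convex q.1.re q.1.im q.2 m).isPreconnected
    (fun r hr => hs1 r (Tube_mono (min_le_left _ _) hr))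
    (fun r hr => hG r (hsub (Tube_mono (min_le_right _ _) hr)))
    (base_mem_Tube hm0) (hs2.trans hGq.symm) q (mem_Tube_self hm0)
  exact this.self_of_nhds

theorem Tube_mem_nhds {x y : ℝ} {w : ℂ} {e : ℝ} {q : ℂ × ℂ} (hq : q ∈ Tube x y w e) :
    Tube x y w e ∈ 𝓝 q := (Tube_isOpen x y w e).mem_nhds hq

/-- structure of the regular domain -/
theorem Reg.tube (hA : Cls A) {f : ℂ × ℂ → Y} {p : ℂ × ℂ} (h : Reg A f p) :
    ∃ e > 0, (∀ q ∈ Tube p.1.re p.1.im p.2 e, Reg A f q ∧ A (ext A f) q) ∧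
      ext A f =ᶠ[𝓝 ((p.1.re : ℂ), p.2)] f := by
  obtain ⟨e, he, G, hG, hGf⟩ := h
  obtain ⟨e', he', hle, h1⟩ := tube_ext hA he hG hGf
  have hev : ∀ q ∈ Tube p.1.re p.1.im p.2 e', G =ᶠ[𝓝 q] ext A f := by
    intro q hq
    filter_upwards [Tube_mem_nhds hq] with r hr
    exact (h1 r hr).2.symm
  refine ⟨e', he', fun q hq => ⟨(h1 q hq).1, ?_⟩, ?_⟩
  · exact hA.congr (hG q (Tube_mono hle hq)) (hev q hq)
  · exact (hev _ (base_mem_Tube he')).symm.trans hGf

theorem Reg.eventually (hA : Cls A) {f : ℂ × ℂ → Y} {p : ℂ × ℂ} (h : Reg A f p) :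
    ∀ᶠ q in 𝓝 p, Reg A f q := by
  obtain ⟨e, he, h1, -⟩ := h.tube hA
  filter_upwards [Tube_mem_nhds (mem_Tube_self he)] with q hq
  exact (h1 q hq).1

theorem isOpen_Reg (hA : Cls A) (f : ℂ × ℂ → Y) : IsOpen {p | Reg A f p} := by
  rw [isOpen_iff_mem_nhds]
  intro p hp
  exact Reg.eventually hA hp

theorem Reg.an (hA : Cls A) {f : ℂ × ℂ → Y} {p : ℂ × ℂ} (h : Reg A f p) : A (ext A f) p := by
  obtain ⟨e, he, h1, -⟩ := h.tube hA
  exact (h1 p (mem_Tube_self he)).2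

/-- the regular domain is vertically star-shaped -/
theorem Reg.down (hA : Cls A) {f : ℂ × ℂ → Y} {x y y' : ℝ} {w : ℂ}
    (h : Reg A f ((⟨x, y⟩ : ℂ), w)) (h1 : min 0 y ≤ y') (h2 : y' ≤ max 0 y) :
    Reg A f ((⟨x, y'⟩ : ℂ), w) := by
  obtain ⟨e, he, h3, -⟩ := h.tube hA
  exact (h3 _ (mem_Tube (x := x) (y' := y') (w := w) he h1 h2)).1

theorem Reg.base (hA : Cls A) {f : ℂ × ℂ → Y} {p : ℂ × ℂ} (h : Reg A f p) :
    ext A f =ᶠ[𝓝 ((p.1.re : ℂ), p.2)] f := by
  obtain ⟨e, he, -, h3⟩ := h.tube hA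
  exact h3

theorem reg_of_real (hA : Cls A) {f : ℂ × ℂ → Y} {x : ℝ} {w : ℂ} (h : A f ((x : ℂ), w)) :
    Reg A f ((x : ℂ), w) := by
  obtain ⟨d, hd, hball⟩ := Metric.eventually_nhds_iff_ball.1 (hA.nhds h)
  refine ⟨d / 2, by linarith, f, ?_, by simp⟩
  rintro q ⟨hq1, hq2, hq3, hq4⟩
  refine hball _ ?_
  simp only [ofReal_re, ofReal_im, min_self, max_self, zero_sub, zero_add] at hq1 hq2 hq3
  rw [mem_ball, dist_eq_norm, Prod.norm_def]
  refine max_lt ?_ (by show ‖q.2 - w‖ < d; exact hq4.trans (by linarith))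
  show ‖q.1 - (x : ℂ)‖ < d
  refine (Complex.norm_le_abs_re_add_abs_im _).trans_lt ?_
  simp only [sub_re, ofReal_re, sub_im, ofReal_im, sub_zero]
  have : |q.1.im| < d / 2 := abs_lt.2 ⟨hq2, hq3⟩
  linarith

/-- **STAR** (gluing at the end of a vertical segment): `f` regular below `b`, `H` holomorphic near
`b`, `H = ext f` near some point below `b` and close to `b`. -/
theorem reg_of_glue (hA : Cls A) {f H : ℂ × ℂ → Y} {x y y1 : ℝ} {w : ℂ} {d : ℝ} (hy1 : 0 ≤ y1)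
    (hy : y1 < y) (hreg : Reg A f ((⟨x, y1⟩ : ℂ), w))
    (hH : ∀ q : ℂ × ℂ, |q.1.re - x| < d → y1 - d < q.1.im → q.1.im < y + d → ‖q.2 - w‖ < d → A H q)
    (hd : 0 < d) (hHf : H =ᶠ[𝓝 ((⟨x, y1⟩ : ℂ), w)] ext A f) : Reg A f ((⟨x, y⟩ : ℂ), w) := by
  classical
  obtain ⟨e, he, h1, h2⟩ := hreg.tube hA
  simp only at h1 h2
  have hm0 : min 0 y1 = 0 := min_eq_left hy1
  have hM0 : max 0 y1 = y1 := max_eq_right hy1
  have hm1 : min 0 y = 0 := min_eq_left (hy1.trans hy.le)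
  have hM1 : max 0 y = y := max_eq_right (hy1.trans hy.le)
  set k := min e d with hk
  have hk0 : 0 < k := lt_min he hd
  -- equality on the overlap
  set O : Set (ℂ × ℂ) := {q | |q.1.re - x| < k ∧ max (y1 - k) (-k) < q.1.im ∧ q.1.im < y1 + k ∧
    ‖q.2 - w‖ < k} with hO
  have hOe : O = (reLm ⁻¹' (Ioo (x - k) (x + k)) ∩
      imLm ⁻¹' (Ioo (max (y1 - k) (-k)) (y1 + k))) ×ˢ ball w k := by
    ext p
    simp only [hO, mem_ofPred_eq, mem_prod, mem_inter_iff, mem_preimage, mem_Ioo, abs_lt,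
      mem_ball, dist_eq_norm, Complex.reLm_coe, Complex.imLm_coe]
    constructor
    · rintro ⟨⟨h1, h2⟩, h3, h4, h5⟩
      exact ⟨⟨⟨by linarith, by linarith⟩, h3, h4⟩, h5⟩
    · rintro ⟨⟨⟨h1, h2⟩, h3, h4⟩, h5⟩
      exact ⟨⟨by linarith, by linarith⟩, h3, h4, h5⟩
  have hOc : Convex ℝ O := by
    rw [hOe]
    exact (((convex_Ioo _ _).linear_preimage _).inter ((convex_Ioo _ _).linear_preimage _)).prod
      (convex_ball _ _)
  have hpO : ((⟨x, y1⟩ : ℂ), w) ∈ O := by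
    refine ⟨by simpa using hk0, ?_, by show y1 < y1 + k; linarith, by simpa using hk0⟩
    show max (y1 - k) (-k) < y1
    exact max_lt (by linarith) (by linarith)
  have hOH : ∀ q ∈ O, A H q := by
    rintro q ⟨hq1, hq2, hq3, hq4⟩
    have hkd : k ≤ d := min_le_right _ _
    have : y1 - k < q.1.im := (le_max_left _ _).trans_lt hq2
    exact hH q (hq1.trans_le hkd) (by linarith) (by linarith) (hq4.trans_le hkd)
  have hke : k ≤ e := min_le_left _ _
  have hOf : ∀ q ∈ O, A (ext A f) q := by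
    rintro q ⟨hq1, hq2, hq3, hq4⟩
    have : -k < q.1.im := (le_max_right _ _).trans_lt hq2
    refine (h1 q ⟨hq1.trans_le hke, ?_, ?_, hq4.trans_le hke⟩).2
    · rw [hm0]; linarith
    · rw [hM0]; linarith
  have heq := hA.ident_on hOc.isPreconnected hOH hOf hpO hHf
  have heq' : ∀ q : ℂ × ℂ, |q.1.re - x| < k → y1 - k < q.1.im → -k < q.1.im → q.1.im < y1 + k →
      ‖q.2 - w‖ < k → H q = ext A f q := fun q a1 a2 a3 a4 a5 =>
    (heq q ⟨a1, max_lt a2 a3, a4, a5⟩).self_of_nhds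
  -- the glued function
  set G : ℂ × ℂ → Y := fun q => if q.1.im < y1 then ext A f q else H q with hG
  have hcont : Continuous (fun q : ℂ × ℂ => q.1.im) := Complex.continuous_im.comp continuous_fst
  refine ⟨k, hk0, G, ?_, ?_⟩
  · intro q hq
    obtain ⟨hq1, hq2, hq3, hq4⟩ := hq
    simp only [hm1, hM1] at hq1 hq2 hq3 hq4
    rcases lt_or_ge q.1.im (y1 + k) with h | h
    · -- `G = ext A f` near `q` as long as `im < y1 + k`
      have hq' : q ∈ Tube x y1 w e :=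
        ⟨hq1.trans_le hke, by rw [hm0]; linarith, by rw [hM0]; linarith, hq4.trans_le hke⟩
      refine hA.congr (h1 q hq').2 ?_
      have hT : Tube x y w k ∈ 𝓝 q :=
        Tube_mem_nhds ⟨hq1, by rw [hm1]; linarith, by rw [hM1]; linarith, hq4⟩
      filter_upwards [hT, (isOpen_lt hcont continuous_const).mem_nhds h] with r hr hr2
      obtain ⟨hr1, hr3, hr4, hr5⟩ := hr
      simp only [hm1, hM1] at hr3 hr4
      have hr2' : r.1.im < y1 + k := hr2
      show ext A f r = if r.1.im < y1 then ext A f r else H r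
      split_ifs with hlt
      · rfl
      · push Not at hlt
        exact (heq' r hr1 (by linarith) (by linarith) hr2' hr5).symm
    · refine hA.congr (hH q (hq1.trans_le (min_le_right _ _)) (by linarith)
        (by linarith [min_le_right e d]) (hq4.trans_le (min_le_right _ _))) ?_
      have h' : y1 < q.1.im := by linarith
      filter_upwards [(isOpen_lt continuous_const hcont).mem_nhds h'] with r hr
      have hr' : y1 < r.1.im := hr
      show H r = if r.1.im < y1 then ext A f r else H r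
      rw [if_neg (not_lt.2 hr'.le)]
  · -- near the base
    show G =ᶠ[𝓝 ((x : ℂ), w)] f
    have h0 : ((x : ℂ), w) ∈ {q : ℂ × ℂ | q.1.im < y1 + k} := by
      show (x : ℂ).im < y1 + k
      simp only [ofReal_im]
      linarith
    have hT : Tube x y w k ∈ 𝓝 ((x : ℂ), w) := Tube_mem_nhds (base_mem_Tube hk0)
    filter_upwards [h2, hT, (isOpen_lt hcont continuous_const).mem_nhds h0] with r hr hrT hr2
    obtain ⟨hr1, hr3, hr4, hr5⟩ := hrT
    simp only [hm1, hM1] at hr3 hr4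
    have hr2' : r.1.im < y1 + k := hr2
    rw [← hr]
    show (if r.1.im < y1 then ext A f r else H r) = ext A f r
    split_ifs with hlt
    · rfl
    · push Not at hlt
      exact heq' r hr1 (by linarith) (by linarith) hr2' hr5

/-- **STAR**, sideways version: `f` is regular on the part `Im t < Im b` of a square around `b` (in
the leaf `w`), `H` is holomorphic on a polydisc around `(b, w)` and `H = ext f` near some point of
that part. -/
theorem reg_of_glue' (hA : Cls A) {f H : ℂ × ℂ → Y} {b w t1 : ℂ} {d : ℝ} (hd : 0 < d)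
    (hdb : d ≤ b.im)
    (hH : ∀ q : ℂ × ℂ, |q.1.re - b.re| < d → |q.1.im - b.im| < d → ‖q.2 - w‖ < d → A H q)
    (hreg : ∀ t : ℂ, |t.re - b.re| < d → b.im - d < t.im → t.im < b.im → Reg A f (t, w))
    (h1 : |t1.re - b.re| < d) (h2 : b.im - d < t1.im) (h3 : t1.im < b.im)
    (h4 : H =ᶠ[𝓝 (t1, w)] ext A f) : Reg A f (b, w) := by
  set K : Set (ℂ × ℂ) := (reLm ⁻¹' (Ioo (b.re - d) (b.re + d)) ∩
      imLm ⁻¹' (Ioo (b.im - d) b.im)) ×ˢ {w} with hK
  have hKc : Convex ℝ K :=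
    (((convex_Ioo _ _).linear_preimage _).inter ((convex_Ioo _ _).linear_preimage _)).prod
      (convex_singleton _)
  have hKm : ∀ q : ℂ × ℂ, q ∈ K ↔ |q.1.re - b.re| < d ∧ b.im - d < q.1.im ∧ q.1.im < b.im ∧
      q.2 = w := by
    intro p
    simp only [hK, mem_prod, mem_inter_iff, mem_preimage, mem_Ioo, abs_lt,
      Complex.reLm_coe, Complex.imLm_coe, mem_singleton_iff]
    constructor
    · rintro ⟨⟨⟨h1, h2⟩, h3, h4⟩, h5⟩
      exact ⟨⟨by linarith, by linarith⟩, h3, h4, h5⟩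
    · rintro ⟨⟨h1, h2⟩, h3, h4, h5⟩
      exact ⟨⟨⟨by linarith, by linarith⟩, h3, h4⟩, h5⟩
  have hid := hA.ident_on (F := H) (G := ext A f) hKc.isPreconnected
    (fun q hq => by
      obtain ⟨a1, a2, a3, a4⟩ := (hKm q).1 hq
      exact hH q a1 (abs_lt.2 ⟨by linarith, by linarith⟩) (by rw [a4]; simpa using hd))
    (fun q hq => by
      obtain ⟨a1, a2, a3, a4⟩ := (hKm q).1 hq
      have := (hreg q.1 a1 a2 a3).an hA
      rw [← a4] at this
      exact this)
    ((hKm (t1, w)).2 ⟨h1, h2, h3, rfl⟩) h4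
  have hlt : b.im - d / 2 < b.im := by linarith
  refine reg_of_glue (H := H) hA (x := b.re) (y := b.im) (y1 := b.im - d / 2) (d := d / 2)
    (by linarith) hlt ?_ ?_ (by linarith) ?_
  · exact hreg ⟨b.re, b.im - d / 2⟩ (by simpa using hd) (by show b.im - d < b.im - d / 2; linarith)
      hlt
  · intro q a1 a2 a3 a4
    exact hH q (by linarith) (abs_lt.2 ⟨by linarith, by linarith⟩) (by linarith)
  · exact hid _ ((hKm _).2 ⟨by simpa using hd, by show b.im - d < b.im - d / 2; linarith, hlt, rfl⟩)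

/-- pairs -/
theorem reg_prod {Z : Type*} {B : (ℂ × ℂ → Z) → ℂ × ℂ → Prop} (hA : Cls A) (hB : Cls B)
    {f : ℂ × ℂ → Y} {g : ℂ × ℂ → Z} {p : ℂ × ℂ} :
    Reg (prodA A B) (fun q => (f q, g q)) p ↔ Reg A f p ∧ Reg B g p := by
  constructor
  · rintro ⟨e, he, G, hG, hGf⟩
    refine ⟨⟨e, he, fun q => (G q).1, fun q hq => (hG q hq).1, ?_⟩,
      ⟨e, he, fun q => (G q).2, fun q hq => (hG q hq).2, ?_⟩⟩
    · filter_upwards [hGf] with q hq
      rw [hq]
    · filter_upwards [hGf] with q hq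
      rw [hq]
  · rintro ⟨⟨e, he, G, hG, hGf⟩, ⟨e', he', G', hG', hGf'⟩⟩
    refine ⟨min e e', lt_min he he', fun q => (G q, G' q), fun q hq => ⟨?_, ?_⟩, ?_⟩
    · exact hG q (Tube_mono (min_le_left _ _) hq)
    · exact hG' q (Tube_mono (min_le_right _ _) hq)
    · filter_upwards [hGf, hGf'] with q hq hq'
      rw [hq, hq']

/-- permanence of relations along vertical segments -/
theorem rel_ext (hA : Cls A) {R : Y → Prop} (hR : RelC A R) {f : ℂ × ℂ → Y} {p : ℂ × ℂ}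
    (h : Reg A f p) (hb : ∀ᶠ r in 𝓝 ((p.1.re : ℂ), p.2), R (f r)) :
    ∀ᶠ r in 𝓝 p, R (ext A f r) := by
  obtain ⟨e, he, h1, h2⟩ := h.tube hA
  refine hR.on (Tube_convex p.1.re p.1.im p.2 e).isPreconnected (fun q hq => (h1 q hq).2)
    (base_mem_Tube he) ?_ p (mem_Tube_self he)
  filter_upwards [h2, hb] with r hr hr2
  rw [hr]
  exact hr2

/-- horizontal shifts `(t, w) ↦ (t + σ w, w)` -/
theorem reg_shift (hA : Cls A) {f : ℂ × ℂ → Y} {σ : ℂ → ℂ} {t w : ℂ} (hσ : ContinuousAt σ w)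
    (hr : (σ w).im = 0)
    (hS : ∀ᶠ w' in 𝓝 w, ∀ (G : ℂ × ℂ → Y) (t' : ℂ), A G (t' + σ w', w') →
      A (fun q => G (q.1 + σ q.2, q.2)) (t', w'))
    (h : Reg A f (t + σ w, w)) : Reg A (fun q => f (q.1 + σ q.2, q.2)) (t, w) ∧
      ext A (fun q => f (q.1 + σ q.2, q.2)) =ᶠ[𝓝 (t, w)] fun q => ext A f (q.1 + σ q.2, q.2) := by
  obtain ⟨e, he, h1, h2⟩ := h.tube hA
  obtain ⟨d, hd, hball⟩ := Metric.eventually_nhds_iff_ball.1
    (hS.and (hσ.eventually (ball_mem_nhds (σ w) (by linarith : 0 < e / 2))))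
  have hk0 : 0 < min (e / 2) d := lt_min (by linarith) hd
  set k := min (e / 2) d with hk
  have hmaps : ∀ q ∈ Tube t.re t.im w k,
      (q.1 + σ q.2, q.2) ∈ Tube (t + σ w).re (t + σ w).im w e := by
    rintro q ⟨hq1, hq2, hq3, hq4⟩
    have hqd : q.2 ∈ ball w d := by
      rw [mem_ball, dist_eq_norm]
      exact hq4.trans_le (min_le_right _ _)
    have h3 : dist (σ q.2) (σ w) < e / 2 := (hball _ hqd).2
    rw [dist_eq_norm] at h3
    have hre : |(σ q.2 - σ w).re| < e / 2 := (Complex.abs_re_le_norm _).trans_lt h3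
    have him : |(σ q.2 - σ w).im| < e / 2 := (Complex.abs_im_le_norm _).trans_lt h3
    rw [sub_re] at hre
    rw [sub_im, hr, sub_zero] at him
    have hke : k ≤ e / 2 := min_le_left _ _
    have him2 := abs_lt.1 him
    simp only [Tube, mem_ofPred_eq, add_re, add_im, hr, add_zero]
    refine ⟨?_, by linarith, by linarith, by linarith⟩
    have : q.1.re + (σ q.2).re - (t.re + (σ w).re) =
      (q.1.re - t.re) + ((σ q.2).re - (σ w).re) := by ring
    rw [this]
    refine (abs_add_le _ _).trans_lt ?_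
    linarith
  have hG : ∀ q ∈ Tube t.re t.im w k, A (fun q => ext A f (q.1 + σ q.2, q.2)) q := by
    intro q hq
    have hqd : q.2 ∈ ball w d := by
      rw [mem_ball, dist_eq_norm]
      exact hq.2.2.2.trans_le (min_le_right _ _)
    exact (hball _ hqd).1 (ext A f) q.1 (h1 _ (hmaps q hq)).2
  have hbase : (fun q : ℂ × ℂ => ext A f (q.1 + σ q.2, q.2)) =ᶠ[𝓝 ((t.re : ℂ), w)]
      fun q => f (q.1 + σ q.2, q.2) := by
    have hc : ContinuousAt (fun q : ℂ × ℂ => (q.1 + σ q.2, q.2)) ((t.re : ℂ), w) := by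
      refine ContinuousAt.prodMk ?_ continuousAt_snd
      refine continuousAt_fst.add ?_
      exact ContinuousAt.comp (f := fun q : ℂ × ℂ => q.2) (g := σ) (x := ((t.re : ℂ), w)) hσ
        continuousAt_snd
    have hpt : ((t.re : ℂ) + σ w, w) = (((t + σ w).re : ℂ), w) := by
      refine Prod.ext ?_ rfl
      apply Complex.ext <;> simp [hr]
    have h3 : ∀ᶠ r in 𝓝 ((t.re : ℂ) + σ w, w), ext A f r = f r := by
      rw [hpt]; exact h2
    exact hc.eventually h3
  obtain ⟨e', he', hle, h3⟩ := tube_ext hA hk0 hG hbase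
  have hmem : (t, w) ∈ Tube t.re t.im w e' := mem_Tube_self (p := (t, w)) he'
  refine ⟨(h3 _ hmem).1, ?_⟩
  filter_upwards [Tube_mem_nhds hmem] with q hq
  exact (h3 q hq).2

end Tubes

/-! ### implicit function theorem -/

section Implicit

variable {E : Type*} [NormedAddCommGroup E] [NormedSpace ℂ E] [CompleteSpace E]

/-- **analytic implicit function theorem** with local uniqueness -/
theorem implicit {F : E × ℂ → ℂ} {p : E} {z : ℂ} (hF : AnalyticAt ℂ F (p, z))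
    (h0 : F (p, z) = 0) (hz : fderiv ℂ F (p, z) (0, 1) ≠ 0) :
    ∃ ζ : E → ℂ, AnalyticAt ℂ ζ p ∧ ζ p = z ∧ (∀ᶠ q in 𝓝 p, F (q, ζ q) = 0) ∧
      ∀ᶠ q : E × ℂ in 𝓝 (p, z), F q = 0 → q.2 = ζ q.1 := by
  set L := fderiv ℂ F (p, z) with hL
  set c := L (0, 1) with hc
  set Φ : E × ℂ → E × ℂ := fun q => (q.1, F q) with hΦ
  have hΦan : AnalyticAt ℂ Φ (p, z) := analyticAt_fst.prod hF
  have hsplit : ∀ (v : E) (s : ℂ), L (v, s) = L (v, 0) + s * c := by
    intro v s
    have : ((v, s) : E × ℂ) = (v, 0) + s • ((0, 1) : E × ℂ) := by simp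
    rw [this, map_add, map_smul, smul_eq_mul]
  let f1 : E × ℂ →L[ℂ] E × ℂ := (ContinuousLinearMap.fst ℂ E ℂ).prod L
  let f2 : E × ℂ →L[ℂ] E × ℂ := (ContinuousLinearMap.fst ℂ E ℂ).prod
    (c⁻¹ • (ContinuousLinearMap.snd ℂ E ℂ -
      L.comp ((ContinuousLinearMap.fst ℂ E ℂ).prod (0 : E × ℂ →L[ℂ] ℂ))))
  have hf1 : ∀ v s, f1 (v, s) = (v, L (v, s)) := fun v s => rfl
  have hf2 : ∀ v s, f2 (v, s) = (v, c⁻¹ * (s - L (v, 0))) := fun v s => rfl
  let e' : (E × ℂ) ≃L[ℂ] (E × ℂ) := ContinuousLinearEquiv.equivOfInverse f1 f2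
    (by
      rintro ⟨v, s⟩
      rw [hf1, hf2, hsplit v s]
      refine Prod.ext rfl ?_
      show c⁻¹ * (L (v, 0) + s * c - L (v, 0)) = s
      field_simp
      ring)
    (by
      rintro ⟨v, s⟩
      rw [hf2, hf1, hsplit]
      refine Prod.ext rfl ?_
      show L (v, 0) + c⁻¹ * (s - L (v, 0)) * c = s
      field_simp
      ring)
  have hΦd : HasFDerivAt Φ (e' : E × ℂ →L[ℂ] E × ℂ) (p, z) :=
    hasFDerivAt_fst.prodMk hF.differentiableAt.hasFDerivAt
  obtain ⟨e, hes, -, hee, -, hesym⟩ :=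
    Crest.Agent.R266.SCV.exists_analytic_openPartialHomeomorph hΦan e' hΦd univ_mem
  have hmem : ((p, 0) : E × ℂ) ∈ e.target := by
    have := e.map_source hes
    rw [hee] at this
    simpa [hΦ, h0] using this
  have hsymm : e.symm (p, 0) = (p, z) := by
    have := e.left_inv hes
    rw [hee] at this
    simpa [hΦ, h0] using this
  refine ⟨fun q => (e.symm (q, 0)).2, ?_, ?_, ?_, ?_⟩
  · have h1 : AnalyticAt ℂ (fun q : E => e.symm (q, (0 : ℂ))) p :=
      AnalyticAt.fun_comp (g := e.symm) (f := fun q : E => (q, (0 : ℂ))) (hesym _ hmem)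
        (analyticAt_id.prod analyticAt_const)
    exact analyticAt_snd.fun_comp h1
  · show (e.symm (p, 0)).2 = z
    rw [hsymm]
  · have hcont : ContinuousAt (fun q : E => (q, (0 : ℂ))) p :=
      (continuous_id.prodMk continuous_const).continuousAt
    filter_upwards [hcont (e.open_target.mem_nhds hmem)] with q hq
    have hq' : (q, (0 : ℂ)) ∈ e.target := hq
    have h1 := e.right_inv hq'
    rw [hee] at h1
    have h2 : (e.symm (q, 0)).1 = q := congrArg Prod.fst h1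
    have h3 : F (e.symm (q, 0)) = 0 := congrArg Prod.snd h1
    have h4 : e.symm (q, 0) = (q, (e.symm (q, 0)).2) := Prod.ext h2 rfl
    rw [h4] at h3
    exact h3
  · filter_upwards [e.open_source.mem_nhds hes] with q hq hq0
    have h1 := e.left_inv hq
    rw [hee] at h1
    have h2 : Φ q = (q.1, 0) := Prod.ext rfl hq0
    rw [h2] at h1
    rw [h1]

end Implicit

/-! ### reflection in homogeneous coordinates -/

section Reflection

/-- the degenerate form on lines -/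
def bil (T L : V3) : ℂ := T 0 * L 0 + T 1 * L 1

/-- the reflection of the line `L` in the line `T` -/
def refl (T L : V3) : V3 := fun i => bil T T * L i - 2 * bil T L * T i

theorem refl_smul_smul (a b : ℂ) (T L : V3) : refl (a • T) (b • L) = (a ^ 2 * b) • refl T L := by
  funext i
  simp [refl, bil]
  ring

/-- `T` and `L` different lines through the finite point `X` : the reflected line is defined -/
theorem refl_ne_zero {T L X : V3} (hX : X 2 ≠ 0) (hTX : pr T X = 0) (hLX : pr L X = 0)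
    (hTL : cr T L ≠ 0) : refl T L ≠ 0 := by
  intro h
  have hc : ∀ i, bil T T * L i = 2 * bil T L * T i := fun i => sub_eq_zero.1 (congrFun h i)
  have hN : bil T T = 0 := by
    by_contra hN
    apply hTL
    funext i
    have h0 := hc 0
    have h1 := hc 1
    have h2 := hc 2
    fin_cases i <;> simp [cr] <;> apply mul_left_cancel₀ hN
    · linear_combination T 1 * h2 - T 2 * h1
    · linear_combination T 2 * h0 - T 0 * h2
    · linear_combination T 0 * h1 - T 1 * h0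
  rw [hN] at hc
  have hT : T ≠ 0 := by
    rintro rfl
    apply hTL
    funext i
    fin_cases i <;> simp [cr]
  have hB : bil T L = 0 := by
    by_contra hB
    apply hT
    funext i
    have := hc i
    rw [zero_mul] at this
    have h3 := this.symm
    rw [mul_eq_zero, mul_eq_zero] at h3
    rcases h3 with (h3 | h3) | h3
    · norm_num at h3
    · exact absurd h3 hB
    · exact h3
  simp only [bil] at hN hB
  simp only [pr] at hTX hLX
  -- `T 0 ≠ 0`
  have hT0 : T 0 ≠ 0 := by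
    intro h0
    have h1 : T 1 = 0 := by
      rw [h0] at hN
      simpa using hN
    apply hT
    rw [h0, h1] at hTX
    have h2 : T 2 = 0 := by
      have : T 2 * X 2 = 0 := by simpa using hTX
      exact (mul_eq_zero.1 this).resolve_right hX
    funext i
    fin_cases i
    · exact h0
    · exact h1
    · exact h2
  -- `T 0 L 1 = T 1 L 0`
  have h01 : T 0 * L 1 - T 1 * L 0 = 0 := by
    have : T 0 * (T 0 * L 1 - T 1 * L 0) = 0 := by
      linear_combination L 1 * hN - T 1 * hB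
    exact (mul_eq_zero.1 this).resolve_left hT0
  have h02 : T 2 * L 0 - T 0 * L 2 = 0 := by
    have : X 2 * (T 2 * L 0 - T 0 * L 2) = 0 := by
      linear_combination L 0 * hTX - T 0 * hLX + X 1 * h01
    exact (mul_eq_zero.1 this).resolve_left hX
  have h12 : T 1 * L 2 - T 2 * L 1 = 0 := by
    have : T 0 * (T 1 * L 2 - T 2 * L 1) = 0 := by
      linear_combination -T 2 * h01 - T 1 * h02
    exact (mul_eq_zero.1 this).resolve_left hT0
  apply hTL
  funext i
  fin_cases i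
  · exact h12
  · exact h02
  · exact h01

/-- the transversality of `L` to the curve at the point `X` with tangent vector `X'` -/
theorem cr_tangent_ne {L X X' : V3} (hX : X ≠ 0) (hLX : pr L X = 0) (hLX' : pr L X' ≠ 0) :
    cr (cr X X') L ≠ 0 := by
  intro h
  have h0 := congrFun h 0
  have h1 := congrFun h 1
  have h2 := congrFun h 2
  simp only [cr, Matrix.cons_val_zero, Matrix.cons_val_one, Matrix.cons_val, Pi.zero_apply]
    at h0 h1 h2
  apply hX
  simp only [pr] at hLX hLX'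
  funext i
  have key : pr L X' * X i = 0 := by
    simp only [pr]
    fin_cases i
    · show (L 0 * X' 0 + L 1 * X' 1 + L 2 * X' 2) * X 0 = 0
      linear_combination -h0 + X' 0 * hLX
    · show (L 0 * X' 0 + L 1 * X' 1 + L 2 * X' 2) * X 1 = 0
      linear_combination -h1 + X' 1 * hLX
    · show (L 0 * X' 0 + L 1 * X' 1 + L 2 * X' 2) * X 2 = 0
      linear_combination -h2 + X' 2 * hLX
  exact (mul_eq_zero.1 key).resolve_left hLX'

theorem pr_cr_left (X X' : V3) : pr (cr X X') X = 0 := by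
  simp only [pr, cr, Matrix.cons_val_zero, Matrix.cons_val_one, Matrix.cons_val]
  ring

theorem an_refl {G H : ℂ × ℂ → V3} {p : ℂ × ℂ} (hG : AnalyticAt ℂ G p) (hH : AnalyticAt ℂ H p) :
    AnalyticAt ℂ (fun q => refl (G q) (H q)) p := by
  have hb : ∀ {G H : ℂ × ℂ → V3}, AnalyticAt ℂ G p → AnalyticAt ℂ H p →
      AnalyticAt ℂ (fun q => bil (G q) (H q)) p := fun hG hH =>
    ((an_apply hG 0).mul (an_apply hH 0)).add ((an_apply hG 1).mul (an_apply hH 1))
  refine an_pi (fun i => ?_)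
  exact ((hb hG hG).mul (an_apply hH i)).sub ((analyticAt_const.mul (hb hG hH)).mul (an_apply hG i))

/-- incidence of a projective line with the point `X` -/
def Inc (L : P2) (X : V3) : Prop := pr L.rep X = 0

/-- the law of reflection for projective lines, `T` = a vector representing the mirror line -/
def Law (T : V3) (L L' : P2) : Prop := cr (refl T L.rep) L'.rep = 0

theorem rep_smul {v : V3} (hv : v ≠ 0) : ∃ a : ℂ, a ≠ 0 ∧ (Projectivization.mk ℂ v hv : P2).rep = a • v := by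
  have h := Projectivization.mk_rep (Projectivization.mk ℂ v hv : P2)
  rw [Projectivization.mk_eq_mk_iff'] at h
  obtain ⟨a, ha⟩ := h
  refine ⟨a, ?_, ha.symm⟩
  rintro rfl
  rw [zero_smul] at ha
  exact (Projectivization.rep_nonzero _) ha.symm

theorem pr_smul_left (a : ℂ) (u v : V3) : pr (a • u) v = a * pr u v := by
  simp only [pr, Pi.smul_apply, smul_eq_mul]; ring

theorem inc_mk {v X : V3} (hv : v ≠ 0) : Inc (Projectivization.mk ℂ v hv) X ↔ pr v X = 0 := by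
  obtain ⟨a, ha, h⟩ := rep_smul hv
  unfold Inc
  rw [h, pr_smul_left, mul_eq_zero]
  simp [ha]

theorem law_mk {T u v : V3} (hu : u ≠ 0) (hv : v ≠ 0) :
    Law T (Projectivization.mk ℂ u hu) (Projectivization.mk ℂ v hv) ↔ cr (refl T u) v = 0 := by
  obtain ⟨a, ha, h⟩ := rep_smul hu
  obtain ⟨b, hb, h'⟩ := rep_smul hv
  unfold Law
  have h1 := refl_smul_smul 1 a T u
  rw [one_smul] at h1
  rw [h, h', h1, cr_smul_smul, smul_eq_zero]
  have : (1 : ℂ) ^ 2 * a * b ≠ 0 := by simp [ha, hb]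
  simp [ha, hb]

end Reflection

/-! ### the start dichotomy -/

section Dich

/-- **DICH, local form.** `lm` = the line before the vertex, holomorphic at `p₀`, transversal to the
curve `Γ` at the finite point `Γ z₀`.  Then there is a holomorphic germ `H` at `p₀` which is the
reflected line for every germ of a label of the vertex with value close to `z₀` at a point close to
`p₀`. -/
theorem dich_core {lm : ℂ × ℂ → P2} {p₀ : ℂ × ℂ} (hlm : AnP lm p₀) {Γ : ℂ → V3} {z₀ : ℂ}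
    (hΓ : AnalyticAt ℂ Γ z₀) (hfin : Γ z₀ 2 ≠ 0) (hinc : Inc (lm p₀) (Γ z₀))
    (htr : ¬ Inc (lm p₀) (deriv Γ z₀)) :
    ∃ (H : ℂ × ℂ → P2) (ζ : ℂ × ℂ → ℂ), AnP H p₀ ∧ AnalyticAt ℂ ζ p₀ ∧ ζ p₀ = z₀ ∧
      (∀ᶠ q in 𝓝 p₀, Inc (lm q) (Γ (ζ q)) ∧
        Law (cr (Γ (ζ q)) (deriv Γ (ζ q))) (lm q) (H q)) ∧
      ∀ᶠ q : (ℂ × ℂ) × ℂ in 𝓝 (p₀, z₀), ∀ (β : ℂ × ℂ → ℂ) (lp : ℂ × ℂ → P2),
        ContinuousAt β q.1 → β q.1 = q.2 → (∀ᶠ r in 𝓝 q.1, Inc (lm r) (Γ (β r))) →
          β =ᶠ[𝓝 q.1] ζ ∧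
          ((∀ᶠ r in 𝓝 q.1, Law (cr (Γ (β r)) (deriv Γ (β r))) (lm r) (lp r)) →
            H =ᶠ[𝓝 q.1] lp) := by
  obtain ⟨L, hL, hLl⟩ := hlm
  obtain ⟨hL0, hL0'⟩ := hLl.self_of_nhds
  rw [hL0', inc_mk] at hinc htr
  -- the implicit function
  set F : (ℂ × ℂ) × ℂ → ℂ := fun q => pr (L q.1) (Γ q.2) with hFdef
  have hLan : AnalyticAt ℂ (fun q : (ℂ × ℂ) × ℂ => L q.1) (p₀, z₀) :=
    hL.fun_comp analyticAt_fst
  have hΓan : AnalyticAt ℂ (fun q : (ℂ × ℂ) × ℂ => Γ q.2) (p₀, z₀) :=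
    hΓ.fun_comp analyticAt_snd
  have happ : ∀ {G : (ℂ × ℂ) × ℂ → V3}, AnalyticAt ℂ G (p₀, z₀) → ∀ i : Fin 3,
      AnalyticAt ℂ (fun q => G q i) (p₀, z₀) := fun hG i =>
    ((ContinuousLinearMap.proj (R := ℂ) (φ := fun _ : Fin 3 => ℂ) i).analyticAt _).comp hG
  have hF : AnalyticAt ℂ F (p₀, z₀) :=
    (((happ hLan 0).mul (happ hΓan 0)).add ((happ hLan 1).mul (happ hΓan 1))).add
      ((happ hLan 2).mul (happ hΓan 2))
  have hF0 : F (p₀, z₀) = 0 := hinc
  have hΓi : ∀ i : Fin 3, HasDerivAt (fun z => Γ z i) (deriv Γ z₀ i) z₀ := fun i =>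
    hasDerivAt_pi.1 hΓ.differentiableAt.hasDerivAt i
  have hFz : fderiv ℂ F (p₀, z₀) (0, 1) ≠ 0 := by
    have h1 : HasDerivAt (fun z : ℂ => F (p₀, z)) (fderiv ℂ F (p₀, z₀) (0, 1)) z₀ := by
      have h2 : HasDerivAt (fun z : ℂ => (p₀, z)) ((0 : ℂ × ℂ), (1 : ℂ)) z₀ :=
        (hasDerivAt_const z₀ p₀).prodMk (hasDerivAt_id z₀)
      exact hF.differentiableAt.hasFDerivAt.comp_hasDerivAt z₀ h2
    have h3 : HasDerivAt (fun z : ℂ => F (p₀, z)) (pr (L p₀) (deriv Γ z₀)) z₀ :=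
      (((hΓi 0).const_mul (L p₀ 0)).fun_add ((hΓi 1).const_mul (L p₀ 1))).fun_add
        ((hΓi 2).const_mul (L p₀ 2))
    rw [h1.unique h3]
    exact htr
  obtain ⟨ζ, hζ, hζ0, hζF, huniq⟩ := implicit hF hF0 hFz
  -- the mirror line along `ζ`
  set T : ℂ × ℂ → V3 := fun q => cr (Γ (ζ q)) (deriv Γ (ζ q)) with hT
  have hΓζ : AnalyticAt ℂ (fun q => Γ (ζ q)) p₀ := by
    refine AnalyticAt.fun_comp (g := Γ) (f := ζ) ?_ hζ
    rw [hζ0]; exact hΓ
  have hΓζ' : AnalyticAt ℂ (fun q => deriv Γ (ζ q)) p₀ := by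
    refine AnalyticAt.fun_comp (g := deriv Γ) (f := ζ) ?_ hζ
    rw [hζ0]; exact hΓ.deriv
  have hTan : AnalyticAt ℂ T p₀ := an_cr hΓζ hΓζ'
  have hRan : AnalyticAt ℂ (fun q => refl (T q) (L q)) p₀ := an_refl hTan hL
  have hR0 : refl (T p₀) (L p₀) ≠ 0 := by
    have hX : Γ z₀ ≠ 0 := fun h => hfin (by rw [h]; rfl)
    have hTp : T p₀ = cr (Γ z₀) (deriv Γ z₀) := by
      simp only [hT, hζ0]
    rw [hTp]
    refine refl_ne_zero hfin (pr_cr_left _ _) hinc ?_
    exact cr_tangent_ne hX hinc htr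
  have hRne : ∀ᶠ q in 𝓝 p₀, refl (T q) (L q) ≠ 0 := hRan.continuousAt.eventually_ne hR0
  classical
  set H : ℂ × ℂ → P2 := fun q => if h : refl (T q) (L q) ≠ 0 then
    Projectivization.mk ℂ (refl (T q) (L q)) h else lm q with hH
  have hHR : ∀ᶠ q in 𝓝 p₀, ∃ h : refl (T q) (L q) ≠ 0,
      H q = Projectivization.mk ℂ (refl (T q) (L q)) h := by
    filter_upwards [hRne] with q hq
    exact ⟨hq, by simp only [hH]; rw [dif_pos hq]⟩
  refine ⟨H, ζ, ⟨fun q => refl (T q) (L q), hRan, hHR⟩, hζ, hζ0, ?_, ?_⟩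
  · filter_upwards [hHR, hLl, hζF] with q hq hq2 hq3
    obtain ⟨a, ha⟩ := hq
    obtain ⟨b, hb⟩ := hq2
    refine ⟨?_, ?_⟩
    · rw [hb, inc_mk]; exact hq3
    · rw [ha, hb, law_mk]; exact cr_self _
  · have hfst : Tendsto (fun q : (ℂ × ℂ) × ℂ => q.1) (𝓝 (p₀, z₀)) (𝓝 p₀) :=
      continuous_fst.tendsto _
    filter_upwards [huniq.eventually_nhds, hfst.eventually hLl.eventually_nhds,
      hfst.eventually hHR.eventually_nhds] with q hq hq2 hq3
    intro β lp hβ hβq hinc'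
    have hcont : ContinuousAt (fun r : ℂ × ℂ => (r, β r)) q.1 := continuousAt_id.prodMk hβ
    have hpt : (q.1, β q.1) = q := by rw [hβq]
    have h1 : ∀ᶠ r in 𝓝 q.1, F (r, β r) = 0 → β r = ζ r := by
      have h2 : ∀ᶠ x in 𝓝 (q.1, β q.1), F x = 0 → x.2 = ζ x.1 := by rw [hpt]; exact hq
      exact hcont.eventually h2
    have hβζ : β =ᶠ[𝓝 q.1] ζ := by
      filter_upwards [h1, hinc', hq2] with r hr1 hr2 hr3
      obtain ⟨b, hb⟩ := hr3
      rw [hb, inc_mk] at hr2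
      exact hr1 hr2
    refine ⟨hβζ, fun hlaw => ?_⟩
    filter_upwards [hβζ, hlaw, hq2, hq3] with r hr1 hr2 hr3 hr4
    obtain ⟨b, hb⟩ := hr3
    obtain ⟨a, ha⟩ := hr4
    rw [hb, hr1] at hr2
    rw [ha]
    have hlp := Projectivization.mk_rep (lp r)
    rw [← hlp]
    rw [← hlp, law_mk] at hr2
    rw [mk_eq_iff_cr]
    exact hr2

/-- **DICH.** Vertex variable `t`: `lm (t, w) = l (t - w/2, w)` and `lp (t, w) = l (t + w/2, w)`,
given near the real points.  `lm` is regular at `(b, w)`, `lp` is regular on the part `Im t < Im b`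
of a square around `b`.  `Γ : ℂ → ℂ³` = a chart of the curve at `z₀`, `Γ z₀` a finite point.
Labels accumulate at `z₀`: there are `t' → b`, `Im t' < Im b`, with labels `β` of the vertex
near `(t', w)`, `β (t', w) → z₀`.
Then `lp` is regular at `(b, w)`, or `lm (b, w)` is tangent to the curve at `Γ z₀` (T-start). -/
theorem start_dich {lm lp : ℂ × ℂ → P2} {b w : ℂ} {d : ℝ} (hd : 0 < d) (hdb : d ≤ b.im)
    (hlm : Reg AnP lm (b, w))
    (hlp : ∀ t : ℂ, |t.re - b.re| < d → b.im - d < t.im → t.im < b.im → Reg AnP lp (t, w))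
    {Γ : ℂ → V3} {z₀ : ℂ} (hΓ : AnalyticAt ℂ Γ z₀) (hfin : Γ z₀ 2 ≠ 0)
    (hacc : ∃ᶠ q : ℂ × ℂ in 𝓝 (b, z₀), q.1.im < b.im ∧ ∃ β : ℂ × ℂ → ℂ,
      ContinuousAt β (q.1, w) ∧ β (q.1, w) = q.2 ∧ ∀ᶠ r in 𝓝 (q.1, w),
        Inc (ext AnP lm r) (Γ (β r)) ∧
        Law (cr (Γ (β r)) (deriv Γ (β r))) (ext AnP lm r) (ext AnP lp r)) :
    Reg AnP lp (b, w) ∨
      (Inc (ext AnP lm (b, w)) (Γ z₀) ∧ Inc (ext AnP lm (b, w)) (deriv Γ z₀)) := by
  have hA := cls_proj
  have hlman := hlm.an hA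
  by_contra hcon
  push Not at hcon
  obtain ⟨hnr, hcon⟩ := hcon
  -- incidence at the limit
  have hinc : Inc (ext AnP lm (b, w)) (Γ z₀) := by
    obtain ⟨L, hL, hLl⟩ := hlman
    obtain ⟨hL0, hL0'⟩ := hLl.self_of_nhds
    rw [hL0', inc_mk]
    by_contra hne
    have hc : ContinuousAt (fun q : ℂ × ℂ => pr (L (q.1, w)) (Γ q.2)) (b, z₀) := by
      have h1 : ContinuousAt (fun q : ℂ × ℂ => L (q.1, w)) (b, z₀) := by
        have : ContinuousAt (fun q : ℂ × ℂ => (q.1, w)) (b, z₀) := by fun_prop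
        exact ContinuousAt.comp (f := fun q : ℂ × ℂ => (q.1, w)) (g := L) (x := (b, z₀))
          hL.continuousAt this
      have h2 : ContinuousAt (fun q : ℂ × ℂ => Γ q.2) (b, z₀) :=
        ContinuousAt.comp (f := fun q : ℂ × ℂ => q.2) (g := Γ) (x := (b, z₀))
          hΓ.continuousAt continuousAt_snd
      have h1i : ∀ i : Fin 3, ContinuousAt (fun q : ℂ × ℂ => L (q.1, w) i) (b, z₀) := fun i =>
        (continuousAt_pi.1 h1) i
      have h2i : ∀ i : Fin 3, ContinuousAt (fun q : ℂ × ℂ => Γ q.2 i) (b, z₀) := fun i =>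
        (continuousAt_pi.1 h2) i
      exact (((h1i 0).mul (h2i 0)).add ((h1i 1).mul (h2i 1))).add ((h1i 2).mul (h2i 2))
    have h1 : ∀ᶠ q : ℂ × ℂ in 𝓝 (b, z₀), pr (L (q.1, w)) (Γ q.2) ≠ 0 := hc.eventually_ne hne
    have hfst : Tendsto (fun q : ℂ × ℂ => (q.1, w)) (𝓝 (b, z₀)) (𝓝 (b, w)) := by
      have : Continuous (fun q : ℂ × ℂ => (q.1, w)) := by fun_prop
      exact this.tendsto _
    obtain ⟨q, ⟨-, β, hβ, hβq, hev⟩, hq2, hq3⟩ := (hacc.and_eventually
      (h1.and (hfst.eventually hLl.eventually_nhds))).exists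
    obtain ⟨hi, -⟩ := hev.self_of_nhds
    obtain ⟨a, ha⟩ := (hq3.self_of_nhds : ∃ h : L (q.1, w) ≠ 0, _)
    rw [ha, inc_mk, hβq] at hi
    exact hq2 hi
  obtain ⟨H, ζ, hH, -, -, -, hcore⟩ := dich_core hlman hΓ hfin hinc (hcon hinc)
  apply hnr
  -- radius where `H` is holomorphic
  obtain ⟨δ, hδ, hball⟩ := Metric.eventually_nhds_iff_ball.1 (hA.nhds hH)
  set k := min (δ / 2) d with hk
  have hk0 : 0 < k := lt_min (by linarith) hd
  have hmap : Tendsto (fun q : ℂ × ℂ => (((q.1, w), q.2) : (ℂ × ℂ) × ℂ)) (𝓝 (b, z₀))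
      (𝓝 ((b, w), z₀)) := by
    have : Continuous (fun q : ℂ × ℂ => (((q.1, w), q.2) : (ℂ × ℂ) × ℂ)) := by fun_prop
    exact this.tendsto _
  have hnear : ∀ᶠ q : ℂ × ℂ in 𝓝 (b, z₀), ‖q.1 - b‖ < k := by
    have h1 : Tendsto (fun q : ℂ × ℂ => q.1) (𝓝 (b, z₀)) (𝓝 b) := continuous_fst.tendsto _
    filter_upwards [h1.eventually (ball_mem_nhds b hk0)] with q hq
    rw [← dist_eq_norm]; exact hq
  obtain ⟨q, ⟨hq1, β, hβ, hβq, hev⟩, hq2, hq3⟩ := (hacc.and_eventually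
    ((hmap.eventually hcore).and hnear)).exists
  have h2 := hq2 β (ext AnP lp) hβ hβq (hev.mono fun r hr => hr.1)
  have h3 : H =ᶠ[𝓝 (q.1, w)] ext AnP lp := h2.2 (hev.mono fun r hr => hr.2)
  have hre : |q.1.re - b.re| < k := by
    rw [← sub_re]; exact (Complex.abs_re_le_norm _).trans_lt hq3
  have him : |q.1.im - b.im| < k := by
    rw [← sub_im]; exact (Complex.abs_im_le_norm _).trans_lt hq3
  refine reg_of_glue' (H := H) hA hk0 ((min_le_right _ _).trans hdb) ?_ ?_ hre ?_ hq1 h3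
  · intro r hr1 hr2 hr3
    refine hball r ?_
    rw [mem_ball, dist_eq_norm, Prod.norm_def]
    have hkδ : k ≤ δ / 2 := min_le_left _ _
    refine max_lt ?_ ?_
    · show ‖r.1 - b‖ < δ
      refine (Complex.norm_le_abs_re_add_abs_im _).trans_lt ?_
      rw [sub_re, sub_im]
      linarith
    · show ‖r.2 - w‖ < δ
      linarith
  · intro t h4 h5 h6
    have hkd : k ≤ d := min_le_right _ _
    exact hlp t (h4.trans_le hkd) (by linarith) h6
  · linarith [(abs_lt.1 him).1]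

end Dich

end Crest.Agent.R102.T2C312
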