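import Crest.Agent.R102.T2b_849
import Crest.Agent.R102.GeoDefs_821

/-!
Row 102, leaf (T2) of S0_821 (helper849), part c: the reflection law along the leaf map, and the
leaf family of a caustic collar.
-/

set_option autoImplicit false

open Set Filter Topology
open Crest.AnalysisR.Billiard

noncomputable section

namespace Crest.Agent.R102.T2

/-- parallel vectors -/
lemma par {v w : ℝ × ℝ} (hv : v ≠ 0) (h : dt v w = 0) : ∃ c : ℝ, w = c • v := by
  have hp := dot_self_pos hv
  refine ⟨dot v w / dot v v, ?_⟩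
  have h1 : dot v v • w = dot v w • v := by
    unfold dt at h
    unfold dot
    ext
    · simp only [Prod.smul_fst, smul_eq_mul]
      linear_combination (-v.2) * h
    · simp only [Prod.smul_snd, smul_eq_mul]
      linear_combination v.1 * h
  rw [div_eq_inv_mul, mul_smul, ← h1, smul_smul, inv_mul_cancel₀ hp.ne', one_smul]

section
variable {Ω : Set (ℝ × ℝ)} {γ : ℝ → ℝ × ℝ} {P : ℝ} {G : UnitAddCircle × ℝ → ℝ × ℝ}
  {K : Set (ℝ × ℝ)}

/-- if a closed half plane contains `K`, interior points are strictly inside -/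
lemma interior_pos {v p : ℝ × ℝ} (hv : v ≠ 0) (h : ∀ z ∈ K, 0 ≤ dt v (z - p)) {z : ℝ × ℝ}
    (hz : z ∈ interior K) : 0 < dt v (z - p) := by
  have hcont : Continuous fun t : ℝ => z + t • perp v := by fun_prop
  have h0 : (fun t : ℝ => z + t • perp v) 0 ∈ interior K := by simpa using hz
  have hev : ∀ᶠ t in 𝓝 (0 : ℝ), z + t • perp v ∈ interior K :=
    hcont.continuousAt.eventually_mem (isOpen_interior.mem_nhds h0)
  obtain ⟨ε, hε, hball⟩ := Metric.eventually_nhds_iff.1 hev
  have h1 : z + (-(ε / 2)) • perp v ∈ interior K := hball (by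
    rw [Real.dist_eq, sub_zero, abs_neg, abs_of_pos (by linarith)]; linarith)
  have h2 := h _ (interior_subset h1)
  have h3 : dt v (z + (-(ε / 2)) • perp v - p) = dt v (z - p) - ε / 2 * dot v v := by
    unfold dt perp dot; simp; ring
  rw [h3] at h2
  have := mul_pos (half_pos hε) (dot_self_pos hv)
  linarith

/-- a supporting line touches -/
lemma touches_of_left {v p z₀ : ℝ × ℝ} (hv : v ≠ 0) (h : ∀ z ∈ K, 0 ≤ dt v (z - p))
    (hz₀ : z₀ ∈ K) (h0 : dt v (z₀ - p) = 0) : Touches K p v := by
  obtain ⟨c, hc⟩ := par hv h0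
  refine ⟨⟨c, ?_⟩, fun t ht => ?_⟩
  · rw [← hc]; simpa using hz₀
  · have h1 := interior_pos hv h ht
    have h2 : dt v (p + t • v - p) = 0 := by unfold dt; simp; ring
    linarith

/-- a touching line has `K` on one side -/
lemma side_of_touches (hc : Convex ℝ K) (hne : (interior K).Nonempty) {v p : ℝ × ℝ} (hv : v ≠ 0)
    (h : Touches K p v) :
    (∀ z ∈ K, 0 ≤ dt v (z - p)) ∨ (∀ z ∈ K, dt v (z - p) ≤ 0) := by
  have hcont : Continuous fun z : ℝ × ℝ => dt v (z - p) := by unfold dt; fun_prop
  have hnz : ∀ z ∈ interior K, dt v (z - p) ≠ 0 := by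
    intro z hz h0
    obtain ⟨c, hcz⟩ := par hv h0
    apply h.2 c
    rw [← hcz]
    simpa using hz
  have hcl : closure (interior K) = closure K := hc.closure_interior_eq_closure_of_nonempty_interior hne
  have hpre : IsPreconnected (interior K) := hc.interior.isPreconnected
  obtain ⟨y, hy⟩ := hne
  rcases lt_or_gt_of_ne (hnz y hy) with hl | hg
  · right
    have hall : ∀ z ∈ interior K, dt v (z - p) ≤ 0 := by
      intro z hz
      by_contra hcon
      have himg := hpre.intermediate_value hy hz hcont.continuousOn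
      obtain ⟨w, hw, hw0⟩ := himg ⟨hl.le, (not_le.1 hcon).le⟩
      exact hnz w hw hw0
    intro z hz
    have hz' : z ∈ closure (interior K) := by rw [hcl]; exact subset_closure hz
    exact (isClosed_le hcont continuous_const).closure_subset_iff.2 hall hz'
  · left
    have hall : ∀ z ∈ interior K, 0 ≤ dt v (z - p) := by
      intro z hz
      by_contra hcon
      have himg := hpre.intermediate_value hz hy hcont.continuousOn
      obtain ⟨w, hw, hw0⟩ := himg ⟨(not_le.1 hcon).le, hg.le⟩
      exact hnz w hw hw0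
    intro z hz
    have hz' : z ∈ closure (interior K) := by rw [hcl]; exact subset_closure hz
    exact (isClosed_le continuous_const hcont).closure_subset_iff.2 hall hz'

lemma perp_ne {v : ℝ × ℝ} (hv : v ≠ 0) : perp v ≠ 0 := by
  intro h
  apply hv
  unfold perp at h
  have h4 := Prod.ext_iff.1 h
  simp only [Prod.fst_zero, Prod.snd_zero, neg_eq_zero] at h4
  exact Prod.ext h4.2 h4.1

lemma reflect_tan {a v : ℝ × ℝ} : dot a (reflect (perp a) v) = dot a v := by
  unfold reflect dot perp
  simp
  ring

lemma reflect_nor {a v : ℝ × ℝ} (ha : a ≠ 0) : dt a (reflect (perp a) v) = -dt a v := by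
  have hp : dot (perp a) (perp a) ≠ 0 := (dot_self_pos (perp_ne ha)).ne'
  have hk : 2 * dot v (perp a) / dot (perp a) (perp a) * dot (perp a) (perp a)
      = 2 * dot v (perp a) := div_mul_cancel₀ _ hp
  unfold reflect
  set k := 2 * dot v (perp a) / dot (perp a) (perp a) with hkdef
  clear_value k
  unfold dot perp at hk
  unfold dt perp
  simp only [Prod.fst_sub, Prod.snd_sub, Prod.smul_fst, Prod.smul_snd, smul_eq_mul] at hk ⊢
  linear_combination (-1) * hk

lemma reflect_norm {a v : ℝ × ℝ} (ha : a ≠ 0) :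
    dot (reflect (perp a) v) (reflect (perp a) v) = dot v v := by
  have hp : dot (perp a) (perp a) ≠ 0 := (dot_self_pos (perp_ne ha)).ne'
  have hk : 2 * dot v (perp a) / dot (perp a) (perp a) * dot (perp a) (perp a)
      = 2 * dot v (perp a) := div_mul_cancel₀ _ hp
  unfold reflect
  set k := 2 * dot v (perp a) / dot (perp a) (perp a) with hkdef
  clear_value k
  unfold dot perp at hk
  unfold dot perp
  simp only [Prod.fst_sub, Prod.snd_sub, Prod.smul_fst, Prod.smul_snd, smul_eq_mul] at hk ⊢
  linear_combination k * hk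

lemma reflect_ne {a v : ℝ × ℝ} (ha : a ≠ 0) (hv : v ≠ 0) : reflect (perp a) v ≠ 0 := by
  intro h
  have h1 := reflect_norm (v := v) ha
  rw [h] at h1
  have := dot_self_pos hv
  rw [zero_dot] at h1
  linarith

/-- the geometric heart: `u` incoming, `u₁` outgoing supporting directions at `x`; the reflection
of `u` is a positive multiple of `u₁` -/
lemma reflect_heart {a u u₁ x za zb : ℝ × ℝ} (hc : Convex ℝ K) (hne : (interior K).Nonempty)
    (ha : a ≠ 0) (hK : ∀ z ∈ K, 0 < dt a (z - x))
    (hA : ∀ z ∈ K, 0 ≤ dt u (z - x)) (hza : za ∈ K) (hza0 : dt u (za - x) = 0)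
    (hB : ∀ z ∈ K, 0 ≤ dt u₁ (z - x)) (hzb : zb ∈ K) (hzb0 : dt u₁ (zb - x) = 0)
    (hu : dt a u < 0) (hu₁ : 0 < dt a u₁)
    (hrefl : ∀ v : ℝ × ℝ, v ≠ 0 → Touches K x v → Touches K x (reflect (perp a) v)) :
    ∃ c : ℝ, 0 < c ∧ reflect (perp a) u = c • u₁ := by
  have hu0 : u ≠ 0 := by rintro rfl; unfold dt at hu; simp at hu
  have hu10 : u₁ ≠ 0 := by rintro rfl; unfold dt at hu₁; simp at hu₁
  obtain ⟨α, hα⟩ := par hu0 hza0
  obtain ⟨β, hβ⟩ := par hu10 hzb0
  have hα0 : α < 0 := by
    have h1 := hK za hza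
    rw [hα, dt_smul] at h1
    by_contra hcon
    have := mul_nonpos_of_nonneg_of_nonpos (not_lt.1 hcon) hu.le
    linarith
  have hβ0 : 0 < β := by
    have h1 := hK zb hzb
    rw [hβ, dt_smul] at h1
    by_contra hcon
    have := mul_nonpos_of_nonpos_of_nonneg (not_lt.1 hcon) hu₁.le
    linarith
  -- the reflected directions
  set v' := reflect (perp a) u with hv'
  set w' := reflect (perp a) u₁ with hw'
  have tv : dot a v' = dot a u := reflect_tan
  have nv : dt a v' = -dt a u := reflect_nor ha
  have tw : dot a w' = dot a u₁ := reflect_tan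
  have nw : dt a w' = -dt a u₁ := reflect_nor ha
  have hv0 : v' ≠ 0 := reflect_ne ha hu0
  have hw0 : w' ≠ 0 := reflect_ne ha hu10
  have Tv : Touches K x v' := hrefl u hu0 (touches_of_left hu0 hA hza hza0)
  have Tw : Touches K x w' := hrefl u₁ hu10 (touches_of_left hu10 hB hzb hzb0)
  obtain ⟨t, ht⟩ := Tv.1
  obtain ⟨t', ht'⟩ := Tw.1
  have hxt : ∀ (r : ℝ) (q : ℝ × ℝ), x + r • q - x = r • q := by intro r q; simp
  have ht0 : 0 < t := by
    have h1 := hK _ ht
    rw [hxt, dt_smul, nv] at h1
    by_contra hcon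
    have := mul_nonpos_of_nonpos_of_nonneg (not_lt.1 hcon) (neg_nonneg.2 hu.le)
    linarith
  have ht'0 : t' < 0 := by
    have h1 := hK _ ht'
    rw [hxt, dt_smul, nw] at h1
    by_contra hcon
    have := mul_nonpos_of_nonneg_of_nonpos (not_lt.1 hcon) (neg_nonpos.2 hu₁.le)
    linarith
  rcases side_of_touches hc hne hv0 Tv with hL | hR
  · have e1 : 0 ≤ β * dt v' u₁ := by
      have := hL zb hzb
      rwa [hβ, dt_smul] at this
    have e2 : 0 ≤ t * dt u₁ v' := by
      have := hB _ ht
      rwa [hxt, dt_smul] at this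
    have e3 : 0 ≤ dt v' u₁ := nonneg_of_mul_nonneg_right e1 hβ0
    have e4 : 0 ≤ dt u₁ v' := nonneg_of_mul_nonneg_right e2 ht0
    have e5 : dt u₁ v' = 0 := by
      have := dt_swap u₁ v'
      linarith
    obtain ⟨c, hcc⟩ := par hu10 e5
    refine ⟨c, ?_, hcc⟩
    have h1 : dt a v' = c * dt a u₁ := by rw [hcc, dt_smul]
    by_contra hcon
    have := mul_nonpos_of_nonpos_of_nonneg (not_lt.1 hcon) hu₁.le
    linarith
  · exfalso
    have e1 : α * dt v' u ≤ 0 := by
      have := hR za hza
      rwa [hα, dt_smul] at this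
    have e2 : 0 ≤ t * dt u v' := by
      have := hA _ ht
      rwa [hxt, dt_smul] at this
    have e3 : 0 ≤ dt v' u := by
      by_contra hcon
      have := mul_pos_of_neg_of_neg hα0 (not_le.1 hcon)
      linarith
    have e4 : 0 ≤ dt u v' := nonneg_of_mul_nonneg_right e2 ht0
    have e5 : dt u v' = 0 := by
      have := dt_swap u v'
      linarith
    obtain ⟨c, hcc⟩ := par hu0 e5
    have h1 : dt a v' = c * dt a u := by rw [hcc, dt_smul]
    have hc1 : c = -1 := by
      have : (c + 1) * dt a u = 0 := by linarith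
      rcases mul_eq_zero.1 this with h | h
      · linarith
      · linarith
    have hdu : dot a u = 0 := by
      have h2 : dot a v' = c * dot a u := by rw [hcc, dot_smul]
      rw [hc1] at h2
      linarith
    have hdu1 : dot a u₁ = 0 := by
      rcases side_of_touches hc hne hw0 Tw with hL' | hR'
      · have f1 : 0 ≤ α * dt w' u := by
          have := hL' za hza
          rwa [hα, dt_smul] at this
        have f2 : 0 ≤ t' * dt u w' := by
          have := hA _ ht'
          rwa [hxt, dt_smul] at this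
        have f3 : dt w' u ≤ 0 := by
          by_contra hcon
          have := mul_neg_of_neg_of_pos hα0 (not_le.1 hcon)
          linarith
        have f4 : dt u w' ≤ 0 := by
          by_contra hcon
          have := mul_neg_of_neg_of_pos ht'0 (not_le.1 hcon)
          linarith
        have f5 : dt u w' = 0 := by
          have := dt_swap u w'
          linarith
        obtain ⟨d, hd⟩ := par hu0 f5
        have : dot a w' = d * dot a u := by rw [hd, dot_smul]
        rw [tw, hdu, mul_zero] at this
        exact this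
      · have f1 : β * dt w' u₁ ≤ 0 := by
          have := hR' zb hzb
          rwa [hβ, dt_smul] at this
        have f2 : 0 ≤ t' * dt u₁ w' := by
          have := hB _ ht'
          rwa [hxt, dt_smul] at this
        have f3 : dt w' u₁ ≤ 0 := by
          by_contra hcon
          have := mul_pos hβ0 (not_le.1 hcon)
          linarith
        have f4 : dt u₁ w' ≤ 0 := by
          by_contra hcon
          have := mul_neg_of_neg_of_pos ht'0 (not_le.1 hcon)
          linarith
        have f5 : dt u₁ w' = 0 := by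
          have := dt_swap u₁ w'
          linarith
        obtain ⟨d, hd⟩ := par hu10 f5
        have g1 : dt a w' = d * dt a u₁ := by rw [hd, dt_smul]
        have g2 : d = -1 := by
          have : (d + 1) * dt a u₁ = 0 := by linarith
          rcases mul_eq_zero.1 this with h | h
          · linarith
          · linarith
        have : dot a w' = d * dot a u₁ := by rw [hd, dot_smul]
        rw [tw, g2] at this
        linarith
    -- `u` and `u₁` are both normal: `dt u u₁ = 0`, and `K` lies in a line
    have hpa := dot_self_pos ha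
    have g1 : ∀ v : ℝ × ℝ, dot a v = 0 → dot a a • v = dt a v • perp a := by
      intro v hv
      unfold dot at hv
      unfold dot dt perp
      ext
      · simp only [Prod.smul_fst, smul_eq_mul]
        linear_combination a.1 * hv
      · simp only [Prod.smul_snd, smul_eq_mul]
        linear_combination a.2 * hv
    have g2 : ∀ z : ℝ × ℝ, dot a a * dt u z = dt a u * dt (perp a) z := by
      intro z
      have := g1 u hdu
      rw [← smul_dt, this, smul_dt]
    have g3 : ∀ z : ℝ × ℝ, dot a a * dt u₁ z = dt a u₁ * dt (perp a) z := by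
      intro z
      have := g1 u₁ hdu1
      rw [← smul_dt, this, smul_dt]
    obtain ⟨y, hy⟩ := hne
    have i1 := interior_pos hu0 hA hy
    have i2 := interior_pos hu10 hB hy
    have j1 : 0 < dt a u * dt (perp a) (y - x) := by rw [← g2]; exact mul_pos hpa i1
    have j2 : 0 < dt a u₁ * dt (perp a) (y - x) := by rw [← g3]; exact mul_pos hpa i2
    have j3 : 0 < dt (perp a) (y - x) := by
      by_contra hcon
      have := mul_nonpos_of_nonneg_of_nonpos hu₁.le (not_lt.1 hcon)
      linarith
    have := mul_neg_of_neg_of_pos hu j3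
    linarith

/-- the reflection law along the leaf map -/
theorem FF_refl (h : TF Ω γ P) (hc : Collar Ω γ G) {x : ℝ} (hx : x ∈ Ioc (0 : ℝ) (1 / 2)) (s : ℝ) :
    S0.p2 γ s (FF γ P G x s) = S0.p1 γ (FF γ P G x s) (FF γ P G x (FF γ P G x s)) := by
  obtain ⟨K, hK⟩ := hc.body hx
  set s' := FF γ P G x s with hs'
  set s'' := FF γ P G x s' with hs''
  obtain ⟨a1, a2, a3⟩ := FF_spec h hc hx s
  obtain ⟨b1, b2, b3⟩ := FF_spec h hc hx s'
  rw [← hs'] at a1 a2 a3
  rw [← hs''] at b1 b2 b3
  obtain ⟨θa, hθa⟩ := exists_mm (γ := γ) hc.cont s s' x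
  obtain ⟨θb, hθb⟩ := exists_mm (γ := γ) hc.cont s' s'' x
  have shift : ∀ z : ℝ × ℝ, dt (γ s' - γ s) (z - γ s) = dt (γ s' - γ s) (z - γ s') := by
    intro z; unfold dt; simp; ring
  have key := reflect_heart (K := K) (a := deriv γ s') (u := γ s' - γ s) (u₁ := γ s'' - γ s')
    (x := γ s') (za := G (θa, x)) (zb := G (θb, x)) hK.conv hK.ne (h.dne s')
    (fun z hz => h.tan' s' (hK.sub hz))
    (fun z hz => by
      have := mm_le_body hK hc.cont s s' hz
      rw [a3, shift] at this
      exact this)
    (hK.mem_G θa) (by rw [← shift, hθa, a3])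
    (fun z hz => by
      have := mm_le_body hK hc.cont s' s'' hz
      rwa [b3] at this)
    (hK.mem_G θb) (by rw [hθb, b3])
    (by
      have h1 := h.tanγ' a1 a2
      have h2 : dt (deriv γ s') (γ s' - γ s) = -dt (deriv γ s') (γ s - γ s') := by
        unfold dt; simp; ring
      linarith)
    (h.tanγ b1 b2)
    (fun v hv hT => hK.refl s' v hv hT)
  obtain ⟨c, hc0, hcc⟩ := key
  have t1 : dot (deriv γ s') (γ s' - γ s) = c * dot (deriv γ s') (γ s'' - γ s') := by
    rw [← dot_smul, ← hcc, reflect_tan]
  have t2 : dot (γ s' - γ s) (γ s' - γ s) = c ^ 2 * dot (γ s'' - γ s') (γ s'' - γ s') := by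
    rw [← reflect_norm (v := γ s' - γ s) (h.dne s'), hcc, dot_smul, smul_dot]
    ring
  unfold S0.p2 S0.p1 S0.len
  rw [t1, t2, Real.sqrt_mul (by positivity), Real.sqrt_sq hc0.le, mul_div_mul_left _ _ hc0.ne']

/-- **(T2)** the caustics of a collar form a leaf family -/
theorem leafFam_of_collar (h : TF Ω γ P) (hc : HasCausticCollar Ω γ) :
    ∃ F : ℝ → ℝ → ℝ, S0.LeafFam P (1 / 2) (S0.p1 γ) (S0.p2 γ) F := by
  obtain ⟨G, hG⟩ := exists_collar hc
  refine ⟨FF γ P G, ?_⟩
  exact
    { hb := by norm_num
      cont := FF_continuousOn h hG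
      mono := fun b hb => FF_strictMono h hG ⟨hb.1, hb.2.le⟩
      per := fun b hb s => FF_per h hG ⟨hb.1, hb.2.le⟩ s
      lo := fun b hb s => (FF_spec h hG ⟨hb.1, hb.2.le⟩ s).1
      hi := fun b hb s => (FF_spec h hG ⟨hb.1, hb.2.le⟩ s).2.1
      refl := fun b hb s => FF_refl h hG ⟨hb.1, hb.2.le⟩ s
      mono_b := fun s => FF_strictMonoOn h hG s
      lim := fun s => FF_tendsto h hG s }

end

end Crest.Agent.R102.T2
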