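import Crest.Prelude.Def_ConvexBilliard

/-!
Row 102, leaf (T2) of S0_821 (helper849), part a: support functions of the caustics of a collar,
nestedness of the caustics.
-/

set_option autoImplicit false

open Set Filter Topology
open Crest.AnalysisR.Billiard

noncomputable section

namespace Crest.Agent.R102.T2

/-- elementary facts on `dot` -/
lemma dot_comm (v w : ℝ × ℝ) : dot v w = dot w v := by unfold dot; ring

lemma dot_add (e v w : ℝ × ℝ) : dot e (v + w) = dot e v + dot e w := by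
  simp [dot]; ring

lemma dot_sub (e v w : ℝ × ℝ) : dot e (v - w) = dot e v - dot e w := by
  simp [dot]; ring

lemma dot_smul (e v : ℝ × ℝ) (c : ℝ) : dot e (c • v) = c * dot e v := by
  simp [dot]; ring

lemma smul_dot (e v : ℝ × ℝ) (c : ℝ) : dot (c • e) v = c * dot e v := by
  simp [dot]; ring

lemma neg_dot (e v : ℝ × ℝ) : dot (-e) v = -dot e v := by
  simp [dot]; ring

lemma zero_dot (v : ℝ × ℝ) : dot 0 v = 0 := by
  simp [dot]

lemma dot_self_pos {e : ℝ × ℝ} (he : e ≠ 0) : 0 < dot e e := by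
  unfold dot
  rcases lt_or_eq_of_le (add_nonneg (mul_self_nonneg e.1) (mul_self_nonneg e.2)) with h | h
  · exact h
  · exfalso
    apply he
    have h1 : e.1 * e.1 = 0 := by
      have := mul_self_nonneg e.1; have := mul_self_nonneg e.2; linarith
    have h2 : e.2 * e.2 = 0 := by
      have := mul_self_nonneg e.1; have := mul_self_nonneg e.2; linarith
    exact Prod.ext (mul_self_eq_zero.mp h1) (mul_self_eq_zero.mp h2)

lemma continuous_dot : Continuous fun p : (ℝ × ℝ) × (ℝ × ℝ) => dot p.1 p.2 := by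
  unfold dot
  fun_prop

/-- a continuous linear functional on the plane is a `dot` -/
lemma clm_eq_dot (f : (ℝ × ℝ) →L[ℝ] ℝ) : ∃ e : ℝ × ℝ, ∀ v, f v = dot e v := by
  refine ⟨(f (1, 0), f (0, 1)), fun v => ?_⟩
  have : v = v.1 • ((1 : ℝ), (0 : ℝ)) + v.2 • ((0 : ℝ), (1 : ℝ)) := by
    ext <;> simp
  conv_lhs => rw [this]
  rw [map_add, map_smul, map_smul]
  simp [dot]
  ring

/-- the maximum of a nonzero linear functional on a compact set is attained on the frontier -/
lemma exists_max_frontier {K : Set (ℝ × ℝ)} (hK : IsCompact K) (hne : K.Nonempty) {e : ℝ × ℝ}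
    (he : e ≠ 0) : ∃ z ∈ frontier K, ∀ y ∈ K, dot e y ≤ dot e z := by
  have hc : Continuous fun z : ℝ × ℝ => dot e z :=
    continuous_dot.comp (continuous_const.prodMk continuous_id)
  obtain ⟨z, hz, hmax⟩ := hK.exists_isMaxOn hne hc.continuousOn
  refine ⟨z, ⟨subset_closure hz, fun hzi => ?_⟩, fun y hy => hmax hy⟩
  have hcont : Continuous fun t : ℝ => z + t • e := by fun_prop
  have h0 : (fun t : ℝ => z + t • e) 0 ∈ interior K := by simpa using hzi
  have hev : ∀ᶠ t in 𝓝 (0 : ℝ), z + t • e ∈ interior K :=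
    hcont.continuousAt.eventually_mem (isOpen_interior.mem_nhds h0)
  obtain ⟨ε, hε, hball⟩ := Metric.eventually_nhds_iff.1 hev
  have h1 : z + (ε / 2) • e ∈ interior K := hball (by
    rw [Real.dist_eq]; rw [sub_zero, abs_of_pos (by linarith)]; linarith)
  have h2 := hmax (interior_subset h1)
  simp only [mem_ofPred_eq] at h2
  rw [dot_add, dot_smul] at h2
  have := mul_pos (half_pos hε) (dot_self_pos he)
  linarith

/-- a maximiser over `K` of a nonzero functional lies on the frontier -/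
lemma mem_frontier_of_max {K : Set (ℝ × ℝ)} {e z : ℝ × ℝ} (he : e ≠ 0) (hz : z ∈ K)
    (hmax : ∀ y ∈ K, dot e y ≤ dot e z) : z ∈ frontier K := by
  refine ⟨subset_closure hz, fun hzi => ?_⟩
  have hcont : Continuous fun t : ℝ => z + t • e := by fun_prop
  have h0 : (fun t : ℝ => z + t • e) 0 ∈ interior K := by simpa using hzi
  have hev : ∀ᶠ t in 𝓝 (0 : ℝ), z + t • e ∈ interior K :=
    hcont.continuousAt.eventually_mem (isOpen_interior.mem_nhds h0)
  obtain ⟨ε, hε, hball⟩ := Metric.eventually_nhds_iff.1 hev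
  have h1 : z + (ε / 2) • e ∈ interior K := hball (by
    rw [Real.dist_eq]; rw [sub_zero, abs_of_pos (by linarith)]; linarith)
  have h2 := hmax _ (interior_subset h1)
  rw [dot_add, dot_smul] at h2
  have := mul_pos (half_pos hε) (dot_self_pos he)
  linarith

/-- separation: if `z` satisfies all the support inequalities of the closed convex `K`, `z ∈ K` -/
lemma mem_of_dot_le {K : Set (ℝ × ℝ)} (hK : IsClosed K) (hc : Convex ℝ K) {z : ℝ × ℝ}
    (h : ∀ e : ℝ × ℝ, ∃ y ∈ K, dot e z ≤ dot e y) : z ∈ K := by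
  by_contra hz
  obtain ⟨f, u, hfu, huf⟩ := geometric_hahn_banach_closed_point hc hK hz
  obtain ⟨e, he⟩ := clm_eq_dot f
  obtain ⟨y, hy, hle⟩ := h e
  have h1 := hfu y hy
  rw [he] at h1 huf
  linarith

/-- from a point of a bounded open set one reaches the frontier in every direction -/
lemma exists_frontier_ray {Ω : Set (ℝ × ℝ)} (ho : IsOpen Ω) (hb : Bornology.IsBounded Ω)
    {z e : ℝ × ℝ} (hz : z ∈ Ω) (he : e ≠ 0) : ∃ t : ℝ, 0 < t ∧ z + t • e ∈ frontier Ω := by
  have hcont : Continuous fun t : ℝ => z + t • e := by fun_prop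
  set S : Set ℝ := {t | 0 ≤ t ∧ z + t • e ∉ Ω} with hS
  have hSc : IsClosed S := by
    have h1 : IsClosed {t : ℝ | 0 ≤ t} := isClosed_le continuous_const continuous_id
    have h2 : IsClosed {t : ℝ | z + t • e ∉ Ω} := (ho.preimage hcont).isClosed_compl
    exact h1.inter h2
  have hSne : S.Nonempty := by
    obtain ⟨R, hR⟩ := hb.exists_norm_le
    have hen : 0 < ‖e‖ := norm_pos_iff.mpr he
    have hzR : ‖z‖ ≤ R := hR z hz
    have hz0 : 0 ≤ ‖z‖ := norm_nonneg z
    have hR0 : 0 ≤ R := hz0.trans hzR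
    refine ⟨(‖z‖ + R + 1) / ‖e‖, ?_, fun hmem => ?_⟩
    · positivity
    · have h1 := hR _ hmem
      have h2 : ‖((‖z‖ + R + 1) / ‖e‖) • e‖ = ‖z‖ + R + 1 := by
        rw [norm_smul, Real.norm_of_nonneg (by positivity)]
        field_simp
      have h3 : ‖((‖z‖ + R + 1) / ‖e‖) • e‖ ≤ ‖z + ((‖z‖ + R + 1) / ‖e‖) • e‖ + ‖z‖ := by
        have := norm_sub_le (z + ((‖z‖ + R + 1) / ‖e‖) • e) z
        simpa using this
      linarith
  have hSb : BddBelow S := ⟨0, fun t ht => ht.1⟩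
  have hmem : sInf S ∈ S := hSc.csInf_mem hSne hSb
  have hpos : 0 < sInf S := by
    rcases lt_or_eq_of_le hmem.1 with h | h
    · exact h
    · exfalso
      apply hmem.2
      rw [← h]
      simpa using hz
  refine ⟨sInf S, hpos, ?_⟩
  rw [ho.frontier_eq]
  refine ⟨?_, hmem.2⟩
  -- points before sInf S are in Ω
  have h1 : ∀ t ∈ Ico 0 (sInf S), z + t • e ∈ Ω := by
    intro t ht
    by_contra hc
    exact absurd (csInf_le hSb ⟨ht.1, hc⟩) (not_le.mpr ht.2)
  have h2 : sInf S ∈ closure (Ico 0 (sInf S)) := by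
    rw [closure_Ico hpos.ne]
    exact ⟨hpos.le, le_rfl⟩
  exact map_mem_closure (f := fun t : ℝ => z + t • e) hcont h2 h1

/-- the collar data used below -/
structure Collar (Ω : Set (ℝ × ℝ)) (γ : ℝ → ℝ × ℝ) (G : UnitAddCircle × ℝ → ℝ × ℝ) : Prop where
  cont : Continuous G
  inj : ∀ (θ θ' : UnitAddCircle) (x x' : ℝ), x ∈ Icc (0 : ℝ) (1 / 2) → x' ∈ Icc (0 : ℝ) (1 / 2) →
    G (θ, x) = G (θ', x') → x = x'
  zero : range (fun θ : UnitAddCircle => G (θ, 0)) = frontier Ω
  caustic : ∀ x ∈ Ioc (0 : ℝ) (1 / 2), IsCaustic Ω γ (range fun θ : UnitAddCircle => G (θ, x))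

/-- the clamp `ℝ → [0, 1/2] ⊆ [0, 1)` -/
def clamp (x : ℝ) : Ico (0 : ℝ) 1 :=
  ⟨max 0 (min x (1 / 2)), le_max_left _ _, by
    refine max_lt (by norm_num) (lt_of_le_of_lt (min_le_right _ _) (by norm_num))⟩

lemma continuous_clamp : Continuous clamp := by
  unfold clamp
  exact Continuous.subtype_mk (by fun_prop) _

lemma clamp_of_mem {x : ℝ} (hx : x ∈ Icc (0 : ℝ) (1 / 2)) : ((clamp x : Ico (0 : ℝ) 1) : ℝ) = x := by
  unfold clamp
  simp only
  rw [min_eq_left hx.2, max_eq_right hx.1]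

lemma exists_collar {Ω : Set (ℝ × ℝ)} {γ : ℝ → ℝ × ℝ} (h : HasCausticCollar Ω γ) :
    ∃ G : UnitAddCircle × ℝ → ℝ × ℝ, Collar Ω γ G := by
  obtain ⟨A, -, -, -, H, h0, hC⟩ := h
  refine ⟨fun p => ((H (p.1, clamp p.2) : A) : ℝ × ℝ), ?_, ?_, ?_, ?_⟩
  · have : Continuous fun p : UnitAddCircle × ℝ => (p.1, clamp p.2) :=
      continuous_fst.prodMk (continuous_clamp.comp continuous_snd)
    exact continuous_subtype_val.comp (H.continuous.comp this)
  · intro θ θ' x x' hx hx' he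
    have h1 := H.injective (Subtype.ext he)
    have h2 : clamp x = clamp x' := (Prod.ext_iff.1 h1).2
    rw [← clamp_of_mem hx, ← clamp_of_mem hx', h2]
  · rw [← h0]
    ext z
    constructor
    · rintro ⟨θ, rfl⟩
      exact ⟨θ, clamp 0, clamp_of_mem (by norm_num), rfl⟩
    · rintro ⟨θ, b, hb, rfl⟩
      refine ⟨θ, ?_⟩
      have : clamp 0 = b := by
        apply Subtype.ext
        rw [clamp_of_mem (by norm_num), hb]
      simp only [this]
  · intro x hx
    have h1 := hC (clamp x) (by rw [clamp_of_mem ⟨hx.1.le, hx.2⟩]; exact hx.1)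
    exact h1

section
variable {Ω : Set (ℝ × ℝ)} {γ : ℝ → ℝ × ℝ} {G : UnitAddCircle × ℝ → ℝ × ℝ}

/-- the support function of the circle at height `x` -/
def hs (G : UnitAddCircle × ℝ → ℝ × ℝ) (x : ℝ) (e : ℝ × ℝ) : ℝ :=
  sSup ((fun θ : UnitAddCircle => dot e (G (θ, x))) '' univ)

lemma hs_cont (hG : Continuous G) : Continuous fun p : ℝ × (ℝ × ℝ) => hs G p.1 p.2 := by
  unfold hs
  refine IsCompact.continuous_sSup (f := fun (p : ℝ × (ℝ × ℝ)) (θ : UnitAddCircle) =>
    dot p.2 (G (θ, p.1))) isCompact_univ ?_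
  have : Continuous fun q : (ℝ × (ℝ × ℝ)) × UnitAddCircle => dot q.1.2 (G (q.2, q.1.1)) :=
    continuous_dot.comp ((continuous_snd.comp continuous_fst).prodMk
      (hG.comp (continuous_snd.prodMk (continuous_fst.comp continuous_fst))))
  exact this

lemma slice_cont (hG : Continuous G) (x : ℝ) (e : ℝ × ℝ) :
    Continuous fun θ : UnitAddCircle => dot e (G (θ, x)) :=
  continuous_dot.comp (continuous_const.prodMk (hG.comp (continuous_id.prodMk continuous_const)))

lemma le_hs (hG : Continuous G) (x : ℝ) (e : ℝ × ℝ) (θ : UnitAddCircle) :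
    dot e (G (θ, x)) ≤ hs G x e := by
  unfold hs
  exact le_csSup (isCompact_univ.bddAbove_image (slice_cont hG x e).continuousOn)
    ⟨θ, mem_univ _, rfl⟩

lemma exists_hs (hG : Continuous G) (x : ℝ) (e : ℝ × ℝ) :
    ∃ θ : UnitAddCircle, dot e (G (θ, x)) = hs G x e := by
  obtain ⟨θ, -, hθ⟩ := (isCompact_univ (X := UnitAddCircle)).exists_sSup_image_eq
    ⟨0, mem_univ _⟩ (slice_cont hG x e).continuousOn
  exact ⟨θ, hθ.symm⟩

lemma hs_smul (hG : Continuous G) (x : ℝ) (e : ℝ × ℝ) {c : ℝ} (hc : 0 ≤ c) :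
    hs G x (c • e) = c * hs G x e := by
  apply le_antisymm
  · obtain ⟨θ, hθ⟩ := exists_hs hG x (c • e)
    rw [← hθ, smul_dot]
    exact mul_le_mul_of_nonneg_left (le_hs hG x e θ) hc
  · obtain ⟨θ, hθ⟩ := exists_hs hG x e
    rw [← hθ, ← smul_dot]
    exact le_hs hG x _ θ

/-- the convex body bounded by the caustic at height `x` -/
structure Body (Ω : Set (ℝ × ℝ)) (γ : ℝ → ℝ × ℝ) (G : UnitAddCircle × ℝ → ℝ × ℝ) (x : ℝ)
    (K : Set (ℝ × ℝ)) : Prop where
  cpt : IsCompact K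
  conv : Convex ℝ K
  ne : (interior K).Nonempty
  sub : K ⊆ Ω
  fr : frontier K = range fun θ : UnitAddCircle => G (θ, x)
  refl : ∀ (s : ℝ) (v : ℝ × ℝ), v ≠ 0 → Touches K (γ s) v →
    Touches K (γ s) (reflect (perp (deriv γ s)) v)

lemma Collar.body (h : Collar Ω γ G) {x : ℝ} (hx : x ∈ Ioc (0 : ℝ) (1 / 2)) :
    ∃ K, Body Ω γ G x K := by
  obtain ⟨-, K, h1, h2, h3, h4, h5, h6⟩ := h.caustic x hx
  exact ⟨K, h1, h2.convex, h3, h4, h5, h6⟩

lemma Body.nonempty {x : ℝ} {K : Set (ℝ × ℝ)} (h : Body Ω γ G x K) : K.Nonempty :=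
  h.ne.mono interior_subset

lemma Body.mem_G {x : ℝ} {K : Set (ℝ × ℝ)} (h : Body Ω γ G x K) (θ : UnitAddCircle) :
    G (θ, x) ∈ K := by
  have : G (θ, x) ∈ frontier K := by rw [h.fr]; exact ⟨θ, rfl⟩
  exact h.cpt.isClosed.frontier_subset this

lemma Body.le_hs {x : ℝ} {K : Set (ℝ × ℝ)} (h : Body Ω γ G x K) (hG : Continuous G) (e : ℝ × ℝ)
    {z : ℝ × ℝ} (hz : z ∈ K) : dot e z ≤ hs G x e := by
  by_cases he : e = 0
  · subst he
    rw [zero_dot]
    have := Crest.Agent.R102.T2.le_hs hG x 0 0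
    rwa [zero_dot] at this
  · obtain ⟨y, hy, hmax⟩ := exists_max_frontier h.cpt h.nonempty he
    rw [h.fr] at hy
    obtain ⟨θ, rfl⟩ := hy
    exact (hmax z hz).trans (Crest.Agent.R102.T2.le_hs hG x e θ)

/-- at height `0` the support function is strictly bigger than that of any point of `Ω` -/
lemma Collar.lt_zero (h : Collar Ω γ G) (ho : IsOpen Ω) (hb : Bornology.IsBounded Ω)
    {z e : ℝ × ℝ} (hz : z ∈ Ω) (he : e ≠ 0) : dot e z < hs G 0 e := by
  obtain ⟨t, ht, hf⟩ := exists_frontier_ray ho hb hz he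
  rw [← h.zero] at hf
  obtain ⟨θ, hθ⟩ := hf
  have h1 := le_hs h.cont 0 e θ
  have h2 : dot e (G (θ, 0)) = dot e z + t * dot e e := by
    have : G (θ, 0) = z + t • e := hθ
    rw [this, dot_add, dot_smul]
  have := mul_pos ht (dot_self_pos he)
  linarith

/-- NESTED: the support functions are strictly decreasing in the height -/
theorem Collar.nested (h : Collar Ω γ G) (ho : IsOpen Ω) (hb : Bornology.IsBounded Ω)
    {x x₀ : ℝ} (hx : 0 ≤ x) (hxx : x < x₀) (hx₀ : x₀ ≤ 1 / 2) {e : ℝ × ℝ} (he : e ≠ 0) :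
    hs G x₀ e < hs G x e := by
  -- the compact circle of directions (sup norm)
  set Sp : Set (ℝ × ℝ) := Metric.sphere (0 : ℝ × ℝ) 1 with hSp
  have hSpc : IsCompact Sp := isCompact_sphere _ _
  have hSp0 : ∀ u ∈ Sp, u ≠ 0 := by
    intro u hu h0
    rw [h0, hSp, mem_sphere_zero_iff_norm, norm_zero] at hu
    exact zero_ne_one hu
  obtain ⟨K₀, hK₀⟩ := h.body (x := x₀) ⟨by linarith, hx₀⟩
  set Q : Set ℝ := {y | ∀ u ∈ Sp, hs G x₀ u < hs G y u} with hQ
  have hQo : IsOpen Q := by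
    rw [← isClosed_compl_iff]
    have h3 : Qᶜ = {y : ℝ | ∃ u : Sp, hs G y u ≤ hs G x₀ u} := by
      ext y
      simp only [hQ, mem_compl_iff, mem_ofPred_eq, not_forall, not_lt, Subtype.exists, exists_prop]
    rw [h3]
    have : CompactSpace Sp := isCompact_iff_compactSpace.mp hSpc
    have h4 : IsClosed {p : ℝ × Sp | hs G p.1 (p.2 : ℝ × ℝ) ≤ hs G x₀ (p.2 : ℝ × ℝ)} :=
      isClosed_le ((hs_cont h.cont).comp
          (continuous_fst.prodMk (continuous_subtype_val.comp continuous_snd)))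
        ((hs_cont h.cont).comp
          (continuous_const.prodMk (continuous_subtype_val.comp continuous_snd)))
    have h5 := isClosedMap_fst_of_compactSpace (X := ℝ) (Y := Sp) _ h4
    convert h5 using 1
    ext y
    simp only [mem_ofPred_eq, mem_image, Prod.exists, exists_and_right, exists_eq_right]
  have hnorm : ∀ e : ℝ × ℝ, e ≠ 0 → ∃ u ∈ Sp, e = ‖e‖ • u := by
    intro e he
    have hen : 0 < ‖e‖ := norm_pos_iff.mpr he
    refine ⟨‖e‖⁻¹ • e, ?_, ?_⟩
    · rw [hSp, mem_sphere_zero_iff_norm, norm_smul, norm_inv, norm_norm,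
        inv_mul_cancel₀ hen.ne']
    · rw [smul_smul, mul_inv_cancel₀ hen.ne', one_smul]
  have hQ0 : (0 : ℝ) ∈ Q := by
    intro u hu
    obtain ⟨θ, hθ⟩ := exists_hs h.cont x₀ u
    rw [← hθ]
    exact h.lt_zero ho hb (hK₀.sub (hK₀.mem_G θ)) (hSp0 u hu)
  have hsub : Ico 0 x₀ ⊆ Q := by
    apply isPreconnected_Ico.subset_of_closure_inter_subset hQo
      ⟨0, ⟨le_rfl, by linarith⟩, hQ0⟩
    rintro y ⟨hyc, hy0, hy1⟩
    have hle : ∀ u ∈ Sp, hs G x₀ u ≤ hs G y u := by
      intro u hu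
      have hcl : IsClosed {y : ℝ | hs G x₀ u ≤ hs G y u} :=
        isClosed_le continuous_const
          ((hs_cont h.cont).comp (continuous_id.prodMk continuous_const))
      exact hcl.closure_subset_iff.2 (fun y hy => (hy u hu).le) hyc
    rcases hy0.eq_or_lt with h0 | h0
    · rw [← h0]
      exact hQ0
    · obtain ⟨K, hK⟩ := h.body (x := y) ⟨h0, by linarith⟩
      have hKK : K₀ ⊆ K := by
        intro z hz
        refine mem_of_dot_le hK.cpt.isClosed hK.conv fun e => ?_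
        by_cases he : e = 0
        · subst he
          obtain ⟨y', hy'⟩ := hK.nonempty
          exact ⟨y', hy', by rw [zero_dot, zero_dot]⟩
        · obtain ⟨u, hu, heu⟩ := hnorm e he
          obtain ⟨θ, hθ⟩ := exists_hs h.cont y e
          refine ⟨G (θ, y), hK.mem_G θ, ?_⟩
          rw [hθ]
          refine (hK₀.le_hs h.cont e hz).trans ?_
          rw [heu, hs_smul h.cont _ _ (norm_nonneg e), hs_smul h.cont _ _ (norm_nonneg e)]
          exact mul_le_mul_of_nonneg_left (hle u hu) (norm_nonneg e)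
      intro u hu
      by_contra hcon
      have heq : hs G x₀ u = hs G y u := le_antisymm (hle u hu) (not_lt.1 hcon)
      obtain ⟨θ, hθ⟩ := exists_hs h.cont x₀ u
      have hmem : G (θ, x₀) ∈ frontier K := by
        refine mem_frontier_of_max (hSp0 u hu) (hKK (hK₀.mem_G θ)) fun z hz => ?_
        rw [hθ, heq]
        exact hK.le_hs h.cont u hz
      rw [hK.fr] at hmem
      obtain ⟨θ', hθ'⟩ := hmem
      have := h.inj θ' θ y x₀ ⟨hy0, by linarith⟩ ⟨by linarith, hx₀⟩ hθ'
      linarith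
  obtain ⟨u, hu, heu⟩ := hnorm e he
  have hen : 0 < ‖e‖ := norm_pos_iff.mpr he
  rw [heu, hs_smul h.cont _ _ (norm_nonneg e), hs_smul h.cont _ _ (norm_nonneg e)]
  exact mul_lt_mul_of_pos_left (hsub ⟨hx, hxx⟩ u hu) hen

end

end Crest.Agent.R102.T2
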