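import Crest.Agent.R102.T2a_849

/-!
Row 102, leaf (T2) of S0_821 (helper849), part b: the function `m(s, s', x)` and the leaf map `F`.
-/

set_option autoImplicit false

open Set Filter Topology
open Crest.AnalysisR.Billiard

noncomputable section

namespace Crest.Agent.R102.T2

/-- the determinant of two plane vectors -/
def dt (v w : ℝ × ℝ) : ℝ := v.1 * w.2 - v.2 * w.1

lemma dt_eq (v w : ℝ × ℝ) : dt v w = dot (perp v) w := by unfold dt dot perp; simp; ring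

/-- Plücker relation -/
lemma pl (a u v w : ℝ × ℝ) : dt a u * dt v w - dt a v * dt u w + dt a w * dt u v = 0 := by
  unfold dt; ring

lemma dt_sub (a u v : ℝ × ℝ) : dt a (u - v) = dt a u - dt a v := by
  unfold dt; simp; ring

lemma dt_add (a u v : ℝ × ℝ) : dt a (u + v) = dt a u + dt a v := by
  unfold dt; simp; ring

lemma dt_smul (a u : ℝ × ℝ) (c : ℝ) : dt a (c • u) = c * dt a u := by
  unfold dt; simp; ring

lemma smul_dt (a u : ℝ × ℝ) (c : ℝ) : dt (c • a) u = c * dt a u := by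
  unfold dt; simp; ring

lemma dt_neg (a u : ℝ × ℝ) : dt a (-u) = -dt a u := by
  unfold dt; simp; ring

lemma dt_self (a : ℝ × ℝ) : dt a a = 0 := by unfold dt; ring

lemma dt_swap (a b : ℝ × ℝ) : dt a b = -dt b a := by unfold dt; ring

lemma continuous_dt : Continuous fun p : (ℝ × ℝ) × (ℝ × ℝ) => dt p.1 p.2 := by
  unfold dt
  fun_prop

/-- the facts (T1) about a table which are used for (T2) -/
structure TF (Ω : Set (ℝ × ℝ)) (γ : ℝ → ℝ × ℝ) (P : ℝ) : Prop where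
  hP : 0 < P
  op : IsOpen Ω
  bd : Bornology.IsBounded Ω
  per : ∀ s, γ (s + P) = γ s
  der : ∀ s, HasDerivAt γ (deriv γ s) s
  dne : ∀ s, deriv γ s ≠ 0
  fr : range γ = frontier Ω
  tan : ∀ s, ∀ z ∈ closure Ω, z ≠ γ s → 0 < dt (deriv γ s) (z - γ s)
  ori : ∀ s s' σ, s < s' → s' < σ → σ < s + P → 0 < dt (γ s' - γ s) (γ σ - γ s)

section
variable {Ω : Set (ℝ × ℝ)} {γ : ℝ → ℝ × ℝ} {P : ℝ} {G : UnitAddCircle × ℝ → ℝ × ℝ}

lemma TF.cont (h : TF Ω γ P) : Continuous γ :=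
  continuous_iff_continuousAt.2 fun s => (h.der s).continuousAt

lemma TF.tan' (h : TF Ω γ P) (s : ℝ) {z : ℝ × ℝ} (hz : z ∈ Ω) :
    0 < dt (deriv γ s) (z - γ s) := by
  refine h.tan s z (subset_closure hz) fun he => ?_
  have h1 : γ s ∈ frontier Ω := by rw [← h.fr]; exact ⟨s, rfl⟩
  rw [h.op.frontier_eq, ← he] at h1
  exact h1.2 hz

/-- chords: strictly inside a period the points of the curve are different -/
lemma TF.ne (h : TF Ω γ P) {s s' : ℝ} (h1 : s < s') (h2 : s' < s + P) : γ s' ≠ γ s := by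
  intro he
  have := h.ori s s' ((s' + (s + P)) / 2) h1 (by linarith) (by linarith)
  rw [he, sub_self] at this
  unfold dt at this
  simp at this

lemma TF.tanγ (h : TF Ω γ P) {s s' : ℝ} (h1 : s < s') (h2 : s' < s + P) :
    0 < dt (deriv γ s) (γ s' - γ s) := by
  refine h.tan s _ ?_ (h.ne h1 h2)
  have : γ s' ∈ frontier Ω := by rw [← h.fr]; exact ⟨s', rfl⟩
  exact frontier_subset_closure this

lemma TF.tanγ' (h : TF Ω γ P) {s s' : ℝ} (h1 : s < s') (h2 : s' < s + P) :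
    0 < dt (deriv γ s') (γ s - γ s') := by
  refine h.tan s' _ ?_ (h.ne h1 h2).symm
  have : γ s ∈ frontier Ω := by rw [← h.fr]; exact ⟨s, rfl⟩
  exact frontier_subset_closure this

lemma TF.ori' (h : TF Ω γ P) {s s' σ : ℝ} (h1 : s < σ) (h2 : σ < s') (h3 : s' < s + P) :
    dt (γ s' - γ s) (γ σ - γ s) < 0 := by
  have := h.ori s σ s' h1 h2 h3
  rw [dt_swap] at this
  linarith

/-- `m(s, s', x)`: minimum over the caustic of height `x` of the determinant with the chord -/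
def mm (γ : ℝ → ℝ × ℝ) (G : UnitAddCircle × ℝ → ℝ × ℝ) (s s' x : ℝ) : ℝ :=
  -hs G x (-perp (γ s' - γ s)) - dt (γ s' - γ s) (γ s)

lemma perp_smul (c : ℝ) (v : ℝ × ℝ) : perp (c • v) = c • perp v := by
  unfold perp; ext <;> simp

lemma continuous_perp : Continuous perp := by unfold perp; fun_prop

lemma mm_le (hG : Continuous G) (s s' x : ℝ) (θ : UnitAddCircle) :
    mm γ G s s' x ≤ dt (γ s' - γ s) (G (θ, x) - γ s) := by
  have h1 := le_hs hG x (-perp (γ s' - γ s)) θ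
  rw [neg_dot, ← dt_eq] at h1
  unfold mm
  rw [dt_sub (γ s' - γ s)]
  linarith

lemma exists_mm (hG : Continuous G) (s s' x : ℝ) :
    ∃ θ : UnitAddCircle, dt (γ s' - γ s) (G (θ, x) - γ s) = mm γ G s s' x := by
  obtain ⟨θ, hθ⟩ := exists_hs hG x (-perp (γ s' - γ s))
  refine ⟨θ, ?_⟩
  rw [neg_dot, ← dt_eq] at hθ
  unfold mm
  rw [dt_sub (γ s' - γ s), ← hθ]
  ring

lemma mm_le_body {x : ℝ} {K : Set (ℝ × ℝ)} (hK : Body Ω γ G x K) (hG : Continuous G) (s s' : ℝ)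
    {z : ℝ × ℝ} (hz : z ∈ K) : mm γ G s s' x ≤ dt (γ s' - γ s) (z - γ s) := by
  have h1 := hK.le_hs hG (-perp (γ s' - γ s)) hz
  rw [neg_dot, ← dt_eq] at h1
  unfold mm
  rw [dt_sub (γ s' - γ s)]
  linarith

lemma mm_cont (h : TF Ω γ P) (hG : Continuous G) :
    Continuous fun p : ℝ × ℝ × ℝ => mm γ G p.1 p.2.1 p.2.2 := by
  have hγ := h.cont
  have hd : Continuous fun p : ℝ × ℝ × ℝ => γ p.2.1 - γ p.1 := by fun_prop
  have h1 : Continuous fun p : ℝ × ℝ × ℝ => hs G p.2.2 (-perp (γ p.2.1 - γ p.1)) :=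
    (hs_cont hG).comp ((continuous_snd.comp continuous_snd).prodMk
      (continuous_perp.comp hd).neg)
  have h2 : Continuous fun p : ℝ × ℝ × ℝ => dt (γ p.2.1 - γ p.1) (γ p.1) :=
    continuous_dt.comp (hd.prodMk (hγ.comp continuous_fst))
  unfold mm
  exact h1.neg.sub h2

lemma mm_cont_mid (h : TF Ω γ P) (hG : Continuous G) (s x : ℝ) :
    Continuous fun s' : ℝ => mm γ G s s' x := by
  have hf : Continuous fun s' : ℝ => (s, s', x) := by fun_prop
  have h2 := (mm_cont h hG).comp hf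
  simp only [Function.comp_def] at h2
  exact h2

lemma mm_cont_x (h : TF Ω γ P) (hG : Continuous G) (s s' : ℝ) :
    Continuous fun x : ℝ => mm γ G s s' x := by
  have hf : Continuous fun x : ℝ => (s, s', x) := by fun_prop
  have h2 := (mm_cont h hG).comp hf
  simp only [Function.comp_def] at h2
  exact h2

lemma mm_cont_sx (h : TF Ω γ P) (hG : Continuous G) (s' : ℝ) :
    Continuous fun p : ℝ × ℝ => mm γ G p.2 s' p.1 := by
  have hf : Continuous fun p : ℝ × ℝ => (p.2, s', p.1) := by fun_prop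
  have h2 := (mm_cont h hG).comp hf
  simp only [Function.comp_def] at h2
  exact h2

/-- strict monotonicity in the height -/
lemma mm_strict (h : TF Ω γ P) (hc : Collar Ω γ G) {s s' x x' : ℝ} (h1 : s < s')
    (h2 : s' < s + P) (hx : 0 ≤ x) (hxx : x < x') (hx' : x' ≤ 1 / 2) :
    mm γ G s s' x < mm γ G s s' x' := by
  have hne : -perp (γ s' - γ s) ≠ 0 := by
    intro he
    apply h.ne h1 h2
    have h3 : perp (γ s' - γ s) = 0 := neg_eq_zero.1 he
    unfold perp at h3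
    have h4 := Prod.ext_iff.1 h3
    simp only [Prod.fst_zero, Prod.snd_zero, neg_eq_zero] at h4
    exact sub_eq_zero.1 (Prod.ext h4.2 h4.1)
  have := hc.nested h.op h.bd hx hxx hx' hne
  unfold mm
  linarith

/-- at height `0` the function `m` is negative -/
lemma mm_zero (h : TF Ω γ P) (hc : Collar Ω γ G) {s s' : ℝ} (h1 : s < s') (h2 : s' < s + P) :
    mm γ G s s' 0 < 0 := by
  have hf : γ ((s + s') / 2) ∈ frontier Ω := by rw [← h.fr]; exact ⟨_, rfl⟩
  rw [← hc.zero] at hf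
  obtain ⟨θ, hθ⟩ := hf
  have h3 := mm_le (γ := γ) hc.cont s s' 0 θ
  have h4 : G (θ, 0) = γ ((s + s') / 2) := hθ
  rw [h4] at h3
  exact h3.trans_lt (h.ori' (by linarith) (by linarith) h2)

/-- key sign propagation -/
lemma mm_neg (h : TF Ω γ P) (hc : Collar Ω γ G) {s s₁ s₂ x : ℝ} (hx : x ∈ Ioc (0 : ℝ) (1 / 2))
    (h0 : s < s₁) (h1 : s₁ < s₂) (h2 : s₂ < s + P) (hm : mm γ G s s₁ x ≤ 0) :
    mm γ G s s₂ x < 0 := by
  obtain ⟨K, hK⟩ := hc.body hx
  obtain ⟨θ, hθ⟩ := exists_mm (γ := γ) hc.cont s s₁ x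
  have hz : G (θ, x) ∈ Ω := hK.sub (hK.mem_G θ)
  have e1 := h.tan' s hz
  have e2 := h.ori s s₁ s₂ h0 h1 h2
  have e3 := h.tanγ (s := s) (s' := s₁) h0 (by linarith)
  have e4 := h.tanγ (s := s) (s' := s₂) (by linarith) h2
  have e5 : dt (γ s₁ - γ s) (G (θ, x) - γ s) ≤ 0 := by rw [hθ]; exact hm
  have e6 := pl (deriv γ s) (γ s₁ - γ s) (γ s₂ - γ s) (G (θ, x) - γ s)
  refine (mm_le hc.cont s s₂ x θ).trans_lt ?_
  by_contra hcon
  have e7 : 0 ≤ dt (γ s₂ - γ s) (G (θ, x) - γ s) := not_lt.1 hcon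
  have t1 : 0 ≤ dt (deriv γ s) (γ s₁ - γ s) * dt (γ s₂ - γ s) (G (θ, x) - γ s) :=
    mul_nonneg e3.le e7
  have t2 : dt (deriv γ s) (γ s₂ - γ s) * dt (γ s₁ - γ s) (G (θ, x) - γ s) ≤ 0 :=
    mul_nonpos_of_nonneg_of_nonpos e4.le e5
  have t3 : 0 < dt (deriv γ s) (G (θ, x) - γ s) * dt (γ s₁ - γ s) (γ s₂ - γ s) :=
    mul_pos e1 e2
  linarith

/-- `m > 0` for `s'` slightly bigger than `s` -/
lemma mm_pos_near (h : TF Ω γ P) (hc : Collar Ω γ G) {x : ℝ} (hx : x ∈ Ioc (0 : ℝ) (1 / 2))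
    (s : ℝ) : ∀ᶠ s' in 𝓝[>] s, 0 < mm γ G s s' x := by
  obtain ⟨K, hK⟩ := hc.body hx
  -- the limit of the difference quotient
  have hs1 : Tendsto (fun s' => slope γ s s') (𝓝[>] s) (𝓝 (deriv γ s)) := by
    have := (hasDerivAt_iff_tendsto_slope.1 (h.der s))
    exact this.mono_left (nhdsWithin_mono _ (fun y hy => ne_of_gt hy))
  have hcont : Continuous fun v : ℝ × ℝ => -hs G x (-perp v) - dt v (γ s) := by
    have h1 : Continuous fun v : ℝ × ℝ => hs G x (-perp v) :=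
      (hs_cont hc.cont).comp (continuous_const.prodMk continuous_perp.neg)
    have h2 : Continuous fun v : ℝ × ℝ => dt v (γ s) :=
      continuous_dt.comp (continuous_id.prodMk continuous_const)
    exact h1.neg.sub h2
  have hpos : 0 < -hs G x (-perp (deriv γ s)) - dt (deriv γ s) (γ s) := by
    obtain ⟨θ, hθ⟩ := exists_hs hc.cont x (-perp (deriv γ s))
    rw [neg_dot, ← dt_eq] at hθ
    have := h.tan' s (hK.sub (hK.mem_G θ))
    rw [dt_sub] at this
    linarith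
  have hlim := (hcont.tendsto (deriv γ s)).comp hs1
  have hev := hlim.eventually (lt_mem_nhds hpos)
  filter_upwards [hev, self_mem_nhdsWithin] with s' h1 h2
  have h3 : 0 < s' - s := sub_pos.2 h2
  have h4 : γ s' - γ s = (s' - s) • slope γ s s' := by
    rw [slope_def_module, smul_smul, mul_inv_cancel₀ h3.ne', one_smul]
  have h5 : mm γ G s s' x = (s' - s) * (-hs G x (-perp (slope γ s s')) - dt (slope γ s s') (γ s)) := by
    unfold mm
    rw [h4, perp_smul, ← smul_neg, hs_smul hc.cont x _ h3.le, smul_dt]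
    ring
  rw [h5]
  exact mul_pos h3 h1

/-- `m < 0` for `s'` slightly smaller than `s + P` -/
lemma mm_neg_near (h : TF Ω γ P) (hc : Collar Ω γ G) {x : ℝ} (hx : x ∈ Ioc (0 : ℝ) (1 / 2))
    (s : ℝ) : ∀ᶠ s' in 𝓝[<] (s + P), mm γ G s s' x < 0 := by
  obtain ⟨K, hK⟩ := hc.body hx
  have hds : HasDerivAt γ (deriv γ (s + P)) (s + P) := h.der _
  have hs1 : Tendsto (fun s' => slope γ (s + P) s') (𝓝[<] (s + P)) (𝓝 (deriv γ (s + P))) := by
    have := (hasDerivAt_iff_tendsto_slope.1 hds)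
    exact this.mono_left (nhdsWithin_mono _ (fun y hy => ne_of_lt hy))
  obtain ⟨z, hz⟩ := hK.nonempty
  have hcont : Continuous fun v : ℝ × ℝ => dt v (z - γ s) :=
    continuous_dt.comp (continuous_id.prodMk continuous_const)
  have hpos : 0 < dt (deriv γ (s + P)) (z - γ s) := by
    have := h.tan' (s + P) (hK.sub hz)
    rwa [h.per] at this
  have hlim := (hcont.tendsto (deriv γ (s + P))).comp hs1
  have hev := hlim.eventually (lt_mem_nhds hpos)
  filter_upwards [hev, self_mem_nhdsWithin] with s' h1 h2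
  have h3 : s' - (s + P) < 0 := sub_neg.2 h2
  have h4 : γ s' - γ s = (s' - (s + P)) • slope γ (s + P) s' := by
    rw [slope_def_module, smul_smul, mul_inv_cancel₀ h3.ne, one_smul, h.per]
  refine (mm_le_body hK hc.cont s s' hz).trans_lt ?_
  rw [h4, smul_dt]
  exact mul_neg_of_neg_of_pos h3 h1

/-- the zero of `m` -/
lemma exists_F (h : TF Ω γ P) (hc : Collar Ω γ G) {x : ℝ} (hx : x ∈ Ioc (0 : ℝ) (1 / 2)) (s : ℝ) :
    ∃ s', s < s' ∧ s' < s + P ∧ mm γ G s s' x = 0 := by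
  have hP := h.hP
  have h1 : ∀ᶠ s' in 𝓝[>] s, s' ∈ Ioo s (s + P) := Ioo_mem_nhdsGT (by linarith)
  obtain ⟨a, ha0, ha2', ha1⟩ := ((mm_pos_near h hc hx s).and h1).exists
  have h2 : ∀ᶠ s' in 𝓝[<] (s + P), s' ∈ Ioo a (s + P) := Ioo_mem_nhdsLT ha1
  obtain ⟨b, hb0, hb1, hb2'⟩ := ((mm_neg_near h hc hx s).and h2).exists
  have hcont : Continuous fun s' => mm γ G s s' x := mm_cont_mid h hc.cont s x
  have himg := intermediate_value_Icc' hb1.le hcont.continuousOn
  obtain ⟨c, hcm, hc0⟩ := himg ⟨hb0.le, ha0.le⟩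
  exact ⟨c, by linarith [hcm.1], by linarith [hcm.2], hc0⟩

/-- the leaf map -/
def FF (γ : ℝ → ℝ × ℝ) (P : ℝ) (G : UnitAddCircle × ℝ → ℝ × ℝ) (x s : ℝ) : ℝ :=
  open Classical in
  if hh : ∃ s', s < s' ∧ s' < s + P ∧ mm γ G s s' x = 0 then hh.choose else s

lemma FF_spec (h : TF Ω γ P) (hc : Collar Ω γ G) {x : ℝ} (hx : x ∈ Ioc (0 : ℝ) (1 / 2)) (s : ℝ) :
    s < FF γ P G x s ∧ FF γ P G x s < s + P ∧ mm γ G s (FF γ P G x s) x = 0 := by
  have hh := exists_F h hc hx s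
  unfold FF
  rw [dif_pos hh]
  exact hh.choose_spec

lemma mm_pos_of_lt (h : TF Ω γ P) (hc : Collar Ω γ G) {x : ℝ} (hx : x ∈ Ioc (0 : ℝ) (1 / 2))
    {s s' : ℝ} (h1 : s < s') (h2 : s' < FF γ P G x s) : 0 < mm γ G s s' x := by
  obtain ⟨a1, a2, a3⟩ := FF_spec h hc hx s
  by_contra hcon
  have := mm_neg h hc hx h1 h2 a2 (not_lt.1 hcon)
  linarith

lemma mm_neg_of_gt (h : TF Ω γ P) (hc : Collar Ω γ G) {x : ℝ} (hx : x ∈ Ioc (0 : ℝ) (1 / 2))
    {s s' : ℝ} (h1 : FF γ P G x s < s') (h2 : s' < s + P) : mm γ G s s' x < 0 := by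
  obtain ⟨a1, a2, a3⟩ := FF_spec h hc hx s
  exact mm_neg h hc hx a1 h1 h2 a3.le

lemma lt_FF_of_pos (h : TF Ω γ P) (hc : Collar Ω γ G) {x : ℝ} (hx : x ∈ Ioc (0 : ℝ) (1 / 2))
    {s s' : ℝ} (h1 : s' < s + P) (h2 : 0 < mm γ G s s' x) : s' < FF γ P G x s := by
  obtain ⟨a1, a2, a3⟩ := FF_spec h hc hx s
  by_contra hcon
  rcases (not_lt.1 hcon).eq_or_lt with he | hl
  · rw [← he, a3] at h2
    exact lt_irrefl _ h2
  · have := mm_neg_of_gt h hc hx hl h1
    linarith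

lemma FF_lt_of_neg (h : TF Ω γ P) (hc : Collar Ω γ G) {x : ℝ} (hx : x ∈ Ioc (0 : ℝ) (1 / 2))
    {s s' : ℝ} (h1 : s < s') (h2 : mm γ G s s' x < 0) : FF γ P G x s < s' := by
  obtain ⟨a1, a2, a3⟩ := FF_spec h hc hx s
  by_contra hcon
  rcases (not_lt.1 hcon).eq_or_lt with he | hl
  · rw [he, a3] at h2
    exact lt_irrefl _ h2
  · have := mm_pos_of_lt h hc hx h1 hl
    linarith

lemma FF_unique (h : TF Ω γ P) (hc : Collar Ω γ G) {x : ℝ} (hx : x ∈ Ioc (0 : ℝ) (1 / 2))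
    {s s' : ℝ} (h1 : s < s') (h2 : s' < s + P) (h3 : mm γ G s s' x = 0) : FF γ P G x s = s' := by
  obtain ⟨a1, a2, a3⟩ := FF_spec h hc hx s
  rcases lt_trichotomy (FF γ P G x s) s' with hl | he | hl
  · have := mm_neg_of_gt h hc hx hl h2
    linarith
  · exact he
  · have := mm_pos_of_lt h hc hx h1 hl
    linarith

lemma mm_per (h : TF Ω γ P) (s s' x : ℝ) : mm γ G (s + P) (s' + P) x = mm γ G s s' x := by
  unfold mm
  rw [h.per, h.per]

lemma FF_per (h : TF Ω γ P) (hc : Collar Ω γ G) {x : ℝ} (hx : x ∈ Ioc (0 : ℝ) (1 / 2)) (s : ℝ) :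
    FF γ P G x (s + P) = FF γ P G x s + P := by
  obtain ⟨a1, a2, a3⟩ := FF_spec h hc hx s
  exact FF_unique h hc hx (by linarith) (by linarith) (by rw [mm_per h]; exact a3)

/-- strictly increasing in the base point -/
lemma FF_strictMono (h : TF Ω γ P) (hc : Collar Ω γ G) {x : ℝ} (hx : x ∈ Ioc (0 : ℝ) (1 / 2)) :
    StrictMono (FF γ P G x) := by
  intro s₁ s₂ h12
  obtain ⟨a1, a2, a3⟩ := FF_spec h hc hx s₁
  obtain ⟨b1, b2, b3⟩ := FF_spec h hc hx s₂
  rcases le_or_gt (FF γ P G x s₁) s₂ with hle | hlt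
  · linarith
  · set s' := FF γ P G x s₁ with hs'
    apply lt_FF_of_pos h hc hx (by linarith)
    obtain ⟨K, hK⟩ := hc.body hx
    obtain ⟨θ, hθ⟩ := exists_mm (γ := γ) hc.cont s₂ s' x
    rw [← hθ]
    have hz : G (θ, x) ∈ Ω := hK.sub (hK.mem_G θ)
    -- vectors based at `γ s'`
    have e1 : 0 < dt (deriv γ s') (G (θ, x) - γ s') := h.tan' s' hz
    have e2 : 0 ≤ dt (γ s' - γ s₁) (G (θ, x) - γ s') := by
      have h1 := mm_le (γ := γ) hc.cont s₁ s' x θ
      rw [a3] at h1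
      have h2 : dt (γ s' - γ s₁) (G (θ, x) - γ s') = dt (γ s' - γ s₁) (G (θ, x) - γ s₁) := by
        unfold dt; simp; ring
      rw [h2]; exact h1
    have e3 : dt (deriv γ s') (γ s' - γ s₁) < 0 := by
      have h1 := h.tanγ' (s := s₁) (s' := s') a1 a2
      have h2 : dt (deriv γ s') (γ s' - γ s₁) = -dt (deriv γ s') (γ s₁ - γ s') := by
        unfold dt; simp; ring
      linarith
    have e4 : dt (deriv γ s') (γ s' - γ s₂) < 0 := by
      have h1 := h.tanγ' (s := s₂) (s' := s') hlt (by linarith)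
      have h2 : dt (deriv γ s') (γ s' - γ s₂) = -dt (deriv γ s') (γ s₂ - γ s') := by
        unfold dt; simp; ring
      linarith
    have e5 : 0 < dt (γ s' - γ s₁) (γ s' - γ s₂) := by
      have h1 := h.ori s₁ s₂ s' h12 hlt a2
      have h2 : dt (γ s' - γ s₁) (γ s' - γ s₂) = dt (γ s₂ - γ s₁) (γ s' - γ s₁) := by
        unfold dt; simp; ring
      linarith
    have e6 := pl (deriv γ s') (γ s' - γ s₁) (γ s' - γ s₂) (G (θ, x) - γ s')
    have e7 : dt (γ s' - γ s₂) (G (θ, x) - γ s₂) = dt (γ s' - γ s₂) (G (θ, x) - γ s') := by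
      unfold dt; simp; ring
    rw [e7]
    by_contra hcon
    have e8 : dt (γ s' - γ s₂) (G (θ, x) - γ s') ≤ 0 := not_lt.1 hcon
    have t1 : 0 ≤ dt (deriv γ s') (γ s' - γ s₁) * dt (γ s' - γ s₂) (G (θ, x) - γ s') :=
      mul_nonneg_of_nonpos_of_nonpos e3.le e8
    have t2 : dt (deriv γ s') (γ s' - γ s₂) * dt (γ s' - γ s₁) (G (θ, x) - γ s') ≤ 0 :=
      mul_nonpos_of_nonpos_of_nonneg e4.le e2
    have t3 : 0 < dt (deriv γ s') (G (θ, x) - γ s') * dt (γ s' - γ s₁) (γ s' - γ s₂) :=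
      mul_pos e1 e5
    linarith

/-- strictly increasing in the height -/
lemma FF_strictMonoOn (h : TF Ω γ P) (hc : Collar Ω γ G) (s : ℝ) :
    StrictMonoOn (fun x => FF γ P G x s) (Ioo (0 : ℝ) (1 / 2)) := by
  intro x hx y hy hxy
  obtain ⟨a1, a2, a3⟩ := FF_spec h hc (x := x) ⟨hx.1, hx.2.le⟩ s
  refine lt_FF_of_pos h hc ⟨hy.1, hy.2.le⟩ a2 ?_
  have := mm_strict h hc a1 a2 hx.1.le hxy hy.2.le
  linarith

/-- limit at height `0` -/
lemma FF_tendsto (h : TF Ω γ P) (hc : Collar Ω γ G) (s : ℝ) :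
    Tendsto (fun x => FF γ P G x s) (𝓝[>] 0) (𝓝 s) := by
  rw [tendsto_order]
  have hev : ∀ᶠ x in 𝓝[>] (0 : ℝ), x ∈ Ioc (0 : ℝ) (1 / 2) :=
    Ioc_mem_nhdsGT (by norm_num)
  constructor
  · intro a ha
    filter_upwards [hev] with x hx
    exact ha.trans (FF_spec h hc hx s).1
  · intro a ha
    -- choose s' in (s, min a (s + P))
    set s' := (s + min a (s + P)) / 2 with hs'
    have hP := h.hP
    have h0 : s < min a (s + P) := lt_min ha (by linarith)
    have h1 : s < s' := by rw [hs']; linarith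
    have h2 : s' < min a (s + P) := by rw [hs']; linarith
    have h3 : s' < a := h2.trans_le (min_le_left _ _)
    have h4 : s' < s + P := h2.trans_le (min_le_right _ _)
    have hneg := mm_zero h hc h1 h4
    have hcont : Continuous fun x => mm γ G s s' x := mm_cont_x h hc.cont s s'
    have hev2 : ∀ᶠ x in 𝓝[>] (0 : ℝ), mm γ G s s' x < 0 :=
      mem_nhdsWithin_of_mem_nhds ((isOpen_lt hcont continuous_const).mem_nhds hneg)
    filter_upwards [hev, hev2] with x hx hx2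
    exact (FF_lt_of_neg h hc hx h1 hx2).trans h3

/-- joint continuity -/
lemma FF_continuousOn (h : TF Ω γ P) (hc : Collar Ω γ G) :
    ContinuousOn (fun p : ℝ × ℝ => FF γ P G p.1 p.2) (Ioo 0 (1 / 2) ×ˢ univ) := by
  rintro ⟨x, s⟩ ⟨hx, -⟩
  apply ContinuousAt.continuousWithinAt
  rw [ContinuousAt, tendsto_order]
  simp only at hx ⊢
  have hx' : x ∈ Ioc (0 : ℝ) (1 / 2) := ⟨hx.1, hx.2.le⟩
  obtain ⟨a1, a2, a3⟩ := FF_spec h hc hx' s
  have hevx : ∀ᶠ p : ℝ × ℝ in 𝓝 (x, s), p.1 ∈ Ioc (0 : ℝ) (1 / 2) := by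
    have : Ioo (0 : ℝ) (1 / 2) ∈ 𝓝 x := Ioo_mem_nhds hx.1 hx.2
    filter_upwards [continuous_fst.continuousAt (x := (x, s)) this] with p hp
    exact ⟨hp.1, (le_of_lt hp.2)⟩
  have hcontm : ∀ s' : ℝ, Continuous fun p : ℝ × ℝ => mm γ G p.2 s' p.1 := fun s' =>
    mm_cont_sx h hc.cont s'
  constructor
  · intro a ha
    -- s' between max a s and FF
    set s' := (max a s + FF γ P G x s) / 2 with hs'
    have h0 : max a s < FF γ P G x s := max_lt ha a1
    have h1 : max a s < s' := by rw [hs']; linarith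
    have h2 : s' < FF γ P G x s := by rw [hs']; linarith
    have h3 : a < s' := (le_max_left _ _).trans_lt h1
    have h4 : s < s' := (le_max_right _ _).trans_lt h1
    have hpos := mm_pos_of_lt h hc hx' h4 h2
    have hev2 : ∀ᶠ p : ℝ × ℝ in 𝓝 (x, s), 0 < mm γ G p.2 s' p.1 :=
      (isOpen_lt continuous_const (hcontm s')).mem_nhds hpos
    have hev3 : ∀ᶠ p : ℝ × ℝ in 𝓝 (x, s), s' < p.2 + P :=
      (isOpen_lt continuous_const (continuous_snd.add continuous_const)).mem_nhds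
        (show s' < s + P by linarith)
    filter_upwards [hevx, hev2, hev3] with p hp1 hp2 hp3
    exact h3.trans (lt_FF_of_pos h hc hp1 hp3 hp2)
  · intro a ha
    set s' := (FF γ P G x s + min a (s + P)) / 2 with hs'
    have h0 : FF γ P G x s < min a (s + P) := lt_min ha a2
    have h1 : FF γ P G x s < s' := by rw [hs']; linarith
    have h2 : s' < min a (s + P) := by rw [hs']; linarith
    have h3 : s' < a := h2.trans_le (min_le_left _ _)
    have h4 : s' < s + P := h2.trans_le (min_le_right _ _)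
    have hneg := mm_neg_of_gt h hc hx' h1 h4
    have hev2 : ∀ᶠ p : ℝ × ℝ in 𝓝 (x, s), mm γ G p.2 s' p.1 < 0 :=
      (isOpen_lt (hcontm s') continuous_const).mem_nhds hneg
    have hev3 : ∀ᶠ p : ℝ × ℝ in 𝓝 (x, s), p.2 < s' :=
      (isOpen_lt continuous_snd continuous_const).mem_nhds (show s < s' by linarith)
    filter_upwards [hevx, hev2, hev3] with p hp1 hp2 hp3
    exact (FF_lt_of_neg h hc hp1 hp3 hp2).trans h3

end

end Crest.Agent.R102.T2
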