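import Crest.Agent.R102.T5Defs_160

/-!
Row 102, T5-RED (helper160): weaker input for the cone: the family is needed on the sector only at
macroscopic distance, and on a narrow cone straight down for small `t`.
-/

set_option autoImplicit false

open Set Filter Topology Metric
open scoped ComplexConjugate

noncomputable section

namespace Crest.Agent.R102.T5R

/-- points where the family is needed -/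
def Dm (κ' a : ℝ) : Set ℂ :=
  {t | (t ∈ Sg κ' ∧ 1 / 8 < ‖t‖) ∨ (|t.re| < -t.im / 4 ∧ a < ‖t‖ ∧ ‖t‖ < 1)}

/-- the family near the end (weak form): `r a` = radius in `w` for `t ∈ Dm κ' a` -/
structure FamN (κ' : ℝ) (Ψ : ℂ → ℂ → ℂ) (r B : ℝ → ℝ) (X : ℂ × ℂ → ℂ) : Prop where
  r_pos : ∀ a : ℝ, 0 < a → 0 < r a
  diff : ∀ a : ℝ, 0 < a → DifferentiableOn ℂ X {p | p.1 ∈ Dm κ' a ∧ ‖p.2‖ < r a}
  near : ∀ a : ℝ, 0 < a → ∀ t w : ℂ, t ∈ Dm κ' a → ‖w‖ < r a →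
    ‖X (t, w) - t‖ ≤ B a * ‖w‖ ^ 2
  even : ∀ a : ℝ, 0 < a → ∀ t w : ℂ, t ∈ Dm κ' a → ‖w‖ < r a → X (t, -w) = X (t, w)
  el : ∀ a : ℝ, 0 < a → ∀ t w : ℂ, t ∈ Dm κ' a → t - w ∈ Dm κ' a → t + w ∈ Dm κ' a →
    ‖w‖ < r a → EL Ψ (X (t - w, w)) (X (t, w)) (X (t + w, w)) = 0

/-- **L2 (CONE)**, weak input -/
def ConeN : Prop :=
  ∀ (κ κ' c₀ M : ℝ) (Ψ : ℂ → ℂ → ℂ) (r B : ℝ → ℝ) (X : ℂ × ℂ → ℂ),
    0 < κ' → κ' < κ → EndPsi κ c₀ M Ψ → FamN κ' Ψ r B X →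
    ∃ (c C : ℝ) (X' : ℂ × ℂ → ℂ), ConeFam c C Ψ X'

/-- **T5FN**: a flat end has leading exponent `0` or `1` -/
def T5FN : Prop :=
  ∀ (κ κ' c β C : ℝ) (q : ℂ → ℂ) (r B : ℝ → ℝ) (X : ℂ × ℂ → ℂ), 0 < κ' → κ' < κ →
    EndQ κ c β C q → FamN κ' (PsiQ q) r B X → -1 < c → c ≠ 1 / 2 → c ≠ 2 → c = 0 ∨ c = 1

/-- **T5IN**: an isotropic end has `m = 1` -/
def T5IN : Prop :=
  ∀ (κ κ' β C m : ℝ) (s : ℂ) (q : ℂ → ℂ) (r B : ℝ → ℝ) (X : ℂ × ℂ → ℂ), 0 < κ' → κ' < κ →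
    EndQ κ (-1) β C q → FamN κ' (PsiQ q) r B X → 0 < m → m ≠ 3 → (s = 1 ∨ s = -1) →
    Tendsto (fun τ => τ * Complex.exp (q τ)) (𝓝[Sg κ] 0) (𝓝 (s * Complex.I * m)) → m = 1

theorem t5FN_of (h2 : ConeN) (h3 : BlowUp) (h4 : PsiFlat) (h5 : RedF) (h6 : NoF) : T5FN := by
  intro κ κ' c β C q r B X hκ' hκ hq hX hc h12 h2'
  obtain ⟨c₀, M, hE, hT⟩ := h4 κ ((κ + κ') / 2) c β C q (by linarith) (by linarith) hq hc h12 h2'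
  obtain ⟨cc, C', X', hX'⟩ := h2 _ κ' c₀ M (PsiQ q) r B X hκ' (by linarith) hE hX
  obtain ⟨ρ, C'', X₀, hX₀⟩ := h3 _ c₀ M cc C' (PsiQ q) (Psi0F c) X' hE hX' hT
  obtain ⟨ϱ, hϱ⟩ := h5 c ρ C'' X₀ hc h12 h2' hX₀
  by_contra hne
  push Not at hne
  exact h6 c ϱ hc hne.1 hne.2 h12 h2' hϱ

theorem t5IN_of (h2 : ConeN) (h3 : BlowUp) (h4 : PsiIso) (h5 : RedI) (h6 : NoI) : T5IN := by
  intro κ κ' β C m s q r B X hκ' hκ hq hX hm hm3 hs hlim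
  obtain ⟨c₀, M, hE, hT⟩ := h4 κ ((κ + κ') / 2) β C m s q (by linarith) (by linarith) hq hm hm3 hs hlim
  obtain ⟨cc, C', X', hX'⟩ := h2 _ κ' c₀ M (PsiQ q) r B X hκ' (by linarith) hE hX
  obtain ⟨ρ, C'', X₀, hX₀⟩ := h3 _ c₀ M cc C' (PsiQ q) (Psi0I m) X' hE hX' hT
  obtain ⟨ϱ, hϱ⟩ := h5 m ρ C'' X₀ hm hm3 hX₀
  exact h6 m ϱ hm hm3 hϱ

end Crest.Agent.R102.T5R
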