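import Crest.Agent.R102.T5Cone_160
import Crest.Agent.R102.T5DefsN_160

/-!
Row 102, T5-L2 (helper160): `T5R.NDM → T5R.ConeN` (weak input).
-/

set_option autoImplicit false

open Set Filter Topology Metric

noncomputable section

namespace Crest.Agent.R102.T5R

namespace L2N

open L2

/-! ### Part 4: the family at macroscopic points -/

theorem exists_sm {κ κ' : ℝ} {ρ : ℝ} {Ψ : ℂ → ℂ → ℂ} {r B : ℝ → ℝ} {X : ℂ × ℂ → ℂ}
    (hX : FamN κ Ψ r B X) (hκ' : 0 < κ') (hρ : 0 < ρ) {a : ℝ} (ha : 0 < a) :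
    ∃ σ : ℝ, 0 < σ ∧ σ ≤ 1 ∧ ∀ W : ℝ, 0 ≤ W → W < σ → Sm κ' ρ r B a W := by
  have hr := hX.r_pos a ha
  have hB : 0 ≤ |B a| := abs_nonneg _
  set m := min (1 / 16) (κ' / 10 * a) with hm
  have hmpos : 0 < m := lt_min (by norm_num) (by positivity)
  have hm1 : m ≤ 1 / 16 := min_le_left _ _
  have hm2 : m ≤ κ' / 10 * a := min_le_right _ _
  set σ := min 1 (min (r a) (min (ρ * a / 4) (m / (|B a| + 1)))) with hσ
  have i0 : 0 < σ := lt_min one_pos (lt_min hr (lt_min (by positivity) (by positivity)))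
  have i1 : σ ≤ 1 := min_le_left _ _
  have i2 : σ ≤ r a := (min_le_right _ _).trans (min_le_left _ _)
  have i3 : σ ≤ ρ * a / 4 := (min_le_right _ _).trans ((min_le_right _ _).trans (min_le_left _ _))
  have i4 : σ ≤ m / (|B a| + 1) :=
    (min_le_right _ _).trans ((min_le_right _ _).trans (min_le_right _ _))
  rw [le_div_iff₀ (by positivity)] at i4
  refine ⟨σ, i0, i1, ?_⟩
  intro W hW0 hW
  have hBW : |B a| * W ≤ m := by nlinarith
  have hBW2 : |B a| * W ^ 2 ≤ m := by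
    have : |B a| * W ^ 2 = (|B a| * W) * W := by ring
    rw [this]
    nlinarith [mul_nonneg hB hW0]
  refine ⟨by linarith, by linarith, by linarith, by linarith, by linarith⟩

/-- good points -/
structure Gd (κ' a : ℝ) (S : ℂ) : Prop where
  dm : S ∈ Dm κ' a
  low : a < ‖S‖
  up : ‖S‖ < 13 / 16
  im : S.im ≤ κ' / 5 * ‖S‖

/-- the family is carried to itself by one step -/
theorem match_step {κ' κ₂ ρ C a : ℝ} {Ψ : ℂ → ℂ → ℂ} {G : ℂ × ℂ → ℂ} {r B : ℝ → ℝ}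
    {X : ℂ × ℂ → ℂ} (hG : NDS κ₂ ρ C Ψ G) (hX : FamN κ' Ψ r B X) (hκ' : 0 < κ')
    (hκ : κ' < κ₂) (hκ1 : κ₂ < 1) (ha : 0 < a) {T w : ℂ} (hw0 : w ≠ 0)
    (hS : Sm κ' ρ r B a ‖w‖) (h0 : Gd κ' a T) (h1 : Gd κ' a (T + w)) (h2 : Gd κ' a (T + w + w)) :
    stp G (start X (T + w) w) = start X T w := by
  have hWpos : 0 < ‖w‖ := norm_pos_iff.2 hw0
  have hBn : ∀ S, Gd κ' a S → ‖X (S, w) - S‖ ≤ |B a| * ‖w‖ ^ 2 := by
    intro S hSd
    refine (hX.near a ha S w hSd.dm hS.rad).trans ?_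
    gcongr
    exact le_abs_self _
  have n0 := hBn _ h0
  have n1 := hBn _ h1
  have n2 := hBn _ h2
  set y := X (T + w, w) with hy
  set e := y - X (T + w + w, w) with he
  set e' := X (T, w) - y with he'
  have hb1 : |B a| * ‖w‖ ^ 2 ≤ ‖w‖ / 8 := by
    have := hS.b1
    nlinarith
  have hew : ‖e + w‖ ≤ ‖w‖ / 4 := by
    have : e + w = (y - (T + w)) - (X (T + w + w, w) - (T + w + w)) := by rw [he]; ring
    rw [this]
    have := norm_sub_le (y - (T + w)) (X (T + w + w, w) - (T + w + w))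
    linarith
  have hew' : ‖e' + w‖ ≤ ‖w‖ / 4 := by
    have : e' + w = (X (T, w) - T) - (y - (T + w)) := by rw [he']; ring
    rw [this]
    have := norm_sub_le (X (T, w) - T) (y - (T + w))
    linarith
  have hen : ‖e‖ ≤ 2 * ‖w‖ := by
    have : e = (e + w) - w := by ring
    rw [this]
    have := norm_sub_le (e + w) w
    linarith
  have hen' : ‖e'‖ ≤ 2 * ‖w‖ := by
    have : e' = (e' + w) - w := by ring
    rw [this]
    have := norm_sub_le (e' + w) w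
    linarith
  -- `y ∈ Rg κ₂`
  have hyl : ‖T + w‖ - |B a| * ‖w‖ ^ 2 ≤ ‖y‖ := by
    have := norm_sub_norm_le (T + w) y
    have h' : ‖T + w - y‖ = ‖y - (T + w)‖ := norm_sub_rev _ _
    linarith
  have hyu : ‖y‖ ≤ ‖T + w‖ + |B a| * ‖w‖ ^ 2 := by
    have := norm_sub_norm_le y (T + w)
    linarith
  have hb2 := hS.b2
  have hb3 := hS.b3
  have hb4 := hS.b4
  have hκ'1 : κ' < 1 := by linarith
  have hya : a / 2 < ‖y‖ := by
    have := h1.low
    nlinarith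
  have hyR : y ∈ Rg κ₂ := by
    refine ⟨norm_pos_iff.1 (by linarith), ?_, ?_⟩
    · have := h1.up
      linarith
    · have him : y.im ≤ (T + w).im + ‖y - (T + w)‖ := by
        have := Complex.abs_im_le_norm (y - (T + w))
        have h' : y.im - (T + w).im ≤ |(y - (T + w)).im| := by
          rw [Complex.sub_im]; exact le_abs_self _
        linarith
      have h3 := h1.im
      have h4 : κ' / 5 * ‖T + w‖ ≤ κ' / 5 * (‖y‖ + κ' / 10 * a) := by
        gcongr; linarith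
      have h5 : κ' / 10 * a ≤ κ' / 5 * ‖y‖ := by nlinarith
      have h6 : κ' / 5 * (κ' / 10 * a) ≤ κ' / 10 * a := by
        have : 0 ≤ κ' / 10 * a := by positivity
        nlinarith
      have hypos : 0 < ‖y‖ := by linarith
      nlinarith
  have hρ := hG.ρ_pos
  have hey : ‖e‖ < ρ * ‖y‖ := by nlinarith
  have hey' : ‖e'‖ < ρ * ‖y‖ := by nlinarith
  have hEL : EL Ψ (y - e) y (y + e') = 0 := by
    have e1 : T + w - -w = T + w + w := by ring
    have e2 : T + w + -w = T := by ring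
    have hel := hX.el a ha (T + w) (-w) h1.dm (by rw [e1]; exact h2.dm) (by rw [e2]; exact h0.dm)
      (by rw [norm_neg]; exact hS.rad)
    rw [e1, e2, hX.even a ha _ w h2.dm hS.rad, hX.even a ha _ w h1.dm hS.rad,
      hX.even a ha _ w h0.dm hS.rad] at hel
    have e3 : y - e = X (T + w + w, w) := by rw [he]; ring
    have e4 : y + e' = X (T, w) := by rw [he']; ring
    rw [e3, e4]
    exact hel
  have hst : start X (T + w) w = (y, e) := rfl
  rw [hst]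
  rcases hG.uniq y e e' hyR hey hey' hEL with h | h
  · show (y + G (y, e), G (y, e)) = (X (T, w), X (T, w) - X (T + w, w))
    rw [← h]
    simp [he', hy]
  · exfalso
    have h3 : (e + w) + (e' + w) = 2 * w := by rw [h]; ring
    have h4 : ‖(2 : ℂ) * w‖ ≤ ‖w‖ / 4 + ‖w‖ / 4 := by
      rw [← h3]
      exact (norm_add_le _ _).trans (by linarith)
    rw [norm_mul] at h4
    simp at h4
    linarith

/-- **agreement with the family** -/
theorem agree {κ' κ₂ ρ C a : ℝ} {Ψ : ℂ → ℂ → ℂ} {G : ℂ × ℂ → ℂ} {r B : ℝ → ℝ}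
    {X : ℂ × ℂ → ℂ} (hG : NDS κ₂ ρ C Ψ G) (hX : FamN κ' Ψ r B X) (hκ' : 0 < κ')
    (hκ : κ' < κ₂) (hκ1 : κ₂ < 1) (ha : 0 < a) {t w : ℂ} (hw0 : w ≠ 0)
    (hS : Sm κ' ρ r B a ‖w‖) (k : ℕ) (hg : ∀ i : ℕ, i ≤ k + 1 → Gd κ' a (t + i * w)) :
    (stp G)^[k] (start X (t + k * w) w) = start X t w := by
  induction k with
  | zero => simp
  | succ k ih =>
    rw [Function.iterate_succ_apply]
    have e : t + ((k + 1 : ℕ) : ℂ) * w = t + k * w + w := by push_cast; ring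
    rw [e, match_step hG hX hκ' hκ hκ1 ha hw0 hS (hg k (by omega)) (by
      rw [← e]; exact hg (k + 1) (by omega)) (by
      have e2 : t + k * w + w + w = t + ((k + 2 : ℕ) : ℂ) * w := by push_cast; ring
      rw [e2]; exact hg (k + 2) (by omega))]
    exact ih (fun i hi => hg i (by omega))

/-- bounds at the macroscopic start -/
theorem start_bound {κ' : ℝ} {Ψ : ℂ → ℂ → ℂ} {r B : ℝ → ℝ} {X : ℂ × ℂ → ℂ}
    (hX : FamN κ' Ψ r B X) (hκ' : 0 < κ') (hκ1 : κ' < 1) :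
    ∃ A₀ B₀ σ : ℝ, 0 < σ ∧ ∀ T w : ℂ, 1 / 4 < ‖T‖ → ‖T‖ < 3 / 4 → T.im ≤ κ' / 5 * ‖T‖ → w ≠ 0 →
      ‖w‖ < σ → ‖(start X T w).2 + w‖ ≤ A₀ * ‖w‖ ^ 3 ∧ ‖(start X T w).1 - T‖ ≤ B₀ * ‖w‖ ^ 2 := by
  have h8 : (0 : ℝ) < 1 / 8 := by norm_num
  set b := |B (1 / 8)| + 1 with hb
  have hbpos : 0 < b := by positivity
  refine ⟨3 * b / (κ' / 20), b, min (r (1 / 8)) (κ' / 20), lt_min (hX.r_pos _ h8) (by positivity),
    ?_⟩
  intro T w hT1 hT2 hT3 hw0 hw
  have hwr : ‖w‖ < r (1 / 8) := hw.trans_le (min_le_left _ _)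
  have hwd : ‖w‖ < κ' / 20 := hw.trans_le (min_le_right _ _)
  have hWpos : 0 < ‖w‖ := norm_pos_iff.2 hw0
  -- the disc
  have hdisc : ∀ s ∈ ball T (κ' / 20), s ∈ Sg κ' ∧ 1 / 8 < ‖s‖ := by
    intro s hs
    rw [mem_ball, dist_eq_norm] at hs
    have h1 : ‖T‖ - ‖s - T‖ ≤ ‖s‖ := by
      have := norm_sub_norm_le T s
      have h' : ‖T - s‖ = ‖s - T‖ := norm_sub_rev _ _
      linarith
    have h2 : ‖s‖ ≤ ‖T‖ + ‖s - T‖ := by
      have := norm_sub_norm_le s T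
      linarith
    have h3 : s.im ≤ T.im + ‖s - T‖ := by
      have := Complex.abs_im_le_norm (s - T)
      have h' : s.im - T.im ≤ |(s - T).im| := by
        rw [Complex.sub_im]; exact le_abs_self _
      linarith
    have h4 : 1 / 8 < ‖s‖ := by linarith
    refine ⟨⟨norm_pos_iff.1 (by linarith), by linarith, ?_⟩, h4⟩
    have h5 : κ' / 5 * ‖T‖ ≤ κ' / 5 * (‖s‖ + κ' / 20) := by
      gcongr; linarith
    nlinarith
  have hnear : ∀ s ∈ ball T (κ' / 20), ‖X (s, w) - s‖ ≤ b * ‖w‖ ^ 2 := by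
    intro s hs
    refine (hX.near _ h8 s w (Or.inl (hdisc s hs)) hwr).trans ?_
    gcongr
    exact (le_abs_self _).trans (by linarith)
  have hTm : T ∈ ball T (κ' / 20) := mem_ball_self (by positivity)
  have hTw : T + w ∈ ball T (κ' / 20) := by
    rw [mem_ball, dist_eq_norm]; simpa using hwd
  refine ⟨?_, hnear T hTm⟩
  have hd : DifferentiableOn ℂ (fun s => X (s, w) - s) (ball T (κ' / 20)) := by
    have h1 : DifferentiableOn ℂ (fun s : ℂ => ((s, w) : ℂ × ℂ)) (ball T (κ' / 20)) := by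
      apply Differentiable.differentiableOn
      fun_prop
    refine ((hX.diff _ h8).comp h1 ?_).sub differentiableOn_id
    intro s hs
    exact ⟨Or.inl (hdisc s hs), hwr⟩
  have hmap : MapsTo (fun s => X (s, w) - s) (ball T (κ' / 20))
      (closedBall ((fun s => X (s, w) - s) T) (3 * b * ‖w‖ ^ 2)) := by
    intro s hs
    rw [mem_closedBall, dist_eq_norm]
    have h1 := hnear s hs
    have h2 := hnear T hTm
    have h3 := norm_sub_le (X (s, w) - s) (X (T, w) - T)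
    have h4 : 0 < b * ‖w‖ ^ 2 := by positivity
    simp only
    linarith
  have h := Complex.dist_le_div_mul_dist_of_mapsTo_ball hd hmap hTw
  rw [dist_eq_norm, dist_eq_norm] at h
  have e1 : T + w - T = w := by ring
  rw [e1] at h
  have e2 : (start X T w).2 + w = -((X (T + w, w) - (T + w)) - (X (T, w) - T)) := by
    simp only [start]; ring
  rw [e2, norm_neg]
  refine h.trans (le_of_eq ?_)
  field_simp

/-! ### Part 5: the outward half plane and the orbit family -/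

/-- parameters of the construction -/
structure Par (κ' κ₂ ρ C c A B A₀ B₀ : ℝ) (Ψ : ℂ → ℂ → ℂ) (G : ℂ × ℂ → ℂ) (r Bf : ℝ → ℝ)
    (X : ℂ × ℂ → ℂ) : Prop where
  nds : NDS κ₂ ρ C Ψ G
  fam : FamN κ' Ψ r Bf X
  κ'_pos : 0 < κ'
  κ_lt : κ' < κ₂
  κ_lt1 : κ₂ < 1
  c_pos : 0 < c
  c_le : c ≤ 1 / 64
  A_pos : 0 < A
  B_pos : 0 < B
  orb : ∀ (T₀ w : ℂ) (g₀ : ℝ) (k : ℕ) (p₀ : ℂ × ℂ), Ref κ' c T₀ w g₀ k →
      ‖p₀.2 + w‖ ≤ A₀ * ‖w‖ ^ 3 → ‖p₀.1 - T₀‖ ≤ B₀ * ‖w‖ ^ 2 → ∀ j : ℕ, j ≤ k →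
        ‖((stp G)^[j] p₀).2 + w‖ * (g₀ - j * ‖w‖) ^ 2 ≤ A * ‖w‖ ^ 3 ∧
        ‖((stp G)^[j] p₀).1 - (T₀ - j * w)‖ * (g₀ - j * ‖w‖) ≤ B * ‖w‖ ^ 2 ∧
        ((stp G)^[j] p₀).1 ∈ Rg κ₂ ∧ ‖((stp G)^[j] p₀).2‖ < ρ * ‖((stp G)^[j] p₀).1‖ ∧
        ‖((stp G)^[j] p₀).1 - (T₀ - j * w)‖ ≤ (g₀ - j * ‖w‖) / 8 ∧
        ‖((stp G)^[j] p₀).2‖ ≤ 2 * ‖w‖
  stb : ∀ T w : ℂ, 1 / 4 < ‖T‖ → ‖T‖ < 3 / 4 → T.im ≤ κ' / 5 * ‖T‖ → w ≠ 0 →
      ‖w‖ < c → ‖(start X T w).2 + w‖ ≤ A₀ * ‖w‖ ^ 3 ∧ ‖(start X T w).1 - T‖ ≤ B₀ * ‖w‖ ^ 2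
  sm : ∀ W : ℝ, 0 ≤ W → W < c → Sm κ' ρ r Bf (1 / 8) W

section par

variable {κ' κ₂ ρ C c A B A₀ B₀ : ℝ} {Ψ : ℂ → ℂ → ℂ} {G : ℂ × ℂ → ℂ} {r Bf : ℝ → ℝ}
    {X : ℂ × ℂ → ℂ}

/-- downward directions -/
def Dn (w : ℂ) : Prop := |w.re| < -w.im / 9

theorem Dn.out {w : ℂ} (hκ' : 0 < κ') (h : Dn w) : Out κ' w := by
  unfold Dn at h
  unfold Out
  have h1 := abs_nonneg w.re
  have : 0 ≤ κ' / 10 * |w.re| := by positivity
  linarith

theorem narrow {t : ℂ} (ht0 : t ≠ 0) (h : ‖t + Complex.I * (‖t‖ : ℂ)‖ ≤ ‖t‖ / 10) :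
    |t.re| ≤ -t.im / 9 := by
  have h1 := Complex.abs_re_le_norm (t + Complex.I * (‖t‖ : ℂ))
  have h2 := Complex.abs_im_le_norm (t + Complex.I * (‖t‖ : ℂ))
  have e1 : (t + Complex.I * (‖t‖ : ℂ)).re = t.re := by simp
  have e2 : (t + Complex.I * (‖t‖ : ℂ)).im = t.im + ‖t‖ := by simp
  rw [e1] at h1
  rw [e2] at h2
  have h3 := le_abs_self (t.im + ‖t‖)
  linarith

theorem Par.gd (P : Par κ' κ₂ ρ C c A B A₀ B₀ Ψ G r Bf X) {t w : ℂ} (h : NO κ' c t w) (hd : Dn w)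
    {i : ℕ} {a : ℝ} (ha : a ≤ ‖t‖ / 4) (hi : ‖t‖ + i * ‖w‖ < 13 / 16) :
    Gd κ' a (t + i * w) := by
  obtain ⟨h0, h1, h2, h3, h4⟩ := h.facts P.c_pos
  have hn : 0 < ‖t‖ := norm_pos_iff.2 h0
  have hg := geo (a := i) P.κ'_pos (P.κ_lt.trans P.κ_lt1) h2 (h.out.le P.κ'_pos) (Nat.cast_nonneg i)
  simp only [Complex.ofReal_natCast] at hg
  have hp : 0 ≤ (i : ℝ) * ‖w‖ := by positivity
  have hlow : a < ‖t + i * w‖ := by linarith [hg.1]
  refine ⟨Or.inr ⟨?_, hlow, by linarith [hg.2.1]⟩, hlow, by linarith [hg.2.1], hg.2.2⟩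
  have hnar := narrow h0 h2
  have e1 : (t + i * w).re = t.re + i * w.re := by simp
  have e2 : (t + i * w).im = t.im + i * w.im := by simp
  rw [e1, e2]
  unfold Dn at hd
  have h5 : |t.re + i * w.re| ≤ |t.re| + i * |w.re| := by
    refine (abs_add_le _ _).trans ?_
    rw [abs_mul, Nat.abs_cast]
  have h6 : (i : ℝ) * |w.re| ≤ i * (-w.im / 9) := by gcongr
  have h7 : t.im < 0 := by
    have := Complex.abs_im_le_norm (t + Complex.I * (‖t‖ : ℂ))
    have e : (t + Complex.I * (‖t‖ : ℂ)).im = t.im + ‖t‖ := by simp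
    rw [e] at this
    have := le_abs_self (t.im + ‖t‖)
    linarith
  have h8 : (i : ℝ) * w.im ≤ 0 := by
    have : w.im < 0 := by
      have := abs_nonneg w.re
      linarith
    exact mul_nonpos_of_nonneg_of_nonpos (Nat.cast_nonneg i) this.le
  linarith

theorem Par.gd0 (P : Par κ' κ₂ ρ C c A B A₀ B₀ Ψ G r Bf X) {t w : ℂ} (h : (t, w) ∈ NC c)
    {a : ℝ} (ha : a < ‖t‖) : Gd κ' a t := by
  obtain ⟨h1, h2, h3, h4⟩ := (NC_iff t w).1 h
  have hn : 0 < ‖t‖ := norm_pos_iff.2 h1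
  have hg := geo (a := 0) (t := t) (w := 0) P.κ'_pos (P.κ_lt.trans P.κ_lt1) h3.le (by simp)
        le_rfl
  simp only [Complex.ofReal_zero, mul_zero, add_zero] at hg
  have hnar := narrow h1 h3.le
  have h7 : t.im < 0 := by
    have := Complex.abs_im_le_norm (t + Complex.I * (‖t‖ : ℂ))
    have e : (t + Complex.I * (‖t‖ : ℂ)).im = t.im + ‖t‖ := by simp
    rw [e] at this
    have := le_abs_self (t.im + ‖t‖)
    linarith
  exact ⟨Or.inr ⟨by linarith, ha, by linarith⟩, ha, by linarith, hg.2.2⟩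

theorem Par.gd8 (P : Par κ' κ₂ ρ C c A B A₀ B₀ Ψ G r Bf X) {t w : ℂ} (h : NO κ' c t w) {i : ℕ}
    (hlo : 1 / 2 < ‖t‖ + i * ‖w‖) (hi : ‖t‖ + i * ‖w‖ < 13 / 16) : Gd κ' (1 / 8) (t + i * w) := by
  obtain ⟨h0, h1, h2, h3, h4⟩ := h.facts P.c_pos
  have hg := geo (a := i) P.κ'_pos (P.κ_lt.trans P.κ_lt1) h2 (h.out.le P.κ'_pos) (Nat.cast_nonneg i)
  simp only [Complex.ofReal_natCast] at hg
  have hlow : 1 / 8 < ‖t + i * w‖ := by linarith [hg.1]
  refine ⟨Or.inl ⟨⟨norm_pos_iff.1 (by linarith), by linarith [hg.2.1], ?_⟩, hlow⟩, hlow,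
    by linarith [hg.2.1], hg.2.2⟩
  have h5 := P.κ'_pos
  have h6 := hg.2.2
  nlinarith

theorem Par.orbit (P : Par κ' κ₂ ρ C c A B A₀ B₀ Ψ G r Bf X) {t w : ℂ} (h : NO κ' c t w) {k : ℕ}
    (hk : adm k t w) (j : ℕ) (hj : j ≤ k) :
    ‖((stp G)^[j] (start X (t + k * w) w)).1 - (t + k * w - j * w)‖ * (‖t‖ + k * ‖w‖ - j * ‖w‖) ≤
        B * ‖w‖ ^ 2 ∧
      ((stp G)^[j] (start X (t + k * w) w)).1 ∈ Rg κ₂ ∧
      ‖((stp G)^[j] (start X (t + k * w) w)).2‖ < ρ * ‖((stp G)^[j] (start X (t + k * w) w)).1‖ ∧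
      ‖((stp G)^[j] (start X (t + k * w) w)).1 - (t + k * w - j * w)‖ ≤
        (‖t‖ + k * ‖w‖ - j * ‖w‖) / 8 ∧
      ‖((stp G)^[j] (start X (t + k * w) w)).2‖ ≤ 2 * ‖w‖ := by
  obtain ⟨h0, h1, h2, h3, h4⟩ := h.facts P.c_pos
  have hκ1 := P.κ_lt.trans P.κ_lt1
  have hR := ref_of (k := k) P.κ'_pos hκ1 h0 h2 (h.out.le P.κ'_pos) h.out.ne P.c_pos h3 hk.2
  have hg := P.gd8 h (i := k) hk.1 (by linarith [hk.2])
  have hge := geo (a := k) P.κ'_pos hκ1 h2 (h.out.le P.κ'_pos) (Nat.cast_nonneg k)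
  simp only [Complex.ofReal_natCast] at hge
  obtain ⟨s1, s2⟩ := P.stb (t + k * w) w (by linarith [hge.1, hk.1]) (by linarith [hge.2.1, hk.2])
    hg.im h.out.ne h4
  obtain ⟨-, o2, o3, o4, o5, o6⟩ := P.orb _ _ _ _ _ hR s1 s2 j hj
  exact ⟨o2, o3, o4, o5, o6⟩

theorem Par.indep (P : Par κ' κ₂ ρ C c A B A₀ B₀ Ψ G r Bf X) {t w : ℂ} (h : NO κ' c t w) {k : ℕ}
    (hk : adm k t w) (hk' : adm (k + 1) t w) : sta G X (k + 1) t w = sta G X k t w := by
  obtain ⟨h0, h1, h2, h3, h4⟩ := h.facts P.c_pos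
  unfold sta
  rw [Function.iterate_succ_apply]
  have e : t + ((k + 1 : ℕ) : ℂ) * w = t + k * w + w := by push_cast; ring
  have hc := P.c_le
  have hW := norm_nonneg w
  have c1 : ((k + 1 : ℕ) : ℝ) = k + 1 := by push_cast; ring
  have c2 : ((k + 2 : ℕ) : ℝ) = k + 2 := by push_cast; ring
  have hk1 := hk.1
  have hk2 := hk'.2
  rw [c1] at hk2
  rw [e, match_step P.nds P.fam P.κ'_pos P.κ_lt P.κ_lt1 (by norm_num : (0 : ℝ) < 1 / 8) h.out.ne
    (P.sm _ (norm_nonneg _) h4) (P.gd8 h hk.1 (by linarith [hk.2])) (by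
      rw [← e]
      refine P.gd8 h hk'.1 (by rw [c1]; linarith)) (by
      have e2 : t + k * w + w + w = t + ((k + 2 : ℕ) : ℂ) * w := by push_cast; ring
      rw [e2]
      refine P.gd8 h (by rw [c2]; linarith) (by rw [c2]; linarith))]

theorem Par.indep_le (P : Par κ' κ₂ ρ C c A B A₀ B₀ Ψ G r Bf X) {t w : ℂ} (h : NO κ' c t w)
    {k l : ℕ} (hkl : k ≤ l) (hk : adm k t w) (hl : adm l t w) : sta G X l t w = sta G X k t w := by
  induction l, hkl using Nat.le_induction with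
  | base => rfl
  | succ l hle ih =>
    have hW := norm_nonneg w
    have c1 : ((l + 1 : ℕ) : ℝ) = l + 1 := by push_cast; ring
    have hl2 := hl.2
    rw [c1] at hl2
    have hadm : adm l t w := by
      refine ⟨?_, by linarith⟩
      have : (k : ℝ) * ‖w‖ ≤ l * ‖w‖ := by gcongr
      linarith [hk.1]
    rw [P.indep h hadm hl, ih hadm]

theorem Par.indep_all (P : Par κ' κ₂ ρ C c A B A₀ B₀ Ψ G r Bf X) {t w : ℂ} (h : NO κ' c t w)
    {k l : ℕ} (hk : adm k t w) (hl : adm l t w) : sta G X l t w = sta G X k t w := by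
  rcases le_total k l with hkl | hkl
  · exact P.indep_le h hkl hk hl
  · exact (P.indep_le h hkl hl hk).symm

theorem Par.Xo_eq (P : Par κ' κ₂ ρ C c A B A₀ B₀ Ψ G r Bf X) {t w : ℂ} (h : NO κ' c t w) {k : ℕ}
    (hk : adm k t w) : Xo G X (t, w) = (sta G X k t w).1 := by
  unfold Xo
  rw [P.indep_all h hk (kk_adm P.c_pos P.c_le h)]

theorem isOpen_Dm (κ' a : ℝ) : IsOpen (Dm κ' a) := by
  have : Dm κ' a = (Sg κ' ∩ {t | 1 / 8 < ‖t‖}) ∪
      ({t : ℂ | |t.re| < -t.im / 4} ∩ ({t | a < ‖t‖} ∩ {t | ‖t‖ < 1})) := by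
    ext t; simp [Dm]
  rw [this]
  refine IsOpen.union ((isOpen_Sg κ').inter (isOpen_lt continuous_const continuous_norm)) ?_
  refine IsOpen.inter ?_ (IsOpen.inter (isOpen_lt continuous_const continuous_norm)
    (isOpen_lt continuous_norm continuous_const))
  refine isOpen_lt (continuous_abs.comp Complex.continuous_re) ?_
  exact Complex.continuous_im.neg.div_const _

theorem FamN.diffAt (hX : FamN κ' Ψ r Bf X) {a : ℝ} (ha : 0 < a) {T w : ℂ} (hT : T ∈ Dm κ' a)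
    (hw : ‖w‖ < r a) : DifferentiableAt ℂ X (T, w) := by
  refine (hX.diff a ha).differentiableAt (IsOpen.mem_nhds ?_ ⟨hT, hw⟩)
  have : {p : ℂ × ℂ | p.1 ∈ Dm κ' a ∧ ‖p.2‖ < r a} =
      (Prod.fst ⁻¹' Dm κ' a) ∩ {p | ‖p.2‖ < r a} := by
    ext p; simp
  rw [this]
  exact IsOpen.inter ((isOpen_Dm κ' a).preimage continuous_fst)
    (isOpen_lt continuous_snd.norm continuous_const)

theorem Par.state_diff (P : Par κ' κ₂ ρ C c A B A₀ B₀ Ψ G r Bf X) {t w : ℂ} (h : NO κ' c t w)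
    {k : ℕ} (hk : adm k t w) (j : ℕ) (hj : j ≤ k) :
    DifferentiableAt ℂ (fun p : ℂ × ℂ => (stp G)^[j] (start X (p.1 + k * p.2) p.2)) (t, w) := by
  obtain ⟨h0, h1, h2, h3, h4⟩ := h.facts P.c_pos
  have h8 : (0 : ℝ) < 1 / 8 := by norm_num
  induction j with
  | zero =>
    simp only [Function.iterate_zero, id_eq, start]
    have g1 := P.gd8 h (i := k) hk.1 (by linarith [hk.2])
    have c1 : ((k + 1 : ℕ) : ℝ) = k + 1 := by push_cast; ring
    have hW := norm_nonneg w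
    have hc := P.c_le
    have g2 : Gd κ' (1 / 8) (t + k * w + w) := by
      have := P.gd8 h (i := k + 1) (by rw [c1]; linarith [hk.1]) (by rw [c1]; linarith [hk.2])
      have e : t + ((k + 1 : ℕ) : ℂ) * w = t + k * w + w := by push_cast; ring
      rwa [e] at this
    have hr := (P.sm _ (norm_nonneg _) h4).rad
    have d1 : DifferentiableAt ℂ X (t + k * w, w) :=
      FamN.diffAt P.fam h8 g1.dm hr
    have d2 : DifferentiableAt ℂ X (t + k * w + w, w) :=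
      FamN.diffAt P.fam h8 g2.dm hr
    have l1 : DifferentiableAt ℂ (fun p : ℂ × ℂ => (p.1 + k * p.2, p.2)) (t, w) := by fun_prop
    have l2 : DifferentiableAt ℂ (fun p : ℂ × ℂ => (p.1 + k * p.2 + p.2, p.2)) (t, w) := by fun_prop
    have e1 : DifferentiableAt ℂ (fun p : ℂ × ℂ => X (p.1 + k * p.2, p.2)) (t, w) :=
      DifferentiableAt.comp (t, w) (g := X) d1 l1
    have e2 : DifferentiableAt ℂ (fun p : ℂ × ℂ => X (p.1 + k * p.2 + p.2, p.2)) (t, w) :=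
      DifferentiableAt.comp (t, w) (g := X) d2 l2
    exact e1.prodMk (e1.sub e2)
  | succ j ih =>
    have hj' : j ≤ k := by omega
    have ih := ih hj'
    obtain ⟨-, o3, o4, -, -⟩ := P.orbit h hk j hj'
    have hGd : DifferentiableAt ℂ G ((stp G)^[j] (start X (t + k * w) w)) :=
      P.nds.diff _ _ o3 o4
    have hGc : DifferentiableAt ℂ (fun p : ℂ × ℂ => G ((stp G)^[j] (start X (p.1 + k * p.2) p.2)))
        (t, w) := DifferentiableAt.comp (t, w) (g := G)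
          (f := fun p : ℂ × ℂ => (stp G)^[j] (start X (p.1 + k * p.2) p.2)) hGd ih
    have hfst : DifferentiableAt ℂ
        (fun p : ℂ × ℂ => ((stp G)^[j] (start X (p.1 + k * p.2) p.2)).1) (t, w) := ih.fst
    have : (fun p : ℂ × ℂ => (stp G)^[j + 1] (start X (p.1 + k * p.2) p.2)) =
        fun p : ℂ × ℂ => (((stp G)^[j] (start X (p.1 + k * p.2) p.2)).1 +
          G ((stp G)^[j] (start X (p.1 + k * p.2) p.2)),
          G ((stp G)^[j] (start X (p.1 + k * p.2) p.2))) := by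
      funext p
      rw [Function.iterate_succ_apply']
      rfl
    rw [this]
    exact (hfst.add hGc).prodMk hGc

theorem Par.Xo_diff (P : Par κ' κ₂ ρ C c A B A₀ B₀ Ψ G r Bf X) {t w : ℂ} (h : NO κ' c t w) :
    DifferentiableAt ℂ (Xo G X) (t, w) := by
  have hk := kk_adm P.c_pos P.c_le h
  have hd := (P.state_diff h hk _ le_rfl).fst
  refine hd.congr_of_eventuallyEq ?_
  filter_upwards [eventually_NO h, eventually_adm hk] with p hp1 hp2
  exact P.Xo_eq hp1 hp2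

theorem Par.Xo_near (P : Par κ' κ₂ ρ C c A B A₀ B₀ Ψ G r Bf X) {t w : ℂ} (h : NO κ' c t w) :
    ‖Xo G X (t, w) - t‖ ≤ B * ‖w‖ ^ 2 / ‖t‖ := by
  obtain ⟨h0, h1, h2, h3, h4⟩ := h.facts P.c_pos
  have hn : 0 < ‖t‖ := norm_pos_iff.2 h0
  have hk := kk_adm P.c_pos P.c_le h
  obtain ⟨o1, -⟩ := P.orbit h hk _ le_rfl
  have e1 : t + kk t w * w - kk t w * w = t := by ring
  have e2 : ‖t‖ + kk t w * ‖w‖ - kk t w * ‖w‖ = ‖t‖ := by ring
  rw [e1, e2] at o1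
  rw [le_div_iff₀ hn]
  exact o1

/-- for small downward `w` the orbit family is the given family -/
theorem Par.Xo_agree0 (P : Par κ' κ₂ ρ C c A B A₀ B₀ Ψ G r Bf X) {t w : ℂ} (h : NO κ' c t w)
    (hd : Dn w) {a : ℝ} (ha : 0 < a) (hat : a ≤ ‖t‖ / 4) (hS : Sm κ' ρ r Bf a ‖w‖) :
    Xo G X (t, w) = X (t, w) := by
  have hk := kk_adm P.c_pos P.c_le h
  have hs := kk_spec P.c_pos P.c_le h
  obtain ⟨h0, h1, h2, h3, h4⟩ := h.facts P.c_pos
  have hc := P.c_le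
  have := agree P.nds P.fam P.κ'_pos P.κ_lt P.κ_lt1 ha h.out.ne hS (kk t w) (by
    intro i hi
    refine P.gd h hd hat ?_
    have : (i : ℝ) * ‖w‖ ≤ (kk t w + 1) * ‖w‖ := by
      gcongr
      exact_mod_cast hi
    linarith [hs.1])
  unfold Xo sta
  simp only
  rw [this]
  rfl

theorem Par.Xo_agree_half (P : Par κ' κ₂ ρ C c A B A₀ B₀ Ψ G r Bf X) {t w : ℂ}
    (h : NO κ' c t w) {a σ : ℝ} (ha : 0 < a) (hat : a ≤ ‖t‖ / 4)
    (hσ : ∀ W : ℝ, 0 ≤ W → W < σ → Sm κ' ρ r Bf a W) (hw : ‖w‖ < σ) {e : ℝ} (he : |e| = 1)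
    (hwe : w.im < κ' / 10 * (e * w.re)) : Xo G X (t, w) = X (t, w) := by
  have hκ' := P.κ'_pos
  obtain ⟨h0, h1, h2, h3, h4⟩ := h.facts P.c_pos
  have hn : 0 < ‖t‖ := norm_pos_iff.2 h0
  have hnc := (NC_iff t w).1 h.nc
  set R := min σ (c * ‖t‖) with hR
  have hRσ : R ≤ σ := min_le_left _ _
  have hRc : R ≤ c * ‖t‖ := min_le_right _ _
  have hσpos : 0 < σ := (norm_nonneg w).trans_lt hw
  have hRpos : 0 < R := lt_min hσpos (mul_pos P.c_pos hn)
  set D : Set ℂ := {v | v.im < κ' / 10 * (e * v.re)} ∩ ball 0 R with hD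
  have hDo : IsOpen D := by
    refine IsOpen.inter ?_ isOpen_ball
    refine isOpen_lt Complex.continuous_im ?_
    exact continuous_const.mul (continuous_const.mul Complex.continuous_re)
  have hDc : Convex ℝ D := by
    refine Convex.inter ?_ (convex_ball _ _)
    intro x hx y hy a b ha hb hab
    simp only [mem_ofPred_eq] at hx hy ⊢
    simp only [Complex.add_im, Complex.add_re, Complex.smul_im, Complex.smul_re, smul_eq_mul]
    rcases eq_or_lt_of_le ha with h | h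
    · have : b = 1 := by linarith
      subst this; rw [← h]; linarith
    · nlinarith [mul_lt_mul_of_pos_left hx h, mul_le_mul_of_nonneg_left hy.le hb]
  have hDout : ∀ v ∈ D, NO κ' c t v ∧ ‖v‖ < σ := by
    intro v hv
    have hv2 : ‖v‖ < R := by simpa using hv.2
    refine ⟨⟨(NC_iff t v).2 ⟨hnc.1, hnc.2.1, hnc.2.2.1, by linarith⟩, ?_⟩, by linarith⟩
    have hv1 : v.im < κ' / 10 * (e * v.re) := hv.1
    have h5 : e * v.re ≤ |v.re| := by
      have := le_abs_self (e * v.re)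
      rwa [abs_mul, he, one_mul] at this
    unfold Out
    have : κ' / 10 * (e * v.re) ≤ κ' / 10 * |v.re| := by gcongr
    linarith
  have hgd := P.gd0 h.nc (a := a) (by linarith)
  have hf : DifferentiableOn ℂ (fun v => Xo G X (t, v)) D := by
    intro v hv
    have hl : DifferentiableAt ℂ (fun v : ℂ => ((t, v) : ℂ × ℂ)) v := by fun_prop
    exact (DifferentiableAt.comp v (g := Xo G X) (P.Xo_diff (hDout v hv).1) hl).differentiableWithinAt
  have hg : DifferentiableOn ℂ (fun v => X (t, v)) D := by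
    intro v hv
    have hl : DifferentiableAt ℂ (fun v : ℂ => ((t, v) : ℂ × ℂ)) v := by fun_prop
    have hS := hσ ‖v‖ (norm_nonneg _) (hDout v hv).2
    exact (DifferentiableAt.comp v (g := X) (FamN.diffAt P.fam ha hgd.dm hS.rad)
      hl).differentiableWithinAt
  -- base point
  set z₀ : ℂ := -(Complex.I * ((R / 2 : ℝ) : ℂ)) with hz₀
  have hz₀re : z₀.re = 0 := by simp [hz₀]
  have hz₀im : z₀.im = -(R / 2) := by simp [hz₀]
  have hz₀n : ‖z₀‖ = R / 2 := by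
    rw [hz₀, norm_neg, norm_mul, Complex.norm_I, one_mul, Complex.norm_real,
      Real.norm_of_nonneg (by positivity)]
  have hz₀D : z₀ ∈ D := by
    refine ⟨?_, ?_⟩
    · show z₀.im < κ' / 10 * (e * z₀.re)
      rw [hz₀re, hz₀im, mul_zero, mul_zero]; linarith
    · rw [mem_ball, dist_zero_right, hz₀n]; linarith
  have hev : (fun v => Xo G X (t, v)) =ᶠ[𝓝 z₀] fun v => X (t, v) := by
    have h5 : ∀ᶠ v : ℂ in 𝓝 z₀, v ∈ D := hDo.mem_nhds hz₀D
    have h6 : ∀ᶠ v : ℂ in 𝓝 z₀, Dn v := by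
      have hop : IsOpen {v : ℂ | |v.re| < -v.im / 9} :=
        isOpen_lt (continuous_abs.comp Complex.continuous_re) (Complex.continuous_im.neg.div_const _)
      refine hop.mem_nhds ?_
      show |z₀.re| < -z₀.im / 9
      rw [hz₀re, hz₀im, abs_zero]; linarith
    filter_upwards [h5, h6] with v hv1 hv2
    exact P.Xo_agree0 (hDout v hv1).1 hv2 ha hat (hσ _ (norm_nonneg _) (hDout v hv1).2)
  have := (hf.analyticOnNhd hDo).eqOn_of_preconnected_of_eventuallyEq (hg.analyticOnNhd hDo)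
    hDc.isPreconnected hz₀D hev
  refine this ⟨hwe, ?_⟩
  rw [mem_ball, dist_zero_right]
  exact lt_min hw h3

/-- for small `w` the orbit family is the given family -/
theorem Par.Xo_agree (P : Par κ' κ₂ ρ C c A B A₀ B₀ Ψ G r Bf X) {t w : ℂ} (h : NO κ' c t w)
    {a σ : ℝ} (ha : 0 < a) (hat : a ≤ ‖t‖ / 4) (hσ : ∀ W : ℝ, 0 ≤ W → W < σ → Sm κ' ρ r Bf a W)
    (hw : ‖w‖ < σ) : Xo G X (t, w) = X (t, w) := by
  have hout := h.out
  unfold Out at hout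
  rcases le_total 0 w.re with h1 | h1
  · rw [abs_of_nonneg h1] at hout
    exact P.Xo_agree_half h ha hat hσ hw (e := 1) (by simp) (by rw [one_mul]; exact hout)
  · rw [abs_of_nonpos h1] at hout
    exact P.Xo_agree_half h ha hat hσ hw (e := -1) (by simp) (by
      have : -1 * w.re = -w.re := by ring
      rw [this]; exact hout)

/-! ### Part 6: gluing the two half planes -/

theorem Par.consist_pos (P : Par κ' κ₂ ρ C c A B A₀ B₀ Ψ G r Bf X) {t w : ℂ}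
    (hn : (t, w) ∈ NC c) (h1 : Out κ' w) (h2 : Out κ' (-w)) (hre : 0 < w.re) :
    Xo G X (t, w) = Xo G X (t, -w) := by
  have hκ' := P.κ'_pos
  obtain ⟨ht0, ht1, ht2, hw⟩ := (NC_iff t w).1 hn
  have hnt : 0 < ‖t‖ := norm_pos_iff.2 ht0
  set R := c * ‖t‖ with hR
  have hNO : ∀ v ∈ SP κ' R, NO κ' c t v ∧ NO κ' c t (-v) := by
    intro v hv
    have hv3 : ‖v‖ < R := by simpa using hv.2.2
    have hnc : (t, v) ∈ NC c := (NC_iff t v).2 ⟨ht0, ht1, ht2, hv3⟩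
    obtain ⟨o1, o2⟩ := SP_out hκ' hv
    exact ⟨⟨hnc, o1⟩, ⟨NC_neg hnc, o2⟩⟩
  have hf : DifferentiableOn ℂ (fun v => Xo G X (t, v)) (SP κ' R) := by
    intro v hv
    have h := P.Xo_diff (hNO v hv).1
    have hl : DifferentiableAt ℂ (fun v : ℂ => ((t, v) : ℂ × ℂ)) v := by fun_prop
    exact (DifferentiableAt.comp v (g := Xo G X) h hl).differentiableWithinAt
  have hg : DifferentiableOn ℂ (fun v => Xo G X (t, -v)) (SP κ' R) := by
    intro v hv
    have h := P.Xo_diff (hNO v hv).2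
    have hl : DifferentiableAt ℂ (fun v : ℂ => ((t, -v) : ℂ × ℂ)) v := by fun_prop
    exact (DifferentiableAt.comp v (g := Xo G X) h hl).differentiableWithinAt
  obtain ⟨σ, hσ, hσ1, hsm⟩ := exists_sm P.fam hκ' P.nds.ρ_pos (a := ‖t‖ / 4) (by positivity)
  have heq : ∀ v ∈ SP κ' R, ‖v‖ < σ → Xo G X (t, v) = Xo G X (t, -v) := by
    intro v hv hvσ
    have hS := hsm ‖v‖ (norm_nonneg _) hvσ
    have e1 := P.Xo_agree (hNO v hv).1 (by positivity) le_rfl hsm hvσ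
    have e2 := P.Xo_agree (hNO v hv).2 (by positivity) le_rfl hsm (by rwa [norm_neg])
    have g0 := P.gd0 (hNO v hv).1.nc (a := ‖t‖ / 4) (by linarith)
    rw [e1, e2, P.fam.even (‖t‖ / 4) (by positivity) t v g0.dm hS.rad]
  -- a base point
  set ε := min σ R / 2 with hε
  have hRpos : 0 < R := mul_pos P.c_pos hnt
  have hεpos : 0 < ε := by positivity
  have hεσ : ε < σ := by
    have := min_le_left σ R
    linarith
  have hεR : ε < R := by
    have := min_le_right σ R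
    linarith
  have hz0 : (ε : ℂ) ∈ SP κ' R := by
    refine ⟨?_, ?_, ?_⟩
    · simp only [mem_ofPred_eq, Complex.ofReal_im, Complex.ofReal_re]; positivity
    · simp only [mem_ofPred_eq, Complex.ofReal_im, Complex.ofReal_re, neg_zero]; positivity
    · rw [mem_ball, dist_zero_right, Complex.norm_real, Real.norm_of_nonneg hεpos.le]; exact hεR
  have hev : (fun v => Xo G X (t, v)) =ᶠ[𝓝 (ε : ℂ)] fun v => Xo G X (t, -v) := by
    have h1 : ∀ᶠ v : ℂ in 𝓝 (ε : ℂ), v ∈ SP κ' R := (SP_open κ' R).mem_nhds hz0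
    have h2 : ∀ᶠ v : ℂ in 𝓝 (ε : ℂ), ‖v‖ < σ := by
      have := (continuous_norm.tendsto (ε : ℂ)).eventually_lt_const
        (show ‖(ε : ℂ)‖ < σ by rw [Complex.norm_real, Real.norm_of_nonneg hεpos.le]; exact hεσ)
      exact this
    filter_upwards [h1, h2] with v hv1 hv2
    exact heq v hv1 hv2
  have hfa := hf.analyticOnNhd (SP_open κ' R)
  have hga := hg.analyticOnNhd (SP_open κ' R)
  have := hfa.eqOn_of_preconnected_of_eventuallyEq hga (SP_convex κ' R).isPreconnected hz0 hev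
  exact this (SP_of h1 h2 hre hw)

theorem Par.consist (P : Par κ' κ₂ ρ C c A B A₀ B₀ Ψ G r Bf X) {t w : ℂ}
    (hn : (t, w) ∈ NC c) (h1 : Out κ' w) (h2 : Out κ' (-w)) :
    Xo G X (t, w) = Xo G X (t, -w) := by
  rcases lt_trichotomy w.re 0 with hre | hre | hre
  · have := P.consist_pos (NC_neg hn) h2 (by rwa [neg_neg]) (by simpa using hre)
    rw [neg_neg] at this
    exact this.symm
  · exfalso
    unfold Out at h1 h2
    simp only [Complex.neg_re, Complex.neg_im, abs_neg, hre, abs_zero, mul_zero] at h1 h2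
    linarith
  · exact P.consist_pos hn h1 h2 hre

theorem Par.Xg_out' (P : Par κ' κ₂ ρ C c A B A₀ B₀ Ψ G r Bf X) {p : ℂ × ℂ} (hn : p ∈ NC c)
    (h : Out κ' (-p.2)) : Xg κ' G X p = Xo G X (p.1, -p.2) := by
  unfold Xg
  by_cases h1 : Out κ' p.2
  · rw [if_pos h1]
    exact P.consist (t := p.1) (w := p.2) hn h1 h
  · rw [if_neg h1, if_pos h]

theorem Par.Xg_even (P : Par κ' κ₂ ρ C c A B A₀ B₀ Ψ G r Bf X) {t w : ℂ}
    (hn : (t, w) ∈ NC c) : Xg κ' G X (t, -w) = Xg κ' G X (t, w) := by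
  by_cases hw : w = 0
  · rw [hw, neg_zero]
  rcases out_or P.κ'_pos hw with h | h
  · rw [Xg_out (p := (t, w)) h, P.Xg_out' (p := (t, -w)) (NC_neg hn) (by simpa using h)]
    simp
  · rw [Xg_out (p := (t, -w)) h, P.Xg_out' (p := (t, w)) hn h]

theorem Par.Xg_near (P : Par κ' κ₂ ρ C c A B A₀ B₀ Ψ G r Bf X) {t w : ℂ}
    (hn : (t, w) ∈ NC c) : ‖Xg κ' G X (t, w) - t‖ ≤ B * ‖w‖ ^ 2 / ‖t‖ := by
  by_cases hw : w = 0
  · subst hw
    rw [Xg_zero]
    simp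
  rcases out_or P.κ'_pos hw with h | h
  · rw [Xg_out (p := (t, w)) h]
    exact P.Xo_near ⟨hn, h⟩
  · rw [P.Xg_out' (p := (t, w)) hn h]
    have := P.Xo_near ⟨NC_neg hn, h⟩
    rwa [norm_neg] at this

theorem Par.Xg_diff (P : Par κ' κ₂ ρ C c A B A₀ B₀ Ψ G r Bf X) {t w : ℂ}
    (hn : (t, w) ∈ NC c) : DifferentiableAt ℂ (Xg κ' G X) (t, w) := by
  have hNC : ∀ᶠ p : ℂ × ℂ in 𝓝 (t, w), p ∈ NC c := (isOpen_NC c).mem_nhds hn
  by_cases hw : w = 0
  · subst hw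
    obtain ⟨ht0, ht1, ht2, -⟩ := (NC_iff t 0).1 hn
    have hnt : 0 < ‖t‖ := norm_pos_iff.2 ht0
    obtain ⟨σ, hσ, hσ1, hsm⟩ := exists_sm P.fam P.κ'_pos P.nds.ρ_pos (a := ‖t‖ / 8) (by positivity)
    -- near `(t,0)` the glued family is the given family
    have hc1 : ∀ᶠ p : ℂ × ℂ in 𝓝 (t, (0 : ℂ)), ‖p.2‖ < σ := by
      have hc : Continuous fun p : ℂ × ℂ => ‖p.2‖ := by fun_prop
      exact (hc.tendsto (t, (0 : ℂ))).eventually_lt_const (by simpa using hσ)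
    have hc2 : ∀ᶠ p : ℂ × ℂ in 𝓝 (t, (0 : ℂ)), ‖t‖ / 2 < ‖p.1‖ := by
      have hc : Continuous fun p : ℂ × ℂ => ‖p.1‖ := by fun_prop
      exact (hc.tendsto (t, (0 : ℂ))).eventually_const_lt (by simp only; linarith)
    have hgd : ∀ p : ℂ × ℂ, p ∈ NC c → ‖t‖ / 2 < ‖p.1‖ → Gd κ' (‖t‖ / 8) p.1 := by
      intro p hp hp2
      exact P.gd0 (t := p.1) (w := p.2) hp (by linarith)
    have heq : Xg κ' G X =ᶠ[𝓝 (t, (0 : ℂ))] X := by
      filter_upwards [hNC, hc1, hc2] with p hp hp1 hp2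
      have hS := hsm ‖p.2‖ (norm_nonneg _) hp1
      have hg0 := hgd p hp hp2
      have ha : (0 : ℝ) < ‖t‖ / 8 := by positivity
      have hle : ‖t‖ / 8 ≤ ‖p.1‖ / 4 := by linarith
      by_cases hp0 : p.2 = 0
      · have e : p = (p.1, 0) := by rw [← hp0]
        rw [e, Xg_zero]
        have := P.fam.near _ ha p.1 0 hg0.dm (by
          have := hS.rad; rw [hp0] at this; exact this)
        simp only [norm_zero, ne_eq, OfNat.ofNat_ne_zero, not_false_eq_true, zero_pow, mul_zero,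
          norm_le_zero_iff, sub_eq_zero] at this
        exact this.symm
      · rcases out_or P.κ'_pos hp0 with h | h
        · rw [Xg_out (p := p) h]
          exact P.Xo_agree (t := p.1) (w := p.2) ⟨hp, h⟩ ha hle hsm hp1
        · rw [P.Xg_out' (p := p) hp h,
            P.Xo_agree (t := p.1) (w := -p.2) ⟨NC_neg hp, h⟩ ha hle hsm (by rwa [norm_neg])]
          exact P.fam.even _ ha p.1 p.2 hg0.dm hS.rad
    have hg0 := hgd (t, 0) hn (by simp only; linarith)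
    have ha : (0 : ℝ) < ‖t‖ / 8 := by positivity
    have hd : DifferentiableAt ℂ X (t, 0) :=
      FamN.diffAt P.fam ha hg0.dm (by
        rw [norm_zero]; exact P.fam.r_pos _ ha)
    exact hd.congr_of_eventuallyEq heq
  rcases out_or P.κ'_pos hw with h | h
  · have hO : ∀ᶠ p : ℂ × ℂ in 𝓝 (t, w), Out κ' p.2 :=
      continuous_snd.continuousAt.eventually ((isOpen_Out κ').mem_nhds h)
    refine (P.Xo_diff ⟨hn, h⟩).congr_of_eventuallyEq ?_
    filter_upwards [hO] with p hp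
    exact Xg_out hp
  · have hO : ∀ᶠ p : ℂ × ℂ in 𝓝 (t, w), Out κ' (-p.2) := by
      have hc : ContinuousAt (fun p : ℂ × ℂ => -p.2) (t, w) := by fun_prop
      exact hc.eventually ((isOpen_Out κ').mem_nhds h)
    have hd : DifferentiableAt ℂ (fun p : ℂ × ℂ => Xo G X (p.1, -p.2)) (t, w) := by
      have hl : DifferentiableAt ℂ (fun p : ℂ × ℂ => (p.1, -p.2)) (t, w) := by fun_prop
      exact DifferentiableAt.comp (t, w) (g := Xo G X) (P.Xo_diff ⟨NC_neg hn, h⟩) hl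
    refine hd.congr_of_eventuallyEq ?_
    filter_upwards [hO, hNC] with p hp hp2
    exact P.Xg_out' hp2 hp

/-- the law for outward directions -/
theorem Par.Xo_el (P : Par κ' κ₂ ρ C c A B A₀ B₀ Ψ G r Bf X) {κ c₀ M : ℝ}
    (hE : EndPsi κ c₀ M Ψ) (hκ₂ : κ₂ ≤ κ) (hcc : 16 * c ≤ c₀) {t w : ℂ}
    (h1 : NO κ' c (t - w) w) (h2 : NO κ' c t w) (h3 : NO κ' c (t + w) w) :
    EL Ψ (Xo G X (t + w, w)) (Xo G X (t, w)) (Xo G X (t - w, w)) = 0 ∧
      (Xo G X (t + w, w), Xo G X (t, w)) ∈ DD κ c₀ ∧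
      (Xo G X (t, w), Xo G X (t - w, w)) ∈ DD κ c₀ := by
  obtain ⟨h0, h1', h2', h3', h4⟩ := h2.facts P.c_pos
  have hn : 0 < ‖t‖ := norm_pos_iff.2 h0
  have hW : 0 < ‖w‖ := norm_pos_iff.2 h2.out.ne
  have hc := P.c_le
  obtain ⟨k1, k2⟩ := kk_spec P.c_pos P.c_le h2
  set k := kk t w with hk
  have hkpos : k ≠ 0 := by
    intro h
    rw [h] at k2
    simp only [Nat.cast_zero, zero_mul, add_zero] at k2
    linarith
  obtain ⟨m, hm⟩ := Nat.exists_eq_succ_of_ne_zero hkpos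
  have hkm : (k : ℝ) = m + 1 := by rw [hm]; push_cast; ring
  have hkmc : (k : ℂ) = m + 1 := by rw [hm]; push_cast; ring
  have nt1 : ‖t‖ - ‖w‖ ≤ ‖t + w‖ := by
    have := norm_sub_norm_le t (-w)
    rw [sub_neg_eq_add, norm_neg] at this
    exact this
  have nt2 : ‖t + w‖ ≤ ‖t‖ + ‖w‖ := norm_add_le _ _
  have nt3 : ‖t‖ - ‖w‖ ≤ ‖t - w‖ := norm_sub_norm_le t w
  have nt4 : ‖t - w‖ ≤ ‖t‖ + ‖w‖ := norm_sub_le _ _
  have c1 : ((k + 1 : ℕ) : ℝ) = k + 1 := by push_cast; ring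
  have a0 : adm k t w := ⟨by linarith, by linarith⟩
  have am : adm m (t + w) w := ⟨by rw [hkm] at k2; linarith, by rw [hkm] at k1; linarith⟩
  have ap : adm (k + 1) (t - w) w := by
    constructor
    · rw [c1]; linarith
    · rw [c1]; linarith
  -- common start
  set p₀ := start X (t + k * w) w with hp₀
  have s0 : sta G X k t w = (stp G)^[k] p₀ := rfl
  have sm' : sta G X m (t + w) w = (stp G)^[m] p₀ := by
    unfold sta
    rw [hp₀]
    congr 2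
    rw [hkmc]; ring
  have sp : sta G X (k + 1) (t - w) w = (stp G)^[k + 1] p₀ := by
    unfold sta
    rw [hp₀]
    congr 2
    push_cast; ring
  have e0 : Xo G X (t, w) = ((stp G)^[k] p₀).1 := by rw [P.Xo_eq h2 a0, s0]
  have em : Xo G X (t + w, w) = ((stp G)^[m] p₀).1 := by rw [P.Xo_eq h3 am, sm']
  have ep : Xo G X (t - w, w) = ((stp G)^[k + 1] p₀).1 := by rw [P.Xo_eq h1 ap, sp]
  obtain ⟨-, o3, o4, o5, o6⟩ := P.orbit h2 a0 k le_rfl
  obtain ⟨-, m3, m4, m5, m6⟩ := P.orbit h2 a0 m (by omega)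
  obtain ⟨-, q3, q4, q5, q6⟩ := P.orbit h1 ap (k + 1) le_rfl
  rw [← hp₀] at o3 o4 o5 o6 m3 m4 m5 m6
  have hst : start X (t - w + ((k + 1 : ℕ) : ℂ) * w) w = p₀ := by
    rw [hp₀]; congr 1; push_cast; ring
  rw [hst] at q3 q4 q5 q6
  have ek : (stp G)^[k] p₀ = stp G ((stp G)^[m] p₀) := by
    rw [hm, Function.iterate_succ_apply']
  have ek1 : (stp G)^[k + 1] p₀ = stp G ((stp G)^[k] p₀) := by
    rw [Function.iterate_succ_apply']
  have hprev : ((stp G)^[k] p₀).1 - ((stp G)^[k] p₀).2 = ((stp G)^[m] p₀).1 := by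
    rw [ek]; simp [stp]
  have hnext : ((stp G)^[k + 1] p₀).1 = ((stp G)^[k] p₀).1 +
      G (((stp G)^[k] p₀).1, ((stp G)^[k] p₀).2) := by
    rw [ek1]; rfl
  have hnext2 : ((stp G)^[k + 1] p₀).1 - ((stp G)^[k] p₀).1 = ((stp G)^[k + 1] p₀).2 := by
    rw [ek1]; simp [stp]
  have hel := P.nds.el _ _ o3 o4
  rw [hprev, ← hnext] at hel
  rw [e0, em, ep]
  -- sizes
  have ex : t + k * w - k * w = t := by ring
  have eg : ‖t‖ + k * ‖w‖ - k * ‖w‖ = ‖t‖ := by ring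
  rw [ex, eg] at o5
  have hx : 7 / 8 * ‖t‖ ≤ ‖((stp G)^[k] p₀).1‖ := by
    have := norm_sub_norm_le t ((stp G)^[k] p₀).1
    have h' : ‖t - ((stp G)^[k] p₀).1‖ = ‖((stp G)^[k] p₀).1 - t‖ := norm_sub_rev _ _
    linarith
  have hwt : ‖w‖ ≤ ‖t‖ / 64 := by nlinarith
  have hxm : ‖((stp G)^[k] p₀).1‖ - 2 * ‖w‖ ≤ ‖((stp G)^[m] p₀).1‖ := by
    rw [← hprev]
    have := norm_sub_norm_le ((stp G)^[k] p₀).1 ((stp G)^[k] p₀).2
    linarith
  have hxp : ‖((stp G)^[k] p₀).1‖ - 2 * ‖w‖ ≤ ‖((stp G)^[k + 1] p₀).1‖ := by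
    have e : ((stp G)^[k + 1] p₀).1 = ((stp G)^[k] p₀).1 + ((stp G)^[k + 1] p₀).2 := by
      rw [← hnext2]; ring
    rw [e]
    have := norm_sub_norm_le ((stp G)^[k] p₀).1 (-((stp G)^[k + 1] p₀).2)
    rw [sub_neg_eq_add, norm_neg] at this
    linarith
  have hc₀ := hE.c_pos
  have hbig : ∀ a : ℝ, ‖t‖ / 2 ≤ a → 2 * ‖w‖ < c₀ * a := by
    intro a ha
    have h1 : c₀ * (‖t‖ / 2) ≤ c₀ * a := by gcongr
    have h2 : 16 * c * ‖t‖ ≤ c₀ * ‖t‖ := by gcongr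
    nlinarith
  refine ⟨hel, ⟨Rg_sub_Sg hκ₂ m3, Rg_sub_Sg hκ₂ o3, ?_, ?_⟩,
    ⟨Rg_sub_Sg hκ₂ o3, Rg_sub_Sg hκ₂ q3, ?_, ?_⟩⟩
  · have e : ((stp G)^[k] p₀).1 - ((stp G)^[m] p₀).1 = ((stp G)^[k] p₀).2 := by
      rw [← hprev]; ring
    simp only
    rw [e]
    exact lt_of_le_of_lt o6 (hbig _ (by linarith))
  · have e : ((stp G)^[k] p₀).1 - ((stp G)^[m] p₀).1 = ((stp G)^[k] p₀).2 := by
      rw [← hprev]; ring
    simp only
    rw [e]
    exact lt_of_le_of_lt o6 (hbig _ (by linarith))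
  · simp only
    rw [hnext2]
    exact lt_of_le_of_lt q6 (hbig _ (by linarith))
  · simp only
    rw [hnext2]
    exact lt_of_le_of_lt q6 (hbig _ (by linarith))

theorem Par.Xg_el (P : Par κ' κ₂ ρ C c A B A₀ B₀ Ψ G r Bf X) {κ c₀ M : ℝ}
    (hE : EndPsi κ c₀ M Ψ) (hκ₂ : κ₂ ≤ κ) (hcc : 16 * c ≤ c₀) {t w : ℂ}
    (h1 : (t - w, w) ∈ NC c) (h2 : (t, w) ∈ NC c) (h3 : (t + w, w) ∈ NC c) :
    EL Ψ (Xg κ' G X (t - w, w)) (Xg κ' G X (t, w)) (Xg κ' G X (t + w, w)) = 0 := by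
  by_cases hw : w = 0
  · subst hw
    simp only [sub_zero, add_zero, Xg_zero]
    obtain ⟨q0, q1, q2, -⟩ := (NC_iff t 0).1 h2
    have hg := geo (a := 0) (t := t) (w := 0) P.κ'_pos (P.κ_lt.trans P.κ_lt1) q2.le (by simp)
        le_rfl
    simp only [mul_zero, add_zero] at hg
    have hn : 0 < ‖t‖ := norm_pos_iff.2 q0
    refine EL_diag hE ⟨q0, by linarith, ?_⟩
    have := P.κ'_pos
    have := P.κ_lt
    nlinarith [hg.2.2]
  rcases out_or P.κ'_pos hw with h | h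
  · obtain ⟨e1, e2, e3⟩ := P.Xo_el hE hκ₂ hcc ⟨h1, h⟩ ⟨h2, h⟩ ⟨h3, h⟩
    rw [Xg_out (p := (t - w, w)) h, Xg_out (p := (t, w)) h, Xg_out (p := (t + w, w)) h]
    have := EL_antisymm hE e2 e3
    rw [this, e1, neg_zero]
  · have q1 : NO κ' c (t - -w) (-w) := ⟨by rw [sub_neg_eq_add]; exact NC_neg h3, h⟩
    have q2 : NO κ' c t (-w) := ⟨NC_neg h2, h⟩
    have q3 : NO κ' c (t + -w) (-w) := ⟨by rw [← sub_eq_add_neg]; exact NC_neg h1, h⟩
    obtain ⟨e1, -, -⟩ := P.Xo_el hE hκ₂ hcc q1 q2 q3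
    rw [P.Xg_out' (p := (t - w, w)) h1 h, P.Xg_out' (p := (t, w)) h2 h,
      P.Xg_out' (p := (t + w, w)) h3 h]
    simp only
    rw [← sub_eq_add_neg, sub_neg_eq_add] at e1
    exact e1

end par

end L2N

/-- **T5-L2** -/
theorem coneN_of_ndm (hN : NDM) : ConeN := by
  intro κ κ' c₀ M Ψ r Bf X hκ' hκ hE hX
  set κ₂ := (κ + κ') / 2 with hκ₂
  have hκ₂1 : κ' < κ₂ := by rw [hκ₂]; linarith
  have hκ₂2 : κ₂ < κ := by rw [hκ₂]; linarith
  have hκ₂3 : κ₂ < 1 := hκ₂2.trans hE.κ_lt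
  obtain ⟨ρ, C, G, hG⟩ := L2.nds_of_ndm hN hE hκ₂2
  obtain ⟨A₀, B₀, σ₀, hσ₀, hst⟩ := L2N.start_bound hX hκ' (by linarith)
  obtain ⟨A, B, c₁, hA, hB, hc₁, hc64, horb⟩ := L2.orbit (A₀ := A₀) (B₀ := B₀) hG hκ' hκ₂1 hκ₂3
  obtain ⟨σ₁, hσ₁, hσ1', hsm⟩ := L2N.exists_sm hX hκ' hG.ρ_pos (a := 1 / 8) (by norm_num)
  have hc₀ := hE.c_pos
  set c := min c₁ (min σ₀ (min σ₁ (c₀ / 16))) with hc
  have i0 : 0 < c := lt_min hc₁ (lt_min hσ₀ (lt_min hσ₁ (by positivity)))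
  have i1 : c ≤ c₁ := min_le_left _ _
  have i2 : c ≤ σ₀ := (min_le_right _ _).trans (min_le_left _ _)
  have i3 : c ≤ σ₁ := (min_le_right _ _).trans ((min_le_right _ _).trans (min_le_left _ _))
  have i4 : c ≤ c₀ / 16 := (min_le_right _ _).trans ((min_le_right _ _).trans (min_le_right _ _))
  have P : L2N.Par κ' κ₂ ρ C c A B A₀ B₀ Ψ G r Bf X := by
    refine ⟨hG, hX, hκ', hκ₂1, hκ₂3, i0, by linarith, hA, hB, ?_, ?_, ?_⟩
    · intro T₀ w g₀ k p₀ hR h1 h2 j hj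
      exact horb c T₀ w g₀ k p₀ i0 i1 hR h1 h2 j hj
    · intro T w h1 h2 h3 h4 h5
      exact hst T w h1 h2 h3 h4 (by linarith)
    · intro W h0 hW
      exact hsm W h0 (by linarith)
  refine ⟨c, B, L2.Xg κ' G X, i0, ?_, ?_, ?_, ?_⟩
  · intro p hp
    exact (P.Xg_diff (t := p.1) (w := p.2) hp).differentiableWithinAt
  · intro t w h
    exact P.Xg_near h
  · intro t w h
    exact P.Xg_even h
  · intro t w h1 h2 h3
    exact P.Xg_el hE hκ₂2.le (by linarith) h1 h2 h3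

end Crest.Agent.R102.T5R
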