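import Crest.Agent.R102.T5Defs_160
import Crest.Agent.R264.MontelU

/-!
Row 102, T5-L3: the blow-up of the family at a finite-time end (helper725).
`theorem blowUp : T5R.BlowUp`.
-/

set_option autoImplicit false

open Set Filter Topology Metric
open scoped ComplexConjugate

noncomputable section

namespace Crest.Agent.R102.T5L3_725

open Crest.Agent.R102.T5R

lemma norm_ge {ρ : ℝ} {t : ℂ} (ht : t ∈ ball (-Complex.I) ρ) : 1 - ρ < ‖t‖ := by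
  rw [mem_ball, dist_eq_norm] at ht
  have h1 : ‖(-Complex.I : ℂ)‖ = 1 := by simp
  have h2 : ‖(-Complex.I : ℂ)‖ ≤ ‖t‖ + ‖t - -Complex.I‖ := by
    have := norm_sub_le t (t - -Complex.I)
    have h3 : t - (t - -Complex.I) = -Complex.I := by ring
    rw [h3] at this
    exact this
  linarith

lemma norm_lt {ρ : ℝ} {t : ℂ} (ht : t ∈ ball (-Complex.I) ρ) : ‖t‖ < 1 + ρ := by
  rw [mem_ball, dist_eq_norm] at ht
  have h1 : ‖(-Complex.I : ℂ)‖ = 1 := by simp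
  have h2 : ‖t‖ ≤ ‖(-Complex.I : ℂ)‖ + ‖t - -Complex.I‖ := by
    have := norm_add_le (-Complex.I) (t - -Complex.I)
    have h3 : -Complex.I + (t - -Complex.I) = t := by ring
    rw [h3] at this
    exact this
  linarith

lemma im_lt {ρ : ℝ} {t : ℂ} (ht : t ∈ ball (-Complex.I) ρ) : t.im < -1 + ρ := by
  rw [mem_ball, dist_eq_norm] at ht
  have h1 : |(t - -Complex.I).im| ≤ ‖t - -Complex.I‖ := Complex.abs_im_le_norm _
  have h2 : (t - -Complex.I).im = t.im + 1 := by simp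
  rw [h2] at h1
  have := (abs_le.1 (h1.trans ht.le)).2
  have h3 : |t.im + 1| < ρ := h1.trans_lt ht
  linarith [(abs_lt.1 h3).2]

/-- scaled points lie in the cone -/
lemma mem_NC {c ρ l : ℝ} (hc : 0 < c) (hρ1 : ρ ≤ 1 / 40) (hρ2 : ρ ≤ c / 4) (hl : 0 < l)
    (hl' : l < 1 / 8) {t w : ℂ} (ht : t ∈ ball (-Complex.I) ρ) (hw : w ∈ ball (0 : ℂ) ρ) :
    ((l : ℂ) * t, (l : ℂ) * w) ∈ NC c := by
  have hn := norm_ge ht
  have hn' := norm_lt ht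
  have hw' : ‖w‖ < ρ := by simpa using hw
  have hρ0 : 0 < ρ := (norm_nonneg w).trans_lt hw'
  have ht0 : t ≠ 0 := by
    intro h
    rw [h, norm_zero] at hn
    linarith
  have hl0 : (l : ℂ) ≠ 0 := by exact_mod_cast hl.ne'
  have hnl : ‖(l : ℂ) * t‖ = l * ‖t‖ := by
    rw [norm_mul, Complex.norm_real, Real.norm_of_nonneg hl.le]
  have hnw : ‖(l : ℂ) * w‖ = l * ‖w‖ := by
    rw [norm_mul, Complex.norm_real, Real.norm_of_nonneg hl.le]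
  refine ⟨mul_ne_zero hl0 ht0, ?_, ?_, ?_⟩
  · show ‖(l : ℂ) * t‖ < 1 / 4
    rw [hnl]
    nlinarith
  · show ‖(l : ℂ) * t + Complex.I * (‖(l : ℂ) * t‖ : ℂ)‖ < ‖(l : ℂ) * t‖ / 10
    rw [hnl]
    have h1 : (l : ℂ) * t + Complex.I * ((l * ‖t‖ : ℝ) : ℂ) =
        (l : ℂ) * ((t - -Complex.I) + Complex.I * ((‖t‖ - 1 : ℝ) : ℂ)) := by
      push_cast
      ring
    rw [h1, norm_mul, Complex.norm_real, Real.norm_of_nonneg hl.le, mul_div_assoc]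
    have h2 : ‖(t - -Complex.I) + Complex.I * ((‖t‖ - 1 : ℝ) : ℂ)‖ ≤ 2 * ρ := by
      refine (norm_add_le _ _).trans ?_
      have h3 : ‖t - -Complex.I‖ < ρ := by
        rw [mem_ball, dist_eq_norm] at ht
        exact ht
      have h4 : ‖Complex.I * ((‖t‖ - 1 : ℝ) : ℂ)‖ ≤ ρ := by
        rw [norm_mul, Complex.norm_I, one_mul, Complex.norm_real, Real.norm_eq_abs, abs_le]
        constructor <;> linarith
      linarith
    have h5 : ‖(t - -Complex.I) + Complex.I * ((‖t‖ - 1 : ℝ) : ℂ)‖ < ‖t‖ / 10 := by linarith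
    exact mul_lt_mul_of_pos_left h5 hl
  · show ‖(l : ℂ) * w‖ < c * ‖(l : ℂ) * t‖
    rw [hnl, hnw]
    have h6 : ‖w‖ < c * ‖t‖ := by nlinarith
    nlinarith

/-- the scaled family minus `t` -/
def fl (X : ℂ × ℂ → ℂ) (l : ℝ) (x : ℂ × ℂ) : ℂ :=
  if 0 < l ∧ l < 1 / 8 then X ((l : ℂ) * x.1, (l : ℂ) * x.2) / l - x.1 else 0

lemma fl_diff {c C ρ : ℝ} {Ψ : ℂ → ℂ → ℂ} {X : ℂ × ℂ → ℂ} (hX : ConeFam c C Ψ X)
    (hρ1 : ρ ≤ 1 / 40) (hρ2 : ρ ≤ c / 4) (l : ℝ) :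
    DifferentiableOn ℂ (fl X l) (ball (-Complex.I) ρ ×ˢ ball (0 : ℂ) ρ) := by
  by_cases h : 0 < l ∧ l < 1 / 8
  · have h1 : fl X l = fun x : ℂ × ℂ => X ((l : ℂ) * x.1, (l : ℂ) * x.2) / l - x.1 := by
      funext x
      simp only [fl, if_pos h]
    rw [h1]
    have h2 : DifferentiableOn ℂ (fun x : ℂ × ℂ => X ((l : ℂ) * x.1, (l : ℂ) * x.2))
        (ball (-Complex.I) ρ ×ˢ ball (0 : ℂ) ρ) :=
      hX.diff.comp (f := fun x : ℂ × ℂ => ((l : ℂ) * x.1, (l : ℂ) * x.2)) (by fun_prop)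
        (fun x hx => mem_NC hX.c_pos hρ1 hρ2 h.1 h.2 hx.1 hx.2)
    have h3 := (h2.mul_const ((l : ℂ)⁻¹)).sub (differentiableOn_fst (𝕜 := ℂ) (E := ℂ) (F := ℂ))
    exact h3
  · have h1 : fl X l = fun _ => 0 := by
      funext x
      simp only [fl, if_neg h]
    rw [h1]
    exact differentiableOn_const 0

lemma fl_bound {c C ρ : ℝ} {Ψ : ℂ → ℂ → ℂ} {X : ℂ × ℂ → ℂ} (hX : ConeFam c C Ψ X)
    (hρ1 : ρ ≤ 1 / 40) (hρ2 : ρ ≤ c / 4) (l : ℝ) {t w : ℂ} (ht : t ∈ ball (-Complex.I) ρ)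
    (hw : w ∈ ball (0 : ℂ) ρ) : ‖fl X l (t, w)‖ ≤ (2 * max C 0) * ‖w‖ ^ 2 := by
  have hpos : 0 ≤ (2 * max C 0) * ‖w‖ ^ 2 := by positivity
  by_cases h : 0 < l ∧ l < 1 / 8
  · obtain ⟨hl, hl'⟩ := h
    have hn := norm_ge ht
    have hl0 : (l : ℂ) ≠ 0 := by exact_mod_cast hl.ne'
    have h1 : fl X l (t, w) = (X ((l : ℂ) * t, (l : ℂ) * w) - (l : ℂ) * t) / l := by
      simp only [fl, if_pos (And.intro hl hl')]
      field_simp
    have h2 := hX.near _ _ (mem_NC hX.c_pos hρ1 hρ2 hl hl' ht hw)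
    have hnl : ‖(l : ℂ) * t‖ = l * ‖t‖ := by
      rw [norm_mul, Complex.norm_real, Real.norm_of_nonneg hl.le]
    have hnw : ‖(l : ℂ) * w‖ = l * ‖w‖ := by
      rw [norm_mul, Complex.norm_real, Real.norm_of_nonneg hl.le]
    rw [hnl, hnw] at h2
    rw [h1, norm_div, Complex.norm_real, Real.norm_of_nonneg hl.le, div_le_iff₀ hl]
    refine h2.trans ?_
    have ht0 : 0 < ‖t‖ := by linarith
    rw [div_le_iff₀ (by positivity)]
    have h3 : C ≤ max C 0 := le_max_left _ _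
    have h4 : 0 ≤ max C 0 := le_max_right _ _
    have h5 : 1 ≤ 2 * ‖t‖ := by linarith
    calc C * (l * ‖w‖) ^ 2 ≤ max C 0 * (l * ‖w‖) ^ 2 := by gcongr
      _ = max C 0 * (l * ‖w‖) ^ 2 * 1 := by ring
      _ ≤ max C 0 * (l * ‖w‖) ^ 2 * (2 * ‖t‖) := by gcongr
      _ = 2 * max C 0 * ‖w‖ ^ 2 * l * (l * ‖t‖) := by ring
  · simp only [fl, if_neg h, norm_zero]
    exact hpos

/-! ### scaling of the reflection law -/

/-- the Lagrangian as a function of two variables -/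
def GG (Ψ : ℂ → ℂ → ℂ) (p : ℂ × ℂ) : ℂ := (p.2 - p.1) ^ 3 * Ψ p.1 p.2

lemma EL_eq {Ψ : ℂ → ℂ → ℂ} {x y z : ℂ} (h1 : DifferentiableAt ℂ (GG Ψ) (x, y))
    (h2 : DifferentiableAt ℂ (GG Ψ) (y, z)) :
    EL Ψ x y z = fderiv ℂ (GG Ψ) (x, y) (0, 1) + fderiv ℂ (GG Ψ) (y, z) (1, 0) := by
  have e1 : HasDerivAt (fun y' => LL Ψ x y') (fderiv ℂ (GG Ψ) (x, y) (0, 1)) y := by
    have h3 : HasDerivAt (fun y' : ℂ => (x, y')) ((0 : ℂ), (1 : ℂ)) y :=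
      (hasDerivAt_const y x).prodMk (hasDerivAt_id y)
    exact h1.hasFDerivAt.comp_hasDerivAt y h3
  have e2 : HasDerivAt (fun y' => LL Ψ y' z) (fderiv ℂ (GG Ψ) (y, z) (1, 0)) y := by
    have h3 : HasDerivAt (fun y' : ℂ => (y', z)) ((1 : ℂ), (0 : ℂ)) y :=
      (hasDerivAt_id y).prodMk (hasDerivAt_const y z)
    exact h2.hasFDerivAt.comp_hasDerivAt y h3
  rw [EL, e1.deriv, e2.deriv]

/-- `Ψ` at scale `l` -/
def Pl (Ψ : ℂ → ℂ → ℂ) (l : ℝ) (x y : ℂ) : ℂ := Ψ ((l : ℂ) * x) ((l : ℂ) * y)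

lemma EL_scale {Ψ : ℂ → ℂ → ℂ} {l : ℝ} (hl : l ≠ 0) (x y z : ℂ)
    (h : EL Ψ ((l : ℂ) * x) ((l : ℂ) * y) ((l : ℂ) * z) = 0) : EL (Pl Ψ l) x y z = 0 := by
  have hl0 : (l : ℂ) ≠ 0 := by exact_mod_cast hl
  have e1 : (fun y' => LL (Pl Ψ l) x y') =
      fun y' => ((l : ℂ) ^ 3)⁻¹ * (fun s => LL Ψ ((l : ℂ) * x) s) ((l : ℂ) * y') := by
    funext y'
    simp only [LL, Pl]
    field_simp
  have e2 : (fun y' => LL (Pl Ψ l) y' z) =
      fun y' => ((l : ℂ) ^ 3)⁻¹ * (fun s => LL Ψ s ((l : ℂ) * z)) ((l : ℂ) * y') := by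
    funext y'
    simp only [LL, Pl]
    field_simp
  have d1 := deriv_comp_mul_left (l : ℂ) (fun s => LL Ψ ((l : ℂ) * x) s) y
  have d2 := deriv_comp_mul_left (l : ℂ) (fun s => LL Ψ s ((l : ℂ) * z)) y
  rw [EL, e1, e2, deriv_const_mul_field, deriv_const_mul_field, d1, d2, ← mul_add, ← smul_add]
  rw [EL] at h
  rw [h, smul_zero, mul_zero]

/-! ### the limit of the Lagrangian -/

lemma mem_aux {κ c₀ l : ℝ} (hκ : 0 < κ) (hc : 0 < c₀) (hc' : c₀ < 1 / 4) (hl : 0 < l) {x y : ℂ}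
    (hx : x ∈ ball (-Complex.I) (c₀ / 4)) (hy : y ∈ ball (-Complex.I) (c₀ / 4)) :
    (l : ℂ) * x ≠ 0 ∧ ‖(l : ℂ) * x‖ < 2 * l ∧ ((l : ℂ) * x).im < κ * ‖(l : ℂ) * x‖ ∧
      ‖(l : ℂ) * y - (l : ℂ) * x‖ < c₀ * ‖(l : ℂ) * x‖ := by
  have hn := norm_ge hx
  have hn' := norm_lt hx
  have hi := im_lt hx
  have hnl : ‖(l : ℂ) * x‖ = l * ‖x‖ := by
    rw [norm_mul, Complex.norm_real, Real.norm_of_nonneg hl.le]
  have hl0 : (l : ℂ) ≠ 0 := by exact_mod_cast hl.ne'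
  have hx0 : x ≠ 0 := by
    intro h
    rw [h, norm_zero] at hn
    linarith
  have hxpos : 0 < ‖x‖ := norm_pos_iff.2 hx0
  have hd : ‖y - x‖ < c₀ / 2 := by
    rw [mem_ball] at hx hy
    have := dist_triangle y (-Complex.I) x
    rw [dist_comm (-Complex.I) x] at this
    rw [← dist_eq_norm]
    linarith
  refine ⟨mul_ne_zero hl0 hx0, ?_, ?_, ?_⟩
  · rw [hnl]
    nlinarith
  · rw [hnl]
    have h1 : ((l : ℂ) * x).im = l * x.im := by simp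
    rw [h1]
    have h2 : l * x.im < 0 := mul_neg_of_pos_of_neg hl (by linarith)
    have h3 : 0 < κ * (l * ‖x‖) := by positivity
    linarith
  · rw [hnl, ← mul_sub, norm_mul, Complex.norm_real, Real.norm_of_nonneg hl.le]
    have h4 : ‖y - x‖ < c₀ * ‖x‖ := by nlinarith
    nlinarith

lemma mem_DD {κ c₀ l : ℝ} (hκ : 0 < κ) (hc : 0 < c₀) (hc' : c₀ < 1 / 4) (hl : 0 < l)
    (hl' : l < 1 / 8) {x y : ℂ}
    (hx : x ∈ ball (-Complex.I) (c₀ / 4)) (hy : y ∈ ball (-Complex.I) (c₀ / 4)) :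
    ((l : ℂ) * x, (l : ℂ) * y) ∈ DD κ c₀ := by
  obtain ⟨a1, a2, a3, a4⟩ := mem_aux hκ hc hc' hl hx hy
  obtain ⟨b1, b2, b3, b4⟩ := mem_aux hκ hc hc' hl hy hx
  refine ⟨⟨a1, by linarith, a3⟩, ⟨b1, by linarith, b3⟩, a4, ?_⟩
  rw [norm_sub_rev]
  exact b4

lemma mem_DD0 {κ c₀ : ℝ} (hκ : 0 < κ) (hc : 0 < c₀) (hc' : c₀ < 1 / 4) {x y : ℂ}
    (hx : x ∈ ball (-Complex.I) (c₀ / 4)) (hy : y ∈ ball (-Complex.I) (c₀ / 4)) :
    (x, y) ∈ DD0 κ c₀ := by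
  obtain ⟨a1, a2, a3, a4⟩ := mem_aux hκ hc hc' one_pos hx hy
  obtain ⟨b1, b2, b3, b4⟩ := mem_aux hκ hc hc' one_pos hy hx
  simp only [Complex.ofReal_one, one_mul] at a1 a2 a3 a4 b1 b2 b3 b4
  refine ⟨a1, b1, a3, b3, a4, ?_⟩
  rw [norm_sub_rev]
  exact b4

lemma GG_diff {κ c₀ M l : ℝ} {Ψ : ℂ → ℂ → ℂ} (hE : EndPsi κ c₀ M Ψ) (hl : 0 < l)
    (hl' : l < 1 / 8) : DifferentiableOn ℂ (GG (Pl Ψ l))
      (ball (-Complex.I) (c₀ / 4) ×ˢ ball (-Complex.I) (c₀ / 4)) := by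
  have h1 : DifferentiableOn ℂ (fun x : ℂ × ℂ => Ψ ((l : ℂ) * x.1) ((l : ℂ) * x.2))
      (ball (-Complex.I) (c₀ / 4) ×ˢ ball (-Complex.I) (c₀ / 4)) :=
    hE.diff.comp (f := fun x : ℂ × ℂ => ((l : ℂ) * x.1, (l : ℂ) * x.2)) (by fun_prop)
      (fun x hx => mem_DD hE.κ_pos hE.c_pos hE.c_lt hl hl' hx.1 hx.2)
  have h2 : DifferentiableOn ℂ (fun x : ℂ × ℂ => (x.2 - x.1) ^ 3)
      (ball (-Complex.I) (c₀ / 4) ×ˢ ball (-Complex.I) (c₀ / 4)) := by fun_prop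
  exact h2.mul h1

lemma GG_bound {κ c₀ M l : ℝ} {Ψ : ℂ → ℂ → ℂ} (hE : EndPsi κ c₀ M Ψ) (hl : 0 < l)
    (hl' : l < 1 / 8) {x : ℂ × ℂ}
    (hx : x ∈ ball (-Complex.I) (c₀ / 4) ×ˢ ball (-Complex.I) (c₀ / 4)) :
    ‖GG (Pl Ψ l) x‖ ≤ M := by
  have hd : ‖x.2 - x.1‖ ≤ 1 := by
    have h1 := hx.1
    have h2 := hx.2
    rw [mem_ball] at h1 h2
    have := dist_triangle x.2 (-Complex.I) x.1
    rw [dist_comm (-Complex.I) x.1] at this
    rw [← dist_eq_norm]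
    linarith [hE.c_lt]
  have hb := hE.bound _ _ (mem_DD hE.κ_pos hE.c_pos hE.c_lt hl hl' hx.1 hx.2)
  have h3 : ‖x.2 - x.1‖ ^ 3 ≤ 1 := pow_le_one₀ (norm_nonneg _) hd
  calc ‖GG (Pl Ψ l) x‖ = ‖x.2 - x.1‖ ^ 3 * ‖Ψ ((l : ℂ) * x.1) ((l : ℂ) * x.2)‖ := by
        rw [GG, Pl, norm_mul, norm_pow]
    _ ≤ 1 * M := mul_le_mul h3 hb (norm_nonneg _) zero_le_one
    _ = M := one_mul M

/-- **L3 (BLOW-UP)** -/
theorem blowUp : BlowUp := by
  intro κ c₀ M c C Ψ Ψ₀ X hE hX hlim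
  set C₁ : ℝ := 2 * max C 0 with hC₁
  have hC₁0 : 0 ≤ C₁ := by positivity
  set ρ : ℝ := min (1 / 40) (min (c / 4) (min (c₀ / 16) (1 / (20 * (C₁ + 1))))) with hρ
  have hcp := hX.c_pos
  have hc0 := hE.c_pos
  have hc0' := hE.c_lt
  have hρ0 : 0 < ρ := by
    rw [hρ]
    exact lt_min (by norm_num) (lt_min (by positivity) (lt_min (by positivity) (by positivity)))
  have hρ1 : ρ ≤ 1 / 40 := min_le_left _ _
  have hρ2 : ρ ≤ c / 4 := (min_le_right _ _).trans (min_le_left _ _)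
  have hρ3 : ρ ≤ c₀ / 16 := (min_le_right _ _).trans ((min_le_right _ _).trans (min_le_left _ _))
  have hρ4 : ρ ≤ 1 / (20 * (C₁ + 1)) :=
    (min_le_right _ _).trans ((min_le_right _ _).trans (min_le_right _ _))
  have hCρ : C₁ * ρ ≤ 1 / 20 := by
    calc C₁ * ρ ≤ C₁ * (1 / (20 * (C₁ + 1))) := by gcongr
      _ = (1 / 20) * (C₁ / (C₁ + 1)) := by field_simp
      _ ≤ (1 / 20) * 1 := by
          gcongr
          rw [div_le_one (by positivity)]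
          linarith
      _ = 1 / 20 := by ring
  set u : Ultrafilter ℝ := Ultrafilter.of (𝓝[>] (0 : ℝ)) with hu
  have hule : (u : Filter ℝ) ≤ 𝓝[>] (0 : ℝ) := Ultrafilter.of_le _
  have hul : ∀ᶠ l in (u : Filter ℝ), 0 < l ∧ l < 1 / 8 := by
    have h1 : ∀ᶠ l in 𝓝[>] (0 : ℝ), l ∈ Ioo (0 : ℝ) (1 / 8) := Ioo_mem_nhdsGT (by norm_num)
    exact hule h1
  set D : Set (ℂ × ℂ) := ball (-Complex.I) ρ ×ˢ ball (0 : ℂ) ρ with hD
  have hDo : IsOpen D := isOpen_ball.prod isOpen_ball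
  have hfb : ∀ (l : ℝ), ∀ x ∈ D, ‖fl X l x‖ ≤ C₁ * ρ ^ 2 := by
    intro l x hx
    have h1 := fl_bound hX hρ1 hρ2 l hx.1 hx.2
    have h2 : ‖x.2‖ ≤ ρ := by
      have := hx.2
      rw [mem_ball_zero_iff] at this
      exact this.le
    calc ‖fl X l x‖ ≤ C₁ * ‖x.2‖ ^ 2 := h1
      _ ≤ C₁ * ρ ^ 2 := by gcongr
  obtain ⟨g, hg1, hg2, hg3⟩ := R264.montel_ultra u hDo (f := fl X) (fl_diff hX hρ1 hρ2) hfb
  have hgp : ∀ x ∈ D, Tendsto (fun l => fl X l x) u (𝓝 (g x)) := fun x hx => hg1.tendsto_at hx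
  have hgn : ∀ t ∈ ball (-Complex.I) ρ, ∀ w ∈ ball (0 : ℂ) ρ, ‖g (t, w)‖ ≤ C₁ * ‖w‖ ^ 2 := by
    intro t ht w hw
    exact le_of_tendsto (hgp (t, w) ⟨ht, hw⟩).norm
      (Eventually.of_forall (fun l => fl_bound hX hρ1 hρ2 l ht hw))
  -- the Lagrangian
  set D₂ : Set (ℂ × ℂ) := ball (-Complex.I) (c₀ / 4) ×ˢ ball (-Complex.I) (c₀ / 4) with hD₂
  have hD₂o : IsOpen D₂ := isOpen_ball.prod isOpen_ball
  have hGd : ∀ᶠ l in (u : Filter ℝ), DifferentiableOn ℂ (GG (Pl Ψ l)) D₂ :=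
    hul.mono (fun l hl => GG_diff hE hl.1 hl.2)
  have hGb : ∀ᶠ l in (u : Filter ℝ), ∀ x ∈ D₂, ‖GG (Pl Ψ l) x‖ ≤ M :=
    hul.mono (fun l hl x hx => GG_bound hE hl.1 hl.2 hx)
  have hGp : ∀ x ∈ D₂, Tendsto (fun l => GG (Pl Ψ l) x) u (𝓝 (GG Ψ₀ x)) := by
    intro x hx
    have h1 := (hlim x.1 x.2 (mem_DD0 hE.κ_pos hc0 hc0' hx.1 hx.2)).mono_left hule
    exact h1.const_mul _
  have hGt : TendstoLocallyUniformlyOn (fun l => GG (Pl Ψ l)) (GG Ψ₀) u D₂ :=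
    R264.tlu_of_pointwise hD₂o hGd hGb hGp
  have hG0 : AnalyticOnNhd ℂ (GG Ψ₀) D₂ :=
    R266.SCV.analyticOnNhd_of_tendstoLocallyUniformlyOn hD₂o hGt hGd
  have hGf := R264.tlu_fderiv hD₂o hGt hGd
  have hcont : ContinuousOn (fderiv ℂ (GG Ψ₀)) D₂ := hG0.fderiv.continuousOn
  -- points
  have hpt : ∀ t ∈ ball (-Complex.I) ρ, ∀ w ∈ ball (0 : ℂ) ρ, ∀ z : ℂ, ‖z‖ ≤ C₁ * ‖w‖ ^ 2 →
      t + z ∈ ball (-Complex.I) (c₀ / 4) := by
    intro t ht w hw z hz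
    rw [mem_ball, dist_eq_norm] at ht ⊢
    rw [mem_ball_zero_iff] at hw
    have h1 : t + z - -Complex.I = (t - -Complex.I) + z := by ring
    rw [h1]
    refine (norm_add_le _ _).trans_lt ?_
    have h2 : C₁ * ‖w‖ ^ 2 ≤ ρ := by
      have h3 : ‖w‖ ^ 2 ≤ ρ * ρ := by
        rw [sq]
        exact mul_le_mul hw.le hw.le (norm_nonneg _) hρ0.le
      calc C₁ * ‖w‖ ^ 2 ≤ C₁ * (ρ * ρ) := by gcongr
        _ = (C₁ * ρ) * ρ := by ring
        _ ≤ 1 * ρ := by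
            gcongr
            linarith
        _ = ρ := one_mul ρ
    linarith
  refine ⟨ρ, C₁, fun x => x.1 + g x, ?_⟩
  refine ⟨hρ0, by linarith, hCρ, ?_, ?_, ?_, ?_⟩
  · exact differentiableOn_fst.add hg2
  · intro t ht w hw
    have h1 : t + g (t, w) - t = g (t, w) := by ring
    show ‖t + g (t, w) - t‖ ≤ _
    rw [h1]
    exact hgn t ht w hw
  · intro t ht w hw
    have hw' : -w ∈ ball (0 : ℂ) ρ := by simpa using hw
    have h1 := hgp (t, w) ⟨ht, hw⟩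
    have h2 := hgp (t, -w) ⟨ht, hw'⟩
    have h3 : (fun l => fl X l (t, -w)) = fun l => fl X l (t, w) := by
      funext l
      by_cases h : 0 < l ∧ l < 1 / 8
      · simp only [fl, if_pos h]
        have := hX.even _ _ (mem_NC hX.c_pos hρ1 hρ2 h.1 h.2 ht hw)
        rw [mul_neg, this]
      · simp only [fl, if_neg h]
    rw [h3] at h2
    show t + g (t, -w) = t + g (t, w)
    rw [tendsto_nhds_unique h2 h1]
  · intro t w htm ht htp hw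
    show EL Ψ₀ (t - w + g (t - w, w)) (t + g (t, w)) (t + w + g (t + w, w)) = 0
    have hx0 := hpt _ htm w hw _ (hgn _ htm w hw)
    have hy0 := hpt _ ht w hw _ (hgn _ ht w hw)
    have hz0 := hpt _ htp w hw _ (hgn _ htp w hw)
    have hxy : (t - w + g (t - w, w), t + g (t, w)) ∈ D₂ := ⟨hx0, hy0⟩
    have hyz : (t + g (t, w), t + w + g (t + w, w)) ∈ D₂ := ⟨hy0, hz0⟩
    rw [EL_eq (hG0.differentiableOn.differentiableAt (hD₂o.mem_nhds hxy))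
      (hG0.differentiableOn.differentiableAt (hD₂o.mem_nhds hyz))]
    -- sequences
    have sx := (hgp (t - w, w) ⟨htm, hw⟩).const_add (t - w)
    have sy := (hgp (t, w) ⟨ht, hw⟩).const_add t
    have sz := (hgp (t + w, w) ⟨htp, hw⟩).const_add (t + w)
    have mx : ∀ l, t - w + fl X l (t - w, w) ∈ ball (-Complex.I) (c₀ / 4) := fun l =>
      hpt _ htm w hw _ (fl_bound hX hρ1 hρ2 l htm hw)
    have my : ∀ l, t + fl X l (t, w) ∈ ball (-Complex.I) (c₀ / 4) := fun l =>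
      hpt _ ht w hw _ (fl_bound hX hρ1 hρ2 l ht hw)
    have mz : ∀ l, t + w + fl X l (t + w, w) ∈ ball (-Complex.I) (c₀ / 4) := fun l =>
      hpt _ htp w hw _ (fl_bound hX hρ1 hρ2 l htp hw)
    have c1 : Tendsto (fun l => fderiv ℂ (GG (Pl Ψ l))
        (t - w + fl X l (t - w, w), t + fl X l (t, w))) u
        (𝓝 (fderiv ℂ (GG Ψ₀) (t - w + g (t - w, w), t + g (t, w)))) := by
      refine hGf.tendsto_comp (hcont _ hxy) hxy ?_
      refine tendsto_nhdsWithin_iff.2 ⟨?_, Eventually.of_forall (fun l => ⟨mx l, my l⟩)⟩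
      exact sx.prodMk_nhds sy
    have c2 : Tendsto (fun l => fderiv ℂ (GG (Pl Ψ l))
        (t + fl X l (t, w), t + w + fl X l (t + w, w))) u
        (𝓝 (fderiv ℂ (GG Ψ₀) (t + g (t, w), t + w + g (t + w, w)))) := by
      refine hGf.tendsto_comp (hcont _ hyz) hyz ?_
      refine tendsto_nhdsWithin_iff.2 ⟨?_, Eventually.of_forall (fun l => ⟨my l, mz l⟩)⟩
      exact sy.prodMk_nhds sz
    have c3 := ((((ContinuousLinearMap.apply ℂ ℂ ((0 : ℂ), (1 : ℂ))).continuous.tendsto _).comp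
      c1)).add (((ContinuousLinearMap.apply ℂ ℂ ((1 : ℂ), (0 : ℂ))).continuous.tendsto _).comp c2)
    simp only [Function.comp_def, ContinuousLinearMap.apply_apply] at c3
    refine tendsto_nhds_unique c3 ?_
    refine tendsto_const_nhds.congr' ?_
    filter_upwards [hul, hGd] with l hl hd
    have e1 : DifferentiableAt ℂ (GG (Pl Ψ l)) (t - w + fl X l (t - w, w), t + fl X l (t, w)) :=
      hd.differentiableAt (hD₂o.mem_nhds ⟨mx l, my l⟩)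
    have e2 : DifferentiableAt ℂ (GG (Pl Ψ l)) (t + fl X l (t, w), t + w + fl X l (t + w, w)) :=
      hd.differentiableAt (hD₂o.mem_nhds ⟨my l, mz l⟩)
    rw [← EL_eq e1 e2]
    symm
    apply EL_scale hl.1.ne'
    have hl0 : (l : ℂ) ≠ 0 := by exact_mod_cast hl.1.ne'
    have hs : ∀ a b : ℂ, (l : ℂ) * (a + fl X l (a, b)) = X ((l : ℂ) * a, (l : ℂ) * b) := by
      intro a b
      simp only [fl, if_pos hl]
      field_simp
      ring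
    rw [hs, hs, hs, mul_sub, mul_add]
    refine hX.el _ _ ?_ ?_ ?_
    · rw [← mul_sub]
      exact mem_NC hX.c_pos hρ1 hρ2 hl.1 hl.2 htm hw
    · exact mem_NC hX.c_pos hρ1 hρ2 hl.1 hl.2 ht hw
    · rw [← mul_add]
      exact mem_NC hX.c_pos hρ1 hρ2 hl.1 hl.2 htp hw

end Crest.Agent.R102.T5L3_725
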