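import Crest.Agent.R102.T5L4_346

/-!
# Row 102, [T5], L4F: the limit of `PsiQ q` at a flat end (helper346)
-/

set_option autoImplicit false

open Set Filter Topology Metric

noncomputable section

namespace Crest.Agent.R102.T5R.L4346

open Crest.Agent.R102.T5R

/-! ### the logarithm along the chord -/

def lz (v : ℂ) (s : ℝ) : ℂ := Complex.log (1 + s * (v - 1))

def E0 (a v : ℂ) (s : ℝ) : ℂ := ∫ r in (0 : ℝ)..s, Complex.exp (a * lz v r)

def I0 (a v : ℂ) (G : ℂ × ℂ → ℂ) (φ : ℂ) : ℂ :=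
  ∫ s in (0 : ℝ)..1, Complex.exp (-2 * (a * lz v s)) * G (φ, E0 a v s)

section Log

variable {v : ℂ}

lemma zeta_slit (hv : ‖v - 1‖ < 1 / 4) {s : ℝ} (hs : s ∈ Icc (0 : ℝ) 1) :
    (1 + s * (v - 1) : ℂ) ∈ Complex.slitPlane := by
  left
  have h1 : |(v - 1).re| ≤ ‖v - 1‖ := Complex.abs_re_le_norm _
  rw [Complex.add_re, Complex.one_re, Complex.re_ofReal_mul]
  have h2 := (abs_le.1 h1).1
  have h3 : -(1 / 4) ≤ s * (v - 1).re := by
    have h4 : -(1 / 4) ≤ (v - 1).re := by linarith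
    by_cases h5 : 0 ≤ (v - 1).re
    · have := mul_nonneg hs.1 h5; linarith
    · push Not at h5; nlinarith [hs.1, hs.2]
  linarith

lemma lz_hasDerivAt (hv : ‖v - 1‖ < 1 / 4) {s : ℝ} (hs : s ∈ Icc (0 : ℝ) 1) :
    HasDerivAt (lz v) ((v - 1) / (1 + s * (v - 1))) s := by
  have h1 : HasDerivAt (fun s : ℝ => (1 + s * (v - 1) : ℂ)) (v - 1) s := by
    simpa using ((Complex.ofRealCLM.hasDerivAt (x := s)).mul_const (v - 1)).const_add 1
  exact h1.clog_real (zeta_slit hv hs)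

lemma exp_lz (hv : ‖v - 1‖ < 1 / 4) {s : ℝ} (hs : s ∈ Icc (0 : ℝ) 1) :
    Complex.exp (lz v s) = 1 + s * (v - 1) :=
  Complex.exp_log (Complex.slitPlane_ne_zero (zeta_slit hv hs))

lemma lz_cont (hv : ‖v - 1‖ < 1 / 4) : ContinuousOn (lz v) (Icc (0 : ℝ) 1) :=
  fun _ hs => (lz_hasDerivAt hv hs).continuousAt.continuousWithinAt

lemma lz_zero : lz v 0 = 0 := by simp [lz]

lemma lz_one : lz v 1 = Complex.log v := by simp [lz]

/-- `∫₀^t ζ^a = (ζ_t^{a+1} - 1)/((a+1)(v-1))` -/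
lemma int_pow (hv : ‖v - 1‖ < 1 / 4) (hv1 : v ≠ 1) {a : ℂ} (ha : a + 1 ≠ 0) {t : ℝ}
    (ht : t ∈ Icc (0 : ℝ) 1) :
    ∫ s in (0 : ℝ)..t, Complex.exp (a * lz v s) =
      (Complex.exp ((a + 1) * lz v t) - 1) / ((a + 1) * (v - 1)) := by
  have hsub : uIcc (0 : ℝ) t ⊆ Icc (0 : ℝ) 1 := by
    rw [uIcc_of_le ht.1]; exact Icc_subset_Icc_right ht.2
  have hv1' : v - 1 ≠ 0 := sub_ne_zero.2 hv1
  rw [intervalIntegral.integral_eq_sub_of_hasDerivAt
    (f := fun s => Complex.exp ((a + 1) * lz v s) / ((a + 1) * (v - 1)))]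
  · rw [lz_zero, mul_zero, Complex.exp_zero, ← sub_div]
  · intro s hs
    have h1 := ((lz_hasDerivAt hv (hsub hs)).const_mul (a + 1)).cexp.div_const
      ((a + 1) * (v - 1))
    refine h1.congr_deriv ?_
    have h2 : Complex.exp ((a + 1) * lz v s) = Complex.exp (a * lz v s) * (1 + s * (v - 1)) := by
      rw [add_mul, one_mul, Complex.exp_add, exp_lz hv (hsub hs)]
    rw [h2]
    have h3 := Complex.slitPlane_ne_zero (zeta_slit hv (hsub hs))
    field_simp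
  · apply ContinuousOn.intervalIntegrable
    exact Complex.continuous_exp.comp_continuousOn (continuousOn_const.mul ((lz_cont hv).mono hsub))

end Log

/-! ### limits -/

section Lim

variable {κ κ' c₀ c β C B : ℝ} {q : ℂ → ℂ} {x y v : ℂ}

lemma ev_mem (h : (x, y) ∈ DD0 κ' c₀) :
    ∀ᶠ l : ℝ in 𝓝[>] 0, (((l : ℂ) * x, (l : ℂ) * y) : ℂ × ℂ) ∈ DD κ' c₀ := by
  obtain ⟨hx, hy, hxi, hyi, h1, h2⟩ := h
  have hx0 : 0 < ‖x‖ := norm_pos_iff.2 hx
  have hy0 : 0 < ‖y‖ := norm_pos_iff.2 hy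
  have e1 : ∀ᶠ l : ℝ in 𝓝[>] 0, l ∈ Ioo (0 : ℝ) (1 / ‖x‖) := Ioo_mem_nhdsGT (by positivity)
  have e2 : ∀ᶠ l : ℝ in 𝓝[>] 0, l ∈ Ioo (0 : ℝ) (1 / ‖y‖) := Ioo_mem_nhdsGT (by positivity)
  filter_upwards [e1, e2] with l hl1 hl2
  have hl : 0 < l := hl1.1
  have hlc : (l : ℂ) ≠ 0 := by exact_mod_cast hl.ne'
  have hn : ∀ z : ℂ, ‖(l : ℂ) * z‖ = l * ‖z‖ := by
    intro z; rw [norm_mul, Complex.norm_real, Real.norm_eq_abs, abs_of_pos hl]
  have hlx : l * ‖x‖ < 1 := by have := hl1.2; rwa [lt_div_iff₀ hx0] at this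
  have hly : l * ‖y‖ < 1 := by have := hl2.2; rwa [lt_div_iff₀ hy0] at this
  have hsub : (l : ℂ) * y - (l : ℂ) * x = (l : ℂ) * (y - x) := by ring
  refine ⟨⟨mul_ne_zero hlc hx, by rw [hn]; exact hlx, ?_⟩,
    ⟨mul_ne_zero hlc hy, by rw [hn]; exact hly, ?_⟩, ?_, ?_⟩
  · simp only; rw [hn, Complex.im_ofReal_mul]; simp only at hxi; nlinarith
  · simp only; rw [hn, Complex.im_ofReal_mul]; simp only at hyi; nlinarith
  · simp only; rw [hsub, hn, hn]; simp only at h1; nlinarith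
  · simp only; rw [hsub, hn, hn]; simp only at h2; nlinarith

lemma v_near (S : Sm κ κ' c₀ c β C B q) (h : (x, y) ∈ DD0 κ' c₀) : ‖y / x - 1‖ < 1 / 4 := by
  have hx0 : 0 < ‖x‖ := norm_pos_iff.2 h.1
  have h1 : y / x - 1 = (y - x) / x := by have := h.1; simp only at this; field_simp
  rw [h1, norm_div, div_lt_iff₀ hx0]
  have h2 := h.2.2.2.2.1
  simp only at h2
  have h3 := S.c0_lt
  nlinarith

lemma Sm.gg_lim_bd (S : Sm κ κ' c₀ c β C B q) (h : (x, y) ∈ DD0 κ' c₀) {l : ℝ} (hl : 0 < l)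
    (hp : (((l : ℂ) * x, (l : ℂ) * y) : ℂ × ℂ) ∈ DD κ' c₀) {s : ℝ} (hs : s ∈ Icc (0 : ℝ) 1) :
    ‖gg q ((l : ℂ) * x, (l : ℂ) * y) s - c * lz (y / x) s‖ ≤
      2 * c₀ * C * (2 * (l * ‖x‖)) ^ β := by
  have hC := C_nonneg S.h
  have hx : x ≠ 0 := h.1
  have hx0 : 0 < ‖x‖ := norm_pos_iff.2 hx
  have hlc : (l : ℂ) ≠ 0 := by exact_mod_cast hl.ne'
  have hv := v_near S h
  set X : ℂ := (l : ℂ) * x with hX
  set Y : ℂ := (l : ℂ) * y with hY
  have hXn : ‖X‖ = l * ‖x‖ := by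
    rw [hX, norm_mul, Complex.norm_real, Real.norm_eq_abs, abs_of_pos hl]
  have hX0 : 0 < ‖X‖ := by rw [hXn]; positivity
  have hXY : ‖Y - X‖ < c₀ * ‖X‖ := hp.2.2.1
  have hz : ∀ r : ℝ, X + r * (Y - X) = X * (1 + r * (y / x - 1)) := by
    intro r; rw [hX, hY]; field_simp
  set f : ℝ → ℂ := fun r => gg q (X, Y) r - c * lz (y / x) r with hf
  have hd : ∀ r ∈ Icc (0 : ℝ) 1, HasDerivAt f
      ((Y - X) * (deriv q (X + r * (Y - X)) - c / (X + r * (Y - X)))) r := by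
    intro r hr
    have hm := S.mem hp hr
    simp only at hm
    have h1 : HasDerivAt q (deriv q (X + r * (Y - X))) (X + r * (Y - X)) :=
      ((S.h.diff _ hm).differentiableAt ((isOpen_Sg κ).mem_nhds hm)).hasDerivAt
    have h2 : HasDerivAt (fun r : ℝ => X + r * (Y - X)) (Y - X) r := by
      simpa using ((Complex.ofRealCLM.hasDerivAt (x := r)).mul_const (Y - X)).const_add X
    have h3 : HasDerivAt (fun r : ℝ => q (X + r * (Y - X))) (deriv q (X + r * (Y - X)) * (Y - X)) r :=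
      h1.comp r h2
    have h4 := (h3.sub_const (q X)).sub ((lz_hasDerivAt hv hr).const_mul (c : ℂ))
    refine h4.congr_deriv ?_
    have h5 : (y / x - 1) / (1 + r * (y / x - 1)) = (Y - X) / (X + r * (Y - X)) := by
      rw [hz]
      have h6 : Y - X = X * (y / x - 1) := by rw [hX, hY]; field_simp
      rw [h6]
      have h7 : X ≠ 0 := norm_pos_iff.1 hX0
      rw [mul_div_mul_left _ _ h7]
    rw [h5]
    ring
  have hb : ∀ r ∈ Ico (0 : ℝ) 1,
      ‖(Y - X) * (deriv q (X + r * (Y - X)) - c / (X + r * (Y - X)))‖ ≤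
        2 * c₀ * C * (2 * (l * ‖x‖)) ^ β := by
    intro r hr
    have hr' : r ∈ Icc (0 : ℝ) 1 := Ico_subset_Icc_self hr
    have hm := S.mem hp hr'
    simp only at hm
    obtain ⟨n1, n2⟩ := norm_seg hXY hr'
    have h1 := S.h.asym _ hm
    set z := X + r * (Y - X) with hzd
    have hc4 := S.c0_lt
    have n3 : ‖X‖ / 2 ≤ ‖z‖ := by nlinarith
    have n4 : ‖z‖ ≤ 2 * ‖X‖ := by nlinarith
    have hz0 : 0 < ‖z‖ := by linarith
    have h2 : ‖z‖ ^ (β - 1) ≤ (2 * ‖X‖) ^ β * (2 / ‖X‖) := by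
      rw [Real.rpow_sub_one hz0.ne', div_eq_mul_inv]
      have h3 : ‖z‖ ^ β ≤ (2 * ‖X‖) ^ β := Real.rpow_le_rpow hz0.le n4 S.h.β_pos.le
      have h4 : ‖z‖⁻¹ ≤ 2 / ‖X‖ := by
        rw [inv_eq_one_div, div_le_div_iff₀ hz0 hX0]; linarith
      gcongr
    rw [norm_mul]
    calc ‖Y - X‖ * ‖deriv q z - c / z‖ ≤ (c₀ * ‖X‖) * (C * ((2 * ‖X‖) ^ β * (2 / ‖X‖))) := by
          have h5 : ‖deriv q z - c / z‖ ≤ C * ((2 * ‖X‖) ^ β * (2 / ‖X‖)) :=
            h1.trans (mul_le_mul_of_nonneg_left h2 hC)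
          have hcX : 0 ≤ c₀ * ‖X‖ := mul_nonneg S.c0_pos.le hX0.le
          gcongr
      _ = 2 * c₀ * C * (2 * (l * ‖x‖)) ^ β := by
          rw [← hXn]; field_simp
  have key := norm_image_sub_le_of_norm_deriv_le_segment' (a := 0) (b := 1) (f := f)
    (fun r hr => (hd r hr).hasDerivWithinAt) hb s hs
  have hf0 : f 0 = 0 := by
    simp only [hf, gg, lz_zero]
    simp
  rw [hf0, sub_zero, sub_zero] at key
  refine key.trans ?_
  have h0 : 0 ≤ 2 * c₀ * C * (2 * (l * ‖x‖)) ^ β := by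
    have := S.c0_pos
    positivity
  nlinarith [hs.2]

lemma Sm.gg_lim (S : Sm κ κ' c₀ c β C B q) (h : (x, y) ∈ DD0 κ' c₀) {s : ℝ}
    (hs : s ∈ Icc (0 : ℝ) 1) :
    Tendsto (fun l : ℝ => gg q ((l : ℂ) * x, (l : ℂ) * y) s) (𝓝[>] 0) (𝓝 (c * lz (y / x) s)) := by
  rw [tendsto_iff_norm_sub_tendsto_zero]
  have h1 : Tendsto (fun l : ℝ => 2 * c₀ * C * (2 * (l * ‖x‖)) ^ β) (𝓝[>] 0) (𝓝 0) := by
    have h2 : Continuous (fun l : ℝ => 2 * c₀ * C * (2 * (l * ‖x‖)) ^ β) := by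
      refine continuous_const.mul (Continuous.rpow_const (by fun_prop) (fun _ => Or.inr S.h.β_pos.le))
    have h3 := h2.tendsto 0
    simp only [zero_mul, mul_zero] at h3
    rw [Real.zero_rpow S.h.β_pos.ne', mul_zero] at h3
    exact h3.mono_left nhdsWithin_le_nhds
  refine squeeze_zero' (Eventually.of_forall (fun _ => norm_nonneg _)) ?_ h1
  filter_upwards [ev_mem h, self_mem_nhdsWithin] with l hl hl0
  exact S.gg_lim_bd h hl0 hl hs

lemma Sm.EE_lim (S : Sm κ κ' c₀ c β C B q) (h : (x, y) ∈ DD0 κ' c₀) {s : ℝ}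
    (hs : s ∈ Icc (0 : ℝ) 1) :
    Tendsto (fun l : ℝ => EE q ((l : ℂ) * x, (l : ℂ) * y) s) (𝓝[>] 0) (𝓝 (E0 c (y / x) s)) := by
  unfold EE E0
  have hsub : uIoc (0 : ℝ) s ⊆ Icc (0 : ℝ) 1 := by
    rw [uIoc_of_le hs.1]
    exact fun r hr => ⟨hr.1.le, hr.2.trans hs.2⟩
  refine intervalIntegral.tendsto_integral_filter_of_dominated_convergence (fun _ => 2) ?_ ?_
    (by simp) ?_
  · filter_upwards [ev_mem h] with l hl
    have h1 : ContinuousOn (fun s : ℝ => gg q ((l : ℂ) * x, (l : ℂ) * y) s) (Icc (0 : ℝ) 1) :=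
      S.gg_cont.comp (f := fun s : ℝ => (((l : ℂ) * x, (l : ℂ) * y), s)) (by fun_prop)
        (fun s hs => ⟨hl, hs⟩)
    exact ((Complex.continuous_exp.comp_continuousOn h1).mono hsub).aestronglyMeasurable
      measurableSet_uIoc
  · filter_upwards [ev_mem h] with l hl
    refine Eventually.of_forall (fun r hr => ?_)
    exact exp_small' ((S.gg_le' hl (hsub hr)).trans (by norm_num))
  · refine Eventually.of_forall (fun r hr => ?_)
    exact (Complex.continuous_exp.tendsto _).comp (S.gg_lim h (hsub hr))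

lemma Sm.II_lim (S : Sm κ κ' c₀ c β C B q) (h : (x, y) ∈ DD0 κ' c₀) {G : ℂ × ℂ → ℂ}
    (hG : Continuous G) {φ : ℂ}
    (hφ : Tendsto (fun l : ℝ => ph q ((l : ℂ) * x, (l : ℂ) * y)) (𝓝[>] 0) (𝓝 φ)) :
    Tendsto (fun l : ℝ => II q G ((l : ℂ) * x, (l : ℂ) * y)) (𝓝[>] 0) (𝓝 (I0 c (y / x) G φ)) := by
  unfold II I0
  obtain ⟨M, hM0, hM⟩ := exists_bound hG
  have hsub : uIoc (0 : ℝ) 1 ⊆ Icc (0 : ℝ) 1 := by
    rw [uIoc_of_le zero_le_one]
    exact fun r hr => ⟨hr.1.le, hr.2⟩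
  refine intervalIntegral.tendsto_integral_filter_of_dominated_convergence (fun _ => 2 * M) ?_ ?_
    (by simp) ?_
  · filter_upwards [ev_mem h] with l hl
    exact ((S.slice_cont hG hl).mono hsub).aestronglyMeasurable measurableSet_uIoc
  · filter_upwards [ev_mem h] with l hl
    refine Eventually.of_forall (fun r hr => ?_)
    have hr' := hsub hr
    rw [norm_mul]
    have h2 : ‖Complex.exp (-2 * gg q ((l : ℂ) * x, (l : ℂ) * y) r)‖ ≤ 2 := by
      apply exp_small'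
      rw [norm_mul, norm_neg, Complex.norm_ofNat]
      have := S.gg_le' hl hr'
      linarith
    have h3 := hM (ph q ((l : ℂ) * x, (l : ℂ) * y), EE q ((l : ℂ) * x, (l : ℂ) * y) r)
      (S.ph_le' hl) (S.EE_le hl hr')
    gcongr
  · refine Eventually.of_forall (fun r hr => ?_)
    have h1 := S.gg_lim h (hsub hr)
    have h2 := S.EE_lim h (hsub hr)
    have h3 : Tendsto (fun l : ℝ => Complex.exp (-2 * gg q ((l : ℂ) * x, (l : ℂ) * y) r))
        (𝓝[>] 0) (𝓝 (Complex.exp (-2 * (c * lz (y / x) r)))) :=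
      (Complex.continuous_exp.tendsto _).comp (h1.const_mul (-2))
    exact h3.mul ((hG.tendsto _).comp (hφ.prodMk_nhds h2))

lemma Sm.I0_near (S : Sm κ κ' c₀ c β C B q) (h : (x, y) ∈ DD0 κ' c₀) {φ : ℂ}
    (hφ : Tendsto (fun l : ℝ => ph q ((l : ℂ) * x, (l : ℂ) * y)) (𝓝[>] 0) (𝓝 φ)) {j : ℂ}
    (hj : ‖j‖ ≤ 1) : ‖I0 c (y / x) (Gj j) φ - 1‖ ≤ 1 / 8 := by
  have h1 := S.II_lim h (Gj_diff j).continuous hφ
  refine le_of_tendsto ((h1.sub_const 1).norm) ?_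
  filter_upwards [ev_mem h] with l hl
  exact S.near_I hl hj

lemma Sm.QQ_lim (S : Sm κ κ' c₀ c β C B q) (h : (x, y) ∈ DD0 κ' c₀) {φ : ℂ}
    (hφ : Tendsto (fun l : ℝ => ph q ((l : ℂ) * x, (l : ℂ) * y)) (𝓝[>] 0) (𝓝 φ)) :
    Tendsto (fun l : ℝ => QQ q ((l : ℂ) * x, (l : ℂ) * y)) (𝓝[>] 0)
      (𝓝 (I0 c (y / x) (Gj Complex.I) φ ^ (1 / 2 : ℂ) *
        I0 c (y / x) (Gj (-Complex.I)) φ ^ (1 / 2 : ℂ))) := by
  unfold QQ
  have h1 := S.II_lim h (Gj_diff Complex.I).continuous hφ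
  have h2 := S.II_lim h (Gj_diff (-Complex.I)).continuous hφ
  have n1 := (sqrt_near (S.I0_near h hφ (j := Complex.I) (by simp))).2.2
  have n2 := (sqrt_near (S.I0_near h hφ (j := -Complex.I) (by simp))).2.2
  exact (h1.cpow tendsto_const_nhds n1).mul (h2.cpow tendsto_const_nhds n2)

lemma Sm.ph_lim_zero (S : Sm κ κ' c₀ c β C B q) (hc : -1 < c) (h : (x, y) ∈ DD0 κ' c₀) :
    Tendsto (fun l : ℝ => ph q ((l : ℂ) * x, (l : ℂ) * y)) (𝓝[>] 0) (𝓝 0) := by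
  have hC := C_nonneg S.h
  have hx : x ≠ 0 := h.1
  have hx0 : 0 < ‖x‖ := norm_pos_iff.2 hx
  have hx0' : (‖x‖ : ℂ) ≠ 0 := by exact_mod_cast hx0.ne'
  set e : ℂ := x / ‖x‖ with he
  have hen : ‖e‖ = 1 := by
    rw [he, norm_div, Complex.norm_real, norm_norm, div_self hx0.ne']
  have hxe : (‖x‖ : ℂ) * e = x := by rw [he]; field_simp
  have hei : e.im < κ := by
    rw [he, Complex.div_ofReal_im, div_lt_iff₀ hx0]
    have h1 : x.im < κ' * ‖x‖ := h.2.2.1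
    have h2 := S.κ'_lt
    nlinarith
  set K : ℝ := C / β * (1 / 2) ^ β + ‖q (((1 / 2 : ℝ) : ℂ) * e) - c * Real.log (1 / 2)‖ with hK
  have hlim : Tendsto (fun l : ℝ => ‖y - x‖ / ‖x‖ * Real.exp K * (l * ‖x‖) ^ (1 + c)) (𝓝[>] 0)
      (𝓝 0) := by
    have h2 : Continuous (fun l : ℝ => ‖y - x‖ / ‖x‖ * Real.exp K * (l * ‖x‖) ^ (1 + c)) := by
      refine continuous_const.mul (Continuous.rpow_const (by fun_prop)
        (fun _ => Or.inr (by linarith)))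
    have h3 := h2.tendsto 0
    simp only [zero_mul] at h3
    rw [Real.zero_rpow (by linarith), mul_zero] at h3
    exact h3.mono_left nhdsWithin_le_nhds
  rw [tendsto_zero_iff_norm_tendsto_zero]
  refine squeeze_zero' (Eventually.of_forall (fun _ => norm_nonneg _)) ?_ hlim
  have e1 : ∀ᶠ l : ℝ in 𝓝[>] 0, l ∈ Ioo (0 : ℝ) (1 / (2 * ‖x‖)) := Ioo_mem_nhdsGT (by positivity)
  filter_upwards [e1] with l hl
  have hl0 : 0 < l := hl.1
  have ha : 0 < l * ‖x‖ := by positivity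
  have hab : l * ‖x‖ ≤ 1 / 2 := by
    have h1 := hl.2
    rw [lt_div_iff₀ (by positivity)] at h1
    linarith
  have h3 := radial S.h hen hei ha hab (by norm_num)
  have hlx : ((l * ‖x‖ : ℝ) : ℂ) * e = (l : ℂ) * x := by
    rw [Complex.ofReal_mul, mul_assoc, hxe]
  rw [hlx] at h3
  have h4 : ‖q ((l : ℂ) * x) - c * Real.log (l * ‖x‖)‖ ≤ K := by
    have h5 := norm_sub_le (q (((1 / 2 : ℝ) : ℂ) * e) - c * Real.log (1 / 2))
      ((q (((1 / 2 : ℝ) : ℂ) * e) - c * Real.log (1 / 2)) -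
        (q ((l : ℂ) * x) - c * Real.log (l * ‖x‖)))
    rw [sub_sub_cancel] at h5
    linarith
  have h5 : (q ((l : ℂ) * x)).re ≤ c * Real.log (l * ‖x‖) + K := by
    have h6 := (Complex.re_le_norm _).trans h4
    simp only [Complex.sub_re, Complex.mul_re, Complex.ofReal_re, Complex.ofReal_im, zero_mul,
      sub_zero] at h6
    linarith
  unfold ph
  simp only
  rw [← mul_sub, norm_mul, norm_mul, Complex.norm_exp, Complex.norm_real, Real.norm_eq_abs,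
    abs_of_pos hl0]
  calc l * ‖y - x‖ * Real.exp (q ((l : ℂ) * x)).re
      ≤ l * ‖y - x‖ * Real.exp (c * Real.log (l * ‖x‖) + K) := by gcongr
    _ = ‖y - x‖ / ‖x‖ * Real.exp K * (l * ‖x‖) ^ (1 + c) := by
        rw [Real.rpow_add ha, Real.rpow_one, Real.rpow_def_of_pos ha, Real.exp_add,
          mul_comm c (Real.log _)]
        field_simp

lemma I0_Gj_zero (a v j : ℂ) : I0 a v (Gj j) 0 = I0 a v GA 0 := by
  unfold I0
  refine intervalIntegral.integral_congr (fun s _ => ?_)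
  simp [Gj, GA]

lemma E0_eq (hv : ‖v - 1‖ < 1 / 4) (hv1 : v ≠ 1) {a : ℂ} (ha : a + 1 ≠ 0) {s : ℝ}
    (hs : s ∈ Icc (0 : ℝ) 1) :
    E0 a v s = (Complex.exp ((a + 1) * lz v s) - 1) / ((a + 1) * (v - 1)) :=
  int_pow hv hv1 ha hs

lemma int_cont (hv : ‖v - 1‖ < 1 / 4) (a : ℂ) :
    IntervalIntegrable (fun s => Complex.exp (a * lz v s)) MeasureTheory.volume 0 1 := by
  apply ContinuousOn.intervalIntegrable
  rw [uIcc_of_le zero_le_one]
  exact Complex.continuous_exp.comp_continuousOn (continuousOn_const.mul (lz_cont hv))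

/-- the value of the limit -/
lemma flat_value (hv : ‖v - 1‖ < 1 / 4) (hv1 : v ≠ 1) (hc : -1 < c) (hc1 : c ≠ 1 / 2)
    (hc2 : c ≠ 2) (hA0 : I0 c v GA 0 ≠ 0) :
    4 * (2 * I0 c v GA 0 * I0 c v Gh 0 - 0 ^ 2 * I0 c v Gh 0 ^ 2 - I0 c v Gs 0 ^ 2) /
      (I0 c v GA 0 + I0 c v GA 0) = ellF c v / (v - 1) ^ 3 := by
  have hv1' : v - 1 ≠ 0 := sub_ne_zero.2 hv1
  have hv0 : v ≠ 0 := by
    rintro rfl
    norm_num at hv
  have k1 : (c : ℂ) + 1 ≠ 0 := by
    have : c + 1 ≠ 0 := by linarith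
    exact_mod_cast this
  have k2 : (1 : ℂ) - 2 * c ≠ 0 := by
    have : 1 - 2 * c ≠ 0 := fun h => hc1 (by linarith)
    exact_mod_cast this
  have k3 : (2 : ℂ) - c ≠ 0 := by
    have : 2 - c ≠ 0 := fun h => hc2 (by linarith)
    exact_mod_cast this
  set m0 : ℂ := ∫ s in (0 : ℝ)..1, Complex.exp ((-2 * c : ℂ) * lz v s) with hm0
  set m1 : ℂ := ∫ s in (0 : ℝ)..1, Complex.exp ((1 - c : ℂ) * lz v s) with hm1
  set m2 : ℂ := ∫ s in (0 : ℝ)..1, Complex.exp ((2 : ℂ) * lz v s) with hm2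
  have e0 : m0 = (v ^ ((1 - 2 * c : ℝ) : ℂ) - 1) / ((1 - 2 * c) * (v - 1)) := by
    rw [hm0, int_pow hv hv1 (a := (-2 * c : ℂ)) (by convert k2 using 1; ring) (by simp), lz_one,
      Complex.cpow_def_of_ne_zero hv0]
    push_cast
    ring_nf
  have e1 : m1 = (v ^ ((2 - c : ℝ) : ℂ) - 1) / ((2 - c) * (v - 1)) := by
    rw [hm1, int_pow hv hv1 (a := (1 - c : ℂ)) (by convert k3 using 1; ring) (by simp), lz_one,
      Complex.cpow_def_of_ne_zero hv0]
    push_cast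
    ring_nf
  have e2 : m2 = (v ^ 3 - 1) / (3 * (v - 1)) := by
    have h3 : Complex.exp ((2 + 1) * Complex.log v) = v ^ 3 := by
      rw [show (2 + 1 : ℂ) * Complex.log v = ((3 : ℕ) : ℂ) * Complex.log v by push_cast; ring,
        Complex.exp_nat_mul, Complex.exp_log hv0]
    rw [hm2, int_pow hv hv1 (a := (2 : ℂ)) (by norm_num) (by simp), lz_one, h3]
    norm_num
  have i0 : I0 c v GA 0 = m0 := by
    unfold I0
    rw [hm0]
    refine intervalIntegral.integral_congr (fun s _ => ?_)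
    simp only [GA, mul_one]
    ring_nf
  have is : I0 c v Gs 0 = (m1 - m0) / ((c + 1) * (v - 1)) := by
    unfold I0
    rw [hm0, hm1, ← intervalIntegral.integral_sub (int_cont hv _) (int_cont hv _),
      ← intervalIntegral.integral_div]
    refine intervalIntegral.integral_congr (fun s hs => ?_)
    rw [uIcc_of_le zero_le_one] at hs
    simp only [Gs, zero_mul, sc_zero, mul_one]
    rw [E0_eq hv hv1 k1 hs]
    have h1 : Complex.exp ((1 - c : ℂ) * lz v s) = Complex.exp (-2 * c * lz v s) *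
        Complex.exp ((c + 1) * lz v s) := by
      rw [← Complex.exp_add]; ring_nf
    rw [h1, show -2 * ((c : ℂ) * lz v s) = -2 * c * lz v s by ring]
    ring
  have ih : 2 * I0 c v Gh 0 = (m2 - 2 * m1 + m0) / ((c + 1) * (v - 1)) ^ 2 := by
    unfold I0
    rw [hm0, hm1, hm2, ← intervalIntegral.integral_const_mul, ← intervalIntegral.integral_const_mul,
      ← intervalIntegral.integral_sub (int_cont hv _) ((int_cont hv _).const_mul _),
      ← intervalIntegral.integral_add ((int_cont hv _).sub ((int_cont hv _).const_mul _))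
        (int_cont hv _),
      ← intervalIntegral.integral_div]
    refine intervalIntegral.integral_congr (fun s hs => ?_)
    rw [uIcc_of_le zero_le_one] at hs
    simp only [Gh, zero_mul, zero_div, sc_zero, one_pow]
    rw [E0_eq hv hv1 k1 hs]
    have h1 : Complex.exp ((1 - c : ℂ) * lz v s) = Complex.exp (-2 * c * lz v s) *
        Complex.exp ((c + 1) * lz v s) := by
      rw [← Complex.exp_add]; ring_nf
    have h2 : Complex.exp ((2 : ℂ) * lz v s) = Complex.exp (-2 * c * lz v s) *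
        Complex.exp ((c + 1) * lz v s) ^ 2 := by
      rw [← Complex.exp_nat_mul, ← Complex.exp_add]; push_cast; ring_nf
    rw [h1, h2, show -2 * ((c : ℂ) * lz v s) = -2 * c * lz v s by ring]
    field_simp
    ring
  have hm00 : m0 ≠ 0 := by rw [← i0]; exact hA0
  have hw : v ^ ((1 - 2 * c : ℝ) : ℂ) - 1 ≠ 0 := by
    intro h0
    rw [e0, h0, zero_div] at hm00
    exact hm00 rfl
  have hval : 4 * (2 * I0 c v GA 0 * I0 c v Gh 0 - 0 ^ 2 * I0 c v Gh 0 ^ 2 - I0 c v Gs 0 ^ 2) /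
      (I0 c v GA 0 + I0 c v GA 0) = 2 / ((c + 1) * (v - 1)) ^ 2 * (m2 - m1 ^ 2 / m0) := by
    have h1 : 2 * I0 c v GA 0 * I0 c v Gh 0 = m0 * ((m2 - 2 * m1 + m0) / ((c + 1) * (v - 1)) ^ 2) := by
      rw [← ih, i0]; ring
    rw [h1, i0, is]
    field_simp
    ring
  rw [hval, e0, e1, e2]
  unfold ellF
  set w1 : ℂ := v ^ ((1 - 2 * c : ℝ) : ℂ) with hw1
  set w2 : ℂ := v ^ ((2 - c : ℝ) : ℂ) with hw2
  have k1' : (1 : ℂ) + c ≠ 0 := by rwa [add_comm]
  field_simp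
  ring

end Lim

/-- **L4F** -/
theorem psiFlat : PsiFlat := by
  intro κ κ' c β C q hκ' hκ hq hc hc1 hc2
  obtain ⟨c₀, B, S⟩ := exists_Sm hκ' hκ hq hc.le
  obtain ⟨M, hM⟩ := S.endPsi
  refine ⟨c₀, M, hM, fun x y h => ?_⟩
  by_cases hxy : y = x
  · subst hxy
    simp [PsiQ, Psi0F]
  have hx : x ≠ 0 := h.1
  have hφ := S.ph_lim_zero hc h
  have hA := S.II_lim h GA_diff.continuous hφ
  have hh := S.II_lim h Gh_diff.continuous hφ
  have hs := S.II_lim h Gs_diff.continuous hφ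
  have hQ := S.QQ_lim h hφ
  rw [I0_Gj_zero, I0_Gj_zero] at hQ
  have hn := S.I0_near h hφ (j := Complex.I) (by simp)
  rw [I0_Gj_zero] at hn
  have hsq := (sqrt_near hn).1
  rw [← sq, hsq] at hQ
  have hA0 : I0 c (y / x) GA 0 ≠ 0 := by
    intro h0
    rw [h0] at hn
    norm_num at hn
  have hv := v_near S h
  have hv1 : y / x ≠ 1 := by
    intro h1
    rw [div_eq_one_iff_eq hx] at h1
    exact hxy h1
  have hlim : Tendsto (fun l : ℝ => PsiN q ((l : ℂ) * x, (l : ℂ) * y)) (𝓝[>] 0)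
      (𝓝 (4 * (2 * I0 c (y / x) GA 0 * I0 c (y / x) Gh 0 - 0 ^ 2 * I0 c (y / x) Gh 0 ^ 2 -
        I0 c (y / x) Gs 0 ^ 2) / (I0 c (y / x) GA 0 + I0 c (y / x) GA 0))) := by
    unfold PsiN NN
    refine Tendsto.div ?_ (hA.add hQ) ?_
    · exact (((hA.const_mul 2).mul hh).sub ((hφ.pow 2).mul (hh.pow 2))).sub (hs.pow 2) |>.const_mul 4
    · rw [← two_mul]; exact mul_ne_zero two_ne_zero hA0
  rw [flat_value hv hv1 hc hc1 hc2 hA0] at hlim
  have h0 : Psi0F c x y = ellF c (y / x) / (y / x - 1) ^ 3 := by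
    unfold Psi0F
    rw [if_neg hxy]
  rw [h0]
  refine hlim.congr' ?_
  filter_upwards [ev_mem h] with l hl
  exact (S.PsiQ_eq_N hl).symm

end Crest.Agent.R102.T5R.L4346
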