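import Crest.Agent.R102.T5L4F_346

/-!
# Row 102, [T5], L4I: the limit of `PsiQ q` at an isotropic end (helper346)
-/

set_option autoImplicit false

open Set Filter Topology Metric

noncomputable section

namespace Crest.Agent.R102.T5R.L4346

open Crest.Agent.R102.T5R

section Iso

variable {κ κ' c₀ c β C B : ℝ} {q : ℂ → ℂ} {x y v : ℂ}

lemma tendsto_lx (S : Sm κ κ' c₀ c β C B q) (h : (x, y) ∈ DD0 κ' c₀) :
    Tendsto (fun l : ℝ => (l : ℂ) * x) (𝓝[>] 0) (𝓝[Sg κ] 0) := by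
  rw [tendsto_nhdsWithin_iff]
  constructor
  · have h1 : Continuous (fun l : ℝ => (l : ℂ) * x) := by fun_prop
    have h2 := h1.tendsto 0
    simp only [Complex.ofReal_zero, zero_mul] at h2
    exact h2.mono_left nhdsWithin_le_nhds
  · filter_upwards [ev_mem h] with l hl
    exact S.mem1 hl.1

lemma ph_lim_iso (S : Sm κ κ' c₀ c β C B q) (h : (x, y) ∈ DD0 κ' c₀) {a : ℂ}
    (ha : Tendsto (fun τ => τ * Complex.exp (q τ)) (𝓝[Sg κ] 0) (𝓝 a)) :
    Tendsto (fun l : ℝ => ph q ((l : ℂ) * x, (l : ℂ) * y)) (𝓝[>] 0) (𝓝 ((y / x - 1) * a)) := by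
  have hx : x ≠ 0 := h.1
  have h1 := (ha.comp (tendsto_lx S h)).const_mul (y / x - 1)
  refine h1.congr (fun l => ?_)
  unfold ph
  simp only [Function.comp]
  field_simp

lemma E0_neg_one (hv : ‖v - 1‖ < 1 / 4) (hv1 : v ≠ 1) {t : ℝ} (ht : t ∈ Icc (0 : ℝ) 1) :
    E0 (-1) v t = lz v t / (v - 1) := by
  have hsub : uIcc (0 : ℝ) t ⊆ Icc (0 : ℝ) 1 := by
    rw [uIcc_of_le ht.1]; exact Icc_subset_Icc_right ht.2
  have hv1' : v - 1 ≠ 0 := sub_ne_zero.2 hv1
  unfold E0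
  rw [intervalIntegral.integral_eq_sub_of_hasDerivAt (f := fun s => lz v s / (v - 1))]
  · rw [lz_zero, zero_div, sub_zero]
  · intro s hs
    have h1 := (lz_hasDerivAt hv (hsub hs)).div_const (v - 1)
    refine h1.congr_deriv ?_
    rw [neg_one_mul, Complex.exp_neg, exp_lz hv (hsub hs)]
    have h3 := Complex.slitPlane_ne_zero (zeta_slit hv (hsub hs))
    field_simp
  · apply ContinuousOn.intervalIntegrable
    exact Complex.continuous_exp.comp_continuousOn (continuousOn_const.mul ((lz_cont hv).mono hsub))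

lemma iso_A (hv : ‖v - 1‖ < 1 / 4) (hv1 : v ≠ 1) (φ : ℂ) :
    I0 (-1) v GA φ = (v ^ 3 - 1) / (3 * (v - 1)) := by
  have hv0 : v ≠ 0 := by
    rintro rfl
    norm_num at hv
  have h3 : Complex.exp ((2 + 1) * Complex.log v) = v ^ 3 := by
    rw [show (2 + 1 : ℂ) * Complex.log v = ((3 : ℕ) : ℂ) * Complex.log v by push_cast; ring,
      Complex.exp_nat_mul, Complex.exp_log hv0]
  have h4 : I0 (-1) v GA φ = ∫ s in (0 : ℝ)..1, Complex.exp ((2 : ℂ) * lz v s) := by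
    unfold I0
    refine intervalIntegral.integral_congr (fun s _ => ?_)
    simp only [GA, mul_one]
    ring_nf
  rw [h4, int_pow hv hv1 (a := (2 : ℂ)) (by norm_num) (by simp), lz_one, h3]
  norm_num

lemma iso_P (hv : ‖v - 1‖ < 1 / 4) (hv1 : v ≠ 1) {j a : ℂ} {b : ℝ} (hb : 3 + b ≠ 0)
    (hj : j * a = b) :
    I0 (-1) v (Gj j) ((v - 1) * a) = (v ^ ((3 + b : ℝ) : ℂ) - 1) / ((3 + b) * (v - 1)) := by
  have hv0 : v ≠ 0 := by
    rintro rfl
    norm_num at hv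
  have hv1' : v - 1 ≠ 0 := sub_ne_zero.2 hv1
  have hb' : (3 : ℂ) + b ≠ 0 := by exact_mod_cast hb
  have h4 : I0 (-1) v (Gj j) ((v - 1) * a) =
      ∫ s in (0 : ℝ)..1, Complex.exp ((2 + b : ℂ) * lz v s) := by
    unfold I0
    refine intervalIntegral.integral_congr (fun s hs => ?_)
    rw [uIcc_of_le zero_le_one] at hs
    simp only [Gj]
    rw [E0_neg_one hv hv1 hs, ← Complex.exp_add]
    congr 1
    rw [← hj]
    field_simp
  rw [h4, int_pow hv hv1 (a := (2 + b : ℂ)) (by convert hb' using 1; ring) (by simp), lz_one,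
    Complex.cpow_def_of_ne_zero hv0]
  push_cast
  ring_nf

end Iso

/-- **L4I** -/
theorem psiIso : PsiIso := by
  intro κ κ' β C m s q hκ' hκ hq hm hm3 hs hlim0
  obtain ⟨c₀, B, S⟩ := exists_Sm hκ' hκ hq le_rfl
  obtain ⟨M, hM⟩ := S.endPsi
  refine ⟨c₀, M, hM, fun x y h => ?_⟩
  by_cases hxy : y = x
  · subst hxy
    simp [PsiQ, Psi0I]
  have hx : x ≠ 0 := h.1
  set v := y / x with hvd
  have hv : ‖v - 1‖ < 1 / 4 := v_near S h
  have hv1 : v ≠ 1 := by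
    intro h1
    rw [hvd, div_eq_one_iff_eq hx] at h1
    exact hxy h1
  have hv1' : v - 1 ≠ 0 := sub_ne_zero.2 hv1
  set a : ℂ := s * Complex.I * m with ha
  have hmc : (m : ℂ) ≠ 0 := by exact_mod_cast hm.ne'
  have hs2 : s ^ 2 = 1 := by rcases hs with rfl | rfl <;> norm_num
  have hs0 : s ≠ 0 := by rcases hs with rfl | rfl <;> norm_num
  have ha2 : a ^ 2 = -(m : ℂ) ^ 2 := by
    rw [ha, mul_pow, mul_pow, hs2, Complex.I_sq]; ring
  have ha0 : a ≠ 0 := mul_ne_zero (mul_ne_zero hs0 Complex.I_ne_zero) hmc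
  have hφ := ph_lim_iso S h hlim0
  rw [← hvd] at hφ
  have hA := S.II_lim h GA_diff.continuous hφ
  have hQ := S.QQ_lim h hφ
  rw [← hvd] at hA hQ
  have hneg : ((-1 : ℝ) : ℂ) = -1 := by push_cast; ring
  rw [hneg] at hA hQ
  rw [iso_A hv hv1] at hA
  have hlim : Tendsto (fun l : ℝ => 4 * (II q GA ((l : ℂ) * x, (l : ℂ) * y) -
      QQ q ((l : ℂ) * x, (l : ℂ) * y)) / ph q ((l : ℂ) * x, (l : ℂ) * y) ^ 2) (𝓝[>] 0)
      (𝓝 (4 * ((v ^ 3 - 1) / (3 * (v - 1)) - (I0 (-1) v (Gj Complex.I) ((v - 1) * a) ^ (1 / 2 : ℂ) *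
        I0 (-1) v (Gj (-Complex.I)) ((v - 1) * a) ^ (1 / 2 : ℂ))) / ((v - 1) * a) ^ 2)) :=
    ((hA.sub hQ).const_mul 4).div (hφ.pow 2) (pow_ne_zero 2 (mul_ne_zero hv1' ha0))
  have hval : 4 * ((v ^ 3 - 1) / (3 * (v - 1)) -
      (I0 (-1) v (Gj Complex.I) ((v - 1) * a) ^ (1 / 2 : ℂ) *
        I0 (-1) v (Gj (-Complex.I)) ((v - 1) * a) ^ (1 / 2 : ℂ))) / ((v - 1) * a) ^ 2 =
      Psi0I m x y := by
    unfold Psi0I
    rw [if_neg hxy, ← hvd]
    have hm3' : 3 + -m ≠ 0 := fun h => hm3 (by linarith)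
    have hm3'' : 3 + m ≠ 0 := by linarith
    have hprod : I0 (-1) v (Gj Complex.I) ((v - 1) * a) ^ (1 / 2 : ℂ) *
        I0 (-1) v (Gj (-Complex.I)) ((v - 1) * a) ^ (1 / 2 : ℂ) =
        ((v ^ ((3 + m : ℝ) : ℂ) - 1) / ((3 + m) * (v - 1))) ^ (1 / 2 : ℂ) *
          ((v ^ ((3 - m : ℝ) : ℂ) - 1) / ((3 - m) * (v - 1))) ^ (1 / 2 : ℂ) := by
      have hI : Complex.I ^ 2 = -1 := Complex.I_sq
      rcases hs with hs | hs
      · have j1 : Complex.I * a = ((-m : ℝ) : ℂ) := by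
          rw [ha, hs]; push_cast; linear_combination (m : ℂ) * hI
        have j2 : -Complex.I * a = (m : ℂ) := by
          rw [ha, hs]; linear_combination -(m : ℂ) * hI
        rw [iso_P hv hv1 hm3' j1, iso_P hv hv1 hm3'' j2, mul_comm]
        congr 3
        push_cast; ring
      · have j1 : Complex.I * a = (m : ℂ) := by
          rw [ha, hs]; linear_combination -(m : ℂ) * hI
        have j2 : -Complex.I * a = ((-m : ℝ) : ℂ) := by
          rw [ha, hs]; push_cast; linear_combination (m : ℂ) * hI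
        rw [iso_P hv hv1 hm3'' j1, iso_P hv hv1 hm3' j2]
        congr 3
        push_cast; ring
    rw [hprod, mul_pow, ha2]
    unfold ellI
    field_simp
  rw [hval] at hlim
  refine hlim.congr' ?_
  filter_upwards [self_mem_nhdsWithin] with l hl
  have hl0 : (l : ℂ) ≠ 0 := by
    have : (0 : ℝ) < l := hl
    exact_mod_cast this.ne'
  rw [PsiQ_eq, if_neg (fun h1 => hxy (mul_left_cancel₀ hl0 h1)), ph_sq]

end Crest.Agent.R102.T5R.L4346
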