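import Crest.Agent.R102.T5Defs_160

/-!
# Row 102, part (C), [T5], leaf L5F: the flat law (helper756)

`aN` facts (analytic at `0`, derivative `n (n-1)/2`) and `LawF`.
-/

set_option autoImplicit false

open Set Filter Topology Metric
open scoped ComplexConjugate

noncomputable section

namespace Crest.Agent.R102.T5L5F756

open Crest.Agent.R102.T5R

/-! ### the function `(e^z - 1)/z` -/

def phi (z : ℂ) : ℂ := dslope Complex.exp 0 z

theorem phi_diff : Differentiable ℂ phi := by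
  have h : Differentiable ℂ (dslope Complex.exp 0) := by
    rw [← differentiableOn_univ, Complex.differentiableOn_dslope Filter.univ_mem,
      differentiableOn_univ]
    exact Complex.differentiable_exp
  exact h

theorem phi_zero : phi 0 = 1 := by
  unfold phi
  rw [dslope_same, Complex.deriv_exp, Complex.exp_zero]

theorem phi_mul (z : ℂ) : z * phi z = Complex.exp z - 1 := by
  have h := sub_smul_dslope Complex.exp 0 z
  simpa [phi] using h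

theorem phi_of_ne {z : ℂ} (hz : z ≠ 0) : phi z = (Complex.exp z - 1) / z := by
  rw [← phi_mul z]; field_simp

theorem phi_deriv : HasDerivAt phi (1 / 2) 0 := by
  rw [hasDerivAt_iff_isLittleO]
  have hO : (fun z : ℂ => phi z - phi 0 - (z - 0) • (1 / 2 : ℂ)) =O[𝓝 0] fun z => ‖z - 0‖ ^ 2 := by
    refine Asymptotics.IsBigO.of_bound 1 ?_
    filter_upwards [ball_mem_nhds (0 : ℂ) one_pos] with z hz
    rw [mem_ball_zero_iff] at hz
    by_cases h0 : z = 0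
    · subst h0; simp
    have hb := Complex.exp_bound (x := z) hz.le (n := 3) (by norm_num)
    have e : phi z - phi 0 - (z - 0) • (1 / 2 : ℂ) =
        (Complex.exp z - ∑ m ∈ Finset.range 3, z ^ m / (m.factorial : ℂ)) / z := by
      rw [phi_of_ne h0, phi_zero, Finset.sum_range_succ, Finset.sum_range_succ,
        Finset.sum_range_succ, Finset.sum_range_zero]
      simp only [Nat.factorial, smul_eq_mul]
      field_simp
      push_cast
      ring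
    rw [e, norm_div, sub_zero]
    have hz0 : 0 < ‖z‖ := norm_pos_iff.2 h0
    rw [div_le_iff₀ hz0]
    refine hb.trans ?_
    have : ‖(‖z‖ ^ 2 : ℝ)‖ = ‖z‖ ^ 2 := by simp
    rw [this]
    norm_num [Nat.factorial]
    nlinarith [pow_pos hz0 3]
  refine hO.trans_isLittleO ?_
  have := Asymptotics.isLittleO_norm_pow_id (E' := ℂ) (n := 2) (by norm_num)
  simpa using this

theorem aN_eq (n : ℝ) (r : ℂ) : aN n r = n * phi (n * r) / phi r := by
  unfold aN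
  split_ifs with h
  · subst h; simp [phi_zero]
  · have h1 := phi_mul (n * r)
    have h2 := phi_mul r
    rw [← h1, ← h2]
    by_cases h3 : phi r = 0
    · rw [h3]; simp
    · field_simp

theorem aN_hasDerivAt (n : ℝ) : HasDerivAt (aN n) ((n : ℂ) * (n - 1) / 2) 0 := by
  have e : aN n = fun r => n * phi (n * r) / phi r := funext (aN_eq n)
  rw [e]
  have h1 : HasDerivAt (fun r : ℂ => (n : ℂ) * r) (n : ℂ) 0 := by
    simpa using (hasDerivAt_id (0 : ℂ)).const_mul (n : ℂ)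
  have h2 : HasDerivAt (fun r : ℂ => phi (n * r)) ((1 / 2 : ℂ) * n) 0 := by
    have : HasDerivAt phi (1 / 2) ((n : ℂ) * 0) := by rw [mul_zero]; exact phi_deriv
    exact this.comp 0 h1
  have h3 : HasDerivAt (fun r : ℂ => (n : ℂ) * phi (n * r) / phi r) _ 0 :=
    (h2.const_mul (n : ℂ)).div phi_deriv (by rw [phi_zero]; exact one_ne_zero)
  refine h3.congr_deriv ?_
  rw [mul_zero, phi_zero]
  ring

theorem aN_analyticAt (n : ℝ) : AnalyticAt ℂ (aN n) 0 := by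
  have e : aN n = fun r => n * phi (n * r) / phi r := funext (aN_eq n)
  rw [e]
  have hp : ∀ z, AnalyticAt ℂ phi z := fun z => phi_diff.analyticAt z
  have h1 : AnalyticAt ℂ (fun r : ℂ => phi (n * r)) 0 :=
    (hp _).fun_comp (analyticAt_const.mul analyticAt_id)
  exact (analyticAt_const.mul h1).div (hp 0) (by rw [phi_zero]; exact one_ne_zero)

theorem aN_zero (n : ℝ) : aN n 0 = n := by simp [aN]

theorem aN_of_ne (n : ℝ) {r : ℂ} (h : r ≠ 0) :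
    aN n r = (Complex.exp (n * r) - 1) / (Complex.exp r - 1) := by simp [aN, h]

/-! ### the derivative of `ellF` -/

theorem ellF_law {c : ℝ} (hc1 : -1 < c) (h12 : c ≠ 1 / 2) (h2 : c ≠ 2) {v r : ℂ}
    (hv : v ∈ Complex.slitPlane) (hr : r = ((1 - 2 * c : ℝ) : ℂ) * Complex.log v)
    (hr0 : r ≠ 0) (he : Complex.exp r ≠ 1) :
    ∃ E' : ℂ, HasDerivAt (ellF c) E' v ∧
      E' = v ^ 2 * (2 / (1 + (c : ℂ)) ^ 2) *
        (1 - aN ((2 - c) / (1 - 2 * c)) (-r) / (((2 - c) / (1 - 2 * c) : ℝ) : ℂ)) ^ 2 ∧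
      3 * ellF c v - v * E' = -((2 / (1 + (c : ℂ)) ^ 2) *
        (1 - aN ((2 - c) / (1 - 2 * c)) r / (((2 - c) / (1 - 2 * c) : ℝ) : ℂ)) ^ 2) := by
  have hv0 : v ≠ 0 := Complex.slitPlane_ne_zero hv
  have hcp : (1 + (c : ℂ)) ≠ 0 := by
    have : (1 + c : ℝ) ≠ 0 := by linarith
    exact_mod_cast this
  have hcp12 : (1 - 2 * (c : ℂ)) ≠ 0 := by
    have : (1 - 2 * c : ℝ) ≠ 0 := fun h => h12 (by linarith)
    exact_mod_cast this
  have hcp2 : (2 - (c : ℂ)) ≠ 0 := by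
    have : (2 - c : ℝ) ≠ 0 := fun h => h2 (by linarith)
    exact_mod_cast this
  obtain ⟨L, hL⟩ : ∃ L, L = Complex.log v := ⟨_, rfl⟩
  obtain ⟨e1, he1⟩ : ∃ e1, e1 = Complex.exp r := ⟨_, rfl⟩
  obtain ⟨e2, he2⟩ : ∃ e2, e2 = Complex.exp ((2 - (c : ℂ)) * L) := ⟨_, rfl⟩
  have e1ne : e1 ≠ 0 := by rw [he1]; exact Complex.exp_ne_zero _
  have e2ne : e2 ≠ 0 := by rw [he2]; exact Complex.exp_ne_zero _
  have hD : e1 - 1 ≠ 0 := sub_ne_zero.2 (by rw [he1]; exact he)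
  have hp1 : v ^ ((1 - 2 * c : ℝ) : ℂ) = e1 := by
    rw [Complex.cpow_def_of_ne_zero hv0, he1, hr, mul_comm]
  have hp2 : v ^ ((2 - c : ℝ) : ℂ) = e2 := by
    rw [Complex.cpow_def_of_ne_zero hv0, he2, ← hL, mul_comm]
    push_cast; ring_nf
  have hv3 : e1 * v ^ 3 = e2 ^ 2 := by
    have hvL : v = Complex.exp L := by rw [hL, Complex.exp_log hv0]
    rw [he1, he2, hr, ← hL, hvL, ← Complex.exp_nat_mul, ← Complex.exp_nat_mul, ← Complex.exp_add]
    congr 1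
    push_cast; ring
  have hn : Complex.exp ((((2 - c) / (1 - 2 * c) : ℝ) : ℂ) * r) = e2 := by
    rw [he2, hr, ← hL]
    congr 1
    push_cast
    field_simp
  have hn' : Complex.exp ((((2 - c) / (1 - 2 * c) : ℝ) : ℂ) * (-r)) = e2⁻¹ := by
    rw [mul_neg, Complex.exp_neg, hn]
  have he1' : Complex.exp (-r) = e1⁻¹ := by rw [Complex.exp_neg, he1]
  have ha : aN ((2 - c) / (1 - 2 * c)) r = (e2 - 1) / (e1 - 1) := by
    rw [aN_of_ne _ hr0, hn, he1]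
  have hb : aN ((2 - c) / (1 - 2 * c)) (-r) = e1 * (e2 - 1) / (e2 * (e1 - 1)) := by
    rw [aN_of_ne _ (neg_ne_zero.2 hr0), hn', he1']
    have : e1⁻¹ - 1 ≠ 0 := by
      intro h
      apply hD
      have : e1⁻¹ = 1 := by linear_combination h
      rw [inv_eq_one] at this
      rw [this]; ring
    rw [div_eq_div_iff this (mul_ne_zero e2ne hD)]
    field_simp
    ring
  refine ⟨2 * (v ^ 2 / (1 + (c : ℂ)) ^ 2 - ((2 * (e2 - 1) * ((2 - c) * e2 / v)) * (1 - 2 * c) *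
      ((1 + (c : ℂ)) ^ 2 * (2 - c) ^ 2 * (e1 - 1)) - (e2 - 1) ^ 2 * (1 - 2 * c) *
      ((1 + (c : ℂ)) ^ 2 * (2 - c) ^ 2 * ((1 - 2 * c) * e1 / v))) /
      ((1 + (c : ℂ)) ^ 2 * (2 - c) ^ 2 * (e1 - 1)) ^ 2), ?_, ?_, ?_⟩
  · have d1 : HasDerivAt (fun v : ℂ => v ^ ((1 - 2 * c : ℝ) : ℂ)) ((1 - 2 * c) * e1 / v) v := by
      have := (hasDerivAt_id v).cpow_const (c := ((1 - 2 * c : ℝ) : ℂ)) hv
      refine this.congr_deriv ?_
      simp only [id]
      rw [Complex.cpow_sub _ _ hv0, Complex.cpow_one, hp1]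
      push_cast; ring
    have d2 : HasDerivAt (fun v : ℂ => v ^ ((2 - c : ℝ) : ℂ)) ((2 - c) * e2 / v) v := by
      have := (hasDerivAt_id v).cpow_const (c := ((2 - c : ℝ) : ℂ)) hv
      refine this.congr_deriv ?_
      simp only [id]
      rw [Complex.cpow_sub _ _ hv0, Complex.cpow_one, hp2]
      push_cast; ring
    have d3 : HasDerivAt (fun v : ℂ => (v ^ 3 - 1) / (3 * (1 + (c : ℂ)) ^ 2))
        (v ^ 2 / (1 + (c : ℂ)) ^ 2) v := by
      have := ((hasDerivAt_pow 3 v).sub_const 1).div_const (3 * (1 + (c : ℂ)) ^ 2)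
      refine this.congr_deriv ?_
      push_cast
      field_simp
    have d4 := ((d2.sub_const 1).pow 2).mul_const (1 - 2 * (c : ℂ))
    have d5 := (d1.sub_const 1).const_mul ((1 + (c : ℂ)) ^ 2 * (2 - c) ^ 2)
    have hden : (1 + (c : ℂ)) ^ 2 * (2 - c) ^ 2 * (v ^ ((1 - 2 * c : ℝ) : ℂ) - 1) ≠ 0 := by
      rw [hp1]
      exact mul_ne_zero (mul_ne_zero (pow_ne_zero _ hcp) (pow_ne_zero _ hcp2)) hD
    have d6 := d4.div d5 hden
    have d7 := (d3.sub d6).const_mul (2 : ℂ)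
    have hfun : ellF c = fun v : ℂ => 2 * ((v ^ 3 - 1) / (3 * (1 + (c : ℂ)) ^ 2) -
        (v ^ ((2 - c : ℝ) : ℂ) - 1) ^ 2 * (1 - 2 * c) /
        ((1 + (c : ℂ)) ^ 2 * (2 - c) ^ 2 * (v ^ ((1 - 2 * c : ℝ) : ℂ) - 1))) := rfl
    rw [hfun]
    refine d7.congr_deriv ?_
    simp only [Pi.pow_apply, hp1, hp2, Nat.cast_ofNat]
    norm_num
  · rw [hb]
    push_cast
    field_simp
    linear_combination ((e2 - 1) * (1 - 2 * (c : ℂ)) *
      (2 * e2 * (2 - (c : ℂ)) * (e1 - 1) - (e2 - 1) * (1 - 2 * (c : ℂ)) * e1)) * hv3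
  · rw [ha]
    unfold ellF
    rw [hp1, hp2]
    push_cast
    field_simp
    ring

/-! ### the law for one corner -/

theorem LL_flat (c : ℝ) {x : ℂ} (hx : x ≠ 0) (y : ℂ) :
    LL (Psi0F c) x y = x ^ 3 * ellF c (y / x) := by
  unfold LL Psi0F
  split_ifs with h
  · subst h
    rw [div_self hx]
    simp [ellF]
  · have h1 : y / x - 1 ≠ 0 := by
      intro h2
      apply h
      field_simp at h2
      linear_combination h2
    have h3 : y - x = x * (y / x - 1) := by field_simp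
    rw [h3]
    field_simp

theorem law_sq {c : ℝ} (hc1 : -1 < c) (h12 : c ≠ 1 / 2) (h2 : c ≠ 2) {x y z rm rp : ℂ}
    (hx : x ≠ 0) (hy : y ≠ 0) (hvm : y / x ∈ Complex.slitPlane) (hvp : z / y ∈ Complex.slitPlane)
    (hrm : rm = ((1 - 2 * c : ℝ) : ℂ) * Complex.log (y / x))
    (hrp : rp = ((1 - 2 * c : ℝ) : ℂ) * Complex.log (z / y))
    (hrm0 : rm ≠ 0) (hem : Complex.exp rm ≠ 1) (hrp0 : rp ≠ 0) (hep : Complex.exp rp ≠ 1)
    (hEL : EL (Psi0F c) x y z = 0) :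
    (aN ((2 - c) / (1 - 2 * c)) rp - (((2 - c) / (1 - 2 * c) : ℝ) : ℂ)) ^ 2 =
      ((((2 - c) / (1 - 2 * c) : ℝ) : ℂ) - aN ((2 - c) / (1 - 2 * c)) (-rm)) ^ 2 := by
  obtain ⟨Em, hEm, hEm1, -⟩ := ellF_law hc1 h12 h2 hvm hrm hrm0 hem
  obtain ⟨Ep, hEp, -, hEp2⟩ := ellF_law hc1 h12 h2 hvp hrp hrp0 hep
  have d1 : HasDerivAt (fun y' => LL (Psi0F c) x y') (x ^ 2 * Em) y := by
    have e : (fun y' => LL (Psi0F c) x y') = fun y' => x ^ 3 * ellF c (y' / x) :=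
      funext fun y' => LL_flat c hx y'
    rw [e]
    have h1 : HasDerivAt (fun y' : ℂ => y' / x) (1 / x) y := (hasDerivAt_id y).div_const x
    have h3 := (hEm.comp y h1).const_mul (x ^ 3)
    refine h3.congr_deriv ?_
    field_simp
  have d2 : HasDerivAt (fun y' => LL (Psi0F c) y' z)
      (y ^ 2 * (3 * ellF c (z / y) - z / y * Ep)) y := by
    have e : (fun y' => LL (Psi0F c) y' z) =ᶠ[𝓝 y] fun y' => y' ^ 3 * ellF c (z / y') := by
      filter_upwards [isOpen_ne.mem_nhds hy] with y' hy'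
      exact LL_flat c hy' z
    have h1 : HasDerivAt (fun y' : ℂ => z / y') (-z / y ^ 2) y := by
      have := (hasDerivAt_const y z).div (hasDerivAt_id y) hy
      refine this.congr_deriv ?_
      simp
    have h3 : HasDerivAt (fun y' : ℂ => y' ^ 3 * ellF c (z / y')) _ y :=
      (hasDerivAt_pow 3 y).mul (hEp.comp y h1)
    refine (h3.congr_deriv ?_).congr_of_eventuallyEq e
    simp only [Nat.cast_ofNat]
    field_simp
    ring
  have h3 : x ^ 2 * Em + y ^ 2 * (3 * ellF c (z / y) - z / y * Ep) = 0 := by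
    rw [← d1.deriv, ← d2.deriv]
    exact hEL
  have hcp : (1 + (c : ℂ)) ≠ 0 := by
    have : (1 + c : ℝ) ≠ 0 := by linarith
    exact_mod_cast this
  have hn : ((((2 - c) / (1 - 2 * c) : ℝ) : ℂ)) ≠ 0 := by
    have h4 : (1 - 2 * c : ℝ) ≠ 0 := fun h => h12 (by linarith)
    have h5 : (2 - c : ℝ) ≠ 0 := fun h => h2 (by linarith)
    exact_mod_cast div_ne_zero h5 h4
  generalize ((((2 - c) / (1 - 2 * c) : ℝ) : ℂ)) = n at *
  generalize aN ((2 - c) / (1 - 2 * c)) rp = a at *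
  generalize aN ((2 - c) / (1 - 2 * c)) (-rm) = b at *
  rw [hEm1, hEp2] at h3
  have h5 : x ^ 2 * ((y / x) ^ 2 * (2 / (1 + (c : ℂ)) ^ 2) * (1 - b / n) ^ 2) +
      y ^ 2 * (-(2 / (1 + (c : ℂ)) ^ 2 * (1 - a / n) ^ 2)) =
      -(y ^ 2 * (2 / (1 + (c : ℂ)) ^ 2) / n ^ 2 * ((a - n) ^ 2 - (n - b) ^ 2)) := by
    field_simp
    ring
  rw [h5, neg_eq_zero, mul_eq_zero] at h3
  rcases h3 with h3 | h3
  · exact absurd h3 (div_ne_zero (mul_ne_zero (pow_ne_zero _ hy)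
      (div_ne_zero two_ne_zero (pow_ne_zero _ hcp))) (pow_ne_zero _ hn))
  · linear_combination h3

/-! ### asymptotics near `(-i, 0)` -/

variable {ρ C : ℝ} {Ψ₀ : ℂ → ℂ → ℂ} {X₀ : ℂ × ℂ → ℂ}

theorem tendX (hX : LimFam ρ C Ψ₀ X₀) : Tendsto X₀ (𝓝 (-Complex.I, 0)) (𝓝 (-Complex.I)) := by
  have h0 : X₀ (-Complex.I, 0) = -Complex.I := by
    have := hX.near (-Complex.I) (mem_ball_self hX.ρ_pos) 0 (mem_ball_self hX.ρ_pos)
    have h2 : ‖X₀ (-Complex.I, 0) - -Complex.I‖ ≤ 0 := by simpa using this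
    have h3 := norm_le_zero_iff.1 h2
    linear_combination h3
  have hc : ContinuousAt X₀ (-Complex.I, 0) :=
    (hX.diff.continuousOn).continuousAt
      (prod_mem_nhds (ball_mem_nhds _ hX.ρ_pos) (ball_mem_nhds _ hX.ρ_pos))
  have := hc.tendsto
  rwa [h0] at this

/-- the punctured filter -/
def FF : Filter (ℂ × ℂ) := 𝓝[{x : ℂ × ℂ | x.2 ≠ 0}] (-Complex.I, 0)

theorem FF_le : FF ≤ 𝓝 ((-Complex.I, 0) : ℂ × ℂ) := nhdsWithin_le_nhds

theorem tend_arg (s : ℂ) :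
    Tendsto (fun x : ℂ × ℂ => (x.1 + s * x.2, x.2)) FF (𝓝 (-Complex.I, 0)) := by
  have h : ContinuousAt (fun x : ℂ × ℂ => (x.1 + s * x.2, x.2)) (-Complex.I, 0) := by fun_prop
  have := h.tendsto.mono_left FF_le
  simpa using this

theorem ev_ne : ∀ᶠ x in FF, x.2 ≠ 0 := eventually_mem_nhdsWithin

/-- `(X₀(t + s₁ w, w) - X₀(t + s₂ w, w)) / w → s₁ - s₂` -/
theorem tend_diff (hX : LimFam ρ C Ψ₀ X₀) (s₁ s₂ : ℂ) :
    Tendsto (fun x : ℂ × ℂ => (X₀ (x.1 + s₁ * x.2, x.2) - X₀ (x.1 + s₂ * x.2, x.2)) / x.2) FF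
      (𝓝 (s₁ - s₂)) := by
  have hU : ball (-Complex.I) ρ ×ˢ ball (0 : ℂ) ρ ∈ 𝓝 ((-Complex.I, 0) : ℂ × ℂ) :=
    prod_mem_nhds (ball_mem_nhds _ hX.ρ_pos) (ball_mem_nhds _ hX.ρ_pos)
  rw [tendsto_iff_norm_sub_tendsto_zero]
  have hlim : Tendsto (fun x : ℂ × ℂ => 2 * C * ‖x.2‖) FF (𝓝 0) := by
    have h : ContinuousAt (fun x : ℂ × ℂ => 2 * C * ‖x.2‖) (-Complex.I, 0) := by fun_prop
    have := h.tendsto.mono_left FF_le
    simpa using this
  refine squeeze_zero' (Eventually.of_forall fun x => norm_nonneg _) ?_ hlim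
  filter_upwards [tend_arg s₁ hU, tend_arg s₂ hU, ev_ne] with x h1 h2 h3
  have n1 := hX.near _ h1.1 _ h1.2
  have n2 := hX.near _ h2.1 _ h2.2
  have e : (X₀ (x.1 + s₁ * x.2, x.2) - X₀ (x.1 + s₂ * x.2, x.2)) / x.2 - (s₁ - s₂) =
      ((X₀ (x.1 + s₁ * x.2, x.2) - (x.1 + s₁ * x.2)) -
        (X₀ (x.1 + s₂ * x.2, x.2) - (x.1 + s₂ * x.2))) / x.2 := by
    field_simp
    ring
  rw [e, norm_div, div_le_iff₀ (norm_pos_iff.2 h3)]
  refine (norm_sub_le _ _).trans ?_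
  simp only at n1 n2
  nlinarith [n1, n2]

/-- the ratio of two consecutive points -/
theorem tend_ratio (hX : LimFam ρ C Ψ₀ X₀) (s₁ s₂ : ℂ) :
    Tendsto (fun x : ℂ × ℂ => (X₀ (x.1 + s₁ * x.2, x.2) / X₀ (x.1 + s₂ * x.2, x.2) - 1) / x.2) FF
      (𝓝 ((s₁ - s₂) / (-Complex.I))) := by
  have h1 := tend_diff hX s₁ s₂
  have h2 := (tendX hX).comp (tend_arg s₂)
  have h3 := h1.div h2 (neg_ne_zero.2 Complex.I_ne_zero)
  refine h3.congr' ?_
  filter_upwards [h2.eventually_ne (neg_ne_zero.2 Complex.I_ne_zero), ev_ne] with x h4 h5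
  simp only [Function.comp, Pi.div_apply] at h4 ⊢
  generalize X₀ (x.1 + s₁ * x.2, x.2) = A at *
  generalize X₀ (x.1 + s₂ * x.2, x.2) = B at *
  field_simp

theorem tend_ratio1 (hX : LimFam ρ C Ψ₀ X₀) (s₁ s₂ : ℂ) :
    Tendsto (fun x : ℂ × ℂ => X₀ (x.1 + s₁ * x.2, x.2) / X₀ (x.1 + s₂ * x.2, x.2)) FF (𝓝 1) := by
  have h1 := (tendX hX).comp (tend_arg s₁)
  have h2 := (tendX hX).comp (tend_arg s₂)
  have h3 := h1.div h2 (neg_ne_zero.2 Complex.I_ne_zero)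
  rw [div_self (neg_ne_zero.2 Complex.I_ne_zero)] at h3
  exact h3

/-- `(H(V) - H(1)) / w → H'(1) (s₁ - s₂)/(-i)` -/
theorem tend_H (hX : LimFam ρ C Ψ₀ X₀) (s₁ s₂ : ℂ) {H : ℂ → ℂ} {H' : ℂ} (hH : HasDerivAt H H' 1) :
    Tendsto (fun x : ℂ × ℂ =>
      (H (X₀ (x.1 + s₁ * x.2, x.2) / X₀ (x.1 + s₂ * x.2, x.2)) - H 1) / x.2) FF
      (𝓝 ((s₁ - s₂) / (-Complex.I) * H')) := by
  have h1 : ContinuousAt (dslope H 1) 1 := continuousAt_dslope_same.2 hH.differentiableAt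
  have h2 := h1.tendsto.comp (tend_ratio1 hX s₁ s₂)
  rw [dslope_same, hH.deriv] at h2
  refine ((tend_ratio hX s₁ s₂).mul h2).congr ?_
  intro x
  simp only [Function.comp]
  have := sub_smul_dslope H 1 (X₀ (x.1 + s₁ * x.2, x.2) / X₀ (x.1 + s₂ * x.2, x.2))
  rw [← this, smul_eq_mul]
  ring

theorem rX_plus (p : ℝ) (X₀ : ℂ × ℂ → ℂ) (x : ℂ × ℂ) :
    rX p X₀ (x.1 + x.2 / 2, x.2) =
      p * Complex.log (X₀ (x.1 + 1 * x.2, x.2) / X₀ (x.1 + 0 * x.2, x.2)) := by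
  unfold rX
  simp only
  rw [show x.1 + x.2 / 2 + x.2 / 2 = x.1 + 1 * x.2 by ring,
    show x.1 + x.2 / 2 - x.2 / 2 = x.1 + 0 * x.2 by ring]

theorem rX_minus (p : ℝ) (X₀ : ℂ × ℂ → ℂ) (x : ℂ × ℂ) :
    rX p X₀ (x.1 - x.2 / 2, x.2) =
      p * Complex.log (X₀ (x.1 + 0 * x.2, x.2) / X₀ (x.1 + (-1) * x.2, x.2)) := by
  unfold rX
  simp only
  rw [show x.1 - x.2 / 2 + x.2 / 2 = x.1 + 0 * x.2 by ring,
    show x.1 - x.2 / 2 - x.2 / 2 = x.1 + (-1) * x.2 by ring]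

/-- general part of the laws: the sum `(a(r₊) - n) + (n - b(r₋))` is `≠ 0` off `w = 0`, the
exponentials are `≠ 1`, everything is in the slit plane. -/
theorem ev_gen (hX : LimFam ρ C Ψ₀ X₀) {n p : ℝ} (hp : p ≠ 0) (hn0 : n ≠ 0) (hn1 : n ≠ 1) :
    ∀ᶠ x in FF, x.2 ≠ 0 ∧
      X₀ (x.1 + 1 * x.2, x.2) ≠ 0 ∧ X₀ (x.1 + 0 * x.2, x.2) ≠ 0 ∧ X₀ (x.1 + (-1) * x.2, x.2) ≠ 0 ∧
      X₀ (x.1 + 1 * x.2, x.2) / X₀ (x.1 + 0 * x.2, x.2) ∈ Complex.slitPlane ∧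
      X₀ (x.1 + 0 * x.2, x.2) / X₀ (x.1 + (-1) * x.2, x.2) ∈ Complex.slitPlane ∧
      rX p X₀ (x.1 + x.2 / 2, x.2) ≠ 0 ∧ rX p X₀ (x.1 - x.2 / 2, x.2) ≠ 0 ∧
      Complex.exp (rX p X₀ (x.1 + x.2 / 2, x.2)) ≠ 1 ∧
      Complex.exp (rX p X₀ (x.1 - x.2 / 2, x.2)) ≠ 1 ∧
      (aN n (rX p X₀ (x.1 + x.2 / 2, x.2)) - n) + (n - aN n (-(rX p X₀ (x.1 - x.2 / 2, x.2)))) ≠ 0 ∧
      EL Ψ₀ (X₀ (x.1 + (-1) * x.2, x.2)) (X₀ (x.1 + 0 * x.2, x.2)) (X₀ (x.1 + 1 * x.2, x.2)) = 0 := by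
  have hI : (-Complex.I) ≠ 0 := neg_ne_zero.2 Complex.I_ne_zero
  have hpC : (p : ℂ) ≠ 0 := by exact_mod_cast hp
  have hlog : HasDerivAt (fun v : ℂ => (p : ℂ) * Complex.log v) (p : ℂ) 1 := by
    have := (Complex.hasDerivAt_log Complex.one_mem_slitPlane).const_mul (p : ℂ)
    simpa using this
  have h1 : Tendsto (fun x : ℂ × ℂ => rX p X₀ (x.1 + x.2 / 2, x.2) / x.2) FF
      (𝓝 ((1 - 0) / (-Complex.I) * p)) := by
    refine (tend_H hX 1 0 hlog).congr ?_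
    intro x
    rw [rX_plus]
    simp
  have h2 : Tendsto (fun x : ℂ × ℂ => rX p X₀ (x.1 - x.2 / 2, x.2) / x.2) FF
      (𝓝 ((0 - (-1)) / (-Complex.I) * p)) := by
    refine (tend_H hX 0 (-1) hlog).congr ?_
    intro x
    rw [rX_minus]
    simp
  have hw : Tendsto (fun x : ℂ × ℂ => x.2) FF (𝓝 0) := by
    have h : ContinuousAt (fun x : ℂ × ℂ => x.2) (-Complex.I, 0) := by fun_prop
    exact h.tendsto.mono_left FF_le
  have h1' : Tendsto (fun x : ℂ × ℂ => rX p X₀ (x.1 + x.2 / 2, x.2)) FF (𝓝 0) := by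
    have := h1.mul hw
    rw [mul_zero] at this
    refine this.congr' ?_
    filter_upwards [ev_ne] with x hx
    field_simp
  have h2' : Tendsto (fun x : ℂ × ℂ => rX p X₀ (x.1 - x.2 / 2, x.2)) FF (𝓝 0) := by
    have := h2.mul hw
    rw [mul_zero] at this
    refine this.congr' ?_
    filter_upwards [ev_ne] with x hx
    field_simp
  have hphi : ∀ᶠ r in 𝓝 (0 : ℂ), phi r ≠ 0 :=
    (phi_diff.continuous.continuousAt).eventually_ne (by rw [phi_zero]; exact one_ne_zero)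
  have ha : HasDerivAt (fun v : ℂ => aN n ((p : ℂ) * Complex.log v)) ((n : ℂ) * (n - 1) / 2 * p) 1 := by
    have h : HasDerivAt (aN n) ((n : ℂ) * (n - 1) / 2) ((p : ℂ) * Complex.log 1) := by
      rw [Complex.log_one, mul_zero]; exact aN_hasDerivAt n
    exact h.comp 1 hlog
  have hb : HasDerivAt (fun v : ℂ => aN n (-((p : ℂ) * Complex.log v)))
      ((n : ℂ) * (n - 1) / 2 * (-p)) 1 := by
    have h : HasDerivAt (aN n) ((n : ℂ) * (n - 1) / 2) (-((p : ℂ) * Complex.log 1)) := by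
      rw [Complex.log_one, mul_zero, neg_zero]; exact aN_hasDerivAt n
    exact h.comp 1 hlog.neg
  have hs := (tend_H hX 1 0 ha).sub (tend_H hX 0 (-1) hb)
  have hs' : Tendsto (fun x : ℂ × ℂ => ((aN n (rX p X₀ (x.1 + x.2 / 2, x.2)) - n) +
      (n - aN n (-(rX p X₀ (x.1 - x.2 / 2, x.2))))) / x.2) FF
      (𝓝 ((1 - 0) / -Complex.I * ((n : ℂ) * (n - 1) / 2 * p) -
        (0 - -1) / -Complex.I * ((n : ℂ) * (n - 1) / 2 * -p))) := by
    refine hs.congr ?_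
    intro x
    rw [rX_plus, rX_minus, Complex.log_one, mul_zero, neg_zero, aN_zero]
    ring
  have hsne : (1 - 0) / -Complex.I * ((n : ℂ) * (n - 1) / 2 * p) -
        (0 - -1) / -Complex.I * ((n : ℂ) * (n - 1) / 2 * -p) ≠ 0 := by
    have hn0' : (n : ℂ) ≠ 0 := by exact_mod_cast hn0
    have hn1' : (n : ℂ) - 1 ≠ 0 := sub_ne_zero.2 (by exact_mod_cast hn1)
    have e : (1 - 0) / -Complex.I * ((n : ℂ) * (n - 1) / 2 * p) -
        (0 - -1) / -Complex.I * ((n : ℂ) * (n - 1) / 2 * -p) =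
        (n : ℂ) * (n - 1) * p / -Complex.I := by
      field_simp
      ring
    rw [e]
    exact div_ne_zero (mul_ne_zero (mul_ne_zero hn0' hn1') hpC) hI
  have hlne1 : (1 - 0) / (-Complex.I) * (p : ℂ) ≠ 0 := by
    rw [sub_zero]; exact mul_ne_zero (div_ne_zero one_ne_zero hI) hpC
  have hlne2 : (0 - (-1)) / (-Complex.I) * (p : ℂ) ≠ 0 := by
    rw [sub_neg_eq_add, zero_add]; exact mul_ne_zero (div_ne_zero one_ne_zero hI) hpC
  have hslit : Complex.slitPlane ∈ 𝓝 (1 : ℂ) :=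
    Complex.isOpen_slitPlane.mem_nhds Complex.one_mem_slitPlane
  have hball : ball (-Complex.I) ρ ×ˢ ball (0 : ℂ) ρ ∈ 𝓝 ((-Complex.I, 0) : ℂ × ℂ) :=
    prod_mem_nhds (ball_mem_nhds _ hX.ρ_pos) (ball_mem_nhds _ hX.ρ_pos)
  filter_upwards [ev_ne, ((tendX hX).comp (tend_arg 1)).eventually_ne hI,
    ((tendX hX).comp (tend_arg 0)).eventually_ne hI,
    ((tendX hX).comp (tend_arg (-1))).eventually_ne hI,
    tend_ratio1 hX 1 0 hslit, tend_ratio1 hX 0 (-1) hslit,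
    h1.eventually_ne hlne1, h2.eventually_ne hlne2, h1'.eventually hphi, h2'.eventually hphi,
    hs'.eventually_ne hsne, tend_arg 1 hball, tend_arg 0 hball, tend_arg (-1) hball] with
    x x1 x2 x3 x4 x5 x6 x7 x8 x9 x10 x11 x12 x13 x14
  have x7' : rX p X₀ (x.1 + x.2 / 2, x.2) ≠ 0 := fun h => x7 (by rw [h, zero_div])
  have x8' : rX p X₀ (x.1 - x.2 / 2, x.2) ≠ 0 := fun h => x8 (by rw [h, zero_div])
  refine ⟨x1, x2, x3, x4, x5, x6, x7', x8', ?_, ?_, ?_, ?_⟩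
  · intro h
    have := phi_mul (rX p X₀ (x.1 + x.2 / 2, x.2))
    rw [h, sub_self] at this
    exact mul_ne_zero x7' x9 this
  · intro h
    have := phi_mul (rX p X₀ (x.1 - x.2 / 2, x.2))
    rw [h, sub_self] at this
    exact mul_ne_zero x8' x10 this
  · intro h
    exact x11 (by rw [h, zero_div])
  · have e0 : x.1 + 0 * x.2 = x.1 := by ring
    have e1 : x.1 + 1 * x.2 = x.1 + x.2 := by ring
    have e2 : x.1 + (-1) * x.2 = x.1 - x.2 := by ring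
    simp only [mem_preimage, mem_prod, e0, e1, e2] at x12 x13 x14
    rw [e0, e1, e2]
    exact hX.el x.1 x.2 x14.1 x13.1 x12.1 x13.2

/-- the diagonal `w = 0` -/
theorem rX_zero (p : ℝ) (X₀ : ℂ × ℂ → ℂ) (t : ℂ) :
    rX p X₀ (t + 0 / 2, 0) = 0 ∧ rX p X₀ (t - 0 / 2, 0) = 0 := by
  unfold rX
  simp only [zero_div, add_zero, sub_zero]
  by_cases h : X₀ (t, 0) = 0
  · simp [h]
  · rw [div_self h]; simp

/-- **L5F** -/
theorem lawF : LawF := by
  intro c ρ C X₀ hc1 h12 h2 hX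
  have h4 : (1 - 2 * c : ℝ) ≠ 0 := fun h => h12 (by linarith)
  have h5 : (2 - c : ℝ) ≠ 0 := fun h => h2 (by linarith)
  have hn0 : (2 - c) / (1 - 2 * c) ≠ 0 := div_ne_zero h5 h4
  have hn1 : (2 - c) / (1 - 2 * c) ≠ 1 := by
    intro h
    rw [div_eq_one_iff_eq h4] at h
    linarith
  have hgen := ev_gen hX h4 hn0 hn1
  have hgen' := eventually_nhdsWithin_iff.1 hgen
  filter_upwards [hgen'] with x hx
  by_cases hw : x.2 = 0
  · obtain ⟨t, w⟩ := x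
    simp only at hw
    subst hw
    obtain ⟨e1, e2⟩ := rX_zero (1 - 2 * c) X₀ t
    change aN _ (rX (1 - 2 * c) X₀ (t + 0 / 2, 0)) + aN _ (-(rX (1 - 2 * c) X₀ (t - 0 / 2, 0))) = _
    rw [e1, e2, neg_zero, aN_zero]
    ring
  · obtain ⟨-, g1, g2, g3, g4, g5, g6, g7, g8, g9, g10, g11⟩ := hx hw
    have hl := law_sq hc1 h12 h2 g3 g2 g5 g4 (rX_minus _ _ _) (rX_plus _ _ _) g7 g9 g6 g8 g11
    have hf : ((aN ((2 - c) / (1 - 2 * c)) (rX (1 - 2 * c) X₀ (x.1 + x.2 / 2, x.2)) -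
        (((2 - c) / (1 - 2 * c) : ℝ) : ℂ)) +
        ((((2 - c) / (1 - 2 * c) : ℝ) : ℂ) -
        aN ((2 - c) / (1 - 2 * c)) (-(rX (1 - 2 * c) X₀ (x.1 - x.2 / 2, x.2))))) *
        ((aN ((2 - c) / (1 - 2 * c)) (rX (1 - 2 * c) X₀ (x.1 + x.2 / 2, x.2)) -
        (((2 - c) / (1 - 2 * c) : ℝ) : ℂ)) -
        ((((2 - c) / (1 - 2 * c) : ℝ) : ℂ) -
        aN ((2 - c) / (1 - 2 * c)) (-(rX (1 - 2 * c) X₀ (x.1 - x.2 / 2, x.2))))) = 0 := by
      linear_combination hl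
    rcases mul_eq_zero.1 hf with h | h
    · exact absurd h g10
    · linear_combination h

end Crest.Agent.R102.T5L5F756
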