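import Crest.Agent.R102.T5Defs_160

/-!
# Row 102, part (C), [T5], leaf L5H (homogeneity), helper556

`theorem hom : T5R.Hom`.  Everything elementary: with `E := D r - w Q(w) r_t`,
`E (t + w, w) = f' (r) E (t, w)` and `E (-i, w) = 0`, hence `E (-i + v, v / k) = 0` for all `k ≥ 1`,
hence `E = 0` by the identity theorem in one variable; then `r` is constant on the curves
`t / w + C (w) = const`, `w C' = Q`.
-/

set_option autoImplicit false

open Set Filter Topology Metric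

noncomputable section

namespace Crest.Agent.R102.T5R.L5H556

/-- zero propagation along `(t, w) ↦ (t + w, w)` -/
theorem zero_prop {E M : ℂ × ℂ → ℂ} {a : ℂ} {ρ : ℝ}
    (hE : ∀ t w : ℂ, ‖t - a‖ < ρ → ‖w‖ < ρ → AnalyticAt ℂ E (t, w))
    (hrec : ∀ t w : ℂ, ‖t - a‖ < ρ → ‖w‖ < ρ → E (t + w, w) = M (t, w) * E (t, w))
    (h0 : ∀ w : ℂ, ‖w‖ < ρ → E (a, w) = 0) :
    ∀ t w : ℂ, ‖t - a‖ < ρ → ‖w‖ < ρ → E (t, w) = 0 := by
  intro t w ht hw
  by_cases hta : t = a
  · subst hta; exact h0 w hw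
  have hρ : 0 < ρ := lt_of_le_of_lt (norm_nonneg _) hw
  have key : ∀ k : ℕ, E (t, (t - a) / ((k : ℂ) + 1)) = 0 := by
    intro k
    have hk : ((k : ℂ) + 1) ≠ 0 := by exact_mod_cast Nat.succ_ne_zero k
    have hkn : ‖((k : ℂ) + 1)‖ = (k : ℝ) + 1 := by
      have : ((k : ℂ) + 1) = ((k + 1 : ℕ) : ℂ) := by push_cast; ring
      rw [this, Complex.norm_natCast]; push_cast; ring
    set v : ℂ := (t - a) / ((k : ℂ) + 1) with hv
    have hvn : ‖v‖ * ((k : ℝ) + 1) = ‖t - a‖ := by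
      rw [hv, norm_div, hkn]; field_simp
    have hk0 : (0 : ℝ) ≤ k := Nat.cast_nonneg k
    have hv0 : 0 ≤ ‖v‖ := norm_nonneg v
    have hvρ : ‖v‖ < ρ := by nlinarith
    have hind : ∀ j : ℕ, j ≤ k + 1 → E (a + j * v, v) = 0 := by
      intro j
      induction j with
      | zero => intro _; simpa using h0 v hvρ
      | succ j ih =>
        intro hj
        have hjk : (j : ℝ) ≤ k := by exact_mod_cast (Nat.succ_le_succ_iff.mp hj)
        have h1 : ‖(a + j * v) - a‖ < ρ := by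
          have : (a + j * v) - a = j * v := by ring
          rw [this, norm_mul, Complex.norm_natCast]
          nlinarith
        have h2 := hrec (a + j * v) v h1 hvρ
        rw [ih (by omega), mul_zero] at h2
        have e : a + ((j + 1 : ℕ) : ℂ) * v = a + j * v + v := by push_cast; ring
        rw [e]; exact h2
    have h3 := hind (k + 1) le_rfl
    have e : a + ((k + 1 : ℕ) : ℂ) * v = t := by
      rw [hv]; push_cast; field_simp; ring
    rwa [e] at h3
  have han : AnalyticOnNhd ℂ (fun w => E (t, w)) (ball 0 ρ) := by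
    intro z hz
    have hz' : ‖z‖ < ρ := by simpa using hz
    exact (hE t z ht hz').comp (f := fun w : ℂ => (t, w))
      (analyticAt_const.prod analyticAt_id)
  have hlim : Tendsto (fun k : ℕ => (t - a) / ((k : ℂ) + 1)) atTop (𝓝[≠] 0) := by
    rw [tendsto_nhdsWithin_iff]
    constructor
    · have h1 : Tendsto (fun k : ℕ => (1 : ℂ) / ((k : ℂ) + 1)) atTop (𝓝 0) :=
        tendsto_one_div_add_atTop_nhds_zero_nat
      have h2 := h1.const_mul (t - a)
      simpa [div_eq_mul_inv] using h2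
    · refine Eventually.of_forall fun k => ?_
      have hk : ((k : ℂ) + 1) ≠ 0 := by exact_mod_cast Nat.succ_ne_zero k
      exact div_ne_zero (sub_ne_zero.mpr hta) hk
  have hfreq : ∃ᶠ z in 𝓝[≠] (0 : ℂ), (fun w => E (t, w)) z = 0 :=
    hlim.frequently (Frequently.of_forall key)
  have hres := han.eqOn_zero_of_preconnected_of_frequently_eq_zero
    (convex_ball (0 : ℂ) ρ).isPreconnected (mem_ball_self hρ) hfreq
  exact hres (by simpa using hw)

/-- division by the variable -/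
theorem exists_div {φ : ℂ → ℂ} (hφ : AnalyticAt ℂ φ 0) (h0 : φ 0 = 0) :
    ∃ ψ : ℂ → ℂ, AnalyticAt ℂ ψ 0 ∧ ψ 0 = deriv φ 0 ∧ ∀ w, φ w = w * ψ w := by
  obtain ⟨P, hP⟩ := hφ
  refine ⟨dslope φ 0, ⟨_, hP.has_fpower_series_dslope_fslope⟩, dslope_same φ 0, fun w => ?_⟩
  have := sub_smul_dslope φ 0 w
  rw [h0] at this
  simpa [smul_eq_mul] using this.symm

/-- a local inverse of an analytic germ -/
theorem exists_inv {U : ℂ → ℂ} (hU : AnalyticAt ℂ U 0) (h0 : U 0 = 0) (h1 : deriv U 0 ≠ 0) :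
    ∃ W : ℂ → ℂ, AnalyticAt ℂ W 0 ∧ W 0 = 0 ∧ HasDerivAt W (deriv U 0)⁻¹ 0 ∧
      (∀ᶠ w in 𝓝 (0 : ℂ), W (U w) = w) ∧ (∀ᶠ u in 𝓝 (0 : ℂ), U (W u) = u) := by
  refine ⟨hU.hasStrictDerivAt.localInverse _ _ _ h1, ?_, ?_, ?_, ?_, ?_⟩
  · have := hU.analyticAt_localInverse h1
    rwa [h0] at this
  · have : hU.hasStrictDerivAt.localInverse _ _ _ h1 (U 0) = 0 :=
      HasStrictFDerivAt.localInverse_apply_image ..
    rwa [h0] at this
  · have := (hU.hasStrictDerivAt.to_localInverse h1).hasDerivAt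
    rwa [h0] at this
  · exact HasStrictDerivAt.eventually_left_inverse ..
  · have := hU.hasStrictDerivAt.eventually_right_inverse h1
    rwa [h0] at this


/-- the shear `(t, w) ↦ (t + w, w)` -/
def Sh : ℂ × ℂ →L[ℂ] ℂ × ℂ :=
  (ContinuousLinearMap.fst ℂ ℂ ℂ + ContinuousLinearMap.snd ℂ ℂ ℂ).prod
    (ContinuousLinearMap.snd ℂ ℂ ℂ)

theorem Sh_apply (x : ℂ × ℂ) : Sh x = (x.1 + x.2, x.2) := by
  simp [Sh]

/-- the flip `(t, w) ↦ (t, -w)` -/
def Fl : ℂ × ℂ →L[ℂ] ℂ × ℂ :=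
  (ContinuousLinearMap.fst ℂ ℂ ℂ).prod (-ContinuousLinearMap.snd ℂ ℂ ℂ)

theorem Fl_apply (x : ℂ × ℂ) : Fl x = (x.1, -x.2) := by
  simp [Fl]

theorem fderiv_shear {f : ℂ → ℂ} {r : ℂ × ℂ → ℂ} {x : ℂ × ℂ} (hr : AnalyticAt ℂ r x)
    (hrS : AnalyticAt ℂ r (x.1 + x.2, x.2)) (hf : AnalyticAt ℂ f (r x))
    (h : ∀ᶠ y in 𝓝 x, r (y.1 + y.2, y.2) = f (r y)) (v : ℂ × ℂ) :
    fderiv ℂ r (x.1 + x.2, x.2) (v.1 + v.2, v.2) = deriv f (r x) * fderiv ℂ r x v := by
  rw [← Sh_apply] at hrS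
  have h1 : HasFDerivAt (fun y => r (Sh y)) ((fderiv ℂ r (Sh x)).comp Sh) x :=
    hrS.differentiableAt.hasFDerivAt.comp x Sh.hasFDerivAt
  have h2 : HasFDerivAt (fun y => f (r y)) (deriv f (r x) • fderiv ℂ r x) x :=
    hf.differentiableAt.hasDerivAt.comp_hasFDerivAt x hr.differentiableAt.hasFDerivAt
  have h3 : (fun y => r (Sh y)) =ᶠ[𝓝 x] (fun y => f (r y)) := by
    filter_upwards [h] with y hy
    rw [Sh_apply]; exact hy
  have h4 := h1.unique (h2.congr_of_eventuallyEq h3)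
  have h5 := congrArg (fun L : ℂ × ℂ →L[ℂ] ℂ => L v) h4
  simpa [Sh_apply] using h5

theorem fderiv_flip {r : ℂ × ℂ → ℂ} {x : ℂ × ℂ} (hr : AnalyticAt ℂ r x)
    (hrS : AnalyticAt ℂ r (x.1, -x.2)) (h : ∀ᶠ y in 𝓝 x, r (y.1, -y.2) = -r y) (v : ℂ × ℂ) :
    fderiv ℂ r (x.1, -x.2) (v.1, -v.2) = -fderiv ℂ r x v := by
  rw [← Fl_apply] at hrS
  have h1 : HasFDerivAt (fun y => r (Fl y)) ((fderiv ℂ r (Fl x)).comp Fl) x :=
    hrS.differentiableAt.hasFDerivAt.comp x Fl.hasFDerivAt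
  have h2 : HasFDerivAt (fun y => -r y) (-fderiv ℂ r x) x :=
    hr.differentiableAt.hasFDerivAt.neg
  have h3 : (fun y => r (Fl y)) =ᶠ[𝓝 x] (fun y => -r y) := by
    filter_upwards [h] with y hy
    rw [Fl_apply]; exact hy
  have h4 := h1.unique (h2.congr_of_eventuallyEq h3)
  have h5 := congrArg (fun L : ℂ × ℂ →L[ℂ] ℂ => L v) h4
  simpa [Fl_apply] using h5

/-- analyticity of a directional derivative along a vertical line -/
theorem analyticAt_dir {r : ℂ × ℂ → ℂ} {a b : ℂ} (hr : AnalyticAt ℂ r (a, b)) (v : ℂ × ℂ) :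
    AnalyticAt ℂ (fun w => fderiv ℂ r (a, w) v) b := by
  have h1 : AnalyticAt ℂ (fun x => fderiv ℂ r x v) (a, b) :=
    ((ContinuousLinearMap.apply ℂ ℂ v).analyticAt _).comp hr.fderiv
  exact h1.comp (f := fun w : ℂ => (a, w)) (analyticAt_const.prod analyticAt_id)

theorem deriv_data {p : ℝ} {r : ℂ × ℂ → ℂ} (hr : AnalyticAt ℂ r (-Complex.I, 0))
    (h : ∀ᶠ t in 𝓝 (-Complex.I), r (t, 0) = 0 ∧ deriv (fun w => r (t, w)) 0 = p / t) :
    fderiv ℂ r (-Complex.I, 0) (1, 0) = 0 ∧ fderiv ℂ r (-Complex.I, 0) (0, 1) = p * Complex.I ∧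
      deriv (fun w => fderiv ℂ r (-Complex.I, w) (1, 0)) 0 = p := by
  have hI : (-Complex.I) ≠ 0 := neg_ne_zero.mpr Complex.I_ne_zero
  have hrev : ∀ᶠ x in 𝓝 ((-Complex.I, 0) : ℂ × ℂ), AnalyticAt ℂ r x := hr.eventually_analyticAt
  have hline : Tendsto (fun t : ℂ => ((t, 0) : ℂ × ℂ)) (𝓝 (-Complex.I)) (𝓝 (-Complex.I, 0)) :=
    Continuous.tendsto (by fun_prop) _
  have hdt : ∀ t : ℂ, HasDerivAt (fun s : ℂ => ((s, 0) : ℂ × ℂ)) (1, 0) t := fun t =>
    (hasDerivAt_id t).prodMk (hasDerivAt_const t (0 : ℂ))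
  have hdw : ∀ t w : ℂ, HasDerivAt (fun s : ℂ => ((t, s) : ℂ × ℂ)) (0, 1) w := fun t w =>
    (hasDerivAt_const w t).prodMk (hasDerivAt_id w)
  -- first
  have e1 : fderiv ℂ r (-Complex.I, 0) (1, 0) = 0 := by
    have h1 : HasDerivAt (fun t => r (t, 0)) (fderiv ℂ r (-Complex.I, 0) (1, 0)) (-Complex.I) :=
      hr.differentiableAt.hasFDerivAt.comp_hasDerivAt (-Complex.I) (hdt _)
    have h2 : (fun t => r (t, 0)) =ᶠ[𝓝 (-Complex.I)] fun _ => (0 : ℂ) := by
      filter_upwards [h] with t ht using ht.1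
    exact h1.unique ((hasDerivAt_const _ _).congr_of_eventuallyEq h2)
  have e2' : ∀ᶠ t in 𝓝 (-Complex.I), fderiv ℂ r (t, 0) (0, 1) = p / t := by
    filter_upwards [h, hline.eventually hrev] with t ht hrt
    have h1 : HasDerivAt (fun w => r (t, w)) (fderiv ℂ r (t, 0) (0, 1)) 0 :=
      hrt.differentiableAt.hasFDerivAt.comp_hasDerivAt (0 : ℂ) (hdw t 0)
    rw [← h1.deriv]; exact ht.2
  have e2 : fderiv ℂ r (-Complex.I, 0) (0, 1) = p * Complex.I := by
    rw [e2'.self_of_nhds]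
    field_simp
    simp
  refine ⟨e1, e2, ?_⟩
  -- second derivative
  have hf2 : HasFDerivAt (fderiv ℂ r) (fderiv ℂ (fderiv ℂ r) (-Complex.I, 0)) (-Complex.I, 0) :=
    hr.fderiv.differentiableAt.hasFDerivAt
  have hsym := second_derivative_symmetric_of_eventually (𝕜 := ℂ) (f := r) (f' := fderiv ℂ r)
    (hrev.mono fun x hx => hx.differentiableAt.hasFDerivAt) hf2 (0, 1) (1, 0)
  have h1 : HasDerivAt (fun w => fderiv ℂ r (-Complex.I, w))
      (fderiv ℂ (fderiv ℂ r) (-Complex.I, 0) (0, 1)) 0 :=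
    hf2.comp_hasDerivAt (0 : ℂ) (hdw _ 0)
  have h2 : HasDerivAt (fun t => fderiv ℂ r (t, 0))
      (fderiv ℂ (fderiv ℂ r) (-Complex.I, 0) (1, 0)) (-Complex.I) :=
    hf2.comp_hasDerivAt (-Complex.I) (hdt _)
  have h1' : HasDerivAt (fun w => fderiv ℂ r (-Complex.I, w) (1, 0))
      (fderiv ℂ (fderiv ℂ r) (-Complex.I, 0) (0, 1) (1, 0)) 0 := by
    simpa using h1.clm_apply (hasDerivAt_const (0 : ℂ) ((1, 0) : ℂ × ℂ))
  have h2' : HasDerivAt (fun t => fderiv ℂ r (t, 0) (0, 1))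
      (fderiv ℂ (fderiv ℂ r) (-Complex.I, 0) (1, 0) (0, 1)) (-Complex.I) := by
    simpa using h2.clm_apply (hasDerivAt_const (-Complex.I) ((0, 1) : ℂ × ℂ))
  have h3 : HasDerivAt (fun t : ℂ => (p : ℂ) / t) p (-Complex.I) := by
    have := (hasDerivAt_inv hI).const_mul (p : ℂ)
    simpa [div_eq_mul_inv] using this
  have h4 := h2'.unique (h3.congr_of_eventuallyEq e2')
  rw [h1'.deriv, hsym, h4]


/-- the function `Q` -/
theorem exists_Q {p : ℝ} {r : ℂ × ℂ → ℂ} (hp : p ≠ 0) (hr : AnalyticAt ℂ r (-Complex.I, 0))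
    (h : ∀ᶠ t in 𝓝 (-Complex.I), r (t, 0) = 0 ∧ deriv (fun w => r (t, w)) 0 = p / t)
    (hodd : ∀ᶠ x in 𝓝 ((-Complex.I, 0) : ℂ × ℂ), r (x.1, -x.2) = -r x) :
    ∃ Q : ℂ → ℂ, AnalyticAt ℂ Q 0 ∧ (∀ᶠ w in 𝓝 (0 : ℂ), Q (-w) = -Q w) ∧
      ∀ᶠ w in 𝓝 (0 : ℂ), fderiv ℂ r (-Complex.I, w) (-Complex.I, w) -
        w * Q w * fderiv ℂ r (-Complex.I, w) (1, 0) = 0 := by
  obtain ⟨d1, d2, d3⟩ := deriv_data hr h
  set g : ℂ → ℂ := fun w => fderiv ℂ r (-Complex.I, w) (1, 0) with hg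
  set k : ℂ → ℂ := fun w => fderiv ℂ r (-Complex.I, w) (0, 1) with hk
  have hgA : AnalyticAt ℂ g 0 := analyticAt_dir hr _
  have hkA : AnalyticAt ℂ k 0 := analyticAt_dir hr _
  obtain ⟨g1, hg1A, hg10, hg1⟩ := exists_div hgA d1
  rw [d3] at hg10
  have hpC : (p : ℂ) ≠ 0 := by exact_mod_cast hp
  have hmA : AnalyticAt ℂ (fun w => -Complex.I * g1 w + k w) 0 :=
    (analyticAt_const.mul hg1A).add hkA
  obtain ⟨m1, hm1A, -, hm1⟩ := exists_div hmA (by simp only [hg10, hk, d2]; ring)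
  have hN : ∀ w, fderiv ℂ r (-Complex.I, w) (-Complex.I, w) = w ^ 2 * m1 w := by
    intro w
    have e : ((-Complex.I, w) : ℂ × ℂ) = (-Complex.I) • (1, 0) + w • (0, 1) := by
      ext <;> simp
    have e1 : fderiv ℂ r (-Complex.I, w) (-Complex.I, w) = -Complex.I * g w + w * k w := by
      conv_lhs => rw [show fderiv ℂ r (-Complex.I, w) (-Complex.I, w) =
        fderiv ℂ r (-Complex.I, w) ((-Complex.I) • (1, 0) + w • (0, 1)) by rw [← e]]
      rw [map_add, map_smul, map_smul]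
      simp [hg, hk]
    rw [e1, hg1 w]
    have := hm1 w
    linear_combination w * this
  have hev : ∀ᶠ w in 𝓝 (0 : ℂ), g1 w ≠ 0 :=
    hg1A.continuousAt.eventually_ne (by rw [hg10]; exact hpC)
  -- symmetry
  have hline : Tendsto (fun w : ℂ => ((-Complex.I, w) : ℂ × ℂ)) (𝓝 0) (𝓝 (-Complex.I, 0)) :=
    Continuous.tendsto (by fun_prop) _
  have hline' : Tendsto (fun w : ℂ => ((-Complex.I, -w) : ℂ × ℂ)) (𝓝 0) (𝓝 (-Complex.I, 0)) := by
    have : Continuous (fun w : ℂ => ((-Complex.I, -w) : ℂ × ℂ)) := by fun_prop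
    simpa using this.tendsto 0
  have hflip : ∀ᶠ w in 𝓝 (0 : ℂ), ∀ v : ℂ × ℂ,
      fderiv ℂ r (-Complex.I, -w) (v.1, -v.2) = -fderiv ℂ r (-Complex.I, w) v := by
    filter_upwards [hline.eventually hr.eventually_analyticAt,
      hline'.eventually hr.eventually_analyticAt, hline.eventually hodd.eventually_nhds]
      with w h1 h2 h3 v
    exact fderiv_flip (x := (-Complex.I, w)) h1 h2 h3 v
  have hneg : Tendsto (fun w : ℂ => -w) (𝓝 0) (𝓝 0) := by
    simpa using (continuous_neg (G := ℂ)).tendsto 0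
  have hg1e : ∀ᶠ w in 𝓝[≠] (0 : ℂ), g1 (-w) = g1 w := by
    filter_upwards [hflip.filter_mono nhdsWithin_le_nhds, self_mem_nhdsWithin] with w hw hw0
    have h1 := hw (1, 0)
    simp only [neg_zero] at h1
    have h2 : g (-w) = -g w := h1
    rw [hg1, hg1] at h2
    have hw0' : w ≠ 0 := hw0
    have h3 : w * (g1 (-w) - g1 w) = 0 := by linear_combination -h2
    rcases mul_eq_zero.mp h3 with h | h
    · exact absurd h hw0'
    · exact sub_eq_zero.mp h
  have hm1o : ∀ᶠ w in 𝓝[≠] (0 : ℂ), m1 (-w) = -m1 w := by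
    filter_upwards [hflip.filter_mono nhdsWithin_le_nhds, self_mem_nhdsWithin] with w hw hw0
    have h1 := hw (-Complex.I, w)
    simp only [hN] at h1
    have hw0' : w ≠ 0 := hw0
    have h3 : w ^ 2 * (m1 (-w) + m1 w) = 0 := by linear_combination h1
    rcases mul_eq_zero.mp h3 with h | h
    · exact absurd h (pow_ne_zero 2 hw0')
    · linear_combination h
  have hQA : AnalyticAt ℂ (fun w => m1 w / g1 w) 0 := hm1A.div hg1A (by rw [hg10]; exact hpC)
  refine ⟨fun w => m1 w / g1 w, hQA, ?_, ?_⟩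
  · have hA1 : AnalyticAt ℂ (fun w : ℂ => m1 (-w) / g1 (-w)) 0 := by
      have h0 : AnalyticAt ℂ (fun w => m1 w / g1 w) (-0) := by simpa using hQA
      exact h0.comp (f := fun w : ℂ => -w) analyticAt_id.neg
    refine (hA1.frequently_eq_iff_eventually_eq hQA.neg).mp ?_
    refine Eventually.frequently ?_
    filter_upwards [hg1e, hm1o] with w h1 h2
    simp only [Pi.neg_apply, h1, h2, neg_div]
  · filter_upwards [hev] with w hw
    rw [hN, show fderiv ℂ r (-Complex.I, w) (1, 0) = w * g1 w from hg1 w]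
    field_simp
    ring

/-- the function `C` -/
theorem exists_C {Q : ℂ → ℂ} (hQ : AnalyticAt ℂ Q 0) (ho : ∀ᶠ w in 𝓝 (0 : ℂ), Q (-w) = -Q w) :
    ∃ C : ℂ → ℂ, AnalyticAt ℂ C 0 ∧ C 0 = 0 ∧ (∀ᶠ w in 𝓝 (0 : ℂ), C (-w) = -C w) ∧
      ∀ᶠ w in 𝓝 (0 : ℂ), w * deriv C w = Q w := by
  have h0 : Q 0 = 0 := by
    have := ho.self_of_nhds
    rw [neg_zero] at this
    have h2 : (2 : ℂ) * Q 0 = 0 := by linear_combination this
    simpa using h2
  obtain ⟨c, hcA, -, hc⟩ := exists_div hQ h0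
  obtain ⟨ρ, hρ, hb⟩ := Metric.eventually_nhds_iff_ball.mp hcA.eventually_analyticAt
  obtain ⟨ρ', hρ', hb'⟩ := Metric.eventually_nhds_iff_ball.mp ho
  have hd : DifferentiableOn ℂ c (ball 0 ρ) := fun z hz =>
    (hb z hz).differentiableAt.differentiableWithinAt
  obtain ⟨C, hC0, hC⟩ := hd.isExactOn_ball.with_val_at 0 0
  have hCd : DifferentiableOn ℂ C (ball 0 ρ) := fun z hz =>
    (hC z hz).differentiableAt.differentiableWithinAt
  have hCA : AnalyticAt ℂ C 0 := hCd.analyticAt (ball_mem_nhds _ hρ)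
  refine ⟨C, hCA, hC0, ?_, ?_⟩
  · set σ := min ρ ρ' with hσ
    have hσ0 : 0 < σ := lt_min hρ hρ'
    have hder : ∀ z ∈ ball (0 : ℂ) σ, HasDerivAt (fun w => C w + C (-w)) 0 z := by
      intro z hz
      have hz' : ‖z‖ < σ := by simpa using hz
      have hz1 : z ∈ ball (0 : ℂ) ρ := by simpa using lt_of_lt_of_le hz' (min_le_left _ _)
      have hz1' : -z ∈ ball (0 : ℂ) ρ := by simpa using lt_of_lt_of_le hz' (min_le_left _ _)
      have hz2 : z ∈ ball (0 : ℂ) ρ' := by simpa using lt_of_lt_of_le hz' (min_le_right _ _)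
      have hodd := hb' z hz2
      have hev : c (-z) = c z := by
        by_cases hz0 : z = 0
        · simp [hz0]
        · rw [hc, hc] at hodd
          have h3 : z * (c (-z) - c z) = 0 := by linear_combination -hodd
          rcases mul_eq_zero.mp h3 with h | h
          · exact absurd h hz0
          · exact sub_eq_zero.mp h
      have h1 : HasDerivAt (fun w => C w + C (-w)) (c z + c (-z) * (-1)) z :=
        (hC z hz1).add ((hC (-z) hz1').comp z (hasDerivAt_neg z))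
      rw [hev, show c z + c z * (-1) = 0 by ring] at h1
      exact h1
    have hconst : ∀ z ∈ ball (0 : ℂ) σ, C z + C (-z) = 0 := by
      intro z hz
      have := (convex_ball (0 : ℂ) σ).is_const_of_fderivWithin_eq_zero (𝕜 := ℂ)
        (f := fun w => C w + C (-w))
        (fun x hx => (hder x hx).differentiableAt.differentiableWithinAt)
        (fun x hx => by
          rw [fderivWithin_of_isOpen isOpen_ball hx]
          have := (hder x hx).hasFDerivAt.fderiv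
          rw [this]; ext; simp) hz (mem_ball_self hσ0)
      simpa [hC0] using this
    filter_upwards [ball_mem_nhds (0 : ℂ) hσ0] with z hz
    linear_combination hconst z hz
  · filter_upwards [ball_mem_nhds (0 : ℂ) hρ] with z hz
    rw [(hC z hz).deriv, hc]


/-- **step 1**: the PDE -/
theorem pde {f : ℂ → ℂ} {r : ℂ × ℂ → ℂ} {Q : ℂ → ℂ} (hf : AnalyticAt ℂ f 0)
    (hr : AnalyticAt ℂ r (-Complex.I, 0)) (hr0 : r (-Complex.I, 0) = 0)
    (hrec : ∀ᶠ x in 𝓝 ((-Complex.I, 0) : ℂ × ℂ), r (x.1 + x.2, x.2) = f (r x))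
    (hQ : AnalyticAt ℂ Q 0)
    (hN : ∀ᶠ w in 𝓝 (0 : ℂ), fderiv ℂ r (-Complex.I, w) (-Complex.I, w) -
        w * Q w * fderiv ℂ r (-Complex.I, w) (1, 0) = 0) :
    ∀ᶠ x in 𝓝 ((-Complex.I, 0) : ℂ × ℂ),
      fderiv ℂ r x x - x.2 * Q x.2 * fderiv ℂ r x (1, 0) = 0 := by
  have hcont : Tendsto (fun x : ℂ × ℂ => ((x.1 + x.2, x.2) : ℂ × ℂ)) (𝓝 (-Complex.I, 0))
      (𝓝 (-Complex.I, 0)) := by
    have : Continuous (fun x : ℂ × ℂ => ((x.1 + x.2, x.2) : ℂ × ℂ)) := by fun_prop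
    simpa using this.tendsto (-Complex.I, 0)
  have hsnd : Tendsto (fun x : ℂ × ℂ => x.2) (𝓝 (-Complex.I, 0)) (𝓝 (0 : ℂ)) :=
    continuous_snd.tendsto (-Complex.I, (0 : ℂ))
  have hrt : Tendsto r (𝓝 (-Complex.I, 0)) (𝓝 0) := by
    simpa [hr0] using hr.continuousAt.tendsto
  have hall : ∀ᶠ x in 𝓝 ((-Complex.I, 0) : ℂ × ℂ), AnalyticAt ℂ r x ∧
      AnalyticAt ℂ r (x.1 + x.2, x.2) ∧ AnalyticAt ℂ f (r x) ∧ AnalyticAt ℂ Q x.2 ∧
      (∀ᶠ y in 𝓝 x, r (y.1 + y.2, y.2) = f (r y)) ∧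
      (fderiv ℂ r (-Complex.I, x.2) (-Complex.I, x.2) -
        x.2 * Q x.2 * fderiv ℂ r (-Complex.I, x.2) (1, 0) = 0) := by
    filter_upwards [hr.eventually_analyticAt, hcont.eventually hr.eventually_analyticAt,
      hrt.eventually hf.eventually_analyticAt, hsnd.eventually hQ.eventually_analyticAt,
      hrec.eventually_nhds, hsnd.eventually hN] with x h1 h2 h3 h4 h5 h6
    exact ⟨h1, h2, h3, h4, h5, h6⟩
  obtain ⟨ρ, hρ, hb⟩ := Metric.eventually_nhds_iff_ball.mp hall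
  have hmem : ∀ t w : ℂ, ‖t - -Complex.I‖ < ρ → ‖w‖ < ρ →
      ((t, w) : ℂ × ℂ) ∈ ball ((-Complex.I, 0) : ℂ × ℂ) ρ := by
    intro t w ht hw
    rw [Metric.mem_ball, Prod.dist_eq, max_lt_iff]
    exact ⟨by simpa [dist_eq_norm] using ht, by simpa [dist_eq_norm] using hw⟩
  have hzero := zero_prop (a := -Complex.I) (ρ := ρ)
    (E := fun x => fderiv ℂ r x x - x.2 * Q x.2 * fderiv ℂ r x (1, 0))
    (M := fun x => deriv f (r x)) ?_ ?_ ?_
  · filter_upwards [ball_mem_nhds ((-Complex.I, 0) : ℂ × ℂ) hρ] with x hx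
    rw [Metric.mem_ball, Prod.dist_eq, max_lt_iff] at hx
    exact hzero x.1 x.2 (by simpa [dist_eq_norm] using hx.1) (by simpa [dist_eq_norm] using hx.2)
  · intro t w ht hw
    obtain ⟨h1, -, -, h4, -, -⟩ := hb (t, w) (hmem t w ht hw)
    have a1 : AnalyticAt ℂ (fun x : ℂ × ℂ => fderiv ℂ r x x) (t, w) := by
      have hh : AnalyticAt ℂ (fun q : (ℂ × ℂ →L[ℂ] ℂ) × (ℂ × ℂ) => q.1 q.2)
          (fderiv ℂ r (t, w), (t, w)) :=
        (ContinuousLinearMap.apply ℂ ℂ).flip.analyticAt_bilinear _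
      exact hh.comp (f := fun x : ℂ × ℂ => (fderiv ℂ r x, x)) (h1.fderiv.prod analyticAt_id)
    have a2 : AnalyticAt ℂ (fun x : ℂ × ℂ => fderiv ℂ r x (1, 0)) (t, w) :=
      ((ContinuousLinearMap.apply ℂ ℂ ((1, 0) : ℂ × ℂ)).analyticAt _).comp h1.fderiv
    have a3 : AnalyticAt ℂ (fun x : ℂ × ℂ => Q x.2) (t, w) :=
      AnalyticAt.comp (g := Q) (f := fun x : ℂ × ℂ => x.2) h4 analyticAt_snd
    exact a1.sub ((analyticAt_snd.mul a3).mul a2)
  · intro t w ht hw
    obtain ⟨h1, h2, h3, -, h5, -⟩ := hb (t, w) (hmem t w ht hw)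
    have e1 := fderiv_shear h1 h2 h3 h5 (t, w)
    have e2 := fderiv_shear h1 h2 h3 h5 (1, 0)
    simp only [add_zero] at e1 e2
    simp only [e1, e2]
    ring
  · intro w hw
    exact (hb (-Complex.I, w) (hmem _ w (by simpa using hρ) hw)).2.2.2.2.2


/-- **step 2**: `r` is constant on `t / w + C (w) = 1 / u` -/
theorem const_curve {r : ℂ × ℂ → ℂ} {Q C : ℂ → ℂ} (hr : AnalyticAt ℂ r (-Complex.I, 0))
    (hpde : ∀ᶠ x in 𝓝 ((-Complex.I, 0) : ℂ × ℂ),
      fderiv ℂ r x x - x.2 * Q x.2 * fderiv ℂ r x (1, 0) = 0)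
    (hC : AnalyticAt ℂ C 0) (hCQ : ∀ᶠ w in 𝓝 (0 : ℂ), w * deriv C w = Q w) :
    ∃ ε : ℝ, 0 < ε ∧ ∀ᶠ u in 𝓝 (0 : ℂ), u ≠ 0 → ∀ w0 ∈ ball (-Complex.I * u) (ε * ‖u‖),
      ∀ w1 ∈ ball (-Complex.I * u) (ε * ‖u‖),
        r (w0 / u - w0 * C w0, w0) = r (w1 / u - w1 * C w1, w1) := by
  obtain ⟨ρ, hρ, hb⟩ := Metric.eventually_nhds_iff_ball.mp (hr.eventually_analyticAt.and hpde)
  have hwC : Tendsto (fun w => w * C w) (𝓝 0) (𝓝 0) := by
    have h1 : ContinuousAt (fun w => w * C w) 0 :=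
      ContinuousAt.mul (continuousAt_id (x := (0 : ℂ))) hC.continuousAt
    simpa [ContinuousAt] using h1
  have hwC' : ∀ᶠ w in 𝓝 (0 : ℂ), ‖w * C w‖ < ρ / 2 := by
    have := hwC (ball_mem_nhds (0 : ℂ) (half_pos hρ))
    filter_upwards [this] with w hw
    simpa using hw
  obtain ⟨δ, hδ, hb'⟩ := Metric.eventually_nhds_iff_ball.mp
    ((hC.eventually_analyticAt.and hCQ).and hwC')
  set ε : ℝ := min ρ 1 / 2 with hε
  have hε0 : 0 < ε := by rw [hε]; positivity
  have hερ : ε ≤ ρ / 2 := by rw [hε]; gcongr; exact min_le_left _ _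
  have hε1 : ε ≤ 1 / 2 := by rw [hε]; gcongr; exact min_le_right _ _
  refine ⟨ε, hε0, ?_⟩
  filter_upwards [ball_mem_nhds (0 : ℂ) (show 0 < min (δ / 2) (ρ / 2) by positivity)] with u hu hu0
  have hu' : ‖u‖ < min (δ / 2) (ρ / 2) := by simpa using hu
  have hu1 : ‖u‖ < δ / 2 := lt_of_lt_of_le hu' (min_le_left _ _)
  have hu2 : ‖u‖ < ρ / 2 := lt_of_lt_of_le hu' (min_le_right _ _)
  have hup : 0 < ‖u‖ := norm_pos_iff.mpr hu0
  have hder : ∀ w ∈ ball (-Complex.I * u) (ε * ‖u‖),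
      HasDerivAt (fun w => r (w / u - w * C w, w)) 0 w := by
    intro w hw
    have hw' : ‖w + Complex.I * u‖ < ε * ‖u‖ := by
      rw [mem_ball_iff_norm] at hw
      have e : w - -Complex.I * u = w + Complex.I * u := by ring
      rwa [e] at hw
    have hIu : ‖Complex.I * u‖ = ‖u‖ := by simp
    have hwn : ‖w‖ ≤ ε * ‖u‖ + ‖u‖ := by
      have : w = (w + Complex.I * u) - Complex.I * u := by ring
      calc ‖w‖ = ‖(w + Complex.I * u) - Complex.I * u‖ := by rw [← this]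
        _ ≤ ‖w + Complex.I * u‖ + ‖Complex.I * u‖ := norm_sub_le _ _
        _ ≤ ε * ‖u‖ + ‖u‖ := by rw [hIu]; linarith
    have hw0 : w ≠ 0 := by
      rintro rfl
      rw [zero_add, hIu] at hw'
      nlinarith
    have hwδ : ‖w‖ < δ := by nlinarith
    have hwρ : ‖w‖ < ρ := by nlinarith
    obtain ⟨⟨hCA, hCd⟩, hCs⟩ := hb' w (by simpa using hwδ)
    have ht : ‖(w / u - w * C w) - -Complex.I‖ < ρ := by
      have e : (w / u - w * C w) - -Complex.I = (w + Complex.I * u) / u - w * C w := by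
        rw [add_div, mul_div_cancel_right₀ _ hu0]
        ring
      rw [e]
      have h1 : ‖(w + Complex.I * u) / u‖ < ε := by
        rw [norm_div, div_lt_iff₀ hup]; exact hw'
      have := norm_sub_le ((w + Complex.I * u) / u) (w * C w)
      linarith
    have hx : ((w / u - w * C w, w) : ℂ × ℂ) ∈ ball ((-Complex.I, 0) : ℂ × ℂ) ρ := by
      rw [Metric.mem_ball, Prod.dist_eq, max_lt_iff]
      exact ⟨by simpa [dist_eq_norm] using ht, by simpa [dist_eq_norm] using hwρ⟩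
    obtain ⟨hrA, hP⟩ := hb _ hx
    have h1 : HasDerivAt (fun w => w / u - w * C w) (1 / u - (1 * C w + w * deriv C w)) w :=
      ((hasDerivAt_id w).div_const u).sub
        ((hasDerivAt_id w).mul hCA.differentiableAt.hasDerivAt)
    have h2 : HasDerivAt (fun w => ((w / u - w * C w, w) : ℂ × ℂ))
        (1 / u - (1 * C w + w * deriv C w), 1) w := h1.prodMk (hasDerivAt_id w)
    have h3 : HasDerivAt (fun w => r (w / u - w * C w, w))
        (fderiv ℂ r (w / u - w * C w, w) (1 / u - (1 * C w + w * deriv C w), 1)) w :=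
      HasFDerivAt.comp_hasDerivAt (f := fun w => ((w / u - w * C w, w) : ℂ × ℂ)) w
        hrA.differentiableAt.hasFDerivAt h2
    have h4 : fderiv ℂ r (w / u - w * C w, w) (1 / u - (1 * C w + w * deriv C w), 1) = 0 := by
      have e : w • ((1 / u - (1 * C w + w * deriv C w), 1) : ℂ × ℂ) =
          (w / u - w * C w, w) - (w * Q w) • (1, 0) := by
        rw [← hCd]
        ext
        · simp; ring
        · simp
      have h5 : w * fderiv ℂ r (w / u - w * C w, w) (1 / u - (1 * C w + w * deriv C w), 1) = 0 := by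
        rw [← smul_eq_mul, ← map_smul, e, map_sub, map_smul, smul_eq_mul]
        exact hP
      exact (mul_eq_zero.mp h5).resolve_left hw0
    rw [h4] at h3
    exact h3
  intro w0 hw0 w1 hw1
  exact (convex_ball (-Complex.I * u) (ε * ‖u‖)).is_const_of_fderivWithin_eq_zero (𝕜 := ℂ)
    (f := fun w => r (w / u - w * C w, w))
    (fun x hx => (hder x hx).differentiableAt.differentiableWithinAt)
    (fun x hx => by
      rw [fderivWithin_of_isOpen isOpen_ball hx, (hder x hx).hasFDerivAt.fderiv]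
      ext; simp) hw0 hw1

/-- **L5H** -/
theorem hom : Hom := by
  intro p f r hp hf hf0 hr h hodd hrec
  have hr0 : r (-Complex.I, 0) = 0 := h.self_of_nhds.1
  obtain ⟨Q, hQA, hQo, hQN⟩ := exists_Q hp hr h hodd
  obtain ⟨C, hCA, hC0, hCo, hCQ⟩ := exists_C hQA hQo
  have hpde := pde hf hr hr0 hrec hQA hQN
  obtain ⟨ε, hε, hcurve⟩ := const_curve hr hpde hCA hCQ
  have hI : (-Complex.I) ≠ 0 := neg_ne_zero.mpr Complex.I_ne_zero
  -- the homogeneous coordinate
  set V : ℂ → ℂ := fun w => -Complex.I + w * C w with hV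
  set U : ℂ → ℂ := fun w => w / V w with hU
  have hV0 : V 0 = -Complex.I := by simp [hV]
  have hVA : AnalyticAt ℂ V 0 := analyticAt_const.add (analyticAt_id.mul hCA)
  have hUA : AnalyticAt ℂ U 0 := analyticAt_id.div hVA (by rw [hV0]; exact hI)
  have hU0 : U 0 = 0 := by simp [hU]
  have hUd : HasDerivAt U Complex.I 0 := by
    have h1 := (hasDerivAt_id (0 : ℂ)).div hVA.differentiableAt.hasDerivAt (by rw [hV0]; exact hI)
    have e : (1 * V 0 - id 0 * deriv V 0) / V 0 ^ 2 = Complex.I := by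
      rw [hV0]; simp
    rw [e] at h1
    exact h1
  obtain ⟨W, hWA, hW0, hWd, hWU, hUW⟩ := exists_inv hUA hU0
    (by rw [hUd.deriv]; exact Complex.I_ne_zero)
  rw [hUd.deriv, Complex.inv_I] at hWd
  have hWt : Tendsto W (𝓝 0) (𝓝 0) := by
    simpa [hW0] using hWA.continuousAt.tendsto
  have hneg : Tendsto (fun w : ℂ => -w) (𝓝 0) (𝓝 0) := by
    simpa using (continuous_neg (G := ℂ)).tendsto 0
  -- `W` is odd
  have hWo : ∀ᶠ u in 𝓝 (0 : ℂ), W (-u) = -W u := by
    filter_upwards [hUW, (hneg.comp hWt).eventually hWU, hWt.eventually hCo] with u h1 h2 h3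
    simp only [Function.comp] at h2
    have h4 : U (-W u) = -U (W u) := by
      simp only [hU, hV, h3]
      ring
    rw [h4, h1] at h2
    exact h2
  have hpt : Tendsto (fun u => ((-Complex.I, W u) : ℂ × ℂ)) (𝓝 0) (𝓝 (-Complex.I, 0)) :=
    tendsto_const_nhds.prodMk_nhds hWt
  have hrA0 : AnalyticAt ℂ r (-Complex.I, W 0) := by rw [hW0]; exact hr
  refine ⟨fun u => r (-Complex.I, W u), ?_, ?_, ?_, ?_, ?_⟩
  · exact hrA0.comp (f := fun u : ℂ => (-Complex.I, W u)) (analyticAt_const.prod hWA)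
  · simp only [hW0, hr0]
  · have h1 : HasDerivAt (fun u => ((-Complex.I, W u) : ℂ × ℂ)) (0, -Complex.I) 0 :=
      (hasDerivAt_const _ _).prodMk hWd
    have h2 : HasDerivAt (fun u => r (-Complex.I, W u))
        (fderiv ℂ r (-Complex.I, W 0) (0, -Complex.I)) 0 :=
      hrA0.differentiableAt.hasFDerivAt.comp_hasDerivAt (0 : ℂ) h1
    rw [h2.deriv, hW0]
    have e : ((0, -Complex.I) : ℂ × ℂ) = (-Complex.I) • (0, 1) := by ext <;> simp
    rw [e, map_smul, (deriv_data hr h).2.1, smul_eq_mul]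
    linear_combination (-(p : ℂ)) * Complex.I_mul_I
  · filter_upwards [hWo, hpt.eventually hodd] with u h1 h2
    rw [h1]; exact h2
  · -- the functional equation
    have hmob : Tendsto (fun u : ℂ => u / (1 + u)) (𝓝 0) (𝓝 0) := by
      have : ContinuousAt (fun u : ℂ => u / (1 + u)) 0 :=
        continuousAt_id.div (continuousAt_const.add continuousAt_id) (by simp)
      simpa [ContinuousAt] using this
    have hlo : ∀ᶠ u in 𝓝 (0 : ℂ), ‖W u + Complex.I * u‖ ≤ ε / 8 * ‖u‖ := by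
      have := (hasDerivAt_iff_isLittleO.mp hWd).def (show 0 < ε / 8 by positivity)
      filter_upwards [this] with u hu
      rw [hW0] at hu
      have e : W u - 0 - (u - 0) • -Complex.I = W u + Complex.I * u := by
        rw [smul_eq_mul]; ring
      rw [e, sub_zero] at hu
      exact hu
    filter_upwards [hUW, hmob.eventually hUW, hlo, hmob.eventually hlo, hmob.eventually hcurve,
      hpt.eventually hrec,
      ball_mem_nhds (0 : ℂ) (show 0 < min (1 / 2) (ε / 8) by positivity)]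
      with u a1 a2 a3 a4 a5 a6 a7
    by_cases hu0 : u = 0
    · subst hu0
      simp [hW0, hr0, hf0]
    have hu' : ‖u‖ < min (1 / 2) (ε / 8) := by simpa using a7
    have hu1 : ‖u‖ < 1 / 2 := lt_of_lt_of_le hu' (min_le_left _ _)
    have hu2 : ‖u‖ < ε / 8 := lt_of_lt_of_le hu' (min_le_right _ _)
    have h1u : (1 + u) ≠ 0 := by
      intro h0
      have : u = -1 := by linear_combination h0
      rw [this] at hu1
      norm_num at hu1
    set u' : ℂ := u / (1 + u) with hu'def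
    have hu'0 : u' ≠ 0 := div_ne_zero hu0 h1u
    have hu'p : 0 < ‖u'‖ := norm_pos_iff.mpr hu'0
    have huu' : u = u' * (1 + u) := by rw [hu'def]; field_simp
    have hnu : ‖u‖ ≤ 3 / 2 * ‖u'‖ := by
      have h3 : ‖(1 : ℂ) + u‖ ≤ 3 / 2 := by
        have := norm_add_le (1 : ℂ) u
        rw [norm_one] at this
        linarith
      calc ‖u‖ = ‖u'‖ * ‖1 + u‖ := by rw [← norm_mul, ← huu']
        _ ≤ ‖u'‖ * (3 / 2) := by gcongr
        _ = 3 / 2 * ‖u'‖ := by ring
    -- denominators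
    have hVne : ∀ w s : ℂ, U w = s → s ≠ 0 → V w ≠ 0 := by
      intro w s hs hs0 hv
      apply hs0
      rw [← hs]
      simp [hU, hv]
    have hV1 : V (W u) ≠ 0 := hVne _ _ a1 hu0
    have hV2 : V (W u') ≠ 0 := hVne _ _ a2 hu'0
    have b1 : W u = u * V (W u) := by
      have : W u / V (W u) = u := a1
      field_simp at this
      linear_combination this
    have b2 : W u' = u' * V (W u') := by
      have : W u' / V (W u') = u' := a2
      field_simp at this
      linear_combination this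
    have c2 : W u' / u' - W u' * C (W u') = -Complex.I := by
      have : W u' / u' = V (W u') := by
        rw [div_eq_iff hu'0]; linear_combination b2
      rw [this]; simp [hV]
    have c1 : W u / u' - W u * C (W u) = -Complex.I + W u := by
      have : W u / u' = V (W u) + W u := by
        rw [div_eq_iff hu'0]
        linear_combination b1 + V (W u) * huu' - u' * b1
      rw [this]; simp [hV]; ring
    have hm1 : W u' ∈ ball (-Complex.I * u') (ε * ‖u'‖) := by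
      rw [mem_ball_iff_norm]
      have e : W u' - -Complex.I * u' = W u' + Complex.I * u' := by ring
      rw [e]
      nlinarith
    have hm0 : W u ∈ ball (-Complex.I * u') (ε * ‖u'‖) := by
      rw [mem_ball_iff_norm]
      have e : W u - -Complex.I * u' = (W u + Complex.I * u) - Complex.I * (u * u') := by
        linear_combination (-Complex.I) * huu'
      rw [e]
      have h3 := norm_sub_le (W u + Complex.I * u) (Complex.I * (u * u'))
      have h4 : ‖Complex.I * (u * u')‖ = ‖u‖ * ‖u'‖ := by simp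
      rw [h4] at h3
      nlinarith
    have key := a5 hu'0 _ hm0 _ hm1
    rw [c1, c2] at key
    change r (-Complex.I, W u') = f (r (-Complex.I, W u))
    rw [← key]
    exact a6

end Crest.Agent.R102.T5R.L5H556
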