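import Crest.Agent.R102.T5Defs_160

/-!
# Row 102, T5-L5I (LAW ISO), helper861

`T5R.LawI`: the reflection law of the isotropic model in the variable `r`.
Also `aN_inj`: `a_n` is injective near `0` for `n ≠ 0, 1`.
-/

set_option autoImplicit false

open Set Filter Topology Metric
open scoped ComplexConjugate

noncomputable section

namespace Crest.Agent.R102.T5L5I861

open T5R

/-! ### the function `a_n` -/

/-- `(exp x - 1) / x` -/
def EE : ℂ → ℂ := dslope Complex.exp 0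

lemma EE_diff : Differentiable ℂ EE := by
  have h : DifferentiableOn ℂ (dslope Complex.exp 0) univ :=
    (Complex.differentiableOn_dslope (univ_mem)).2 Complex.differentiable_exp.differentiableOn
  exact differentiableOn_univ.1 h

lemma EE_zero : EE 0 = 1 := by
  simp [EE, dslope_same]

lemma EE_mul (x : ℂ) : x * EE x = Complex.exp x - 1 := by
  have := sub_smul_dslope Complex.exp 0 x
  simpa [EE, sub_zero, smul_eq_mul] using this

lemma EE_deriv : deriv EE 0 = 1 / 2 := by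
  have hd : Differentiable ℂ (deriv EE) := EE_diff.deriv
  have h1 : ∀ x : ℂ, EE x + x * deriv EE x = Complex.exp x := by
    intro x
    have ha : HasDerivAt (fun y : ℂ => y * EE y) (1 * EE x + x * deriv EE x) x :=
      (hasDerivAt_id' x).mul (EE_diff x).hasDerivAt
    have hb : HasDerivAt (fun y : ℂ => Complex.exp y - 1) (Complex.exp x) x := by
      simpa using (Complex.hasDerivAt_exp x).sub_const (1 : ℂ)
    have hc : (fun y : ℂ => y * EE y) = fun y => Complex.exp y - 1 := by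
      funext y; exact EE_mul y
    rw [hc] at ha
    simpa using ha.unique hb
  have ha : HasDerivAt (fun y : ℂ => EE y + y * deriv EE y)
      (deriv EE 0 + (1 * deriv EE 0 + 0 * deriv (deriv EE) 0)) 0 :=
    (EE_diff 0).hasDerivAt.add ((hasDerivAt_id' 0).mul (hd 0).hasDerivAt)
  have hb : HasDerivAt (fun y : ℂ => EE y + y * deriv EE y) (Complex.exp 0) 0 := by
    have : (fun y : ℂ => EE y + y * deriv EE y) = Complex.exp := by
      funext y; exact h1 y
    rw [this]; exact Complex.hasDerivAt_exp 0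
  have := ha.unique hb
  simp at this
  linear_combination (1 / 2) * this

/-- `a_n` as an analytic function near `0` -/
def aa (n : ℝ) (r : ℂ) : ℂ := n * EE (n * r) / EE r

lemma aN_eq (n : ℝ) (r : ℂ) : aN n r = aa n r := by
  by_cases h : r = 0
  · subst h
    simp [aN, aa, EE_zero]
  · have h1 := EE_mul r
    have h2 := EE_mul (n * r)
    unfold aN aa
    rw [if_neg h, ← h1, ← h2]
    by_cases h3 : EE r = 0
    · simp [h3]
    · field_simp

lemma aa_strict (n : ℝ) : HasStrictDerivAt (aa n) (n * (n - 1) / 2 : ℂ) 0 := by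
  have hE : HasStrictDerivAt EE (1 / 2 : ℂ) 0 := by
    have := (EE_diff.analyticAt 0).hasStrictDerivAt
    rwa [EE_deriv] at this
  have hE' : HasStrictDerivAt EE (1 / 2 : ℂ) ((n : ℂ) * 0) := by
    simpa using hE
  have hl : HasStrictDerivAt (fun r : ℂ => (n : ℂ) * r) (n : ℂ) 0 := by
    simpa using (hasStrictDerivAt_id (0 : ℂ)).const_mul (n : ℂ)
  have h1 : HasStrictDerivAt (fun r : ℂ => EE (n * r)) (1 / 2 * (n : ℂ)) 0 :=
    hE'.comp 0 hl
  have h2 := (h1.const_mul (n : ℂ)).div hE (by simp [EE_zero])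
  have h3 : HasStrictDerivAt (aa n)
      (((n : ℂ) * (1 / 2 * (n : ℂ)) * EE 0 - (n : ℂ) * EE ((n : ℂ) * 0) * (1 / 2)) / EE 0 ^ 2) 0 := h2
  have e : ((n : ℂ) * (1 / 2 * (n : ℂ)) * EE 0 - (n : ℂ) * EE ((n : ℂ) * 0) * (1 / 2)) / EE 0 ^ 2 =
      (n * (n - 1) / 2 : ℂ) := by
    rw [mul_zero, EE_zero]; ring
  rw [← e]
  exact h3

/-- **`a_n` is injective near `0`** -/
theorem aN_inj (n : ℝ) (h0 : n ≠ 0) (h1 : n ≠ 1) :
    ∃ δ : ℝ, 0 < δ ∧ ∀ r s : ℂ, ‖r‖ < δ → ‖s‖ < δ → aN n r = aN n s → r = s := by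
  have hne : (n * (n - 1) / 2 : ℂ) ≠ 0 := by
    have : ((n * (n - 1) / 2 : ℝ) : ℂ) ≠ 0 := by
      rw [Complex.ofReal_ne_zero]
      exact div_ne_zero (mul_ne_zero h0 (sub_ne_zero.2 h1)) two_ne_zero
    simpa using this
  have hs := (aa_strict n).hasStrictFDerivAt_equiv hne
  have hev := hs.eventually_left_inverse
  rw [Metric.eventually_nhds_iff] at hev
  obtain ⟨δ, hδ, hev⟩ := hev
  refine ⟨δ, hδ, fun r s hr hs' he => ?_⟩
  rw [aN_eq, aN_eq] at he
  have hr' := hev (y := r) (by simpa using hr)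
  have hs'' := hev (y := s) (by simpa using hs')
  rw [← hr', ← hs'', he]

/-! ### the derivative of `ellI` -/

def Sp (m : ℝ) (v : ℂ) : ℂ := (v ^ ((3 + m : ℝ) : ℂ) - 1) / ((3 + m) * (v - 1))
def Sm (m : ℝ) (v : ℂ) : ℂ := (v ^ ((3 - m : ℝ) : ℂ) - 1) / ((3 - m) * (v - 1))

lemma slope_tendsto (c : ℂ) (hc : c ≠ 0) :
    Tendsto (fun v : ℂ => (v ^ c - 1) / (c * (v - 1))) (𝓝[≠] 1) (𝓝 1) := by
  have h : HasDerivAt (fun v : ℂ => v ^ c) (c * 1 ^ (c - 1) * 1) 1 :=
    (hasDerivAt_id' (1 : ℂ)).cpow_const (by simp)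
  have h' : HasDerivAt (fun v : ℂ => v ^ c) c 1 := by simpa using h
  rw [hasDerivAt_iff_tendsto_slope] at h'
  have h2 := h'.div_const c
  rw [div_self hc] at h2
  refine h2.congr (fun v => ?_)
  simp only [slope_def_field, Complex.one_cpow]
  rw [div_div, mul_comm]

lemma near_good (m : ℝ) (hm : 0 < m) (hm3 : m ≠ 3) :
    ∀ᶠ v in 𝓝[≠] (1 : ℂ), v ∈ Complex.slitPlane ∧ Sp m v ∈ Complex.slitPlane ∧
      Sm m v ∈ Complex.slitPlane := by
  have h0 : ∀ᶠ v in 𝓝[≠] (1 : ℂ), v ∈ Complex.slitPlane :=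
    mem_nhdsWithin_of_mem_nhds (Complex.isOpen_slitPlane.mem_nhds (by simp))
  have h1 : Tendsto (Sp m) (𝓝[≠] 1) (𝓝 1) := by
    have hc : ((3 + m : ℝ) : ℂ) ≠ 0 := by
      rw [Complex.ofReal_ne_zero]; positivity
    have := slope_tendsto _ hc
    refine this.congr (fun v => ?_)
    simp [Sp]
  have h2 : Tendsto (Sm m) (𝓝[≠] 1) (𝓝 1) := by
    have hc : ((3 - m : ℝ) : ℂ) ≠ 0 := by
      rw [Complex.ofReal_ne_zero]; exact sub_ne_zero.2 (Ne.symm hm3)
    have := slope_tendsto _ hc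
    exact this.congr (fun v => by simp [Sm])
  have hs : Complex.slitPlane ∈ 𝓝 (1 : ℂ) := Complex.isOpen_slitPlane.mem_nhds (by simp)
  filter_upwards [h0, h1 hs, h2 hs] with v a b c
  exact ⟨a, b, c⟩

lemma sqrt_sq (x : ℂ) : (x ^ (1 / 2 : ℂ)) ^ 2 = x := by
  have h := Complex.cpow_nat_inv_pow x (n := 2) (by norm_num)
  rw [one_div]
  exact h

lemma ellI_deriv {m : ℝ} (hm : 0 < m) (hm3 : m ≠ 3) {v : ℂ} (hv1 : v ≠ 1)
    (hv : v ∈ Complex.slitPlane) (hp : Sp m v ∈ Complex.slitPlane)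
    (hq : Sm m v ∈ Complex.slitPlane) :
    ∃ Q' sp sm : ℂ, HasDerivAt (ellI m) (-(4 / (m : ℂ) ^ 2) * (v ^ 2 - Q')) v ∧ sp ≠ 0 ∧ sm ≠ 0 ∧
      v ^ ((3 + m : ℝ) : ℂ) = 1 + (3 + m) * (v - 1) * sp ^ 2 ∧
      v ^ ((3 - m : ℝ) : ℂ) = 1 + (3 - m) * (v - 1) * sm ^ 2 ∧
      ellI m v = -(4 / (m : ℂ) ^ 2) * ((v ^ 3 - 1) / 3 - (v - 1) * sp * sm) ∧
      2 * v * sp * sm * Q' = v ^ ((3 + m : ℝ) : ℂ) * sm ^ 2 + v ^ ((3 - m : ℝ) : ℂ) * sp ^ 2 := by
  have hv0 : v ≠ 0 := Complex.slitPlane_ne_zero hv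
  have hm0 : (m : ℂ) ≠ 0 := by rw [Complex.ofReal_ne_zero]; exact hm.ne'
  have hcp : (3 + m : ℂ) ≠ 0 := by
    have : ((3 + m : ℝ) : ℂ) ≠ 0 := by rw [Complex.ofReal_ne_zero]; positivity
    simpa using this
  have hcm : (3 - m : ℂ) ≠ 0 := by
    have : ((3 - m : ℝ) : ℂ) ≠ 0 := by
      rw [Complex.ofReal_ne_zero]; exact sub_ne_zero.2 (Ne.symm hm3)
    simpa using this
  have hv1' : v - 1 ≠ 0 := sub_ne_zero.2 hv1
  have hpd : HasDerivAt (fun y : ℂ => y ^ ((3 + m : ℝ) : ℂ))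
      ((3 + m) * (v ^ ((3 + m : ℝ) : ℂ) / v)) v := by
    have h := (hasDerivAt_id' v).cpow_const (c := ((3 + m : ℝ) : ℂ)) hv
    rw [Complex.cpow_sub _ _ hv0, Complex.cpow_one, mul_one] at h
    simpa using h
  have hmd : HasDerivAt (fun y : ℂ => y ^ ((3 - m : ℝ) : ℂ))
      ((3 - m) * (v ^ ((3 - m : ℝ) : ℂ) / v)) v := by
    have h := (hasDerivAt_id' v).cpow_const (c := ((3 - m : ℝ) : ℂ)) hv
    rw [Complex.cpow_sub _ _ hv0, Complex.cpow_one, mul_one] at h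
    simpa using h
  have hSp : DifferentiableAt ℂ (Sp m) v := by
    unfold Sp
    refine DifferentiableAt.div (hpd.differentiableAt.sub_const 1) ?_
      (mul_ne_zero hcp hv1')
    exact (differentiableAt_id.sub_const 1).const_mul _
  have hSm : DifferentiableAt ℂ (Sm m) v := by
    unfold Sm
    refine DifferentiableAt.div (hmd.differentiableAt.sub_const 1) ?_
      (mul_ne_zero hcm hv1')
    exact (differentiableAt_id.sub_const 1).const_mul _
  set Q : ℂ → ℂ := fun y => (y - 1) * (Sp m y) ^ (1 / 2 : ℂ) * (Sm m y) ^ (1 / 2 : ℂ) with hQdef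
  have hQ : DifferentiableAt ℂ Q v := by
    refine DifferentiableAt.mul (DifferentiableAt.mul (differentiableAt_id.sub_const 1) ?_) ?_
    · exact hSp.cpow_const hp
    · exact hSm.cpow_const hq
  set sp : ℂ := (Sp m v) ^ (1 / 2 : ℂ) with hsp
  set sm : ℂ := (Sm m v) ^ (1 / 2 : ℂ) with hsm
  have hsp2 : sp ^ 2 = Sp m v := sqrt_sq _
  have hsm2 : sm ^ 2 = Sm m v := sqrt_sq _
  have hsp0 : sp ≠ 0 := by
    intro h; rw [h] at hsp2
    exact Complex.slitPlane_ne_zero hp (by rw [← hsp2]; ring)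
  have hsm0 : sm ≠ 0 := by
    intro h; rw [h] at hsm2
    exact Complex.slitPlane_ne_zero hq (by rw [← hsm2]; ring)
  have hA : v ^ ((3 + m : ℝ) : ℂ) = 1 + (3 + m) * (v - 1) * sp ^ 2 := by
    rw [hsp2, Sp]; field_simp; ring
  have hB : v ^ ((3 - m : ℝ) : ℂ) = 1 + (3 - m) * (v - 1) * sm ^ 2 := by
    rw [hsm2, Sm]; field_simp; ring
  refine ⟨deriv Q v, sp, sm, ?_, hsp0, hsm0, hA, hB, ?_, ?_⟩
  · have h1 : HasDerivAt (fun y : ℂ => -(4 / (m : ℂ) ^ 2) * ((y ^ 3 - 1) / 3 - Q y))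
        (-(4 / (m : ℂ) ^ 2) * ((3 * v ^ 2) / 3 - deriv Q v)) v := by
      have h3 : HasDerivAt (fun y : ℂ => (y ^ 3 - 1) / 3) ((3 * v ^ 2) / 3) v := by
        have := ((hasDerivAt_pow 3 v).sub_const (1 : ℂ)).div_const (3 : ℂ)
        simpa using this
      exact (h3.sub hQ.hasDerivAt).const_mul _
    have h2 : (fun y : ℂ => -(4 / (m : ℂ) ^ 2) * ((y ^ 3 - 1) / 3 - Q y)) = ellI m := by
      funext y
      simp only [ellI, hQdef, Sp, Sm]
    rw [h2] at h1
    convert h1 using 1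
    ring
  · simp only [ellI, hsp, hsm, Sp, Sm]
  · -- derivative of `Q ^ 2`
    have hsq : HasDerivAt (fun y : ℂ => Q y ^ 2) (2 * Q v * deriv Q v) v := by
      have := hQ.hasDerivAt.fun_pow 2
      simpa using this
    have hPP : HasDerivAt (fun y : ℂ => (y ^ ((3 + m : ℝ) : ℂ) - 1) * (y ^ ((3 - m : ℝ) : ℂ) - 1) /
        ((3 + m) * (3 - m)))
        (((3 + m) * (v ^ ((3 + m : ℝ) : ℂ) / v) * (v ^ ((3 - m : ℝ) : ℂ) - 1) +
          (v ^ ((3 + m : ℝ) : ℂ) - 1) * ((3 - m) * (v ^ ((3 - m : ℝ) : ℂ) / v))) /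
            ((3 + m) * (3 - m))) v :=
      ((hpd.sub_const (1 : ℂ)).mul (hmd.sub_const (1 : ℂ))).div_const _
    have heq : (fun y : ℂ => Q y ^ 2) =ᶠ[𝓝 v] (fun y : ℂ => (y ^ ((3 + m : ℝ) : ℂ) - 1) *
        (y ^ ((3 - m : ℝ) : ℂ) - 1) / ((3 + m) * (3 - m))) := by
      filter_upwards [isOpen_ne.mem_nhds hv1] with y hy
      have hy' : y - 1 ≠ 0 := sub_ne_zero.2 hy
      simp only [hQdef]
      rw [mul_pow, mul_pow, sqrt_sq, sqrt_sq, Sp, Sm]
      field_simp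
    have hu := hsq.unique (hPP.congr_of_eventuallyEq heq)
    have hQv : Q v = (v - 1) * sp * sm := rfl
    rw [hQv] at hu
    have hA' : v ^ ((3 + m : ℝ) : ℂ) - 1 = (3 + m) * (v - 1) * sp ^ 2 := by rw [hA]; ring
    have hB' : v ^ ((3 - m : ℝ) : ℂ) - 1 = (3 - m) * (v - 1) * sm ^ 2 := by rw [hB]; ring
    rw [hA', hB'] at hu
    have hu2 : (v - 1) * (2 * v * sp * sm * deriv Q v) =
        (v - 1) * (v ^ ((3 + m : ℝ) : ℂ) * sm ^ 2 + v ^ ((3 - m : ℝ) : ℂ) * sp ^ 2) := by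
      have : v * (2 * ((v - 1) * sp * sm) * deriv Q v) = v * (((3 + m) * (v ^ ((3 + m : ℝ) : ℂ) / v) *
          ((3 - m) * (v - 1) * sm ^ 2) + (3 + m) * (v - 1) * sp ^ 2 *
            ((3 - m) * (v ^ ((3 - m : ℝ) : ℂ) / v))) / ((3 + m) * (3 - m))) := by rw [hu]
      have h2 : v * (((3 + m) * (v ^ ((3 + m : ℝ) : ℂ) / v) *
          ((3 - m) * (v - 1) * sm ^ 2) + (3 + m) * (v - 1) * sp ^ 2 *
            ((3 - m) * (v ^ ((3 - m : ℝ) : ℂ) / v))) / ((3 + m) * (3 - m))) =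
          (v - 1) * (v ^ ((3 + m : ℝ) : ℂ) * sm ^ 2 + v ^ ((3 - m : ℝ) : ℂ) * sp ^ 2) := by
        generalize v ^ ((3 + m : ℝ) : ℂ) = a
        generalize v ^ ((3 - m : ℝ) : ℂ) = b
        field_simp
      rw [h2] at this
      linear_combination this
    exact mul_left_cancel₀ hv1' hu2

/-! ### the law -/

lemma ellI_one (m : ℝ) : ellI m 1 = 0 := by
  simp [ellI]

lemma LL_eq_left (m : ℝ) {x : ℂ} (hx : x ≠ 0) (y : ℂ) :
    LL (Psi0I m) x y = x ^ 3 * ellI m (y / x) := by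
  unfold LL Psi0I
  by_cases h : y = x
  · subst h
    rw [div_self hx, ellI_one]
    simp
  · rw [if_neg h]
    have h1 : y - x ≠ 0 := sub_ne_zero.2 h
    have h2 : y / x - 1 = (y - x) / x := by field_simp
    rw [h2]
    field_simp

/-- pure algebra of the law -/
lemma alg {m u v x y z Qu Qv sp sm tp tm a b c d : ℂ} (hm : m ≠ 0) (hx : x ≠ 0)
    (hy : y ≠ 0) (hu : y = u * x) (hv : z = v * y)
    (hab : a * b = u ^ 6)
    (hc : c = 1 + (3 + m) * (v - 1) * tp ^ 2) (hd : d = 1 + (3 - m) * (v - 1) * tm ^ 2)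
    (h1 : 2 * u * sp * sm * Qu = a * sm ^ 2 + b * sp ^ 2)
    (h2 : 2 * v * tp * tm * Qv = c * tm ^ 2 + d * tp ^ 2)
    (hel : x ^ 3 * (-(4 / m ^ 2) * (u ^ 2 - Qu) * (1 / x)) +
      (3 * y ^ 2 * (-(4 / m ^ 2) * ((v ^ 3 - 1) / 3 - (v - 1) * tp * tm)) +
        y ^ 3 * (-(4 / m ^ 2) * (v ^ 2 - Qv) * (-z / y ^ 2))) = 0) :
    (a * sm * tp - u ^ 3 * sp * tm) * (a * sm * tm - u ^ 3 * sp * tp) = 0 := by
  subst hu hv
  have hu0 : u ≠ 0 := by rintro rfl; simp at hy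
  have e1 : Qu = u ^ 2 * (v * Qv - 3 * ((v - 1) * tp * tm)) := by
    have h3 : -(4 / m ^ 2) * x ^ 2 * ((u ^ 2 - Qu) + 3 * u ^ 2 * ((v ^ 3 - 1) / 3 -
        (v - 1) * tp * tm) - u ^ 2 * v * (v ^ 2 - Qv)) = 0 := by
      rw [← hel]
      field_simp
      ring
    have h4 : (u ^ 2 - Qu) + 3 * u ^ 2 * ((v ^ 3 - 1) / 3 -
        (v - 1) * tp * tm) - u ^ 2 * v * (v ^ 2 - Qv) = 0 := by
      rcases mul_eq_zero.1 h3 with h | h
      · exfalso
        have : -(4 / m ^ 2) * x ^ 2 ≠ 0 := by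
          refine mul_ne_zero (neg_ne_zero.2 (div_ne_zero (by norm_num) (pow_ne_zero _ hm)))
            (pow_ne_zero _ hx)
        exact this h
      · exact h
    linear_combination -h4
  have e2 : 2 * tp * tm * (v * Qv - 3 * ((v - 1) * tp * tm)) = tp ^ 2 + tm ^ 2 := by
    subst hc hd
    linear_combination h2
  have e3 : (a * sm ^ 2 + b * sp ^ 2) * (tp * tm) = u ^ 3 * sp * sm * (tp ^ 2 + tm ^ 2) := by
    rw [← h1, e1, ← e2]
    ring
  linear_combination a * e3 - sp ^ 2 * tp * tm * hab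

set_option maxHeartbeats 1000000 in
/-- **T5-L5I (LAW ISO)** -/
theorem lawI : LawI := by
  intro m ρ C X₀ hm hm3 hX
  have hm0 : (m : ℂ) ≠ 0 := by rw [Complex.ofReal_ne_zero]; exact hm.ne'
  have h3p : (3 + m : ℝ) ≠ 0 := by positivity
  have h3m : (3 - m : ℝ) ≠ 0 := sub_ne_zero.2 (Ne.symm hm3)
  have h3p' : (3 + m : ℂ) ≠ 0 := by
    have : ((3 + m : ℝ) : ℂ) ≠ 0 := by rw [Complex.ofReal_ne_zero]; exact h3p
    simpa using this
  have h3m' : (3 - m : ℂ) ≠ 0 := by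
    have : ((3 - m : ℝ) : ℂ) ≠ 0 := by rw [Complex.ofReal_ne_zero]; exact h3m
    simpa using this
  obtain ⟨δ, hδ, hinj⟩ := aN_inj ((3 + m) / (3 - m)) (div_ne_zero h3p h3m) (by
    intro h
    rw [div_eq_one_iff_eq h3m] at h
    linarith)
  have hI : (-Complex.I) ≠ 0 := neg_ne_zero.2 Complex.I_ne_zero
  have hρ := hX.ρ_pos
  -- value and continuity of `X₀` at the base point
  have hmem : ((-Complex.I, 0) : ℂ × ℂ) ∈ ball (-Complex.I) ρ ×ˢ ball (0 : ℂ) ρ :=
    ⟨mem_ball_self hρ, mem_ball_self hρ⟩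
  have hopen : IsOpen (ball (-Complex.I) ρ ×ˢ ball (0 : ℂ) ρ) := isOpen_ball.prod isOpen_ball
  have hval : X₀ (-Complex.I, 0) = -Complex.I := by
    have := hX.near (-Complex.I) (mem_ball_self hρ) 0 (mem_ball_self hρ)
    simp only [norm_zero, ne_eq, OfNat.ofNat_ne_zero, not_false_eq_true, zero_pow, mul_zero] at this
    exact sub_eq_zero.1 (norm_le_zero_iff.1 this)
  have hcont : ContinuousAt X₀ (-Complex.I, 0) :=
    (hX.diff.continuousOn.continuousAt (hopen.mem_nhds hmem))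
  have htend : ∀ a : ℂ, Tendsto (fun x : ℂ × ℂ => X₀ (x.1 + a * x.2, x.2))
      (𝓝 (-Complex.I, 0)) (𝓝 (-Complex.I)) := by
    intro a
    have hg : Tendsto (fun x : ℂ × ℂ => ((x.1 + a * x.2, x.2) : ℂ × ℂ)) (𝓝 (-Complex.I, 0))
        (𝓝 (-Complex.I, 0)) := by
      have : Continuous (fun x : ℂ × ℂ => ((x.1 + a * x.2, x.2) : ℂ × ℂ)) := by fun_prop
      have h := this.tendsto (-Complex.I, 0)
      simpa using h
    have h := hcont.tendsto.comp hg
    rw [hval] at h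
    exact h
  have hquot : ∀ a b : ℂ, Tendsto (fun x : ℂ × ℂ => X₀ (x.1 + a * x.2, x.2) /
      X₀ (x.1 + b * x.2, x.2)) (𝓝 (-Complex.I, 0)) (𝓝 1) := by
    intro a b
    have := (htend a).div (htend b) hI
    rwa [div_self hI] at this
  have hgood := eventually_nhdsWithin_iff.1 (near_good m hm hm3)
  have hlog : Tendsto (fun v : ℂ => ‖(((3 - m : ℝ)) : ℂ) * Complex.log v‖) (𝓝 1) (𝓝 0) := by
    have h : ContinuousAt Complex.log 1 := continuousAt_clog (by simp)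
    have h2 := (h.tendsto.const_mul (((3 - m : ℝ)) : ℂ)).norm
    simpa using h2
  have hlog' : ∀ᶠ v in 𝓝 (1 : ℂ), ‖(((3 - m : ℝ)) : ℂ) * Complex.log v‖ < δ :=
    hlog (Iio_mem_nhds hδ)
  have hball : ∀ a : ℂ, ∀ᶠ x in 𝓝 ((-Complex.I, 0) : ℂ × ℂ), x.1 + a * x.2 ∈
      ball (-Complex.I) ρ := by
    intro a
    have : Continuous (fun x : ℂ × ℂ => x.1 + a * x.2) := by fun_prop
    have h := this.tendsto (-Complex.I, 0)
    simp only [mul_zero, add_zero] at h
    exact h (isOpen_ball.mem_nhds (mem_ball_self hρ))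
  have hball2 : ∀ᶠ x in 𝓝 ((-Complex.I, 0) : ℂ × ℂ), x.2 ∈ ball (0 : ℂ) ρ := by
    have : Continuous (fun x : ℂ × ℂ => x.2) := by fun_prop
    exact this.tendsto (-Complex.I, 0) (isOpen_ball.mem_nhds (mem_ball_self hρ))
  have hne : ∀ a : ℂ, ∀ᶠ x in 𝓝 ((-Complex.I, 0) : ℂ × ℂ), X₀ (x.1 + a * x.2, x.2) ≠ 0 := by
    intro a
    exact (htend a) (isOpen_ne.mem_nhds hI)
  filter_upwards [hball (-1), hball 0, hball 1, hball2, hne (-1), hne 0, hne 1,
    (hquot 0 (-1)).eventually hgood, (hquot 1 0).eventually hgood,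
    (hquot 0 (-1)).eventually hlog', (hquot 1 0).eventually hlog'] with
    q hb1 hb2 hb3 hbw hn1 hn2 hn3 hg1 hg2 hl1 hl2
  obtain ⟨t, w⟩ := q
  simp only [neg_mul, one_mul, zero_mul, add_zero, ← sub_eq_add_neg] at hb1 hb2 hb3 hbw hn1 hn2 hn3 hg1 hg2 hl1 hl2
  have a1 : t + w / 2 + w / 2 = t + w := by ring
  have a2 : t + w / 2 - w / 2 = t := by ring
  have a3 : t - w / 2 + w / 2 = t := by ring
  have a4 : t - w / 2 - w / 2 = t - w := by ring
  simp only [rX, a1, a2, a3, a4]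
  set x : ℂ := X₀ (t - w, w) with hxdef
  set y : ℂ := X₀ (t, w) with hydef
  set z : ℂ := X₀ (t + w, w) with hzdef
  by_cases hw : w = 0
  · have hxy : y = x := by rw [hxdef, hydef, hw]; simp
    have hzy : z = y := by rw [hzdef, hydef, hw]; simp
    rw [hzy, hxy, div_self hn1]
    simp [aN]
    ring
  · -- the generic case
    have hwn : 0 < ‖w‖ := norm_pos_iff.2 hw
    have hwρ : ‖w‖ < ρ := by simpa using hbw
    have hsmall : C * ‖w‖ ^ 2 ≤ ‖w‖ / 20 := by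
      by_cases hC : 0 ≤ C
      · have : C * ‖w‖ ≤ 1 / 20 := le_trans (mul_le_mul_of_nonneg_left hwρ.le hC) hX.Cρ
        nlinarith
      · push Not at hC
        have : C * ‖w‖ ^ 2 ≤ 0 := mul_nonpos_of_nonpos_of_nonneg hC.le (by positivity)
        linarith
    have ex : ‖x - (t - w)‖ ≤ ‖w‖ / 20 := (hX.near _ hb1 _ hbw).trans hsmall
    have ey : ‖y - t‖ ≤ ‖w‖ / 20 := (hX.near _ hb2 _ hbw).trans hsmall
    have ez : ‖z - (t + w)‖ ≤ ‖w‖ / 20 := (hX.near _ hb3 _ hbw).trans hsmall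
    have hyx : y ≠ x := by
      intro h
      have h1 : w = (x - (t - w)) - (y - t) := by rw [h]; ring
      have h2 : ‖w‖ ≤ ‖w‖ / 20 + ‖w‖ / 20 := by
        calc ‖w‖ = ‖(x - (t - w)) - (y - t)‖ := by rw [← h1]
          _ ≤ _ := (norm_sub_le _ _).trans (add_le_add ex ey)
      linarith
    have hzy : z ≠ y := by
      intro h
      have h1 : w = (y - t) - (z - (t + w)) := by rw [h]; ring
      have h2 : ‖w‖ ≤ ‖w‖ / 20 + ‖w‖ / 20 := by
        calc ‖w‖ = ‖(y - t) - (z - (t + w))‖ := by rw [← h1]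
          _ ≤ _ := (norm_sub_le _ _).trans (add_le_add ey ez)
      linarith
    have hzx : z ≠ x := by
      intro h
      have h1 : 2 * w = (x - (t - w)) - (z - (t + w)) := by rw [h]; ring
      have h2 : 2 * ‖w‖ ≤ ‖w‖ / 20 + ‖w‖ / 20 := by
        calc 2 * ‖w‖ = ‖2 * w‖ := by simp
          _ = ‖(x - (t - w)) - (z - (t + w))‖ := by rw [← h1]
          _ ≤ _ := (norm_sub_le _ _).trans (add_le_add ex ez)
      linarith
    have hu1 : y / x ≠ 1 := fun h => hyx ((div_eq_one_iff_eq hn1).1 h)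
    have hv1 : z / y ≠ 1 := fun h => hzy ((div_eq_one_iff_eq hn2).1 h)
    obtain ⟨hu, hup, hum⟩ := hg1 hu1
    obtain ⟨hv, hvp, hvm⟩ := hg2 hv1
    obtain ⟨Qu, sp, sm, hdu, hsp, hsm, hAu, hBu, -, hQu⟩ := ellI_deriv hm hm3 hu1 hu hup hum
    obtain ⟨Qv, tp, tm, hdv, htp, htm, hAv, hBv, hlv, hQv⟩ := ellI_deriv hm hm3 hv1 hv hvp hvm
    have hel := hX.el t w hb1 hb2 hb3 hbw
    rw [← hxdef, ← hydef, ← hzdef] at hel
    unfold EL at hel
    -- first derivative
    have hD1 : HasDerivAt (fun y' : ℂ => LL (Psi0I m) x y')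
        (x ^ 3 * (-(4 / (m : ℂ) ^ 2) * ((y / x) ^ 2 - Qu) * (1 / x))) y := by
      have h1 : (fun y' : ℂ => LL (Psi0I m) x y') = fun y' => x ^ 3 * ellI m (y' / x) := by
        funext y'; exact LL_eq_left m hn1 y'
      rw [h1]
      have h2 : HasDerivAt (fun y' : ℂ => y' / x) (1 / x) y := (hasDerivAt_id' y).div_const x
      exact (HasDerivAt.comp y hdu h2).const_mul _
    have hD2 : HasDerivAt (fun y' : ℂ => LL (Psi0I m) y' z)
        (3 * y ^ 2 * ellI m (z / y) +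
          y ^ 3 * (-(4 / (m : ℂ) ^ 2) * ((z / y) ^ 2 - Qv) * (-z / y ^ 2))) y := by
      have h1 : (fun y' : ℂ => LL (Psi0I m) y' z) =ᶠ[𝓝 y] fun y' => y' ^ 3 * ellI m (z / y') := by
        filter_upwards [isOpen_ne.mem_nhds hn2] with y' hy'
        exact LL_eq_left m hy' z
      have h2 : HasDerivAt (fun y' : ℂ => z / y') (-z / y ^ 2) y := by
        have h := (hasDerivAt_inv hn2).const_mul z
        have e : (fun y' : ℂ => z * y'⁻¹) = fun y' => z / y' := by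
          funext y'; rw [div_eq_mul_inv]
        rw [e] at h
        have e2 : z * -(y ^ 2)⁻¹ = -z / y ^ 2 := by
          rw [mul_neg, ← div_eq_mul_inv, neg_div]
        rw [e2] at h
        exact h
      have h3' : HasDerivAt (ellI m ∘ fun y' : ℂ => z / y')
          (-(4 / (m : ℂ) ^ 2) * ((z / y) ^ 2 - Qv) * (-z / y ^ 2)) y :=
        HasDerivAt.comp (h₂ := ellI m) y hdv h2
      have h3 : HasDerivAt (fun y' : ℂ => ellI m (z / y'))
          (-(4 / (m : ℂ) ^ 2) * ((z / y) ^ 2 - Qv) * (-z / y ^ 2)) y := h3'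
      have h4 : HasDerivAt (fun y' : ℂ => y' ^ 3) (3 * y ^ 2) y := by
        simpa using hasDerivAt_pow 3 y
      have h5 := h4.mul h3
      exact HasDerivAt.congr_of_eventuallyEq h5 h1
    rw [hD1.deriv, hD2.deriv, hlv] at hel
    -- powers
    have hu0 : y / x ≠ 0 := div_ne_zero hn2 hn1
    have hv0 : z / y ≠ 0 := div_ne_zero hn3 hn2
    have hab : (y / x) ^ ((3 + m : ℝ) : ℂ) * (y / x) ^ ((3 - m : ℝ) : ℂ) = (y / x) ^ 6 := by
      rw [← Complex.cpow_add _ _ hu0]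
      have : ((3 + m : ℝ) : ℂ) + ((3 - m : ℝ) : ℂ) = ((6 : ℕ) : ℂ) := by
        push_cast; ring
      rw [this, Complex.cpow_natCast]
    have hfac := alg (x := x) (y := y) (z := z) hm0 hn1 hn2 (by field_simp) (by field_simp) hab
      hAv hBv hQu hQv hel
    set a : ℂ := (y / x) ^ ((3 + m : ℝ) : ℂ) with hadef
    set b : ℂ := (y / x) ^ ((3 - m : ℝ) : ℂ) with hbdef
    have ha0 : a ≠ 0 := by
      rw [hadef]; exact (Complex.cpow_ne_zero_iff_of_exponent_ne_zero (by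
        rw [Complex.ofReal_ne_zero]; exact h3p)).2 hu0
    have hb0 : b ≠ 0 := by
      rw [hbdef]; exact (Complex.cpow_ne_zero_iff_of_exponent_ne_zero (by
        rw [Complex.ofReal_ne_zero]; exact h3m)).2 hu0
    -- the two values of `a_n`
    have hlogu : Complex.log (y / x) ≠ 0 := by
      intro h
      exact hu1 (by rw [← Complex.exp_log hu0, h, Complex.exp_zero])
    have hlogv : Complex.log (z / y) ≠ 0 := by
      intro h
      exact hv1 (by rw [← Complex.exp_log hv0, h, Complex.exp_zero])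
    have hpc : (((3 - m : ℝ)) : ℂ) ≠ 0 := by rw [Complex.ofReal_ne_zero]; exact h3m
    have hnp : ((((3 + m) / (3 - m) : ℝ)) : ℂ) * (((3 - m : ℝ)) : ℂ) = ((3 + m : ℝ) : ℂ) := by
      rw [← Complex.ofReal_mul, div_mul_cancel₀ _ h3m]
    have hval1 : aN ((3 + m) / (3 - m)) ((((3 - m : ℝ)) : ℂ) * Complex.log (z / y)) =
        ((3 + m) / (3 - m)) * (tp ^ 2 / tm ^ 2) := by
      rw [aN, if_neg (mul_ne_zero hpc hlogv), ← mul_assoc, hnp]
      have e1 : Complex.exp (((3 + m : ℝ) : ℂ) * Complex.log (z / y)) =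
          (z / y) ^ ((3 + m : ℝ) : ℂ) := by
        rw [Complex.cpow_def_of_ne_zero hv0, mul_comm]
      have e2 : Complex.exp (((3 - m : ℝ) : ℂ) * Complex.log (z / y)) =
          (z / y) ^ ((3 - m : ℝ) : ℂ) := by
        rw [Complex.cpow_def_of_ne_zero hv0, mul_comm]
      rw [e1, e2, hAv, hBv]
      have hv1' : z / y - 1 ≠ 0 := sub_ne_zero.2 hv1
      generalize z / y = V at hv1' ⊢
      rw [add_sub_cancel_left, add_sub_cancel_left]
      field_simp
    have hval2 : aN ((3 + m) / (3 - m)) (-((((3 - m : ℝ)) : ℂ) * Complex.log (y / x))) =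
        ((3 + m) / (3 - m)) * (b * sp ^ 2 / (a * sm ^ 2)) := by
      rw [aN, if_neg (neg_ne_zero.2 (mul_ne_zero hpc hlogu)), mul_neg, ← mul_assoc, hnp,
        Complex.exp_neg, Complex.exp_neg]
      have e1 : Complex.exp (((3 + m : ℝ) : ℂ) * Complex.log (y / x)) = a := by
        rw [hadef, Complex.cpow_def_of_ne_zero hu0, mul_comm]
      have e2 : Complex.exp (((3 - m : ℝ) : ℂ) * Complex.log (y / x)) = b := by
        rw [hbdef, Complex.cpow_def_of_ne_zero hu0, mul_comm]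
      rw [e1, e2]
      have hu1' : y / x - 1 ≠ 0 := sub_ne_zero.2 hu1
      have f1 : a⁻¹ - 1 = -((3 + m) * (y / x - 1) * sp ^ 2) / a := by
        rw [eq_div_iff ha0, sub_mul, inv_mul_cancel₀ ha0]
        linear_combination -hAu
      have f2 : b⁻¹ - 1 = -((3 - m) * (y / x - 1) * sm ^ 2) / b := by
        rw [eq_div_iff hb0, sub_mul, inv_mul_cancel₀ hb0]
        linear_combination -hBu
      rw [f1, f2]
      generalize y / x = U at hu1' ⊢
      field_simp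
    rcases mul_eq_zero.1 hfac with hbad | hgd
    · -- the bad branch
      exfalso
      have hb1' : a * sm * tp = (y / x) ^ 3 * sp * tm := by linear_combination hbad
      have hb2' : a * sm ^ 2 * tp ^ 2 = b * sp ^ 2 * tm ^ 2 := by
        have h1 : (a * sm * tp) ^ 2 = ((y / x) ^ 3 * sp * tm) ^ 2 := by rw [hb1']
        have h2 : a * (a * sm ^ 2 * tp ^ 2) = a * (b * sp ^ 2 * tm ^ 2) := by
          linear_combination h1 - sp ^ 2 * tm ^ 2 * hab
        exact mul_left_cancel₀ ha0 h2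
      have heq : aN ((3 + m) / (3 - m)) ((((3 - m : ℝ)) : ℂ) * Complex.log (z / y)) =
          aN ((3 + m) / (3 - m)) (-((((3 - m : ℝ)) : ℂ) * Complex.log (y / x))) := by
        rw [hval1, hval2]
        congr 1
        rw [div_eq_div_iff (pow_ne_zero _ htm) (mul_ne_zero ha0 (pow_ne_zero _ hsm))]
        linear_combination hb2'
      have hr := hinj _ _ hl2 (by rw [norm_neg]; exact hl1) heq
      have hlg : Complex.log (z / y) = -Complex.log (y / x) := by
        have : (((3 - m : ℝ)) : ℂ) * Complex.log (z / y) =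
            (((3 - m : ℝ)) : ℂ) * (-Complex.log (y / x)) := by rw [hr]; ring
        exact mul_left_cancel₀ hpc this
      have hzz : z / y = (y / x)⁻¹ := by
        rw [← Complex.exp_log hv0, hlg, Complex.exp_neg, Complex.exp_log hu0]
      apply hzx
      field_simp at hzz
      exact hzz
    · have hg1' : a * sm * tm = (y / x) ^ 3 * sp * tp := by linear_combination hgd
      have hg2' : a * sm ^ 2 * tm ^ 2 = b * sp ^ 2 * tp ^ 2 := by
        have h1 : (a * sm * tm) ^ 2 = ((y / x) ^ 3 * sp * tp) ^ 2 := by rw [hg1']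
        have h2 : a * (a * sm ^ 2 * tm ^ 2) = a * (b * sp ^ 2 * tp ^ 2) := by
          linear_combination h1 - sp ^ 2 * tp ^ 2 * hab
        exact mul_left_cancel₀ ha0 h2
      rw [hval1, hval2]
      have h5 : tp ^ 2 / tm ^ 2 * (b * sp ^ 2 / (a * sm ^ 2)) = 1 := by
        rw [div_mul_div_comm, div_eq_one_iff_eq
          (mul_ne_zero (pow_ne_zero _ htm) (mul_ne_zero ha0 (pow_ne_zero _ hsm)))]
        linear_combination -hg2'
      push_cast
      linear_combination ((3 + (m : ℂ)) / (3 - m)) ^ 2 * h5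

end Crest.Agent.R102.T5L5I861
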