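import Crest.Agent.R102.T5Defs_160

/-!
# Row 102, (C), [T5], leaf L5R (helper426): the homogeneous germ is real

`κ := ϱ⁻¹ ∘ conj ϱ conj` is odd and commutes with `u ↦ u/(1+u)`; `1/κ - 1/u` is an analytic germ
invariant under `u ↦ u/(1+u)`, hence constant, hence `0` by oddness.
-/

set_option autoImplicit false

open Set Filter Topology Metric
open scoped ComplexConjugate

namespace Crest.Agent.R102.T5R426

open Crest.Agent.R102.T5R

theorem analyticAt_dslope {f : ℂ → ℂ} {z : ℂ} (hf : AnalyticAt ℂ f z) :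
    AnalyticAt ℂ (dslope f z) z := by
  obtain ⟨p, hp⟩ := hf
  exact ⟨_, hp.has_fpower_series_dslope_fslope⟩

theorem tendsto_conj0 : Tendsto (fun z : ℂ => conj z) (𝓝 0) (𝓝 0) := by
  simpa using (Complex.continuous_conj.tendsto (0 : ℂ))

theorem tendsto_neg0 : Tendsto (fun z : ℂ => -z) (𝓝 0) (𝓝 0) := by
  simpa using ((continuous_neg (G := ℂ)).tendsto (0 : ℂ))

theorem tendsto_mob0 : Tendsto (fun u : ℂ => u / (1 + u)) (𝓝 0) (𝓝 0) := by
  have : ContinuousAt (fun u : ℂ => u / (1 + u)) 0 := by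
    apply ContinuousAt.div continuousAt_id (continuousAt_const.add continuousAt_id)
    simp
  simpa using this.tendsto

theorem analyticAt_conj {f : ℂ → ℂ} (hf : AnalyticAt ℂ f 0) :
    AnalyticAt ℂ (fun z => conj (f (conj z))) 0 := by
  rw [Complex.analyticAt_iff_eventually_differentiableAt]
  have h1 : ∀ᶠ z in 𝓝 (0 : ℂ), AnalyticAt ℂ f z := hf.eventually_analyticAt
  filter_upwards [tendsto_conj0.eventually h1] with z hz
  have := hz.differentiableAt.conj_conj
  simpa [Function.comp_def] using this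

theorem deriv_conj {f : ℂ → ℂ} (hf : AnalyticAt ℂ f 0) :
    deriv (fun z => conj (f (conj z))) 0 = conj (deriv f 0) := by
  have h := hf.differentiableAt.hasDerivAt.conj_conj
  have h' : HasDerivAt (fun z => conj (f (conj z))) (conj (deriv f 0)) 0 := by
    simpa [Function.comp_def] using h
  exact h'.deriv

/-- a germ invariant under `u ↦ u/(1+u)` is constant -/
theorem const_of_inv {D : ℂ → ℂ} (hD : AnalyticAt ℂ D 0)
    (h : ∀ᶠ u in 𝓝 (0 : ℂ), D (u / (1 + u)) = D u) : ∀ᶠ u in 𝓝 (0 : ℂ), D u = D 0 := by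
  obtain ⟨ε, hε, hb⟩ := Metric.eventually_nhds_iff_ball.1 h
  have key : ∀ x : ℝ, 0 < x → x < ε → D x = D 0 := by
    intro x hx hxε
    have hit : ∀ n : ℕ, D ((x / (1 + n * x) : ℝ) : ℂ) = D x := by
      intro n
      induction n with
      | zero => simp
      | succ n ih =>
        have hpos : 0 < 1 + (n : ℝ) * x := by positivity
        have hpos' : 0 < 1 + ((n : ℝ) + 1) * x := by positivity
        have h1 : ((x / (1 + n * x) : ℝ) : ℂ) ∈ ball (0 : ℂ) ε := by
          rw [mem_ball_zero_iff, Complex.norm_real, Real.norm_of_nonneg (by positivity)]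
          refine lt_of_le_of_lt (div_le_self hx.le ?_) hxε
          have : 0 ≤ (n : ℝ) * x := by positivity
          linarith
        have h2 := hb _ h1
        rw [← ih, ← h2]
        congr 1
        have e1 : (1 + (n : ℂ) * x) ≠ 0 := by exact_mod_cast hpos.ne'
        have e2 : (1 + ((n : ℂ) + 1) * x) ≠ 0 := by exact_mod_cast hpos'.ne'
        have e2' : (1 + (n : ℂ) * x) + x ≠ 0 := by
          have : (1 + (n : ℂ) * x) + x = 1 + ((n : ℂ) + 1) * x := by ring
          rw [this]; exact e2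
        push_cast
        have e4 : (1 + ((n : ℂ) + 1) * x) = (1 + (n : ℂ) * x) + x := by ring
        rw [e4]
        generalize (1 + (n : ℂ) * x) = a at e1 e2'
        have e3 : 1 + (x : ℂ) / a = (a + x) / a := by rw [add_div, div_self e1]
        rw [e3, div_div_div_cancel_right₀ e1]
    have hlim : Tendsto (fun n : ℕ => x / (1 + n * x)) atTop (𝓝 0) := by
      apply Tendsto.div_atTop tendsto_const_nhds
      apply tendsto_atTop_add_const_left
      exact Tendsto.atTop_mul_const hx tendsto_natCast_atTop_atTop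
    have hlim' : Tendsto (fun n : ℕ => ((x / (1 + n * x) : ℝ) : ℂ)) atTop (𝓝 0) := by
      have := (Complex.continuous_ofReal.tendsto 0).comp hlim
      simpa [Function.comp_def] using this
    have h3 : Tendsto (fun n : ℕ => D ((x / (1 + n * x) : ℝ) : ℂ)) atTop (𝓝 (D 0)) :=
      hD.continuousAt.tendsto.comp hlim'
    have h4 : Tendsto (fun n : ℕ => D ((x / (1 + n * x) : ℝ) : ℂ)) atTop (𝓝 (D x)) := by
      simp only [hit]
      exact tendsto_const_nhds
    exact tendsto_nhds_unique h4 h3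
  have hfr : ∃ᶠ z in 𝓝[≠] (0 : ℂ), D z = D 0 := by
    have ht : Tendsto (fun x : ℝ => (x : ℂ)) (𝓝[>] 0) (𝓝[≠] (0 : ℂ)) := by
      apply tendsto_nhdsWithin_of_tendsto_nhds_of_eventually_within
      · have := Complex.continuous_ofReal.tendsto 0
        simp only [Complex.ofReal_zero] at this
        exact this.mono_left nhdsWithin_le_nhds
      · filter_upwards [self_mem_nhdsWithin] with x hx
        simpa using (ne_of_gt hx)
    apply ht.frequently
    apply Eventually.frequently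
    have : Ioo (0 : ℝ) ε ∈ 𝓝[>] (0 : ℝ) := Ioo_mem_nhdsGT hε
    filter_upwards [this] with x hx
    exact key x hx.1 hx.2
  exact (hD.frequently_eq_iff_eventually_eq analyticAt_const).1 hfr

/-- an odd germ tangent to the identity which commutes with `u ↦ u/(1+u)` is the identity -/
theorem eq_id_of_comm {k : ℂ → ℂ} (hk : AnalyticAt ℂ k 0) (h0 : k 0 = 0) (h1 : deriv k 0 = 1)
    (hodd : ∀ᶠ u in 𝓝 (0 : ℂ), k (-u) = -k u)
    (hcomm : ∀ᶠ u in 𝓝 (0 : ℂ), k (u / (1 + u)) = k u / (1 + k u)) :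
    ∀ᶠ u in 𝓝 (0 : ℂ), k u = u := by
  set k1 := dslope k 0 with hk1
  have hk1a : AnalyticAt ℂ k1 0 := analyticAt_dslope hk
  have hk10 : k1 0 = 1 := by rw [hk1, dslope_same, h1]
  set g := dslope k1 0 with hg
  have hga : AnalyticAt ℂ g 0 := analyticAt_dslope hk1a
  have ek : ∀ u, k u = u * k1 u := by
    intro u
    have := sub_smul_dslope k 0 u
    simp only [sub_zero, smul_eq_mul, h0] at this
    rw [hk1]; exact this.symm
  have ek1 : ∀ u, k1 u = 1 + u * g u := by
    intro u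
    have := sub_smul_dslope k1 0 u
    simp only [sub_zero, smul_eq_mul, hk10] at this
    rw [hg, this]; ring
  have hne : ∀ᶠ u in 𝓝 (0 : ℂ), k1 u ≠ 0 :=
    hk1a.continuousAt.eventually_ne (by rw [hk10]; exact one_ne_zero)
  set D : ℂ → ℂ := fun u => -g u / k1 u with hD
  have hDa : AnalyticAt ℂ D 0 := hga.neg.div hk1a (by rw [hk10]; exact one_ne_zero)
  have hDe : ∀ᶠ u in 𝓝 (0 : ℂ), u ≠ 0 → D u = 1 / k u - 1 / u := by
    filter_upwards [hne] with u hu hu0
    have e2 : k u ≠ 0 := by rw [ek]; exact mul_ne_zero hu0 hu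
    rw [hD]
    simp only
    rw [ek, div_sub_div _ _ (mul_ne_zero hu0 hu) hu0, div_eq_div_iff hu
      (mul_ne_zero (mul_ne_zero hu0 hu) hu0)]
    have := ek1 u
    rw [this]
    ring
  have hne1 : ∀ᶠ u in 𝓝 (0 : ℂ), 1 + u ≠ 0 := by
    have : ContinuousAt (fun u : ℂ => 1 + u) 0 := continuousAt_const.add continuousAt_id
    exact this.eventually_ne (by simp)
  have hne2 : ∀ᶠ u in 𝓝 (0 : ℂ), 1 + k u ≠ 0 := by
    have : ContinuousAt (fun u : ℂ => 1 + k u) 0 := continuousAt_const.add hk.continuousAt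
    exact this.eventually_ne (by simp [h0])
  have hinv : ∀ᶠ u in 𝓝 (0 : ℂ), D (u / (1 + u)) = D u := by
    filter_upwards [hne, hne1, hne2, hcomm, hDe, tendsto_mob0.eventually hDe] with u a1 a2 a3 a4 a5 a6
    by_cases hu : u = 0
    · subst hu; simp
    have hm : u / (1 + u) ≠ 0 := div_ne_zero hu a2
    have hk0 : k u ≠ 0 := by rw [ek]; exact mul_ne_zero hu a1
    rw [a5 hu, a6 hm, a4]
    field_simp
    ring
  have hconst := const_of_inv hDa hinv
  have hD0 : D 0 = 0 := by
    have hoddD : ∀ᶠ u in 𝓝 (0 : ℂ), u ≠ 0 → D (-u) = -D u := by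
      filter_upwards [hDe, tendsto_neg0.eventually hDe, hodd] with u b1 b2 b3 hu
      rw [b2 (neg_ne_zero.2 hu), b1 hu, b3]
      rw [div_neg, div_neg]; ring
    have hall := (hoddD.and (hconst.and (tendsto_neg0.eventually hconst)))
    obtain ⟨ε, hε, hb⟩ := Metric.eventually_nhds_iff_ball.1 hall
    have hmem : ((ε / 2 : ℝ) : ℂ) ∈ ball (0 : ℂ) ε := by
      rw [mem_ball_zero_iff, Complex.norm_real, Real.norm_of_nonneg (by positivity)]
      linarith
    obtain ⟨c1, c2, c3⟩ := hb _ hmem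
    have hne' : ((ε / 2 : ℝ) : ℂ) ≠ 0 := by
      exact_mod_cast (by positivity : (ε / 2 : ℝ) ≠ 0)
    have c4 := c1 hne'
    rw [c2, c3] at c4
    have : (2 : ℂ) * D 0 = 0 := by linear_combination c4
    simpa using this
  filter_upwards [hconst, hDe, hne] with u d1 d2 d3
  by_cases hu : u = 0
  · subst hu; exact h0
  have hk0 : k u ≠ 0 := by rw [ek]; exact mul_ne_zero hu d3
  have d4 := d2 hu
  rw [d1, hD0] at d4
  have d5 : 1 / k u = 1 / u := by linear_combination -d4
  rw [div_eq_div_iff hk0 hu] at d5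
  linear_combination -d5

/-- **L5R (REAL)** -/
theorem realG : RealG := by
  intro p f ϱ hp hf hf0 hfr hϱ hϱ0 hϱ1 hodd hlaw
  have hd : deriv ϱ 0 ≠ 0 := by rw [hϱ1]; exact_mod_cast hp
  set σ : ℂ → ℂ := fun u => conj (ϱ (conj u)) with hσ
  have hσa : AnalyticAt ℂ σ 0 := analyticAt_conj hϱ
  have hσ0 : σ 0 = 0 := by simp [hσ, hϱ0]
  have hσ1 : deriv σ 0 = p := by
    rw [hσ, deriv_conj hϱ, hϱ1]; simp
  -- local inverse of `ϱ`
  set J : ℂ → ℂ := hϱ.hasStrictDerivAt.localInverse _ _ _ hd with hJ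
  have hJa' : AnalyticAt ℂ J (ϱ 0) := hϱ.analyticAt_localInverse hd
  have hJa : AnalyticAt ℂ J 0 := by rw [hϱ0] at hJa'; exact hJa'
  have hJl : ∀ᶠ u in 𝓝 (0 : ℂ), J (ϱ u) = u :=
    HasStrictDerivAt.eventually_left_inverse hϱ.hasStrictDerivAt hd
  have hJr : ∀ᶠ v in 𝓝 (0 : ℂ), ϱ (J v) = v := by
    have := HasStrictDerivAt.eventually_right_inverse hϱ.hasStrictDerivAt hd
    rw [hϱ0] at this
    exact this
  have hJ0 : J 0 = 0 := by
    have := hJl.self_of_nhds
    rwa [hϱ0] at this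
  have hJt : Tendsto J (𝓝 0) (𝓝 0) := by
    have := hJa.continuousAt.tendsto
    rwa [hJ0] at this
  have hσt : Tendsto σ (𝓝 0) (𝓝 0) := by
    have := hσa.continuousAt.tendsto
    rwa [hσ0] at this
  have hϱt : Tendsto ϱ (𝓝 0) (𝓝 0) := by
    have := hϱ.continuousAt.tendsto
    rwa [hϱ0] at this
  set k : ℂ → ℂ := fun u => J (σ u) with hk
  have hka : AnalyticAt ℂ k 0 := by
    have : AnalyticAt ℂ J (σ 0) := by rw [hσ0]; exact hJa
    exact this.comp hσa
  have hk0 : k 0 = 0 := by rw [hk]; simp only; rw [hσ0, hJ0]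
  have hkt : Tendsto k (𝓝 0) (𝓝 0) := hJt.comp hσt
  have hrk : ∀ᶠ u in 𝓝 (0 : ℂ), ϱ (k u) = σ u := hσt.eventually hJr
  -- derivative of `k`
  have hk1 : deriv k 0 = 1 := by
    have e1 : HasDerivAt (fun u => ϱ (k u)) (deriv ϱ 0 * deriv k 0) 0 := by
      have h1 : HasDerivAt ϱ (deriv ϱ 0) (k 0) := by
        rw [hk0]; exact hϱ.differentiableAt.hasDerivAt
      exact h1.comp 0 hka.differentiableAt.hasDerivAt
    have e2 : HasDerivAt (fun u => ϱ (k u)) (p : ℂ) 0 := by
      have h1 : HasDerivAt σ (p : ℂ) 0 := by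
        rw [← hσ1]; exact hσa.differentiableAt.hasDerivAt
      exact h1.congr_of_eventuallyEq hrk
    have e3 := e1.unique e2
    rw [hϱ1] at e3
    have hp' : (p : ℂ) ≠ 0 := by exact_mod_cast hp
    exact mul_left_cancel₀ hp' (by rw [e3, mul_one])
  have hσodd : ∀ᶠ u in 𝓝 (0 : ℂ), σ (-u) = -σ u := by
    filter_upwards [tendsto_conj0.eventually hodd] with u hu
    simp only [hσ, map_neg, hu]
  have hσlaw : ∀ᶠ u in 𝓝 (0 : ℂ), σ (u / (1 + u)) = f (σ u) := by
    filter_upwards [tendsto_conj0.eventually hlaw, (hϱt.comp tendsto_conj0).eventually hfr]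
      with u hu hu2
    simp only [hσ, map_div₀, map_add, map_one]
    rw [hu]
    simp only [Function.comp] at hu2
    rw [hu2]
  have hkodd : ∀ᶠ u in 𝓝 (0 : ℂ), k (-u) = -k u := by
    filter_upwards [hσodd, hrk, tendsto_neg0.eventually hrk, hkt.eventually hodd,
      (hkt.comp tendsto_neg0).eventually hJl, (tendsto_neg0.comp hkt).eventually hJl]
      with u a1 a2 a3 a4 a5 a6
    simp only [Function.comp] at a5 a6
    rw [← a5, a3, a1, ← a2, ← a4, a6]
  have hkcomm : ∀ᶠ u in 𝓝 (0 : ℂ), k (u / (1 + u)) = k u / (1 + k u) := by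
    filter_upwards [hσlaw, hrk, tendsto_mob0.eventually hrk, hkt.eventually hlaw,
      (hkt.comp tendsto_mob0).eventually hJl, (tendsto_mob0.comp hkt).eventually hJl]
      with u a1 a2 a3 a4 a5 a6
    simp only [Function.comp] at a5 a6
    rw [← a5, a3, a1, ← a2, ← a4, a6]
  have hid := eq_id_of_comm hka hk0 hk1 hkodd hkcomm
  have hfin : ∀ᶠ u in 𝓝 (0 : ℂ), ϱ u = conj (ϱ (conj u)) := by
    filter_upwards [hid, hrk] with u a1 a2
    rw [a1] at a2
    exact a2
  filter_upwards [tendsto_conj0.eventually hfin] with u hu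
  simpa using hu

end Crest.Agent.R102.T5R426
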