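import Crest.Agent.R102.T5Defs_160
import Crest.Agent.R266.SCV

/-!
# Row 102, part (C), [T5]: leaf T5-L5X (helper897): `RedF`, `RedI` from `LawF`, `LawI`, `Hom`, `RealG`
-/

set_option autoImplicit false

open Set Filter Topology Metric
open scoped ComplexConjugate

noncomputable section

namespace Crest.Agent.R102.T5X897

open Crest.Agent.R102.T5R

/-! ### the function `a_n` -/

lemma aN_eq (n : ℝ) : aN n = fun r => dslope (fun r : ℂ => Complex.exp (n * r)) 0 r /
    dslope Complex.exp 0 r := by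
  funext r
  by_cases h : r = 0
  · subst h
    have h1 : HasDerivAt (fun r : ℂ => Complex.exp (n * r)) (n : ℂ) 0 := by
      have h2 : HasDerivAt (fun r : ℂ => (n : ℂ) * r) (n : ℂ) 0 := by
        simpa using (hasDerivAt_id (0 : ℂ)).const_mul (n : ℂ)
      have h3 := h2.cexp
      simpa using h3
    have h4 : HasDerivAt Complex.exp 1 0 := by
      simpa using Complex.hasDerivAt_exp 0
    simp [aN, dslope_same, h1.deriv, h4.deriv]
  · rw [dslope_of_ne _ h, dslope_of_ne _ h]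
    simp only [aN, h, if_false, slope_def_field, sub_zero, mul_zero, Complex.exp_zero]
    field_simp

lemma aN_zero (n : ℝ) : aN n 0 = n := by simp [aN]

lemma aN_analyticAt (n : ℝ) : AnalyticAt ℂ (aN n) 0 := by
  rw [aN_eq]
  have h1 : AnalyticAt ℂ (dslope (fun r : ℂ => Complex.exp (n * r)) 0) 0 := by
    have : DifferentiableOn ℂ (dslope (fun r : ℂ => Complex.exp (n * r)) 0) univ := by
      rw [Complex.differentiableOn_dslope univ_mem]
      fun_prop
    exact this.analyticAt univ_mem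
  have h2 : AnalyticAt ℂ (dslope Complex.exp 0) 0 := by
    have : DifferentiableOn ℂ (dslope Complex.exp 0) univ := by
      rw [Complex.differentiableOn_dslope univ_mem]
      fun_prop
    exact this.analyticAt univ_mem
  refine h1.div h2 ?_
  have h4 : HasDerivAt Complex.exp 1 0 := by
    simpa using Complex.hasDerivAt_exp 0
  simp [dslope_same, h4.deriv]

lemma aN_mul (n : ℝ) (r : ℂ) (h : ‖r‖ < 1) :
    (Complex.exp r - 1) * aN n r = Complex.exp (n * r) - 1 := by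
  by_cases h0 : r = 0
  · subst h0; simp
  · have h1 : Complex.exp r - 1 ≠ 0 := by
      intro h2
      have h3 : Complex.exp r = 1 := by linear_combination h2
      obtain ⟨k, hk⟩ := Complex.exp_eq_one_iff.1 h3
      have h4 : k ≠ 0 := by
        rintro rfl
        apply h0
        rw [hk]; simp
      have h5 : (1 : ℝ) ≤ |(k : ℝ)| := by
        have : (1 : ℤ) ≤ |k| := Int.one_le_abs h4
        exact_mod_cast this
      have h6 : ‖r‖ = |(k : ℝ)| * (2 * Real.pi) := by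
        rw [hk]
        simp [abs_of_pos Real.pi_pos]
      have h7 : (3 : ℝ) < Real.pi := Real.pi_gt_three
      rw [h6] at h
      nlinarith
    simp only [aN, h0, if_false]
    field_simp

lemma aN_hasDerivAt (n : ℝ) : HasDerivAt (aN n) (n * (n - 1) / 2) 0 := by
  have hA := aN_analyticAt n
  have hev : ∀ᶠ r in 𝓝 (0 : ℂ), ‖r‖ < 1 := by
    have : ball (0 : ℂ) 1 ∈ 𝓝 (0 : ℂ) := ball_mem_nhds _ one_pos
    filter_upwards [this] with r hr
    simpa using hr
  -- first derivative of the identity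
  have h1 : ∀ᶠ r in 𝓝 (0 : ℂ), Complex.exp r * aN n r + (Complex.exp r - 1) * deriv (aN n) r =
      n * Complex.exp (n * r) := by
    filter_upwards [hev.eventually_nhds, hA.eventually_analyticAt] with r hr hr2
    have h2 : HasDerivAt (fun r => (Complex.exp r - 1) * aN n r)
        (Complex.exp r * aN n r + (Complex.exp r - 1) * deriv (aN n) r) r :=
      ((Complex.hasDerivAt_exp r).sub_const 1).mul hr2.differentiableAt.hasDerivAt
    have h3 : HasDerivAt (fun r : ℂ => Complex.exp (n * r) - 1) (n * Complex.exp (n * r)) r := by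
      have h4 : HasDerivAt (fun r : ℂ => (n : ℂ) * r) (n : ℂ) r := by
        simpa using (hasDerivAt_id r).const_mul (n : ℂ)
      have h5 := (h4.cexp).sub_const 1
      simpa [mul_comm] using h5
    have h6 : (fun r => (Complex.exp r - 1) * aN n r) =ᶠ[𝓝 r]
        (fun r : ℂ => Complex.exp (n * r) - 1) := by
      filter_upwards [hr] with s hs
      exact aN_mul n s hs
    exact h2.unique (h3.congr_of_eventuallyEq h6)
  have hd : HasDerivAt (aN n) (deriv (aN n) 0) 0 := hA.differentiableAt.hasDerivAt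
  have hdd : HasDerivAt (deriv (aN n)) (deriv (deriv (aN n)) 0) 0 :=
    hA.deriv.differentiableAt.hasDerivAt
  have h2 : HasDerivAt (fun r => Complex.exp r * aN n r + (Complex.exp r - 1) * deriv (aN n) r)
      ((Complex.exp 0 * aN n 0 + Complex.exp 0 * deriv (aN n) 0) +
        (Complex.exp 0 * deriv (aN n) 0 + (Complex.exp 0 - 1) * deriv (deriv (aN n)) 0)) 0 :=
    ((Complex.hasDerivAt_exp 0).mul hd).add (((Complex.hasDerivAt_exp 0).sub_const 1).mul hdd)
  have h3 : HasDerivAt (fun r : ℂ => (n : ℂ) * Complex.exp (n * r)) (n * n) 0 := by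
    have h4 : HasDerivAt (fun r : ℂ => (n : ℂ) * r) (n : ℂ) 0 := by
      simpa using (hasDerivAt_id (0 : ℂ)).const_mul (n : ℂ)
    have h5 := (h4.cexp).const_mul (n : ℂ)
    simpa using h5
  have h4 := h2.unique (h3.congr_of_eventuallyEq h1)
  have h5 : deriv (aN n) 0 = n * (n - 1) / 2 := by
    rw [aN_zero, Complex.exp_zero] at h4
    linear_combination h4 / 2
  rw [← h5]
  exact hd

lemma aN_conj (n : ℝ) (r : ℂ) : aN n (conj r) = conj (aN n r) := by
  unfold aN
  by_cases h : r = 0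
  · subst h; simp
  · have h' : conj r ≠ 0 := by simpa using h
    rw [if_neg h, if_neg h', map_div₀, map_sub, map_sub, ← Complex.exp_conj, ← Complex.exp_conj,
      map_mul, Complex.conj_ofReal, map_one]

/-- the local inverse of `a_n` -/
lemma exists_inv (n : ℝ) (h0 : n ≠ 0) (h1 : n ≠ 1) : ∃ g : ℂ → ℂ, AnalyticAt ℂ g n ∧ g n = 0 ∧
    (∀ᶠ r in 𝓝 (0 : ℂ), g (aN n r) = r) ∧ (∀ᶠ v in 𝓝 (n : ℂ), aN n (g v) = v) ∧
    (∀ᶠ v in 𝓝 (n : ℂ), g (conj v) = conj (g v)) := by
  have hA := aN_analyticAt n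
  have hd : deriv (aN n) 0 ≠ 0 := by
    rw [(aN_hasDerivAt n).deriv]
    have h0' : (n : ℂ) ≠ 0 := by exact_mod_cast h0
    have h1' : (n : ℂ) - 1 ≠ 0 := by
      intro h
      apply h1
      have : (n : ℂ) = 1 := by linear_combination h
      exact_mod_cast this
    exact div_ne_zero (mul_ne_zero h0' h1') two_ne_zero
  set g := hA.hasStrictDerivAt.localInverse _ _ _ hd with hg
  have hga : AnalyticAt ℂ g (n : ℂ) := by
    have := hA.analyticAt_localInverse hd
    rwa [aN_zero] at this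
  have hl : ∀ᶠ r in 𝓝 (0 : ℂ), g (aN n r) = r :=
    HasStrictDerivAt.eventually_left_inverse ..
  have hr : ∀ᶠ v in 𝓝 (n : ℂ), aN n (g v) = v := by
    have : ∀ᶠ v in 𝓝 (aN n 0), aN n (g v) = v := HasStrictDerivAt.eventually_right_inverse ..
    rwa [aN_zero] at this
  have hg0 : g n = 0 := by
    have := hl.self_of_nhds
    rwa [aN_zero] at this
  refine ⟨g, hga, hg0, hl, hr, ?_⟩
  have ht : Tendsto g (𝓝 (n : ℂ)) (𝓝 0) := by
    have := hga.continuousAt.tendsto
    rwa [hg0] at this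
  have hc : Tendsto (fun v => conj (g v)) (𝓝 (n : ℂ)) (𝓝 0) := by
    have h2 : Tendsto (conj : ℂ → ℂ) (𝓝 0) (𝓝 0) := by
      have := (Complex.continuous_conj).tendsto 0
      simpa using this
    exact h2.comp ht
  filter_upwards [hc.eventually hl, hr] with v hv1 hv2
  rw [aN_conj, hv2] at hv1
  exact hv1

/-! ### the blow-up family and `r` -/

lemma rX_facts {p ρ C : ℝ} {Ψ : ℂ → ℂ → ℂ} {X₀ : ℂ × ℂ → ℂ} (h : LimFam ρ C Ψ X₀) :
    AnalyticAt ℂ (rX p X₀) (-Complex.I, 0) ∧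
    (∀ᶠ t in 𝓝 (-Complex.I), rX p X₀ (t, 0) = 0 ∧
      deriv (fun w => rX p X₀ (t, w)) 0 = p / t) ∧
    (∀ᶠ x in 𝓝 ((-Complex.I, 0) : ℂ × ℂ), rX p X₀ (x.1, -x.2) = -rX p X₀ x) := by
  have hρ := h.ρ_pos
  set U : Set (ℂ × ℂ) := ball (-Complex.I) ρ ×ˢ ball 0 ρ with hU
  have hUo : IsOpen U := isOpen_ball.prod isOpen_ball
  have hXan : AnalyticOnNhd ℂ X₀ U :=
    Crest.Agent.R266.SCV.analyticOnNhd_of_differentiableOn hUo h.diff
  have hX0 : ∀ t ∈ ball (-Complex.I) ρ, X₀ (t, 0) = t := by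
    intro t ht
    have := h.near t ht 0 (mem_ball_self hρ)
    simp only [norm_zero, ne_eq, OfNat.ofNat_ne_zero, not_false_eq_true, zero_pow, mul_zero] at this
    exact sub_eq_zero.1 (norm_le_zero_iff.1 this)
  have hI : (-Complex.I) ∈ ball (-Complex.I) ρ := mem_ball_self hρ
  have hIU : ((-Complex.I, 0) : ℂ × ℂ) ∈ U := ⟨hI, mem_ball_self hρ⟩
  have hI0 : (-Complex.I) ≠ 0 := neg_ne_zero.2 Complex.I_ne_zero
  have hXI : X₀ (-Complex.I, 0) = -Complex.I := hX0 _ hI
  -- the two shifted maps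
  have hp1 : AnalyticAt ℂ (fun x : ℂ × ℂ => (x.1 + x.2 / 2, x.2)) (-Complex.I, 0) :=
    (analyticAt_fst.add (analyticAt_snd.div analyticAt_const two_ne_zero)).prod analyticAt_snd
  have hp2 : AnalyticAt ℂ (fun x : ℂ × ℂ => (x.1 - x.2 / 2, x.2)) (-Complex.I, 0) :=
    (analyticAt_fst.sub (analyticAt_snd.div analyticAt_const two_ne_zero)).prod analyticAt_snd
  have hv1 : (fun x : ℂ × ℂ => (x.1 + x.2 / 2, x.2)) (-Complex.I, 0) = (-Complex.I, 0) := by simp
  have hv2 : (fun x : ℂ × ℂ => (x.1 - x.2 / 2, x.2)) (-Complex.I, 0) = (-Complex.I, 0) := by simp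
  have ha1 : AnalyticAt ℂ (fun x : ℂ × ℂ => X₀ (x.1 + x.2 / 2, x.2)) (-Complex.I, 0) :=
    (hXan _ hIU).comp_of_eq hp1 hv1
  have ha2 : AnalyticAt ℂ (fun x : ℂ × ℂ => X₀ (x.1 - x.2 / 2, x.2)) (-Complex.I, 0) :=
    (hXan _ hIU).comp_of_eq hp2 hv2
  have hq : AnalyticAt ℂ (fun x : ℂ × ℂ => X₀ (x.1 + x.2 / 2, x.2) / X₀ (x.1 - x.2 / 2, x.2))
      (-Complex.I, 0) := by
    refine ha1.div ha2 ?_
    simpa [hXI] using hI0
  have hq1 : X₀ ((-Complex.I : ℂ) + 0 / 2, 0) / X₀ ((-Complex.I : ℂ) - 0 / 2, 0) = 1 := by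
    simp [hXI]
  have hlog : AnalyticAt ℂ (rX p X₀) (-Complex.I, 0) := by
    have h1 : AnalyticAt ℂ Complex.log 1 := analyticAt_clog Complex.one_mem_slitPlane
    exact analyticAt_const.mul (h1.comp_of_eq hq hq1)
  refine ⟨hlog, ?_, ?_⟩
  · have hb : ball (-Complex.I) ρ ∈ 𝓝 (-Complex.I) := ball_mem_nhds _ hρ
    filter_upwards [hb, isOpen_ne.mem_nhds hI0] with t ht ht0
    have ht0 : t ≠ 0 := ht0
    have hXt : X₀ (t, 0) = t := hX0 t ht
    refine ⟨?_, ?_⟩
    · simp [rX, hXt, ht0]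
    · have key : ∀ σ : ℂ, HasDerivAt (fun w : ℂ => X₀ (t + σ * w, w)) σ 0 := by
        intro σ
        rw [hasDerivAt_iff_isLittleO_nhds_zero]
        have hev : ∀ᶠ w in 𝓝 (0 : ℂ), t + σ * w ∈ ball (-Complex.I) ρ ∧ w ∈ ball (0 : ℂ) ρ := by
          have hc : Tendsto (fun w : ℂ => t + σ * w) (𝓝 0) (𝓝 t) := by
            have : Continuous (fun w : ℂ => t + σ * w) := by fun_prop
            have := this.tendsto 0
            simpa using this
          exact (hc.eventually (isOpen_ball.mem_nhds ht)).and (ball_mem_nhds _ hρ)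
        have hO : (fun w : ℂ => X₀ (t + σ * (0 + w), 0 + w) - X₀ (t + σ * 0, 0) - w • σ)
            =O[𝓝 0] (fun w : ℂ => w ^ 2) := by
          refine Asymptotics.IsBigO.of_bound C ?_
          filter_upwards [hev] with w hw
          have := h.near _ hw.1 w hw.2
          simp only [zero_add, mul_zero, add_zero, hXt, smul_eq_mul, norm_pow]
          convert this using 2
          ring
        refine hO.trans_isLittleO ?_
        have h2 : (fun w : ℂ => w ^ 2) =o[𝓝 0] (fun w : ℂ => w ^ 1) :=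
          Asymptotics.isLittleO_pow_pow (by norm_num)
        simpa using h2
      have k1 := key (1 / 2)
      have k2 := key (-(1 / 2))
      have hne : X₀ (t + -(1 / 2) * 0, 0) ≠ 0 := by simpa [hXt] using ht0
      have k3 := k1.div k2 hne
      have hval : X₀ (t + 1 / 2 * 0, 0) / X₀ (t + -(1 / 2) * 0, 0) = 1 := by
        simp [hXt, ht0]
      have k4 := k3.clog (by
        simp only [Pi.div_apply, hval]
        exact Complex.one_mem_slitPlane)
      have k5 := k4.const_mul (p : ℂ)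
      have k6 : (fun w => rX p X₀ (t, w)) = fun w => (p : ℂ) * Complex.log
          (((fun w : ℂ => X₀ (t + 1 / 2 * w, w)) / (fun w : ℂ => X₀ (t + -(1 / 2) * w, w))) w) := by
        funext w
        simp only [rX, Pi.div_apply]
        congr 4
        · congr 1; ring
        · congr 1; ring
      rw [k6, k5.deriv]
      simp only [mul_zero, add_zero, hXt, Pi.div_apply]
      field_simp
      ring
  · have hcont : ContinuousAt (fun x : ℂ × ℂ => X₀ (x.1 + x.2 / 2, x.2) / X₀ (x.1 - x.2 / 2, x.2))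
      (-Complex.I, 0) := hq.continuousAt
    have hsl : ∀ᶠ x in 𝓝 ((-Complex.I, 0) : ℂ × ℂ),
        X₀ (x.1 + x.2 / 2, x.2) / X₀ (x.1 - x.2 / 2, x.2) ∈ Complex.slitPlane := by
      refine hcont.eventually (Complex.isOpen_slitPlane.mem_nhds ?_)
      simp only [hq1]
      exact Complex.one_mem_slitPlane
    have he1 : ∀ᶠ x in 𝓝 ((-Complex.I, 0) : ℂ × ℂ), (x.1 + x.2 / 2, x.2) ∈ U := by
      have := hp1.continuousAt.tendsto
      simp only [zero_div, add_zero] at this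
      exact this.eventually (hUo.mem_nhds hIU)
    have he2 : ∀ᶠ x in 𝓝 ((-Complex.I, 0) : ℂ × ℂ), (x.1 - x.2 / 2, x.2) ∈ U := by
      have := hp2.continuousAt.tendsto
      simp only [zero_div, sub_zero] at this
      exact this.eventually (hUo.mem_nhds hIU)
    filter_upwards [hsl, he1, he2] with x hx h1 h2
    have e1 : X₀ (x.1 + -x.2 / 2, -x.2) = X₀ (x.1 - x.2 / 2, x.2) := by
      have : x.1 + -x.2 / 2 = x.1 - x.2 / 2 := by ring
      rw [this]
      exact h.even _ h2.1 _ h2.2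
    have e2 : X₀ (x.1 - -x.2 / 2, -x.2) = X₀ (x.1 + x.2 / 2, x.2) := by
      have : x.1 - -x.2 / 2 = x.1 + x.2 / 2 := by ring
      rw [this]
      exact h.even _ h1.1 _ h1.2
    simp only [rX, e1, e2]
    rw [← inv_div, Complex.log_inv _ (Complex.slitPlane_arg_ne_pi hx)]
    ring

/-- passing from the law to `r (t + w, w) = f (r (t, w))` -/
lemma rX_tendsto {p ρ C : ℝ} {Ψ : ℂ → ℂ → ℂ} {X₀ : ℂ × ℂ → ℂ} (h : LimFam ρ C Ψ X₀) :
    Tendsto (fun x : ℂ × ℂ => rX p X₀ (x.1 + x.2, x.2)) (𝓝 (-Complex.I, 0)) (𝓝 0) ∧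
    Tendsto (rX p X₀) (𝓝 (-Complex.I, 0)) (𝓝 0) := by
  obtain ⟨h1, h2, h3⟩ := rX_facts (p := p) h
  have h4 : rX p X₀ (-Complex.I, 0) = 0 := h2.self_of_nhds.1
  have h5 : Tendsto (rX p X₀) (𝓝 (-Complex.I, 0)) (𝓝 0) := by
    have := h1.continuousAt.tendsto
    rwa [h4] at this
  refine ⟨?_, h5⟩
  have h6 : Tendsto (fun x : ℂ × ℂ => (x.1 + x.2, x.2)) (𝓝 (-Complex.I, 0))
      (𝓝 (-Complex.I, 0)) := by
    have : Continuous (fun x : ℂ × ℂ => (x.1 + x.2, x.2)) := by fun_prop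
    have := this.tendsto (-Complex.I, 0)
    simpa using this
  exact h5.comp h6

lemma shift_ev {P : ℂ × ℂ → Prop} (h : ∀ᶠ x in 𝓝 ((-Complex.I, 0) : ℂ × ℂ), P x) :
    ∀ᶠ x in 𝓝 ((-Complex.I, 0) : ℂ × ℂ), P (x.1 + x.2 / 2, x.2) := by
  have h6 : Tendsto (fun x : ℂ × ℂ => (x.1 + x.2 / 2, x.2)) (𝓝 (-Complex.I, 0))
      (𝓝 (-Complex.I, 0)) := by
    have : Continuous (fun x : ℂ × ℂ => (x.1 + x.2 / 2, x.2)) := by fun_prop
    have := this.tendsto (-Complex.I, 0)
    simpa using this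
  exact h6.eventually h

lemma tendsto_neg_aN (n : ℝ) : Tendsto (fun z => aN n (-z)) (𝓝 0) (𝓝 (n : ℂ)) := by
  have h1 : Tendsto (aN n) (𝓝 0) (𝓝 (n : ℂ)) := by
    have := (aN_analyticAt n).continuousAt.tendsto
    rwa [aN_zero] at this
  have h2 : Tendsto (fun z : ℂ => -z) (𝓝 0) (𝓝 0) := by
    have := (continuous_neg (G := ℂ)).tendsto 0
    simpa using this
  exact h1.comp h2

lemma neg_aN_analyticAt (n : ℝ) : AnalyticAt ℂ (fun z => aN n (-z)) 0 := by
  have h1 : AnalyticAt ℂ (aN n) (-0) := by simpa using aN_analyticAt n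
  exact h1.comp (f := fun z : ℂ => -z) analyticAt_id.neg

theorem redF (h5 : LawF) (hH : Hom) (hR : RealG) : RedF := by
  intro c ρ C X₀ hc h12 h2 hX
  set n : ℝ := (2 - c) / (1 - 2 * c) with hn
  set p : ℝ := 1 - 2 * c with hp
  have hp0 : p ≠ 0 := by
    intro h
    apply h12
    rw [hp] at h
    linarith
  have hn0 : n ≠ 0 := by
    rw [hn]
    refine div_ne_zero ?_ hp0
    intro h
    apply h2
    linarith
  have hn1 : n ≠ 1 := by
    rw [hn]
    intro h
    rw [div_eq_one_iff_eq hp0] at h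
    linarith
  obtain ⟨g, hga, hg0, hgl, hgr, hgc⟩ := exists_inv n hn0 hn1
  have hlaw := h5 c ρ C X₀ hc h12 h2 hX
  obtain ⟨r1, r2, r3⟩ := rX_facts (p := p) hX
  obtain ⟨t1, t2⟩ := rX_tendsto (p := p) hX
  set f : ℂ → ℂ := fun z => g (2 * n - aN n (-z)) with hf
  have hT : Tendsto (fun z => 2 * (n : ℂ) - aN n (-z)) (𝓝 0) (𝓝 (n : ℂ)) := by
    have := (tendsto_const_nhds (x := 2 * (n : ℂ))).sub (tendsto_neg_aN n)
    have e : 2 * (n : ℂ) - n = n := by ring
    rwa [e] at this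
  have hfa : AnalyticAt ℂ f 0 := by
    have h1 : AnalyticAt ℂ (fun z => 2 * (n : ℂ) - aN n (-z)) 0 :=
      analyticAt_const.sub (neg_aN_analyticAt n)
    have e : (fun z => 2 * (n : ℂ) - aN n (-z)) 0 = n := by
      simp only [neg_zero, aN_zero]; ring
    exact hga.comp_of_eq h1 e
  have hf0 : f 0 = 0 := by
    simp only [hf, neg_zero, aN_zero]
    have e : 2 * (n : ℂ) - n = n := by ring
    rw [e, hg0]
  have hflaw : ∀ᶠ z in 𝓝 (0 : ℂ), aN n (f z) = 2 * n - aN n (-z) := hT.eventually hgr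
  have hfc : ∀ᶠ z in 𝓝 (0 : ℂ), f (conj z) = conj (f z) := by
    filter_upwards [hT.eventually hgc] with z hz
    simp only [hf]
    rw [← hz, map_sub, map_mul, Complex.conj_ofReal, ← aN_conj, map_neg, Complex.conj_ofNat]
  have hrec : ∀ᶠ x in 𝓝 ((-Complex.I, 0) : ℂ × ℂ),
      rX p X₀ (x.1 + x.2, x.2) = f (rX p X₀ x) := by
    filter_upwards [shift_ev hlaw, t1.eventually hgl] with x hx1 hx2
    have e1 : x.1 + x.2 / 2 + x.2 / 2 = x.1 + x.2 := by ring
    have e2 : x.1 + x.2 / 2 - x.2 / 2 = x.1 := by ring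
    rw [e1, e2] at hx1
    simp only [hf]
    rw [← hx2]
    congr 1
    linear_combination hx1
  obtain ⟨ϱ, g1, g2, g3, g4, g5⟩ := hH p f (rX p X₀) hp0 hfa hf0 r1 r2 r3 hrec
  refine ⟨ϱ, g1, g2, g3, g4, hR p f ϱ hp0 hfa hf0 hfc g1 g2 g3 g4 g5, ?_⟩
  have hϱ : Tendsto ϱ (𝓝 0) (𝓝 0) := by
    have := g1.continuousAt.tendsto
    rwa [g2] at this
  filter_upwards [g5, hϱ.eventually hflaw] with u hu1 hu2
  rw [hu1, hu2]
  ring

theorem redI (h5 : LawI) (hH : Hom) (hR : RealG) : RedI := by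
  intro m ρ C X₀ hm hm3 hX
  set n : ℝ := (3 + m) / (3 - m) with hn
  set p : ℝ := 3 - m with hp
  have hp0 : p ≠ 0 := by
    intro h
    apply hm3
    rw [hp] at h
    linarith
  have hn0 : n ≠ 0 := by
    rw [hn]
    refine div_ne_zero ?_ hp0
    intro h
    linarith
  have hn1 : n ≠ 1 := by
    rw [hn]
    intro h
    rw [div_eq_one_iff_eq hp0] at h
    linarith
  have hn0' : (n : ℂ) ≠ 0 := by exact_mod_cast hn0
  obtain ⟨g, hga, hg0, hgl, hgr, hgc⟩ := exists_inv n hn0 hn1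
  have hlaw := h5 m ρ C X₀ hm hm3 hX
  obtain ⟨r1, r2, r3⟩ := rX_facts (p := p) hX
  obtain ⟨t1, t2⟩ := rX_tendsto (p := p) hX
  set f : ℂ → ℂ := fun z => g ((n : ℂ) ^ 2 / aN n (-z)) with hf
  have hne : ∀ᶠ z in 𝓝 (0 : ℂ), aN n (-z) ≠ 0 :=
    (tendsto_neg_aN n).eventually (isOpen_ne.mem_nhds hn0')
  have hT : Tendsto (fun z => (n : ℂ) ^ 2 / aN n (-z)) (𝓝 0) (𝓝 (n : ℂ)) := by
    have := (tendsto_const_nhds (x := (n : ℂ) ^ 2)).div (tendsto_neg_aN n) hn0'
    have e : (n : ℂ) ^ 2 / n = n := by field_simp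
    rwa [e] at this
  have hfa : AnalyticAt ℂ f 0 := by
    have h1 : AnalyticAt ℂ (fun z => (n : ℂ) ^ 2 / aN n (-z)) 0 := by
      refine analyticAt_const.div (neg_aN_analyticAt n) ?_
      simpa [aN_zero] using hn0'
    have e : (fun z => (n : ℂ) ^ 2 / aN n (-z)) 0 = n := by
      simp only [neg_zero, aN_zero]; field_simp
    exact hga.comp_of_eq h1 e
  have hf0 : f 0 = 0 := by
    simp only [hf, neg_zero, aN_zero]
    have e : (n : ℂ) ^ 2 / n = n := by field_simp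
    rw [e, hg0]
  have hflaw : ∀ᶠ z in 𝓝 (0 : ℂ), aN n (f z) = (n : ℂ) ^ 2 / aN n (-z) := hT.eventually hgr
  have hfc : ∀ᶠ z in 𝓝 (0 : ℂ), f (conj z) = conj (f z) := by
    filter_upwards [hT.eventually hgc] with z hz
    simp only [hf]
    rw [← hz, map_div₀, map_pow, Complex.conj_ofReal, ← aN_conj, map_neg]
  have hrec : ∀ᶠ x in 𝓝 ((-Complex.I, 0) : ℂ × ℂ),
      rX p X₀ (x.1 + x.2, x.2) = f (rX p X₀ x) := by
    filter_upwards [shift_ev hlaw, t1.eventually hgl, t2.eventually hne] with x hx1 hx2 hx3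
    have e1 : x.1 + x.2 / 2 + x.2 / 2 = x.1 + x.2 := by ring
    have e2 : x.1 + x.2 / 2 - x.2 / 2 = x.1 := by ring
    rw [e1, e2] at hx1
    simp only [hf]
    rw [← hx2]
    congr 1
    rw [eq_div_iff hx3]
    exact hx1
  obtain ⟨ϱ, g1, g2, g3, g4, g5⟩ := hH p f (rX p X₀) hp0 hfa hf0 r1 r2 r3 hrec
  refine ⟨ϱ, g1, g2, g3, g4, hR p f ϱ hp0 hfa hf0 hfc g1 g2 g3 g4 g5, ?_⟩
  have hϱ : Tendsto ϱ (𝓝 0) (𝓝 0) := by
    have := g1.continuousAt.tendsto
    rwa [g2] at this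
  filter_upwards [g5, hϱ.eventually hflaw, hϱ.eventually hne] with u hu1 hu2 hu3
  rw [hu1, hu2]
  field_simp

end Crest.Agent.R102.T5X897
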