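import Crest.Agent.R102.T5Defs_160
import Crest.Agent.R102.Flat2_348
import Crest.Agent.R102.H4Asm_490

/-!
# Row 102, part (C), leaf T5-L6F (helper836): exclusion of the flat homogeneous germs

`NoF`: from `Flat348.flat` (`n > 1`, `n ≠ 2`) and `H4.h4` (`1/2 < n < 1`), by the flip
`n → 1 - n`, `ϱ → -ϱ`.
-/

set_option autoImplicit false

open Set Filter Topology Metric
open scoped ComplexConjugate

noncomputable section

namespace Crest.Agent.R102.T5L6F836

open Crest.Agent.R102.T5R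

/-! ### Algebra of `a_n` -/

lemma aN_zero (n : ℝ) : aN n 0 = n := by simp [aN]

lemma aN_of_ne (n : ℝ) {r : ℂ} (h : r ≠ 0) :
    aN n r = (Complex.exp (n * r) - 1) / (Complex.exp r - 1) := by simp [aN, h]

/-- `a_n(-r) = e^{(1-n) r} a_n(r)` -/
lemma aN_neg (n : ℝ) (r : ℂ) : aN n (-r) = Complex.exp ((1 - n) * r) * aN n r := by
  by_cases h : r = 0
  · subst h; simp [aN]
  rw [aN_of_ne n h, aN_of_ne n (neg_ne_zero.2 h)]
  by_cases h1 : Complex.exp r = 1
  · rw [Complex.exp_neg, h1]; simp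
  have h2 : Complex.exp r - 1 ≠ 0 := sub_ne_zero.2 h1
  have h3 : Complex.exp (-r) - 1 ≠ 0 := by
    rw [Complex.exp_neg]
    intro h3
    apply h1
    rw [sub_eq_zero, inv_eq_one] at h3
    exact h3
  have e1 : (n : ℂ) * -r = -(n * r) := by ring
  have e2 : (1 - (n : ℂ)) * r = r - n * r := by ring
  rw [e1, e2, Complex.exp_sub, Complex.exp_neg, Complex.exp_neg]
  have h4 := Complex.exp_ne_zero r
  have h5 := Complex.exp_ne_zero ((n : ℂ) * r)
  have h6 : 1 - Complex.exp r ≠ 0 := by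
    intro h; apply h2; linear_combination -h
  have h7 : (Complex.exp r)⁻¹ - 1 = (1 - Complex.exp r) / Complex.exp r := by
    field_simp
  have h8 : (Complex.exp ((n : ℂ) * r))⁻¹ - 1 =
      (1 - Complex.exp ((n : ℂ) * r)) / Complex.exp ((n : ℂ) * r) := by
    field_simp
  have h9 : Complex.exp r - 1 = -(1 - Complex.exp r) := by ring
  rw [h7, h8, h9]
  field_simp
  ring

/-- `a_{1-n}(-r) = 1 - a_n(r)` -/
lemma aN_flip (n : ℝ) {r : ℂ} (h : r ≠ 0 → Complex.exp r ≠ 1) :
    aN (1 - n) (-r) = 1 - aN n r := by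
  by_cases h0 : r = 0
  · subst h0; simp [aN]
  rw [aN_of_ne n h0, aN_of_ne _ (neg_ne_zero.2 h0)]
  have h1 := h h0
  have h2 : Complex.exp r - 1 ≠ 0 := sub_ne_zero.2 h1
  have e1 : (((1 - n : ℝ) : ℂ)) * -r = n * r - r := by push_cast; ring
  rw [e1, Complex.exp_sub, Complex.exp_neg]
  have h4 := Complex.exp_ne_zero r
  have h6 : 1 - Complex.exp r ≠ 0 := by
    intro h; apply h2; linear_combination -h
  field_simp
  ring

lemma aN_conj (n : ℝ) (r : ℂ) : aN n (conj r) = conj (aN n r) := by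
  by_cases h : r = 0
  · subst h; simp [aN]
  · have h' : conj r ≠ 0 := by simpa using h
    rw [aN_of_ne n h, aN_of_ne n h']
    simp [← Complex.exp_conj]

lemma exp_ne_near : ∀ᶠ r in 𝓝 (0 : ℂ), r ≠ 0 → Complex.exp r ≠ 1 := by
  have h := (Complex.hasDerivAt_exp 0).eventually_ne (c := 1) (by simp)
  rwa [eventually_nhdsWithin_iff] at h

/-- the divided difference of `exp` -/
lemma an_phi : AnalyticAt ℂ (dslope Complex.exp 0) 0 := by
  obtain ⟨p, hp⟩ : AnalyticAt ℂ Complex.exp 0 := analyticAt_cexp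
  exact ⟨_, hp.has_fpower_series_dslope_fslope⟩

lemma aN_eq_phi (n : ℝ) :
    ∀ᶠ r in 𝓝 (0 : ℂ), aN n r = n * dslope Complex.exp 0 (n * r) / dslope Complex.exp 0 r := by
  filter_upwards [exp_ne_near] with r hr
  by_cases h : r = 0
  · subst h; simp [aN, dslope_same]
  rw [aN_of_ne n h, dslope_of_ne _ h]
  by_cases hn : n = 0
  · subst hn; simp
  have h1 : (n : ℂ) * r ≠ 0 := mul_ne_zero (by exact_mod_cast hn) h
  rw [dslope_of_ne _ h1, slope_def_field, slope_def_field]
  have h2 := sub_ne_zero.2 (hr h)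
  have h3 : (n : ℂ) ≠ 0 := by exact_mod_cast hn
  simp only [sub_zero, Complex.exp_zero]
  field_simp

lemma aN_an (n : ℝ) : AnalyticAt ℂ (aN n) 0 := by
  have h1 : AnalyticAt ℂ (fun r : ℂ => (n : ℂ) * dslope Complex.exp 0 (n * r) /
      dslope Complex.exp 0 r) 0 := by
    refine AnalyticAt.div (analyticAt_const.mul ?_) an_phi ?_
    · refine AnalyticAt.fun_comp (g := dslope Complex.exp 0) (f := fun r : ℂ => (n : ℂ) * r) ?_ ?_
      · simpa using an_phi
      · fun_prop
    · simp [dslope_same]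
  exact h1.congr ((aN_eq_phi n).mono fun r hr => hr.symm)

lemma aN_deriv (n : ℝ) : deriv (aN n) 0 = n * (n - 1) / 2 := by
  have h0 : HasDerivAt (aN n) (deriv (aN n) 0) 0 := (aN_an n).differentiableAt.hasDerivAt
  have h1 : HasDerivAt (fun r : ℂ => aN n (-r)) (deriv (aN n) 0 * (-1)) 0 := by
    have h0' : HasDerivAt (aN n) (deriv (aN n) 0) (-0) := by simpa using h0
    exact h0'.comp (0 : ℂ) (hasDerivAt_neg 0)
  have h2 : HasDerivAt (fun r : ℂ => Complex.exp ((1 - n) * r) * aN n r)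
      ((Complex.exp ((1 - n) * 0) * ((1 - n) * 1)) * aN n 0 +
        Complex.exp ((1 - n) * 0) * deriv (aN n) 0) 0 :=
    (((hasDerivAt_id (0 : ℂ)).const_mul (1 - (n : ℂ))).cexp).mul h0
  have h3 : (fun r : ℂ => aN n (-r)) = fun r : ℂ => Complex.exp ((1 - n) * r) * aN n r :=
    funext fun r => aN_neg n r
  rw [h3] at h1
  have h4 := h1.unique h2
  rw [aN_zero] at h4
  simp only [mul_zero, Complex.exp_zero, one_mul, mul_one] at h4
  linear_combination (-1 / 2) * h4

/-- `log (e^w z) = w + log z` for `w` near `0` and `z` near a positive real -/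
lemma log_mul {l : Filter ℂ} {w z : ℂ → ℂ} {x : ℝ} (hx : 0 < x) (hw : Tendsto w l (𝓝 0))
    (hz : Tendsto z l (𝓝 (x : ℂ))) :
    ∀ᶠ r in l, Complex.log (Complex.exp (w r) * z r) = w r + Complex.log (z r) := by
  have h1 : Tendsto (fun r => (w r + Complex.log (z r)).im) l (𝓝 0) := by
    have h2 : Tendsto (fun r => w r + Complex.log (z r)) l (𝓝 (0 + Complex.log (x : ℂ))) :=
      hw.add (((continuousAt_clog (Or.inl (by simpa using hx))).tendsto).comp hz)
    have h3 := (Complex.continuous_im.tendsto _).comp h2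
    have h4 : (0 + Complex.log (x : ℂ)).im = 0 := by
      rw [zero_add, Complex.log_im, Complex.arg_ofReal_of_nonneg hx.le]
    rw [h4] at h3
    exact h3
  have h5 : ∀ᶠ r in l, z r ≠ 0 := hz.eventually_ne (by exact_mod_cast hx.ne')
  have hpi := Real.pi_pos
  filter_upwards [h1.eventually (gt_mem_nhds hpi), h1.eventually (lt_mem_nhds (neg_lt_zero.2 hpi)), h5]
    with r h6 h7 h8
  rw [← Complex.log_exp h7 h6.le, Complex.exp_add, Complex.exp_log h8]

/-! ### Flip -/

lemma flip {n p : ℝ} {ϱ : ℂ → ℂ} (h : HF n p ϱ) : HF (1 - n) (-p) (fun u => -ϱ u) where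
  an := h.an.neg
  zero := by simp [h.zero]
  der := by
    have := h.an.differentiableAt.hasDerivAt.neg.deriv
    simp only [Pi.neg_def] at this
    simpa [h.der] using this
  odd := by filter_upwards [h.odd] with u hu; rw [hu]
  real := by filter_upwards [h.real] with u hu; rw [hu]; simp
  law := by
    have hc : Tendsto ϱ (𝓝 0) (𝓝 0) := by
      have := h.an.continuousAt.tendsto; rwa [h.zero] at this
    have hm : Tendsto (fun u : ℂ => u / (1 + u)) (𝓝 0) (𝓝 0) := by
      have : ContinuousAt (fun u : ℂ => u / (1 + u)) 0 := by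
        apply ContinuousAt.div continuousAt_id (by fun_prop) (by simp)
      simpa [ContinuousAt] using this
    have h1 : ∀ᶠ u in 𝓝 (0 : ℂ), ϱ (u / (1 + u)) ≠ 0 → Complex.exp (ϱ (u / (1 + u))) ≠ 1 :=
      (hc.comp hm).eventually exp_ne_near
    have h2 : ∀ᶠ u in 𝓝 (0 : ℂ), -ϱ u ≠ 0 → Complex.exp (-ϱ u) ≠ 1 := by
      have : Tendsto (fun u => -ϱ u) (𝓝 0) (𝓝 0) := by simpa using hc.neg
      exact this.eventually exp_ne_near
    filter_upwards [h.law, h1, h2] with u hu h1 h2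
    rw [aN_flip n h1, aN_flip n h2]
    push_cast
    linear_combination -hu

/-! ### The centred germ -/

/-- `F(t) = a_n(ϱ(t/(1+t/2))) - n` -/
def FF (n : ℝ) (ϱ : ℂ → ℂ) (t : ℂ) : ℂ := aN n (ϱ (t / (1 + t / 2))) - n

lemma hh_an (a : ℂ) : AnalyticAt ℂ (fun t : ℂ => t / (1 + a * t)) 0 := by
  refine AnalyticAt.div analyticAt_id (by fun_prop) (by simp)

lemma hh_tendsto (a : ℂ) : Tendsto (fun t : ℂ => t / (1 + a * t)) (𝓝 0) (𝓝 0) := by
  simpa using (hh_an a).continuousAt.tendsto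

lemma hh_deriv (a : ℂ) : HasDerivAt (fun t : ℂ => t / (1 + a * t)) 1 0 := by
  have h1 : HasDerivAt (fun t : ℂ => 1 + a * t) (a * 1) 0 :=
    ((hasDerivAt_id (0 : ℂ)).const_mul a).const_add 1
  have h2 := (hasDerivAt_id' (0 : ℂ)).fun_div h1 (by simp)
  simpa using h2

variable {n p : ℝ} {ϱ : ℂ → ℂ}

lemma ff_half (h : HF n p ϱ) : AnalyticAt ℂ (fun t : ℂ => ϱ (t / (1 + t / 2))) 0 := by
  have h1 : (fun t : ℂ => ϱ (t / (1 + t / 2))) = ϱ ∘ fun t : ℂ => t / (1 + (1 / 2) * t) := by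
    funext t; simp only [Function.comp]; congr 2; ring
  rw [h1]
  refine AnalyticAt.comp ?_ (hh_an _)
  simpa using h.an

lemma ff_half_tendsto (h : HF n p ϱ) : Tendsto (fun t : ℂ => ϱ (t / (1 + t / 2))) (𝓝 0) (𝓝 0) := by
  have := (ff_half h).continuousAt.tendsto
  simpa [h.zero] using this

lemma ff_half_deriv (h : HF n p ϱ) : HasDerivAt (fun t : ℂ => ϱ (t / (1 + t / 2))) p 0 := by
  have h1 : (fun t : ℂ => ϱ (t / (1 + t / 2))) = ϱ ∘ fun t : ℂ => t / (1 + (1 / 2) * t) := by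
    funext t; simp only [Function.comp]; congr 2; ring
  rw [h1]
  have h2 : HasDerivAt ϱ p (0 / (1 + (1 / 2) * 0)) := by
    have := h.an.differentiableAt.hasDerivAt
    rw [h.der] at this
    simpa using this
  have h3 := h2.comp (0 : ℂ) (hh_deriv (1 / 2))
  simpa using h3

lemma ff_an (h : HF n p ϱ) : AnalyticAt ℂ (FF n ϱ) 0 := by
  refine AnalyticAt.sub ?_ analyticAt_const
  refine AnalyticAt.fun_comp (g := aN n) ?_ (ff_half h)
  simpa [h.zero] using aN_an n

lemma ff_deriv (h : HF n p ϱ) : deriv (FF n ϱ) 0 = n * (n - 1) / 2 * p := by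
  have h1 : HasDerivAt (aN n) (n * (n - 1) / 2) (ϱ (0 / (1 + 0 / 2))) := by
    have := (aN_an n).differentiableAt.hasDerivAt
    rw [aN_deriv] at this
    simpa [h.zero] using this
  exact ((h1.comp (0 : ℂ) (ff_half_deriv h)).sub_const (n : ℂ)).deriv

lemma ff_odd (h : HF n p ϱ) : ∀ᶠ t in 𝓝 (0 : ℂ), FF n ϱ (-t) = -FF n ϱ t := by
  have ht := hh_tendsto (-(1 / 2))
  have hs : ∀ᶠ t in 𝓝 (0 : ℂ), ‖t‖ < 1 := by
    have := Metric.ball_mem_nhds (0 : ℂ) one_pos
    filter_upwards [this] with t ht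
    simpa using ht
  filter_upwards [ht.eventually h.law, ht.eventually h.odd, hs] with t h1 h2 h3
  have h4 : 1 - t / 2 ≠ 0 := by
    intro h4
    have : t = 2 := by linear_combination (-2) * h4
    rw [this] at h3; norm_num at h3
  have h5 : 1 + t / 2 ≠ 0 := by
    intro h4
    have : t = -2 := by linear_combination (2) * h4
    rw [this] at h3; norm_num at h3
  have e1 : t / (1 + -(1 / 2) * t) / (1 + t / (1 + -(1 / 2) * t)) = t / (1 + t / 2) := by
    have h6 : 1 + -(1 / 2) * t ≠ 0 := by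
      intro h6; apply h4; linear_combination h6
    rw [div_div, mul_add, mul_div_cancel₀ _ h6]
    congr 1
    ring
  have e2 : -(t / (1 + -(1 / 2) * t)) = (-t) / (1 + (-t) / 2) := by
    rw [neg_div]; congr 2; ring
  rw [e1, ← h2, e2] at h1
  unfold FF
  linear_combination h1

lemma ff_real (h : HF n p ϱ) :
    ∀ᶠ t in 𝓝 (0 : ℂ), FF n ϱ ((starRingEnd ℂ) t) = (starRingEnd ℂ) (FF n ϱ t) := by
  have ht : Tendsto (fun t : ℂ => t / (1 + t / 2)) (𝓝 0) (𝓝 0) := by
    have := hh_tendsto (1 / 2)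
    refine this.congr fun t => ?_
    congr 2; ring
  filter_upwards [ht.eventually h.real] with t h1
  unfold FF
  have e : (starRingEnd ℂ) t / (1 + (starRingEnd ℂ) t / 2) = (starRingEnd ℂ) (t / (1 + t / 2)) := by
    rw [map_div₀, map_add, map_div₀, map_one, map_ofNat]
  rw [e, h1, aN_conj]
  simp

lemma ff_eq1 (n : ℝ) (ϱ : ℂ → ℂ) (t : ℂ) : (n : ℂ) + FF n ϱ t = aN n (ϱ (t / (1 + t / 2))) := by
  unfold FF; ring

lemma ff_eq2 (h : HF n p ϱ) :
    ∀ᶠ t in 𝓝 (0 : ℂ), (n : ℂ) - FF n ϱ (t / (1 + t)) = aN n (-ϱ (t / (1 + t / 2))) := by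
  have ht : Tendsto (fun t : ℂ => t / (1 + t / 2)) (𝓝 0) (𝓝 0) := by
    have := hh_tendsto (1 / 2)
    refine this.congr fun t => ?_
    congr 2; ring
  have hs : ∀ᶠ t in 𝓝 (0 : ℂ), ‖t‖ < 1 / 2 := by
    have := Metric.ball_mem_nhds (0 : ℂ) (by norm_num : (0 : ℝ) < 1 / 2)
    filter_upwards [this] with t ht
    simpa using ht
  filter_upwards [ht.eventually h.law, hs] with t h1 h3
  have h4 : 1 + t ≠ 0 := by
    intro h4
    have : t = -1 := by linear_combination h4
    rw [this] at h3; norm_num at h3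
  have h5 : 1 + t / 2 ≠ 0 := by
    intro h4
    have : t = -2 := by linear_combination (2) * h4
    rw [this] at h3; norm_num at h3
  have e1 : t / (1 + t / 2) / (1 + t / (1 + t / 2)) = t / (1 + 3 / 2 * t) := by
    rw [div_div, mul_add, mul_div_cancel₀ _ h5]
    congr 1
    ring
  have e2 : t / (1 + t) / (1 + t / (1 + t) / 2) = t / (1 + 3 / 2 * t) := by
    have e3 : t / (1 + t) / 2 = (t / 2) / (1 + t) := by ring
    rw [e3, div_div, mul_add, mul_div_cancel₀ _ h4]
    congr 1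
    ring
  rw [e1] at h1
  unfold FF
  rw [e2]
  linear_combination -h1

/-! ### The two exclusions -/

lemma aN_tendsto (n : ℝ) : Tendsto (aN n) (𝓝 0) (𝓝 (n : ℂ)) := by
  have := (aN_an n).continuousAt.tendsto
  rwa [aN_zero] at this

lemma lin_tendsto (a : ℂ) : Tendsto (fun r : ℂ => a * r) (𝓝 0) (𝓝 0) := by
  have : ContinuousAt (fun r : ℂ => a * r) 0 := by fun_prop
  simpa [ContinuousAt] using this

/-- `1 - a(-r) = e^{-n r} (1 - a(r))` -/
lemma one_sub (n : ℝ) {r : ℂ} (h : r ≠ 0 → Complex.exp r ≠ 1) :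
    1 - aN n (-r) = Complex.exp (-n * r) * (1 - aN n r) := by
  by_cases h0 : r = 0
  · subst h0; simp [aN]
  rw [aN_of_ne n h0, aN_of_ne _ (neg_ne_zero.2 h0)]
  have h1 := h h0
  have h2 : Complex.exp r - 1 ≠ 0 := sub_ne_zero.2 h1
  have e1 : (n : ℂ) * -r = -(n * r) := by ring
  have e2 : -(n : ℂ) * r = -(n * r) := by ring
  rw [e1, e2, Complex.exp_neg, Complex.exp_neg]
  have h4 := Complex.exp_ne_zero r
  have h5 := Complex.exp_ne_zero ((n : ℂ) * r)
  have h6 : 1 - Complex.exp r ≠ 0 := by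
    intro h; apply h2; linear_combination -h
  field_simp
  ring

/-- `1 - 1/a(-r) = e^{-r} (1 - 1/a(r))` when `a(r) ≠ 0` -/
lemma one_sub_inv (n : ℝ) {r : ℂ} (h : r ≠ 0 → Complex.exp r ≠ 1) (ha : aN n r ≠ 0) :
    1 - 1 / aN n (-r) = Complex.exp (-r) * (1 - 1 / aN n r) := by
  have h1 := one_sub n h
  have h2 := aN_neg n r
  have e1 : Complex.exp (-n * r) = Complex.exp (-r) * Complex.exp ((1 - n) * r) := by
    rw [← Complex.exp_add]; congr 1; ring
  have h3 := Complex.exp_ne_zero ((1 - n) * r)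
  have h4 : aN n (-r) ≠ 0 := by rw [h2]; exact mul_ne_zero h3 ha
  rw [h2] at h4 h1 ⊢
  rw [e1] at h1
  have h5 : 1 - 1 / (Complex.exp ((1 - n) * r) * aN n r) =
      -(1 - Complex.exp ((1 - n) * r) * aN n r) / (Complex.exp ((1 - n) * r) * aN n r) := by
    field_simp
    ring
  rw [h5, h1]
  field_simp
  ring

lemma noF_big (hn : 1 < n) (hn2 : n ≠ 2) (hp : 0 < p) : ¬ HF n p ϱ := by
  intro h
  have hN : 0 < 1 / (n - 1) := by
    apply div_pos one_pos; linarith
  have hN1 : 1 / (n - 1) ≠ 1 := by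
    intro h1
    rw [div_eq_one_iff_eq (by linarith : n - 1 ≠ 0)] at h1
    apply hn2; linarith
  have hnf : Flat348.nf (1 / (n - 1)) = n := by
    unfold Flat348.nf; rw [one_div_one_div]; ring
  have hLam : ∀ᶠ r in 𝓝 (0 : ℂ),
      Flat348.Lam (1 / (n - 1)) (aN n r) = Flat348.Lam (1 / (n - 1)) (aN n (-r)) := by
    have hn0 : 0 < n := by linarith
    have hl1 := log_mul hn0 (lin_tendsto (1 - (n : ℂ))) (aN_tendsto n)
    have hx : 0 < 1 - 1 / n := by
      have : 1 / n < 1 := by rw [div_lt_one hn0]; exact hn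
      linarith
    have ht : Tendsto (fun r => 1 - 1 / aN n r) (𝓝 0) (𝓝 ((1 - 1 / n : ℝ) : ℂ)) := by
      have : Tendsto (fun r => 1 - 1 / aN n r) (𝓝 0) (𝓝 (1 - 1 / (n : ℂ))) :=
        tendsto_const_nhds.sub (tendsto_const_nhds.div (aN_tendsto n) (by exact_mod_cast hn0.ne'))
      simpa using this
    have hw : Tendsto (fun r : ℂ => -r) (𝓝 0) (𝓝 0) := by
      simpa using lin_tendsto (-1)
    have hl2 := log_mul hx hw ht
    have h0 : ∀ᶠ r in 𝓝 (0 : ℂ), aN n r ≠ 0 :=
      (aN_tendsto n).eventually_ne (by exact_mod_cast hn0.ne')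
    filter_upwards [hl1, hl2, h0, exp_ne_near] with r h1 h2 h3 h4
    unfold Flat348.Lam
    rw [one_sub_inv n h4 h3, h2, aN_neg, h1]
    have h5 : (n : ℂ) - 1 ≠ 0 := by
      intro h5
      have : (n : ℂ) = 1 := by linear_combination h5
      have : n = 1 := by exact_mod_cast this
      linarith
    push_cast
    field_simp
    ring
  refine Flat348.flat hN hN1 (ff_an h) (ff_odd h) (ff_real h) (κ := n * (n - 1) / 2 * p) ?_ ?_ ?_
  · have : 0 < n * (n - 1) := mul_pos (by linarith) (by linarith)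
    positivity
  · rw [ff_deriv h]; push_cast; ring
  · rw [hnf]
    filter_upwards [ff_eq2 h, (ff_half_tendsto h).eventually hLam] with t h1 h2
    rw [ff_eq1, h1, h2]

lemma noF_mid (h4 : H4.H4Stmt) (hn : 1 / 2 < n) (hn1 : n < 1) (hp : 0 < p) : ¬ HF n p ϱ := by
  intro h
  have hN : 1 < n / (1 - n) := by
    rw [lt_div_iff₀ (by linarith)]; linarith
  have hnn : H4.nn (n / (1 - n)) = n := by
    unfold H4.nn
    have : 1 - n ≠ 0 := by linarith
    field_simp
    ring
  have hL : ∀ᶠ r in 𝓝 (0 : ℂ),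
      H4.L (n / (1 - n)) (aN n r) = H4.L (n / (1 - n)) (aN n (-r)) := by
    have hn0 : 0 < n := by linarith
    have hl1 := log_mul hn0 (lin_tendsto (1 - (n : ℂ))) (aN_tendsto n)
    have hx : 0 < 1 - n := by linarith
    have ht : Tendsto (fun r => 1 - aN n r) (𝓝 0) (𝓝 ((1 - n : ℝ) : ℂ)) := by
      have : Tendsto (fun r => 1 - aN n r) (𝓝 0) (𝓝 (1 - (n : ℂ))) :=
        tendsto_const_nhds.sub (aN_tendsto n)
      simpa using this
    have hl2 := log_mul hx (lin_tendsto (-(n : ℂ))) ht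
    filter_upwards [hl1, hl2, exp_ne_near] with r h1 h2 h4
    unfold H4.L
    rw [one_sub n h4, h2, aN_neg, h1]
    have h5 : 1 - (n : ℂ) ≠ 0 := by
      intro h5
      have : (n : ℂ) = 1 := by linear_combination -h5
      have : n = 1 := by exact_mod_cast this
      linarith
    push_cast
    field_simp
    ring
  refine h4 (n / (1 - n)) (FF n ϱ) ⟨hN, ff_an h, ff_odd h, ff_real h, ?_, ?_⟩
  · refine ⟨n * (1 - n) / 2 * p, ?_, ?_⟩
    · have : 0 < n * (1 - n) := mul_pos (by linarith) (by linarith)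
      positivity
    · rw [ff_deriv h]; push_cast; ring
  · rw [hnn]
    filter_upwards [ff_eq2 h, (ff_half_tendsto h).eventually hL] with t h1 h2
    rw [ff_eq1, h1, h2]

/-- `NoF` from `H4` -/
theorem noF_of (h4 : H4.H4Stmt) : NoF := by
  intro c ϱ hc h0 h1 h12 h2 h
  rcases lt_or_gt_of_ne h12 with hlt | hgt
  · have hd : 0 < 1 - 2 * c := by linarith
    refine noF_big ?_ ?_ hd h
    · rw [lt_div_iff₀ hd]; linarith
    · intro h3
      rw [div_eq_iff hd.ne'] at h3
      apply h0; linarith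
  · have hd : 0 < 2 * c - 1 := by linarith
    have hf := flip h
    have e1 : 1 - (2 - c) / (1 - 2 * c) = (1 + c) / (2 * c - 1) := by
      have h3 : 1 - 2 * c ≠ 0 := by linarith
      have h4 : 2 * c - 1 ≠ 0 := hd.ne'
      field_simp
      ring
    have e2 : -(1 - 2 * c) = 2 * c - 1 := by ring
    rw [e1, e2] at hf
    rcases lt_or_gt_of_ne h2 with hlt2 | hgt2
    · refine noF_big ?_ ?_ hd hf
      · rw [lt_div_iff₀ hd]; linarith
      · intro h3
        rw [div_eq_iff hd.ne'] at h3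
        apply h1; linarith
    · refine noF_mid h4 ?_ ?_ hd hf
      · rw [lt_div_iff₀ hd]; linarith
      · rw [div_lt_iff₀ hd]; linarith

/-- **L6F** -/
theorem noF : NoF := noF_of H4.h4

end Crest.Agent.R102.T5L6F836
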