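import Crest.Agent.R102.T5P2_160
import Crest.Agent.R102.T5ConeN_160
import Crest.Agent.R102.NDM_596
import Crest.Agent.R102.T5L3_725
import Crest.Agent.R102.T5L4F_346
import Crest.Agent.R102.T5L4I_346
import Crest.Agent.R102.T5L5F_756
import Crest.Agent.R102.T5L5I_861
import Crest.Agent.R102.T5L5H_556
import Crest.Agent.R102.T5L5R_426
import Crest.Agent.R102.T5L5X_897
import Crest.Agent.R102.T5L6F_836
import Crest.Agent.R102.T5L6I_496
import Crest.Agent.R102.IsoPos_297
import Crest.Agent.R102.IsoNeg5_486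
import Crest.Agent.R102.P1_416

/-!
Row 102, T5-RED assembly (helper160): `t5S : MelS → Spine.T5S`.
-/

set_option autoImplicit false

namespace Crest.Agent.R102.T5R

theorem coneN : ConeN := coneN_of_ndm NDM596.ndm

theorem t5FN : T5FN :=
  t5FN_of coneN T5L3_725.blowUp L4346.psiFlat (T5X897.redF T5L5F756.lawF L5H556.hom T5R426.realG)
    T5L6F836.noF

theorem noI : NoI := T5L6I496.noI_of Iso3297.isoPos IsoNeg486.isoNeg

theorem t5IN : T5IN :=
  t5IN_of coneN T5L3_725.blowUp L4346.psiIso (T5X897.redI T5L5I861.lawI L5H556.hom T5R426.realG)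
    noI

/-- **T5S** modulo MEL -/
theorem t5S_of_mel (hM : MelS) : Spine.T5S := t5S_of End416.p1 P2.p2 t5FN t5IN hM

end Crest.Agent.R102.T5R
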