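import Crest.Agent.R102.T5Defs_160

/-!
Row 102, T5-L2 (helper160): `T5R.NDM → T5R.Cone`.
-/

set_option autoImplicit false

open Set Filter Topology Metric

noncomputable section

namespace Crest.Agent.R102.T5R

namespace L2

/-! ### Part 1: the near-diagonal map in scaled form -/

/-- region of base points -/
def Rg (κ : ℝ) : Set ℂ := {y | y ≠ 0 ∧ ‖y‖ < 7 / 8 ∧ y.im < κ * ‖y‖}

structure NDS (κ ρ C : ℝ) (Ψ : ℂ → ℂ → ℂ) (G : ℂ × ℂ → ℂ) : Prop where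
  ρ_pos : 0 < ρ
  ρ_lt : ρ < 1 / 4
  C_pos : 0 < C
  small : C * ρ ^ 3 ≤ 1 / 8
  diff : ∀ y e : ℂ, y ∈ Rg κ → ‖e‖ < ρ * ‖y‖ → DifferentiableAt ℂ G (y, e)
  near : ∀ y e : ℂ, y ∈ Rg κ → ‖e‖ < ρ * ‖y‖ → ‖G (y, e) - e‖ ≤ C * ‖e‖ ^ 4 / ‖y‖ ^ 3
  el : ∀ y e : ℂ, y ∈ Rg κ → ‖e‖ < ρ * ‖y‖ → EL Ψ (y - e) y (y + G (y, e)) = 0
  uniq : ∀ y e e' : ℂ, y ∈ Rg κ → ‖e‖ < ρ * ‖y‖ → ‖e'‖ < ρ * ‖y‖ →
    EL Ψ (y - e) y (y + e') = 0 → e' = G (y, e) ∨ e' = -e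

theorem EL_scale (Ψ : ℂ → ℂ → ℂ) (s : ℂ) (hs : s ≠ 0) (x y z : ℂ) :
    EL (fun u v => Ψ (s * u) (s * v)) x y z = EL Ψ (s * x) (s * y) (s * z) / s ^ 2 := by
  unfold EL
  have h1 : (fun y' => LL (fun u v => Ψ (s * u) (s * v)) x y') =
      fun y' => (s ^ 3)⁻¹ * (fun v => LL Ψ (s * x) v) (s * y') := by
    funext y'
    simp only [LL]
    field_simp
  have h2 : (fun y' => LL (fun u v => Ψ (s * u) (s * v)) y' z) =
      fun y' => (s ^ 3)⁻¹ * (fun v => LL Ψ v (s * z)) (s * y') := by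
    funext y'
    simp only [LL]
    field_simp
  have d1 := deriv_comp_mul_left s (fun v => LL Ψ (s * x) v) y
  have d2 := deriv_comp_mul_left s (fun v => LL Ψ v (s * z)) y
  rw [h1, h2, deriv_const_mul_field, deriv_const_mul_field, d1, d2]
  simp only [smul_eq_mul]
  field_simp

theorem isOpen_Sg (κ : ℝ) : IsOpen (Sg κ) := by
  have : Sg κ = {τ : ℂ | τ ≠ 0} ∩ ({τ | ‖τ‖ < 1} ∩ {τ | τ.im < κ * ‖τ‖}) := by
    ext τ; simp [Sg]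
  rw [this]
  refine IsOpen.inter isOpen_ne (IsOpen.inter ?_ ?_)
  · exact isOpen_lt continuous_norm continuous_const
  · exact isOpen_lt Complex.continuous_im (continuous_const.mul continuous_norm)

theorem isOpen_DD (κ c₀ : ℝ) : IsOpen (DD κ c₀) := by
  have : DD κ c₀ = (Prod.fst ⁻¹' Sg κ) ∩ ((Prod.snd ⁻¹' Sg κ) ∩
      ({p | ‖p.2 - p.1‖ < c₀ * ‖p.1‖} ∩ {p | ‖p.2 - p.1‖ < c₀ * ‖p.2‖})) := by
    ext p; simp [DD]
  rw [this]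
  refine IsOpen.inter ((isOpen_Sg κ).preimage continuous_fst)
    (IsOpen.inter ((isOpen_Sg κ).preimage continuous_snd) (IsOpen.inter ?_ ?_))
  · exact isOpen_lt (continuous_snd.sub continuous_fst).norm
      (continuous_const.mul continuous_fst.norm)
  · exact isOpen_lt (continuous_snd.sub continuous_fst).norm
      (continuous_const.mul continuous_snd.norm)

/-- balls about points of `Rg κ₂` -/
theorem ball_sub {κ κ₂ c₀ c₁ : ℝ} (hκ : 0 < κ) (hκ1 : κ < 1) (hc₀ : 0 < c₀) (hc₁ : 0 < c₁)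
    (h1 : c₁ ≤ 1 / 8) (h2 : c₁ ≤ c₀ / 4) (h3 : c₁ ≤ (κ - κ₂) / 2) {y z : ℂ}
    (hy : y ∈ Rg κ₂) (hz : ‖z - y‖ < c₁ * ‖y‖) :
    z ∈ Sg κ ∧ (1 - c₁) * ‖y‖ < ‖z‖ := by
  obtain ⟨hy0, hy1, hy2⟩ := hy
  have hn : 0 < ‖y‖ := norm_pos_iff.2 hy0
  have hz1 : ‖y‖ - c₁ * ‖y‖ < ‖z‖ := by
    have := norm_sub_norm_le y z
    have h' : ‖y - z‖ = ‖z - y‖ := norm_sub_rev _ _
    linarith
  have hz2 : ‖z‖ < ‖y‖ + c₁ * ‖y‖ := by
    have := norm_sub_norm_le z y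
    linarith
  have him : |z.im - y.im| ≤ ‖z - y‖ := by
    have := Complex.abs_im_le_norm (z - y)
    simpa using this
  have him' := (abs_le.1 him).2
  refine ⟨⟨?_, ?_, ?_⟩, by linarith⟩
  · intro h
    rw [h, norm_zero] at hz1
    nlinarith
  · nlinarith
  · have : κ * ((1 - c₁) * ‖y‖) ≤ κ * ‖z‖ := by
      apply mul_le_mul_of_nonneg_left _ hκ.le
      linarith
    nlinarith

theorem pair_DD {κ κ₂ c₀ c₁ : ℝ} (hκ : 0 < κ) (hκ1 : κ < 1) (hc₀ : 0 < c₀) (hc₁ : 0 < c₁)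
    (h1 : c₁ ≤ 1 / 8) (h2 : c₁ ≤ c₀ / 4) (h3 : c₁ ≤ (κ - κ₂) / 2) {y z z' : ℂ}
    (hy : y ∈ Rg κ₂) (hz : ‖z - y‖ < c₁ * ‖y‖) (hz' : ‖z' - y‖ < c₁ * ‖y‖) :
    (z, z') ∈ DD κ c₀ := by
  obtain ⟨a1, a2⟩ := ball_sub hκ hκ1 hc₀ hc₁ h1 h2 h3 hy hz
  obtain ⟨b1, b2⟩ := ball_sub hκ hκ1 hc₀ hc₁ h1 h2 h3 hy hz'
  have hn : 0 < ‖y‖ := norm_pos_iff.2 hy.1
  have hd : ‖z' - z‖ < 2 * c₁ * ‖y‖ := by
    have : z' - z = (z' - y) - (z - y) := by ring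
    rw [this]
    have := norm_sub_le (z' - y) (z - y)
    linarith
  refine ⟨a1, b1, ?_, ?_⟩
  · show ‖z' - z‖ < c₀ * ‖z‖
    have : c₀ * ((1 - c₁) * ‖y‖) ≤ c₀ * ‖z‖ := mul_le_mul_of_nonneg_left a2.le hc₀.le
    nlinarith [mul_pos hc₀ hn]
  · show ‖z' - z‖ < c₀ * ‖z'‖
    have : c₀ * ((1 - c₁) * ‖y‖) ≤ c₀ * ‖z'‖ := mul_le_mul_of_nonneg_left b2.le hc₀.le
    nlinarith [mul_pos hc₀ hn]

/-- from L1 to the scaled map -/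
theorem nds_of_ndm (hN : NDM) {κ κ₂ c₀ M : ℝ} {Ψ : ℂ → ℂ → ℂ} (hE : EndPsi κ c₀ M Ψ)
    (hκ₂ : κ₂ < κ) : ∃ (ρ C : ℝ) (G : ℂ × ℂ → ℂ), NDS κ₂ ρ C Ψ G := by
  obtain ⟨ρ, C, hρ, hρ4, hC, hCρ, hF⟩ := hN M
  obtain ⟨c₁, hc₁, h1, h2, h3⟩ : ∃ c₁ : ℝ, 0 < c₁ ∧ c₁ ≤ 1 / 8 ∧ c₁ ≤ c₀ / 4 ∧
      c₁ ≤ (κ - κ₂) / 2 := by
    refine ⟨min (1 / 8) (min (c₀ / 4) ((κ - κ₂) / 2)), ?_, min_le_left _ _, ?_, ?_⟩
    · have := hE.c_pos
      refine lt_min (by norm_num) (lt_min (by linarith) (by linarith))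
    · exact (min_le_right _ _).trans (min_le_left _ _)
    · exact (min_le_right _ _).trans (min_le_right _ _)
  -- the scaled Lagrangian at `y`
  have hPB : ∀ y ∈ Rg κ₂, PsiB (fun u v => Ψ (((c₁ * ‖y‖ : ℝ) : ℂ) * u)
      (((c₁ * ‖y‖ : ℝ) : ℂ) * v)) (y / ((c₁ * ‖y‖ : ℝ) : ℂ)) M := by
    intro y hy
    have hn : 0 < ‖y‖ := norm_pos_iff.2 hy.1
    have hs : 0 < c₁ * ‖y‖ := mul_pos hc₁ hn
    have hsc : ((c₁ * ‖y‖ : ℝ) : ℂ) ≠ 0 := by exact_mod_cast hs.ne'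
    have key : ∀ u ∈ ball (y / ((c₁ * ‖y‖ : ℝ) : ℂ)) 1,
        ‖((c₁ * ‖y‖ : ℝ) : ℂ) * u - y‖ < c₁ * ‖y‖ := by
      intro u hu
      rw [mem_ball, dist_eq_norm] at hu
      have e : ((c₁ * ‖y‖ : ℝ) : ℂ) * u - y =
          ((c₁ * ‖y‖ : ℝ) : ℂ) * (u - y / ((c₁ * ‖y‖ : ℝ) : ℂ)) := by
        field_simp
      rw [e, norm_mul, Complex.norm_real, Real.norm_of_nonneg hs.le]
      nlinarith
    refine ⟨?_, ?_, ?_, ?_⟩
    · have hcomp : DifferentiableOn ℂ (fun p : ℂ × ℂ =>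
          (((c₁ * ‖y‖ : ℝ) : ℂ) * p.1, ((c₁ * ‖y‖ : ℝ) : ℂ) * p.2))
          (ball (y / ((c₁ * ‖y‖ : ℝ) : ℂ)) 1 ×ˢ ball (y / ((c₁ * ‖y‖ : ℝ) : ℂ)) 1) := by
        apply Differentiable.differentiableOn
        fun_prop
      refine hE.diff.comp hcomp ?_
      rintro ⟨u, v⟩ ⟨hu, hv⟩
      exact pair_DD hE.κ_pos hE.κ_lt hE.c_pos hc₁ h1 h2 h3 hy (key u hu) (key v hv)
    · intro u hu v hv
      exact hE.symm _ _ (pair_DD hE.κ_pos hE.κ_lt hE.c_pos hc₁ h1 h2 h3 hy (key u hu) (key v hv))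
    · intro u hu
      exact hE.diag _ (ball_sub hE.κ_pos hE.κ_lt hE.c_pos hc₁ h1 h2 h3 hy (key u hu)).1
    · intro u hu v hv
      exact hE.bound _ _ (pair_DD hE.κ_pos hE.κ_lt hE.c_pos hc₁ h1 h2 h3 hy (key u hu) (key v hv))
  choose! F hF1 hF2 hF3 hF4 using fun (y : ℂ) (hy : y ∈ Rg κ₂) => hF _ _ (hPB y hy)
  set G : ℂ × ℂ → ℂ := fun p =>
    ((c₁ * ‖p.1‖ : ℝ) : ℂ) * F p.1 (p.1 / ((c₁ * ‖p.1‖ : ℝ) : ℂ), p.2 / ((c₁ * ‖p.1‖ : ℝ) : ℂ))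
    with hG
  -- the map with frozen scale
  have hfro : ∀ y₀ ∈ Rg κ₂, ∀ y e : ℂ, ‖y - y₀‖ < c₁ * ‖y₀‖ / 2 → ‖e‖ < ρ * (c₁ * ‖y₀‖) →
      ‖((c₁ * ‖y₀‖ : ℝ) : ℂ) * F y₀ (y / ((c₁ * ‖y₀‖ : ℝ) : ℂ), e / ((c₁ * ‖y₀‖ : ℝ) : ℂ)) - e‖
        ≤ C * ‖e‖ ^ 4 / (c₁ * ‖y₀‖) ^ 3 ∧
      EL Ψ (y - e) y (y + ((c₁ * ‖y₀‖ : ℝ) : ℂ) *
        F y₀ (y / ((c₁ * ‖y₀‖ : ℝ) : ℂ), e / ((c₁ * ‖y₀‖ : ℝ) : ℂ))) = 0 ∧
      ∀ e' : ℂ, ‖e'‖ < ρ * (c₁ * ‖y₀‖) → EL Ψ (y - e) y (y + e') = 0 →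
        e' = ((c₁ * ‖y₀‖ : ℝ) : ℂ) *
          F y₀ (y / ((c₁ * ‖y₀‖ : ℝ) : ℂ), e / ((c₁ * ‖y₀‖ : ℝ) : ℂ)) ∨ e' = -e := by
    intro y₀ hy₀ y e hy he
    have hn : 0 < ‖y₀‖ := norm_pos_iff.2 hy₀.1
    have hs : 0 < c₁ * ‖y₀‖ := mul_pos hc₁ hn
    have hsc : ((c₁ * ‖y₀‖ : ℝ) : ℂ) ≠ 0 := by exact_mod_cast hs.ne'
    have hnorm : ‖((c₁ * ‖y₀‖ : ℝ) : ℂ)‖ = c₁ * ‖y₀‖ := by
      rw [Complex.norm_real, Real.norm_of_nonneg hs.le]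
    set s : ℂ := ((c₁ * ‖y₀‖ : ℝ) : ℂ) with hsdef
    have hyb : y / s ∈ ball (y₀ / s) (1 / 2) := by
      rw [mem_ball, dist_eq_norm, ← sub_div, norm_div, hnorm, div_lt_iff₀ hs]
      linarith
    have heb : e / s ∈ ball (0 : ℂ) ρ := by
      rw [mem_ball, dist_zero_right, norm_div, hnorm, div_lt_iff₀ hs]
      exact he
    refine ⟨?_, ?_, ?_⟩
    · have h := hF2 y₀ hy₀ (y / s) hyb (e / s) heb
      have e1 : s * F y₀ (y / s, e / s) - e = s * (F y₀ (y / s, e / s) - e / s) := by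
        field_simp
      rw [e1, norm_mul, hnorm]
      rw [norm_div, hnorm] at h
      calc c₁ * ‖y₀‖ * ‖F y₀ (y / s, e / s) - e / s‖
          ≤ c₁ * ‖y₀‖ * (C * (‖e‖ / (c₁ * ‖y₀‖)) ^ 4) := mul_le_mul_of_nonneg_left h hs.le
        _ = C * ‖e‖ ^ 4 / (c₁ * ‖y₀‖) ^ 3 := by field_simp
    · have h := hF3 y₀ hy₀ (y / s) hyb (e / s) heb
      rw [EL_scale Ψ s hsc] at h
      rw [div_eq_zero_iff] at h
      rcases h with h | h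
      · have e1 : s * (y / s - e / s) = y - e := by field_simp
        have e2 : s * (y / s) = y := by field_simp
        have e3 : s * (y / s + F y₀ (y / s, e / s)) = y + s * F y₀ (y / s, e / s) := by
          field_simp
        rwa [e1, e2, e3] at h
      · exact absurd h (pow_ne_zero 2 hsc)
    · intro e' he' hEL
      have heb' : e' / s ∈ ball (0 : ℂ) ρ := by
        rw [mem_ball, dist_zero_right, norm_div, hnorm, div_lt_iff₀ hs]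
        exact he'
      have hz : EL (fun u v => Ψ (s * u) (s * v)) (y / s - e / s) (y / s) (y / s + e' / s) = 0 := by
        rw [EL_scale Ψ s hsc]
        have e1 : s * (y / s - e / s) = y - e := by field_simp
        have e2 : s * (y / s) = y := by field_simp
        have e3 : s * (y / s + e' / s) = y + e' := by field_simp
        rw [e1, e2, e3, hEL, zero_div]
      rcases hF4 y₀ hy₀ (y / s) hyb (e / s) heb (e' / s) heb' hz with h | h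
      · left
        rw [← h]; field_simp
      · right
        have : e' = s * (e' / s) := by field_simp
        rw [this, h]; field_simp
  have hself : ∀ y ∈ Rg κ₂, ‖y - y‖ < c₁ * ‖y‖ / 2 := by
    intro y hy
    have hn : 0 < ‖y‖ := norm_pos_iff.2 hy.1
    simp; positivity
  refine ⟨ρ * c₁ / 2, C / c₁ ^ 3, G, ?_, ?_, ?_, ?_, ?_, ?_, ?_, ?_⟩
  · positivity
  · nlinarith
  · positivity
  · have : C / c₁ ^ 3 * (ρ * c₁ / 2) ^ 3 = C * ρ ^ 3 / 8 := by field_simp; ring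
    rw [this]
    have : 0 < C * ρ ^ 3 := by positivity
    linarith
  · -- differentiability
    intro y₀ e₀ hy₀ he₀
    have hn : 0 < ‖y₀‖ := norm_pos_iff.2 hy₀.1
    have hs : 0 < c₁ * ‖y₀‖ := mul_pos hc₁ hn
    have hsc : ((c₁ * ‖y₀‖ : ℝ) : ℂ) ≠ 0 := by exact_mod_cast hs.ne'
    have hnorm : ‖((c₁ * ‖y₀‖ : ℝ) : ℂ)‖ = c₁ * ‖y₀‖ := by
      rw [Complex.norm_real, Real.norm_of_nonneg hs.le]
    set s : ℂ := ((c₁ * ‖y₀‖ : ℝ) : ℂ) with hsdef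
    have hlin : DifferentiableAt ℂ (fun p : ℂ × ℂ => (p.1 / s, p.2 / s)) (y₀, e₀) := by
      fun_prop
    have hmem : ((y₀ / s, e₀ / s) : ℂ × ℂ) ∈ ball (y₀ / s) (1 / 2) ×ˢ ball (0 : ℂ) ρ := by
      refine ⟨mem_ball_self (by norm_num), ?_⟩
      rw [mem_ball, dist_zero_right, norm_div, hnorm, div_lt_iff₀ hs]
      nlinarith
    have hFd : DifferentiableAt ℂ (F y₀) (y₀ / s, e₀ / s) :=
      (hF1 y₀ hy₀).differentiableAt ((isOpen_ball.prod isOpen_ball).mem_nhds hmem)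
    have hd : DifferentiableAt ℂ (fun p : ℂ × ℂ => s * F y₀ (p.1 / s, p.2 / s)) (y₀, e₀) := by
      have := hFd.comp (y₀, e₀) hlin
      exact (differentiableAt_const s).mul this
    refine hd.congr_of_eventuallyEq ?_
    -- local equality by uniqueness
    have ho1 : ∀ᶠ p : ℂ × ℂ in 𝓝 (y₀, e₀), ‖p.1 - y₀‖ < c₁ * ‖y₀‖ / 2 := by
      have hc : Continuous fun p : ℂ × ℂ => ‖p.1 - y₀‖ := by fun_prop
      have := hc.tendsto (y₀, e₀)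
      simp only [sub_self, norm_zero] at this
      exact this.eventually_lt_const (by positivity)
    have ho2 : ∀ᶠ p : ℂ × ℂ in 𝓝 (y₀, e₀), ‖p.2‖ < ρ * c₁ / 2 * ‖y₀‖ := by
      have hc : Continuous fun p : ℂ × ℂ => ‖p.2‖ := by fun_prop
      exact (hc.tendsto (y₀, e₀)).eventually_lt_const he₀
    have ho3 : ∀ᶠ p : ℂ × ℂ in 𝓝 (y₀, e₀), ‖p.2‖ < ρ * c₁ / 2 * ‖p.1‖ := by
      have hc : Continuous fun p : ℂ × ℂ => ρ * c₁ / 2 * ‖p.1‖ - ‖p.2‖ := by fun_prop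
      have := (hc.tendsto (y₀, e₀)).eventually_const_lt
        (show (0 : ℝ) < ρ * c₁ / 2 * ‖y₀‖ - ‖e₀‖ by linarith)
      filter_upwards [this] with p hp
      linarith
    have ho4 : ∀ᶠ p : ℂ × ℂ in 𝓝 (y₀, e₀), p.1 ∈ Rg κ₂ := by
      have hop : IsOpen (Rg κ₂) := by
        have : Rg κ₂ = {τ : ℂ | τ ≠ 0} ∩ ({τ | ‖τ‖ < 7 / 8} ∩ {τ | τ.im < κ₂ * ‖τ‖}) := by
          ext τ; simp [Rg]
        rw [this]
        refine IsOpen.inter isOpen_ne (IsOpen.inter ?_ ?_)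
        · exact isOpen_lt continuous_norm continuous_const
        · exact isOpen_lt Complex.continuous_im (continuous_const.mul continuous_norm)
      exact continuous_fst.continuousAt.eventually_mem (hop.mem_nhds hy₀)
    filter_upwards [ho1, ho2, ho3, ho4] with p p1 p2 p3 p4
    have hpn : 0 < ‖p.1‖ := norm_pos_iff.2 p4.1
    have he0 : ‖p.2‖ < ρ * (c₁ * ‖y₀‖) := by nlinarith [mul_pos hρ hs]
    have he1 : ‖p.2‖ < ρ * (c₁ * ‖p.1‖) := by nlinarith [mul_pos hρ (mul_pos hc₁ hpn)]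
    obtain ⟨a1, a2, -⟩ := hfro y₀ hy₀ p.1 p.2 p1 he0
    obtain ⟨b1, -, b3⟩ := hfro p.1 p4 p.1 p.2 (hself _ p4) he1
    -- smallness: ‖F - e‖ ≤ ‖e‖ / 8
    have hsm : ∀ a : ℝ, 0 < a → ‖p.2‖ < ρ * c₁ / 2 * a →
        C * ‖p.2‖ ^ 4 / (c₁ * a) ^ 3 ≤ ‖p.2‖ / 8 := by
      intro a ha hlt
      rw [div_le_iff₀ (by positivity)]
      have h3 : ‖p.2‖ ^ 3 ≤ (ρ * c₁ / 2 * a) ^ 3 := by
        gcongr
      have h4 : C * ‖p.2‖ ^ 3 ≤ (c₁ * a) ^ 3 / 8 := by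
        calc C * ‖p.2‖ ^ 3 ≤ C * (ρ * c₁ / 2 * a) ^ 3 := by gcongr
          _ = (C * ρ ^ 3) * ((c₁ * a) ^ 3 / 8) := by ring
          _ ≤ 1 / 8 * ((c₁ * a) ^ 3 / 8) := by gcongr
          _ ≤ (c₁ * a) ^ 3 / 8 := by
            have : 0 ≤ (c₁ * a) ^ 3 / 8 := by positivity
            linarith
      have := mul_le_mul_of_nonneg_left h4 (norm_nonneg p.2)
      nlinarith [this]
    have a1' := a1.trans (hsm _ hn p2)
    have b1' := b1.trans (hsm _ hpn p3)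
    set e' : ℂ := s * F y₀ (p.1 / s, p.2 / s) with he'
    have he'n : ‖e'‖ < ρ * (c₁ * ‖p.1‖) := by
      have : ‖e'‖ ≤ ‖e' - p.2‖ + ‖p.2‖ := by
        have := norm_add_le (e' - p.2) p.2
        simpa using this
      have hpos : 0 ≤ ‖p.2‖ := norm_nonneg _
      nlinarith
    rcases b3 e' he'n a2 with h | h
    · simp only [hG]
      exact h.symm
    · -- `e' = -e` forces `e = 0`
      have h0 : ‖p.2‖ = 0 := by
        have h1 : ‖e' - p.2‖ = 2 * ‖p.2‖ := by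
          rw [h]
          have : -p.2 - p.2 = (-2 : ℂ) * p.2 := by ring
          rw [this, norm_mul]; simp
        have hpos : 0 ≤ ‖p.2‖ := norm_nonneg _
        linarith
      have h0' : p.2 = 0 := norm_eq_zero.1 h0
      have e1 : G p = 0 := by
        have : ‖G p - p.2‖ ≤ 0 := by
          have := b1'
          rw [h0] at this
          simpa [hG] using this
        have := norm_le_zero_iff.1 this
        rw [h0', sub_zero] at this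
        exact this
      rw [e1]
      have : e' = 0 := by rw [h, h0', neg_zero]
      exact this.symm
  · intro y e hy he
    have hn : 0 < ‖y‖ := norm_pos_iff.2 hy.1
    have he1 : ‖e‖ < ρ * (c₁ * ‖y‖) := by nlinarith [mul_pos hρ (mul_pos hc₁ hn)]
    obtain ⟨b1, -, -⟩ := hfro y hy y e (hself _ hy) he1
    refine b1.trans (le_of_eq ?_)
    field_simp
  · intro y e hy he
    have hn : 0 < ‖y‖ := norm_pos_iff.2 hy.1
    have he1 : ‖e‖ < ρ * (c₁ * ‖y‖) := by nlinarith [mul_pos hρ (mul_pos hc₁ hn)]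
    exact (hfro y hy y e (hself _ hy) he1).2.1
  · intro y e e' hy he he' hEL
    have hn : 0 < ‖y‖ := norm_pos_iff.2 hy.1
    have he1 : ‖e‖ < ρ * (c₁ * ‖y‖) := by nlinarith [mul_pos hρ (mul_pos hc₁ hn)]
    have he2 : ‖e'‖ < ρ * (c₁ * ‖y‖) := by nlinarith [mul_pos hρ (mul_pos hc₁ hn)]
    exact (hfro y hy y e (hself _ hy) he1).2.2 e' he2 hEL

/-! ### Part 2: orbit bounds -/

/-- one step of the orbit: `(x, e) ↦ (x + e', e')`, `e' = G (x, e)` -/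
def stp (G : ℂ × ℂ → ℂ) (p : ℂ × ℂ) : ℂ × ℂ := (p.1 + G p, G p)

/-- geometric hypotheses on the reference orbit `T₀ - j w`, `j ≤ k`, with gauge `g₀ - j ‖w‖` -/
structure Ref (κ' c : ℝ) (T₀ w : ℂ) (g₀ : ℝ) (k : ℕ) : Prop where
  w0 : w ≠ 0
  g_lt : g₀ < 3 / 4
  small : ∀ j : ℕ, j ≤ k → ‖w‖ < c * (g₀ - j * ‖w‖)
  lower : ∀ j : ℕ, j ≤ k → (g₀ - j * ‖w‖) / 2 ≤ ‖T₀ - j * w‖
  upper : ∀ j : ℕ, j ≤ k → ‖T₀ - j * w‖ ≤ g₀ - j * ‖w‖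
  sect : ∀ j : ℕ, j ≤ k → (T₀ - j * w).im < κ' * ‖T₀ - j * w‖

/-- if `e` is close to `-w` and `x` close to `T` in gauge `g` then `(x,e)` is admissible -/
theorem adm_state {κ' κ₂ ρ A B c δ g : ℝ} {T w x e : ℂ} (hκ' : 0 < κ') (hκ1 : κ₂ < 1) (hρ : 0 < ρ)
    (hA : 0 ≤ A) (hB : 0 ≤ B) (hc : 0 < c) (hδ8 : δ ≤ 1 / 8) (hδκ : 8 * δ ≤ κ₂ - κ')
    (hAc : A * c ^ 2 ≤ 1) (hBc : B * c ^ 2 ≤ δ) (hcρ : 8 * c ≤ ρ)
    (hg : 0 < g) (hg1 : g < 3 / 4) (hw : ‖w‖ < c * g) (hlow : g / 2 ≤ ‖T‖) (hup : ‖T‖ ≤ g)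
    (hs : T.im < κ' * ‖T‖) (he : ‖e + w‖ * g ^ 2 ≤ A * ‖w‖ ^ 3)
    (hx : ‖x - T‖ * g ≤ B * ‖w‖ ^ 2) :
    ‖e‖ ≤ 2 * ‖w‖ ∧ ‖x - T‖ ≤ δ * g ∧ g / 4 ≤ ‖x‖ ∧ x ∈ Rg κ₂ ∧ ‖e‖ < ρ * ‖x‖ := by
  have hwn : 0 ≤ ‖w‖ := norm_nonneg w
  have hw2 : ‖w‖ ^ 2 ≤ c ^ 2 * g ^ 2 := by
    have := pow_le_pow_left₀ hwn hw.le 2
    linarith [mul_pow c g 2]
  have h1 : ‖e + w‖ ≤ ‖w‖ := by
    have h : ‖e + w‖ * g ^ 2 ≤ ‖w‖ * g ^ 2 := by
      calc ‖e + w‖ * g ^ 2 ≤ A * ‖w‖ ^ 3 := he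
        _ = A * ‖w‖ ^ 2 * ‖w‖ := by ring
        _ ≤ A * (c ^ 2 * g ^ 2) * ‖w‖ := by gcongr
        _ = (A * c ^ 2) * (g ^ 2 * ‖w‖) := by ring
        _ ≤ 1 * (g ^ 2 * ‖w‖) := by gcongr
        _ = ‖w‖ * g ^ 2 := by ring
    exact le_of_mul_le_mul_right h (by positivity)
  have he2 : ‖e‖ ≤ 2 * ‖w‖ := by
    have : e = (e + w) - w := by ring
    rw [this]
    have := norm_sub_le (e + w) w
    linarith
  have h2 : ‖x - T‖ ≤ δ * g := by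
    have h : ‖x - T‖ * g ≤ δ * g * g := by
      calc ‖x - T‖ * g ≤ B * ‖w‖ ^ 2 := hx
        _ ≤ B * (c ^ 2 * g ^ 2) := by gcongr
        _ = (B * c ^ 2) * (g * g) := by ring
        _ ≤ δ * (g * g) := by gcongr
        _ = δ * g * g := by ring
    exact le_of_mul_le_mul_right h hg
  have hx1 : ‖T‖ - ‖x - T‖ ≤ ‖x‖ := by
    have := norm_sub_norm_le T x
    have h' : ‖T - x‖ = ‖x - T‖ := norm_sub_rev _ _
    linarith
  have hx2 : ‖x‖ ≤ ‖T‖ + ‖x - T‖ := by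
    have := norm_sub_norm_le x T
    linarith
  have hδg : δ * g ≤ g / 8 := by nlinarith
  have h3 : g / 4 ≤ ‖x‖ := by linarith
  have hxpos : 0 < ‖x‖ := by linarith
  have him : x.im ≤ T.im + ‖x - T‖ := by
    have := Complex.abs_im_le_norm (x - T)
    have h' : x.im - T.im ≤ |(x - T).im| := by
      rw [Complex.sub_im]; exact le_abs_self _
    linarith
  have hT : ‖T‖ ≤ ‖x‖ + δ * g := by linarith
  refine ⟨he2, h2, h3, ⟨norm_pos_iff.1 hxpos, by nlinarith, ?_⟩, by nlinarith⟩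
  have hκ'1 : κ' < 1 := by
    by_cases hδ : 0 ≤ δ
    · linarith
    · exfalso
      have : 0 ≤ B * c ^ 2 := by positivity
      linarith
  have hδ0 : 0 ≤ δ := le_trans (by positivity) hBc
  have e1 : κ' * ‖T‖ ≤ κ' * ‖x‖ + δ * g := by nlinarith
  have e2 : 2 * (δ * g) ≤ 8 * δ * ‖x‖ := by nlinarith
  have e3 : 8 * δ * ‖x‖ ≤ (κ₂ - κ') * ‖x‖ := by nlinarith
  nlinarith

theorem gauge1 {W g : ℝ} (hW : 0 ≤ W) (hg : W < g) :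
    (1 / g ^ 2 + W / g ^ 3) * (g - W) ^ 2 ≤ 1 := by
  have hg0 : 0 < g := by linarith
  have : (1 / g ^ 2 + W / g ^ 3) * (g - W) ^ 2 = (g + W) * (g - W) ^ 2 / g ^ 3 := by
    field_simp
  rw [this, div_le_one (by positivity)]
  have h1 : (g + W) * (g - W) ≤ g ^ 2 := by nlinarith
  have h2 : g - W ≤ g := by linarith
  have h3 : 0 ≤ g - W := by linarith
  calc (g + W) * (g - W) ^ 2 = ((g + W) * (g - W)) * (g - W) := by ring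
    _ ≤ g ^ 2 * (g - W) := by gcongr
    _ ≤ g ^ 2 * g := by gcongr
    _ = g ^ 3 := by ring

theorem gauge2 {A B W g : ℝ} (hA : 0 < A) (hAB : 2 * A ≤ B) (hW : 0 < W) (hg : W ≤ g - W) :
    (B * W ^ 2 / g + A * W ^ 3 / (g - W) ^ 2) * (g - W) ≤ B * W ^ 2 := by
  have hg0 : 0 < g := by linarith
  have hgp' : 0 < g - W := by linarith
  have v1 : A * W ^ 3 / (g - W) ^ 2 * (g - W) = A * W ^ 3 / (g - W) := by
    field_simp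
  have v2 : A * W ^ 3 / (g - W) ≤ B * W ^ 3 / g := by
    rw [div_le_div_iff₀ hgp' hg0]
    have h1 : A * W ^ 3 * g ≤ A * W ^ 3 * (2 * (g - W)) := by
      gcongr; linarith
    have h' : (2 * A) * (W ^ 3 * (g - W)) ≤ B * (W ^ 3 * (g - W)) := by gcongr
    linarith
  have v3 : B * W ^ 2 / g * (g - W) + B * W ^ 3 / g = B * W ^ 2 := by
    field_simp; ring
  rw [add_mul, v1]
  linarith

set_option maxHeartbeats 1000000 in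
/-- **orbit bounds** -/
theorem orbit {κ' κ₂ ρ C A₀ B₀ : ℝ} {Ψ : ℂ → ℂ → ℂ} {G : ℂ × ℂ → ℂ} (hG : NDS κ₂ ρ C Ψ G)
    (hκ' : 0 < κ') (hκ : κ' < κ₂) (hκ1 : κ₂ < 1) :
    ∃ A B c₁ : ℝ, 0 < A ∧ 0 < B ∧ 0 < c₁ ∧ c₁ ≤ 1 / 64 ∧ ∀ (c : ℝ) (T₀ w : ℂ) (g₀ : ℝ) (k : ℕ)
      (p₀ : ℂ × ℂ), 0 < c → c ≤ c₁ → Ref κ' c T₀ w g₀ k → ‖p₀.2 + w‖ ≤ A₀ * ‖w‖ ^ 3 →
      ‖p₀.1 - T₀‖ ≤ B₀ * ‖w‖ ^ 2 → ∀ j : ℕ, j ≤ k →
        ‖((stp G)^[j] p₀).2 + w‖ * (g₀ - j * ‖w‖) ^ 2 ≤ A * ‖w‖ ^ 3 ∧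
        ‖((stp G)^[j] p₀).1 - (T₀ - j * w)‖ * (g₀ - j * ‖w‖) ≤ B * ‖w‖ ^ 2 ∧
        ((stp G)^[j] p₀).1 ∈ Rg κ₂ ∧ ‖((stp G)^[j] p₀).2‖ < ρ * ‖((stp G)^[j] p₀).1‖ ∧
        ‖((stp G)^[j] p₀).1 - (T₀ - j * w)‖ ≤ (g₀ - j * ‖w‖) / 8 ∧
        ‖((stp G)^[j] p₀).2‖ ≤ 2 * ‖w‖ := by
  obtain ⟨A, hA0, hA1, hA⟩ : ∃ A : ℝ, A₀ ≤ A ∧ 1024 * C ≤ A ∧ 0 < A := by
    refine ⟨max A₀ (1024 * C), le_max_left _ _, le_max_right _ _, ?_⟩
    exact lt_of_lt_of_le (by have := hG.C_pos; positivity) (le_max_right _ _)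
  obtain ⟨B, hB0, hB1, hB⟩ : ∃ B : ℝ, B₀ ≤ B ∧ 2 * A ≤ B ∧ 0 < B :=
    ⟨max B₀ (2 * A), le_max_left _ _, le_max_right _ _, lt_of_lt_of_le (by positivity)
      (le_max_right _ _)⟩
  obtain ⟨δ, hδ, hδ8, hδκ⟩ : ∃ δ : ℝ, 0 < δ ∧ δ ≤ 1 / 8 ∧ 8 * δ ≤ κ₂ - κ' := by
    refine ⟨min (1 / 8) ((κ₂ - κ') / 8), lt_min (by norm_num) (by linarith), min_le_left _ _, ?_⟩
    have := min_le_right (1 / 8 : ℝ) ((κ₂ - κ') / 8)
    linarith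
  obtain ⟨c₁, hc₁, h64, hc1, hc2, hc3⟩ : ∃ c₁ : ℝ, 0 < c₁ ∧ c₁ ≤ 1 / 64 ∧ A * c₁ ^ 2 ≤ 1 ∧
      B * c₁ ^ 2 ≤ δ ∧ 8 * c₁ ≤ ρ := by
    have hρ := hG.ρ_pos
    refine ⟨min (1 / 64) (min (ρ / 8) (δ / (A + B + 1))), ?_, min_le_left _ _, ?_, ?_, ?_⟩
    · exact lt_min (by norm_num) (lt_min (by positivity) (by positivity))
    all_goals
      set c := min (1 / 64) (min (ρ / 8) (δ / (A + B + 1))) with hc
      have i1 : c ≤ 1 / 64 := min_le_left _ _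
      have i2 : c ≤ ρ / 8 := (min_le_right _ _).trans (min_le_left _ _)
      have i3 : c ≤ δ / (A + B + 1) := (min_le_right _ _).trans (min_le_right _ _)
      have i0 : 0 < c := lt_min (by norm_num) (lt_min (by positivity) (by positivity))
      rw [le_div_iff₀ (by positivity)] at i3
    · nlinarith [mul_pos hA i0, mul_pos hB i0]
    · nlinarith [mul_pos hA i0, mul_pos hB i0]
    · linarith
  refine ⟨A, B, c₁, hA, hB, hc₁, h64, ?_⟩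
  intro c T₀ w g₀ k p₀ hc hcc hR he0 hx0
  have hAc : A * c ^ 2 ≤ 1 := le_trans (by gcongr) hc1
  have hBc : B * c ^ 2 ≤ δ := le_trans (by gcongr) hc2
  have hcρ : 8 * c ≤ ρ := by linarith
  have hwn : 0 < ‖w‖ := norm_pos_iff.2 hR.w0
  have hgpos : ∀ j : ℕ, j ≤ k → 0 < g₀ - j * ‖w‖ := by
    intro j hj
    have := hR.small j hj
    by_contra hcon
    push Not at hcon
    nlinarith
  have hgle : ∀ j : ℕ, g₀ - j * ‖w‖ < 3 / 4 := by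
    intro j
    have : 0 ≤ (j : ℝ) * ‖w‖ := by positivity
    linarith [hR.g_lt]
  -- main induction
  have main : ∀ j : ℕ, j ≤ k →
      ‖((stp G)^[j] p₀).2 + w‖ * (g₀ - j * ‖w‖) ^ 2 ≤ A * ‖w‖ ^ 3 ∧
        ‖((stp G)^[j] p₀).1 - (T₀ - j * w)‖ * (g₀ - j * ‖w‖) ≤ B * ‖w‖ ^ 2 := by
    intro j
    induction j with
    | zero =>
      intro _
      have hg := hgpos 0 (Nat.zero_le _)
      have hg1 := hgle 0
      simp only [Nat.cast_zero, zero_mul, sub_zero, Function.iterate_zero, id_eq] at hg hg1 ⊢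
      constructor
      · calc ‖p₀.2 + w‖ * g₀ ^ 2 ≤ ‖p₀.2 + w‖ * 1 := by
              gcongr
              nlinarith
          _ ≤ A₀ * ‖w‖ ^ 3 := by linarith
          _ ≤ A * ‖w‖ ^ 3 := by gcongr
      · calc ‖p₀.1 - T₀‖ * g₀ ≤ ‖p₀.1 - T₀‖ * 1 := by
              gcongr
              linarith
          _ ≤ B₀ * ‖w‖ ^ 2 := by linarith
          _ ≤ B * ‖w‖ ^ 2 := by gcongr
    | succ j ih =>
      intro hj
      have hj' : j ≤ k := by omega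
      obtain ⟨ih1, ih2⟩ := ih hj'
      have hg := hgpos j hj'
      have hg1 := hgle j
      obtain ⟨s1, s2, s3, s4, s5⟩ := adm_state (T := T₀ - j * w) (w := w)
        (x := ((stp G)^[j] p₀).1) (e := ((stp G)^[j] p₀).2) hκ' hκ1 hG.ρ_pos hA.le hB.le hc
        hδ8 hδκ hAc hBc hcρ hg hg1 (hR.small j hj') (hR.lower j hj') (hR.upper j hj')
        (hR.sect j hj') ih1 ih2
      rw [Function.iterate_succ_apply']
      set x := ((stp G)^[j] p₀).1 with hx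
      set e := ((stp G)^[j] p₀).2 with he
      have hpe : (stp G)^[j] p₀ = (x, e) := rfl
      rw [hpe]
      have hst : stp G (x, e) = (x + G (x, e), G (x, e)) := rfl
      rw [hst]
      simp only
      have hnear := hG.near x e s4 s5
      set g := g₀ - j * ‖w‖ with hgdef
      have hg' : g₀ - ((j + 1 : ℕ) : ℝ) * ‖w‖ = g - ‖w‖ := by
        push_cast; ring
      have hgp' : 0 < g - ‖w‖ := by
        rw [← hg']; exact hgpos (j + 1) hj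
      have hw' : ‖w‖ < c * (g - ‖w‖) := by
        rw [← hg']; exact hR.small (j + 1) hj
      rw [hg']
      -- step bound
      have hstep : ‖G (x, e) - e‖ ≤ 1024 * C * ‖w‖ ^ 4 / g ^ 3 := by
        refine hnear.trans ?_
        have hC := hG.C_pos
        have h4 : ‖e‖ ^ 4 ≤ (2 * ‖w‖) ^ 4 := by gcongr
        have hx3 : (g / 4) ^ 3 ≤ ‖x‖ ^ 3 := by gcongr
        calc C * ‖e‖ ^ 4 / ‖x‖ ^ 3 ≤ C * (2 * ‖w‖) ^ 4 / (g / 4) ^ 3 := by gcongr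
          _ = 1024 * C * ‖w‖ ^ 4 / g ^ 3 := by field_simp; ring
      have ha : ‖G (x, e) + w‖ * (g - ‖w‖) ^ 2 ≤ A * ‖w‖ ^ 3 := by
        have t1 : ‖G (x, e) + w‖ ≤ ‖e + w‖ + ‖G (x, e) - e‖ := by
          have : G (x, e) + w = (e + w) + (G (x, e) - e) := by ring
          rw [this]; exact norm_add_le _ _
        have t2 : ‖e + w‖ ≤ A * ‖w‖ ^ 3 / g ^ 2 := by
          rw [le_div_iff₀ (by positivity)]; exact ih1
        have t3 : ‖G (x, e) - e‖ ≤ A * ‖w‖ ^ 4 / g ^ 3 := by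
          refine hstep.trans ?_
          gcongr
        have t4 : ‖G (x, e) + w‖ ≤ A * ‖w‖ ^ 3 * (1 / g ^ 2 + ‖w‖ / g ^ 3) := by
          calc ‖G (x, e) + w‖ ≤ A * ‖w‖ ^ 3 / g ^ 2 + A * ‖w‖ ^ 4 / g ^ 3 := by linarith
            _ = A * ‖w‖ ^ 3 * (1 / g ^ 2 + ‖w‖ / g ^ 3) := by field_simp
        have t5 : (1 / g ^ 2 + ‖w‖ / g ^ 3) * (g - ‖w‖) ^ 2 ≤ 1 :=
          gauge1 (norm_nonneg w) (by linarith)
        calc ‖G (x, e) + w‖ * (g - ‖w‖) ^ 2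
            ≤ A * ‖w‖ ^ 3 * (1 / g ^ 2 + ‖w‖ / g ^ 3) * (g - ‖w‖) ^ 2 := by gcongr
          _ = A * ‖w‖ ^ 3 * ((1 / g ^ 2 + ‖w‖ / g ^ 3) * (g - ‖w‖) ^ 2) := by ring
          _ ≤ A * ‖w‖ ^ 3 * 1 := by gcongr
          _ = A * ‖w‖ ^ 3 := by ring
      refine ⟨ha, ?_⟩
      have u1 : x + G (x, e) - (T₀ - ((j + 1 : ℕ) : ℂ) * w) =
          (x - (T₀ - j * w)) + (G (x, e) + w) := by
        push_cast; ring
      rw [u1]
      have u2 : ‖x - (T₀ - j * w)‖ ≤ B * ‖w‖ ^ 2 / g := by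
        rw [le_div_iff₀ hg]; exact ih2
      have u3 : ‖G (x, e) + w‖ ≤ A * ‖w‖ ^ 3 / (g - ‖w‖) ^ 2 := by
        rw [le_div_iff₀ (by positivity)]; exact ha
      have u4 : ‖x - (T₀ - j * w) + (G (x, e) + w)‖ ≤
          B * ‖w‖ ^ 2 / g + A * ‖w‖ ^ 3 / (g - ‖w‖) ^ 2 := (norm_add_le _ _).trans (by linarith)
      have hwg : ‖w‖ ≤ g - ‖w‖ := by
        have : c * (g - ‖w‖) ≤ 1 * (g - ‖w‖) := by
          gcongr; linarith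
        linarith
      have u5 : (B * ‖w‖ ^ 2 / g + A * ‖w‖ ^ 3 / (g - ‖w‖) ^ 2) * (g - ‖w‖) ≤ B * ‖w‖ ^ 2 :=
        gauge2 hA hB1 hwn hwg
      calc ‖x - (T₀ - j * w) + (G (x, e) + w)‖ * (g - ‖w‖)
          ≤ (B * ‖w‖ ^ 2 / g + A * ‖w‖ ^ 3 / (g - ‖w‖) ^ 2) * (g - ‖w‖) := by gcongr
        _ ≤ B * ‖w‖ ^ 2 := u5
  intro j hj
  obtain ⟨m1, m2⟩ := main j hj
  obtain ⟨s1, s2, s3, s4, s5⟩ := adm_state (T := T₀ - j * w) (w := w)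
    (x := ((stp G)^[j] p₀).1) (e := ((stp G)^[j] p₀).2) hκ' hκ1 hG.ρ_pos hA.le hB.le hc
    hδ8 hδκ hAc hBc hcρ (hgpos j hj) (hgle j) (hR.small j hj) (hR.lower j hj) (hR.upper j hj)
    (hR.sect j hj) m1 m2
  refine ⟨m1, m2, s4, s5, ?_, s1⟩
  have := hgpos j hj
  nlinarith

end L2

end Crest.Agent.R102.T5R
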