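import Crest.Agent.R102.T5ConeA_160

/-!
Row 102, T5-L2 (helper160): `T5R.NDM → T5R.Cone`, second part.
-/

set_option autoImplicit false

open Set Filter Topology Metric

noncomputable section

namespace Crest.Agent.R102.T5R

namespace L2

/-! ### Part 3: geometry of the reference orbit -/

theorem geo {κ' a : ℝ} {t w : ℂ} (hκ' : 0 < κ') (hκ1 : κ' < 1)
    (ht1 : ‖t + Complex.I * (‖t‖ : ℂ)‖ ≤ ‖t‖ / 10) (hw : w.im ≤ κ' / 10 * ‖w‖) (ha : 0 ≤ a) :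
    (‖t‖ + a * ‖w‖) / 2 ≤ ‖t + a * w‖ ∧ ‖t + a * w‖ ≤ ‖t‖ + a * ‖w‖ ∧
      (t + a * w).im ≤ κ' / 5 * ‖t + a * w‖ := by
  have hn : 0 ≤ ‖t‖ := norm_nonneg t
  have hW : 0 ≤ ‖w‖ := norm_nonneg w
  set n := ‖t‖ with hndef
  set W := ‖w‖ with hWdef
  have hup : ‖t + a * w‖ ≤ n + a * W := by
    refine (norm_add_le _ _).trans ?_
    rw [norm_mul, Complex.norm_real, Real.norm_of_nonneg ha]
  -- main part
  have hz : (3 / 5) * (n + a * W) ≤ ‖(a : ℂ) * w - Complex.I * (n : ℂ)‖ := by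
    have h1 : ‖(a : ℂ) * w - Complex.I * (n : ℂ)‖ ^ 2 = (a * w.re) ^ 2 + (a * w.im - n) ^ 2 := by
      rw [Complex.sq_norm, Complex.normSq_apply]
      simp
      ring
    have h2 : W ^ 2 = w.re ^ 2 + w.im ^ 2 := by
      rw [hWdef, Complex.sq_norm, Complex.normSq_apply]; ring
    have h3 : ((3 / 5) * (n + a * W)) ^ 2 ≤ ‖(a : ℂ) * w - Complex.I * (n : ℂ)‖ ^ 2 := by
      rw [h1]
      have h4 : (a * w.re) ^ 2 + (a * w.im - n) ^ 2 = a ^ 2 * W ^ 2 - 2 * (a * n) * w.im + n ^ 2 := by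
        rw [h2]; ring
      rw [h4]
      have h5 : a * n * w.im ≤ a * n * (κ' / 10 * W) := mul_le_mul_of_nonneg_left hw (by positivity)
      have h6 : a * n * (κ' / 10 * W) ≤ (1 / 10) * (a * W * n) := by
        have : 0 ≤ a * W * n := by positivity
        nlinarith
      nlinarith [sq_nonneg (n - a * W)]
    exact (pow_le_pow_iff_left₀ (by positivity) (norm_nonneg _) two_ne_zero).1 h3
  have hlow : (n + a * W) / 2 ≤ ‖t + a * w‖ := by
    have e : (a : ℂ) * w - Complex.I * (n : ℂ) = (t + a * w) - (t + Complex.I * (n : ℂ)) := by ring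
    have h := norm_sub_le (t + a * w) (t + Complex.I * (n : ℂ))
    rw [← e] at h
    have : 0 ≤ a * W := by positivity
    linarith
  refine ⟨hlow, hup, ?_⟩
  have him : t.im ≤ -n + n / 10 := by
    have h := Complex.abs_im_le_norm (t + Complex.I * (n : ℂ))
    have e : (t + Complex.I * (n : ℂ)).im = t.im + n := by simp
    rw [e] at h
    have := le_abs_self (t.im + n)
    linarith
  have e : (t + a * w).im = t.im + a * w.im := by simp
  rw [e]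
  have h1 : a * w.im ≤ a * (κ' / 10 * W) := mul_le_mul_of_nonneg_left hw ha
  have h2 : κ' / 5 * ((n + a * W) / 2) ≤ κ' / 5 * ‖t + a * w‖ := by gcongr
  nlinarith

theorem ref_of {κ' c : ℝ} {t w : ℂ} {k : ℕ} (hκ' : 0 < κ') (hκ1 : κ' < 1) (ht0 : t ≠ 0)
    (ht1 : ‖t + Complex.I * (‖t‖ : ℂ)‖ ≤ ‖t‖ / 10) (hw : w.im ≤ κ' / 10 * ‖w‖) (hw0 : w ≠ 0)
    (hc : 0 < c) (hwc : ‖w‖ < c * ‖t‖) (hk : ‖t‖ + k * ‖w‖ < 3 / 4) :
    Ref κ' c (t + k * w) w (‖t‖ + k * ‖w‖) k := by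
  have key : ∀ j : ℕ, j ≤ k → 0 ≤ (k : ℝ) - j ∧
      t + k * w - j * w = t + ((k - j : ℝ) : ℂ) * w ∧
      ‖t‖ + k * ‖w‖ - j * ‖w‖ = ‖t‖ + ((k : ℝ) - j) * ‖w‖ := by
    intro j hj
    refine ⟨sub_nonneg.2 (by exact_mod_cast hj), by push_cast; ring, by ring⟩
  refine ⟨hw0, hk, ?_, ?_, ?_, ?_⟩
  · intro j hj
    obtain ⟨h0, -, h2⟩ := key j hj
    rw [h2]
    have : 0 ≤ ((k : ℝ) - j) * ‖w‖ := mul_nonneg h0 (norm_nonneg _)
    nlinarith
  · intro j hj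
    obtain ⟨h0, h1, h2⟩ := key j hj
    rw [h1, h2]
    exact (geo hκ' hκ1 ht1 hw h0).1
  · intro j hj
    obtain ⟨h0, h1, h2⟩ := key j hj
    rw [h1, h2]
    exact (geo hκ' hκ1 ht1 hw h0).2.1
  · intro j hj
    obtain ⟨h0, h1, h2⟩ := key j hj
    rw [h1]
    have h := geo hκ' hκ1 ht1 hw h0
    refine lt_of_le_of_lt h.2.2 ?_
    have hn : 0 < ‖t‖ := norm_pos_iff.2 ht0
    have : 0 ≤ ((k : ℝ) - j) * ‖w‖ := mul_nonneg h0 (norm_nonneg _)
    have hpos : 0 < ‖t + ((k - j : ℝ) : ℂ) * w‖ := by linarith [h.1]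
    nlinarith

/-! ### Part 4: the family at macroscopic points -/

/-- smallness of `W = ‖w‖` at level `a` -/
structure Sm (κ' ρ : ℝ) (r B : ℝ → ℝ) (a W : ℝ) : Prop where
  rad : W < r a
  b1 : 8 * |B a| * W ≤ 1
  b2 : |B a| * W ^ 2 ≤ κ' / 10 * a
  b3 : |B a| * W ^ 2 ≤ 1 / 16
  b4 : 4 * W ≤ ρ * a

theorem exists_sm {κ κ' : ℝ} {ρ : ℝ} {Ψ : ℂ → ℂ → ℂ} {r B : ℝ → ℝ} {X : ℂ × ℂ → ℂ}
    (hX : Fam κ Ψ r B X) (hκ' : 0 < κ') (hρ : 0 < ρ) {a : ℝ} (ha : 0 < a) :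
    ∃ σ : ℝ, 0 < σ ∧ σ ≤ 1 ∧ ∀ W : ℝ, 0 ≤ W → W < σ → Sm κ' ρ r B a W := by
  have hr := hX.r_pos a ha
  have hB : 0 ≤ |B a| := abs_nonneg _
  set m := min (1 / 16) (κ' / 10 * a) with hm
  have hmpos : 0 < m := lt_min (by norm_num) (by positivity)
  have hm1 : m ≤ 1 / 16 := min_le_left _ _
  have hm2 : m ≤ κ' / 10 * a := min_le_right _ _
  set σ := min 1 (min (r a) (min (ρ * a / 4) (m / (|B a| + 1)))) with hσ
  have i0 : 0 < σ := lt_min one_pos (lt_min hr (lt_min (by positivity) (by positivity)))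
  have i1 : σ ≤ 1 := min_le_left _ _
  have i2 : σ ≤ r a := (min_le_right _ _).trans (min_le_left _ _)
  have i3 : σ ≤ ρ * a / 4 := (min_le_right _ _).trans ((min_le_right _ _).trans (min_le_left _ _))
  have i4 : σ ≤ m / (|B a| + 1) :=
    (min_le_right _ _).trans ((min_le_right _ _).trans (min_le_right _ _))
  rw [le_div_iff₀ (by positivity)] at i4
  refine ⟨σ, i0, i1, ?_⟩
  intro W hW0 hW
  have hBW : |B a| * W ≤ m := by nlinarith
  have hBW2 : |B a| * W ^ 2 ≤ m := by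
    have : |B a| * W ^ 2 = (|B a| * W) * W := by ring
    rw [this]
    nlinarith [mul_nonneg hB hW0]
  refine ⟨by linarith, by linarith, by linarith, by linarith, by linarith⟩

/-- good macroscopic points -/
structure Gd (κ' a : ℝ) (S : ℂ) : Prop where
  low : a < ‖S‖
  up : ‖S‖ < 13 / 16
  im : S.im ≤ κ' / 5 * ‖S‖

theorem Gd.sg {κ' a : ℝ} {S : ℂ} (h : Gd κ' a S) (hκ' : 0 < κ') (ha : 0 < a) : S ∈ Sg κ' := by
  have hn : 0 < ‖S‖ := ha.trans h.low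
  refine ⟨norm_pos_iff.1 hn, by linarith [h.up], ?_⟩
  have := h.im
  nlinarith

/-- starting state of the orbit -/
def start (X : ℂ × ℂ → ℂ) (T w : ℂ) : ℂ × ℂ := (X (T, w), X (T, w) - X (T + w, w))

/-- the family is carried to itself by one step -/
theorem match_step {κ' κ₂ ρ C a : ℝ} {Ψ : ℂ → ℂ → ℂ} {G : ℂ × ℂ → ℂ} {r B : ℝ → ℝ}
    {X : ℂ × ℂ → ℂ} (hG : NDS κ₂ ρ C Ψ G) (hX : Fam κ' Ψ r B X) (hκ' : 0 < κ')
    (hκ : κ' < κ₂) (hκ1 : κ₂ < 1) (ha : 0 < a) {T w : ℂ} (hw0 : w ≠ 0)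
    (hS : Sm κ' ρ r B a ‖w‖) (h0 : Gd κ' a T) (h1 : Gd κ' a (T + w)) (h2 : Gd κ' a (T + w + w)) :
    stp G (start X (T + w) w) = start X T w := by
  have hWpos : 0 < ‖w‖ := norm_pos_iff.2 hw0
  have hBn : ∀ S, Gd κ' a S → ‖X (S, w) - S‖ ≤ |B a| * ‖w‖ ^ 2 := by
    intro S hSd
    refine (hX.near a ha S w (hSd.sg hκ' ha) hSd.low hS.rad).trans ?_
    gcongr
    exact le_abs_self _
  have n0 := hBn _ h0
  have n1 := hBn _ h1
  have n2 := hBn _ h2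
  set y := X (T + w, w) with hy
  set e := y - X (T + w + w, w) with he
  set e' := X (T, w) - y with he'
  have hb1 : |B a| * ‖w‖ ^ 2 ≤ ‖w‖ / 8 := by
    have := hS.b1
    nlinarith
  have hew : ‖e + w‖ ≤ ‖w‖ / 4 := by
    have : e + w = (y - (T + w)) - (X (T + w + w, w) - (T + w + w)) := by rw [he]; ring
    rw [this]
    have := norm_sub_le (y - (T + w)) (X (T + w + w, w) - (T + w + w))
    linarith
  have hew' : ‖e' + w‖ ≤ ‖w‖ / 4 := by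
    have : e' + w = (X (T, w) - T) - (y - (T + w)) := by rw [he']; ring
    rw [this]
    have := norm_sub_le (X (T, w) - T) (y - (T + w))
    linarith
  have hen : ‖e‖ ≤ 2 * ‖w‖ := by
    have : e = (e + w) - w := by ring
    rw [this]
    have := norm_sub_le (e + w) w
    linarith
  have hen' : ‖e'‖ ≤ 2 * ‖w‖ := by
    have : e' = (e' + w) - w := by ring
    rw [this]
    have := norm_sub_le (e' + w) w
    linarith
  -- `y ∈ Rg κ₂`
  have hyl : ‖T + w‖ - |B a| * ‖w‖ ^ 2 ≤ ‖y‖ := by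
    have := norm_sub_norm_le (T + w) y
    have h' : ‖T + w - y‖ = ‖y - (T + w)‖ := norm_sub_rev _ _
    linarith
  have hyu : ‖y‖ ≤ ‖T + w‖ + |B a| * ‖w‖ ^ 2 := by
    have := norm_sub_norm_le y (T + w)
    linarith
  have hb2 := hS.b2
  have hb3 := hS.b3
  have hb4 := hS.b4
  have hκ'1 : κ' < 1 := by linarith
  have hya : a / 2 < ‖y‖ := by
    have := h1.low
    nlinarith
  have hyR : y ∈ Rg κ₂ := by
    refine ⟨norm_pos_iff.1 (by linarith), ?_, ?_⟩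
    · have := h1.up
      linarith
    · have him : y.im ≤ (T + w).im + ‖y - (T + w)‖ := by
        have := Complex.abs_im_le_norm (y - (T + w))
        have h' : y.im - (T + w).im ≤ |(y - (T + w)).im| := by
          rw [Complex.sub_im]; exact le_abs_self _
        linarith
      have h3 := h1.im
      have h4 : κ' / 5 * ‖T + w‖ ≤ κ' / 5 * (‖y‖ + κ' / 10 * a) := by
        gcongr; linarith
      have h5 : κ' / 10 * a ≤ κ' / 5 * ‖y‖ := by nlinarith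
      have h6 : κ' / 5 * (κ' / 10 * a) ≤ κ' / 10 * a := by
        have : 0 ≤ κ' / 10 * a := by positivity
        nlinarith
      have hypos : 0 < ‖y‖ := by linarith
      nlinarith
  have hρ := hG.ρ_pos
  have hey : ‖e‖ < ρ * ‖y‖ := by nlinarith
  have hey' : ‖e'‖ < ρ * ‖y‖ := by nlinarith
  have hEL : EL Ψ (y - e) y (y + e') = 0 := by
    have hel := hX.el a ha (T + w) (-w) (h1.sg hκ' ha) (by
      have : T + w - -w = T + w + w := by ring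
      rw [this]; exact h2.sg hκ' ha) (by
      have : T + w + -w = T := by ring
      rw [this]; exact h0.sg hκ' ha) h1.low (by
      have : T + w - -w = T + w + w := by ring
      rw [this]; exact h2.low) (by
      have : T + w + -w = T := by ring
      rw [this]; exact h0.low) (by rw [norm_neg]; exact hS.rad)
    have e1 : T + w - -w = T + w + w := by ring
    have e2 : T + w + -w = T := by ring
    rw [e1, e2, hX.even a ha _ w (h2.sg hκ' ha) h2.low hS.rad,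
      hX.even a ha _ w (h1.sg hκ' ha) h1.low hS.rad,
      hX.even a ha _ w (h0.sg hκ' ha) h0.low hS.rad] at hel
    have e3 : y - e = X (T + w + w, w) := by rw [he]; ring
    have e4 : y + e' = X (T, w) := by rw [he']; ring
    rw [e3, e4]
    exact hel
  have hst : start X (T + w) w = (y, e) := rfl
  rw [hst]
  rcases hG.uniq y e e' hyR hey hey' hEL with h | h
  · show (y + G (y, e), G (y, e)) = (X (T, w), X (T, w) - X (T + w, w))
    rw [← h]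
    simp [he', hy]
  · exfalso
    have h3 : (e + w) + (e' + w) = 2 * w := by rw [h]; ring
    have h4 : ‖(2 : ℂ) * w‖ ≤ ‖w‖ / 4 + ‖w‖ / 4 := by
      rw [← h3]
      exact (norm_add_le _ _).trans (by linarith)
    rw [norm_mul] at h4
    simp at h4
    linarith

/-- **agreement with the family** -/
theorem agree {κ' κ₂ ρ C a : ℝ} {Ψ : ℂ → ℂ → ℂ} {G : ℂ × ℂ → ℂ} {r B : ℝ → ℝ}
    {X : ℂ × ℂ → ℂ} (hG : NDS κ₂ ρ C Ψ G) (hX : Fam κ' Ψ r B X) (hκ' : 0 < κ')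
    (hκ : κ' < κ₂) (hκ1 : κ₂ < 1) (ha : 0 < a) {t w : ℂ} (hw0 : w ≠ 0)
    (hS : Sm κ' ρ r B a ‖w‖) (k : ℕ) (hg : ∀ i : ℕ, i ≤ k + 1 → Gd κ' a (t + i * w)) :
    (stp G)^[k] (start X (t + k * w) w) = start X t w := by
  induction k with
  | zero => simp
  | succ k ih =>
    rw [Function.iterate_succ_apply]
    have e : t + ((k + 1 : ℕ) : ℂ) * w = t + k * w + w := by push_cast; ring
    rw [e, match_step hG hX hκ' hκ hκ1 ha hw0 hS (hg k (by omega)) (by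
      rw [← e]; exact hg (k + 1) (by omega)) (by
      have e2 : t + k * w + w + w = t + ((k + 2 : ℕ) : ℂ) * w := by push_cast; ring
      rw [e2]; exact hg (k + 2) (by omega))]
    exact ih (fun i hi => hg i (by omega))

/-- bounds at the macroscopic start -/
theorem start_bound {κ' : ℝ} {Ψ : ℂ → ℂ → ℂ} {r B : ℝ → ℝ} {X : ℂ × ℂ → ℂ}
    (hX : Fam κ' Ψ r B X) (hκ' : 0 < κ') (hκ1 : κ' < 1) :
    ∃ A₀ B₀ σ : ℝ, 0 < σ ∧ ∀ T w : ℂ, 1 / 4 < ‖T‖ → ‖T‖ < 3 / 4 → T.im ≤ κ' / 5 * ‖T‖ → w ≠ 0 →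
      ‖w‖ < σ → ‖(start X T w).2 + w‖ ≤ A₀ * ‖w‖ ^ 3 ∧ ‖(start X T w).1 - T‖ ≤ B₀ * ‖w‖ ^ 2 := by
  have h8 : (0 : ℝ) < 1 / 8 := by norm_num
  set b := |B (1 / 8)| + 1 with hb
  have hbpos : 0 < b := by positivity
  refine ⟨3 * b / (κ' / 20), b, min (r (1 / 8)) (κ' / 20), lt_min (hX.r_pos _ h8) (by positivity),
    ?_⟩
  intro T w hT1 hT2 hT3 hw0 hw
  have hwr : ‖w‖ < r (1 / 8) := hw.trans_le (min_le_left _ _)
  have hwd : ‖w‖ < κ' / 20 := hw.trans_le (min_le_right _ _)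
  have hWpos : 0 < ‖w‖ := norm_pos_iff.2 hw0
  -- the disc
  have hdisc : ∀ s ∈ ball T (κ' / 20), s ∈ Sg κ' ∧ 1 / 8 < ‖s‖ := by
    intro s hs
    rw [mem_ball, dist_eq_norm] at hs
    have h1 : ‖T‖ - ‖s - T‖ ≤ ‖s‖ := by
      have := norm_sub_norm_le T s
      have h' : ‖T - s‖ = ‖s - T‖ := norm_sub_rev _ _
      linarith
    have h2 : ‖s‖ ≤ ‖T‖ + ‖s - T‖ := by
      have := norm_sub_norm_le s T
      linarith
    have h3 : s.im ≤ T.im + ‖s - T‖ := by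
      have := Complex.abs_im_le_norm (s - T)
      have h' : s.im - T.im ≤ |(s - T).im| := by
        rw [Complex.sub_im]; exact le_abs_self _
      linarith
    have h4 : 1 / 8 < ‖s‖ := by linarith
    refine ⟨⟨norm_pos_iff.1 (by linarith), by linarith, ?_⟩, h4⟩
    have h5 : κ' / 5 * ‖T‖ ≤ κ' / 5 * (‖s‖ + κ' / 20) := by
      gcongr; linarith
    nlinarith
  have hnear : ∀ s ∈ ball T (κ' / 20), ‖X (s, w) - s‖ ≤ b * ‖w‖ ^ 2 := by
    intro s hs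
    refine (hX.near _ h8 s w (hdisc s hs).1 (hdisc s hs).2 hwr).trans ?_
    gcongr
    exact (le_abs_self _).trans (by linarith)
  have hTm : T ∈ ball T (κ' / 20) := mem_ball_self (by positivity)
  have hTw : T + w ∈ ball T (κ' / 20) := by
    rw [mem_ball, dist_eq_norm]; simpa using hwd
  refine ⟨?_, hnear T hTm⟩
  have hd : DifferentiableOn ℂ (fun s => X (s, w) - s) (ball T (κ' / 20)) := by
    have h1 : DifferentiableOn ℂ (fun s : ℂ => ((s, w) : ℂ × ℂ)) (ball T (κ' / 20)) := by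
      apply Differentiable.differentiableOn
      fun_prop
    refine ((hX.diff _ h8).comp h1 ?_).sub differentiableOn_id
    intro s hs
    exact ⟨(hdisc s hs).1, (hdisc s hs).2, hwr⟩
  have hmap : MapsTo (fun s => X (s, w) - s) (ball T (κ' / 20))
      (closedBall ((fun s => X (s, w) - s) T) (3 * b * ‖w‖ ^ 2)) := by
    intro s hs
    rw [mem_closedBall, dist_eq_norm]
    have h1 := hnear s hs
    have h2 := hnear T hTm
    have h3 := norm_sub_le (X (s, w) - s) (X (T, w) - T)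
    have h4 : 0 < b * ‖w‖ ^ 2 := by positivity
    simp only
    linarith
  have h := Complex.dist_le_div_mul_dist_of_mapsTo_ball hd hmap hTw
  rw [dist_eq_norm, dist_eq_norm] at h
  have e1 : T + w - T = w := by ring
  rw [e1] at h
  have e2 : (start X T w).2 + w = -((X (T + w, w) - (T + w)) - (X (T, w) - T)) := by
    simp only [start]; ring
  rw [e2, norm_neg]
  refine h.trans (le_of_eq ?_)
  field_simp

/-! ### Part 5: the outward half plane and the orbit family -/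

/-- outward directions -/
def Out (κ' : ℝ) (w : ℂ) : Prop := w.im < κ' / 10 * |w.re|

theorem Out.ne {κ' : ℝ} {w : ℂ} (h : Out κ' w) : w ≠ 0 := by
  rintro rfl
  simp [Out] at h

theorem Out.le {κ' : ℝ} {w : ℂ} (hκ' : 0 < κ') (h : Out κ' w) : w.im ≤ κ' / 10 * ‖w‖ := by
  have h1 := Complex.abs_re_le_norm w
  have h2 : κ' / 10 * |w.re| ≤ κ' / 10 * ‖w‖ := by gcongr
  exact (le_of_lt (show w.im < κ' / 10 * |w.re| from h)).trans h2

theorem out_or {κ' : ℝ} (hκ' : 0 < κ') {w : ℂ} (hw : w ≠ 0) : Out κ' w ∨ Out κ' (-w) := by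
  by_contra hcon
  push Not at hcon
  obtain ⟨h1, h2⟩ := hcon
  unfold Out at h1 h2
  push Not at h1 h2
  simp only [Complex.neg_re, Complex.neg_im, abs_neg] at h2
  have h3 : 0 ≤ κ' / 10 * |w.re| := by positivity
  have h4 : w.im = 0 := by linarith
  have h5 : |w.re| = 0 := by
    have : κ' / 10 * |w.re| = 0 := by linarith
    rcases mul_eq_zero.1 this with h | h
    · linarith
    · exact h
  exact hw (Complex.ext (abs_eq_zero.1 h5) h4)

/-- parameters of the construction -/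
structure Par (κ' κ₂ ρ C c A B A₀ B₀ : ℝ) (Ψ : ℂ → ℂ → ℂ) (G : ℂ × ℂ → ℂ) (r Bf : ℝ → ℝ)
    (X : ℂ × ℂ → ℂ) : Prop where
  nds : NDS κ₂ ρ C Ψ G
  fam : Fam κ' Ψ r Bf X
  κ'_pos : 0 < κ'
  κ_lt : κ' < κ₂
  κ_lt1 : κ₂ < 1
  c_pos : 0 < c
  c_le : c ≤ 1 / 64
  A_pos : 0 < A
  B_pos : 0 < B
  orb : ∀ (T₀ w : ℂ) (g₀ : ℝ) (k : ℕ) (p₀ : ℂ × ℂ), Ref κ' c T₀ w g₀ k →
      ‖p₀.2 + w‖ ≤ A₀ * ‖w‖ ^ 3 → ‖p₀.1 - T₀‖ ≤ B₀ * ‖w‖ ^ 2 → ∀ j : ℕ, j ≤ k →
        ‖((stp G)^[j] p₀).2 + w‖ * (g₀ - j * ‖w‖) ^ 2 ≤ A * ‖w‖ ^ 3 ∧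
        ‖((stp G)^[j] p₀).1 - (T₀ - j * w)‖ * (g₀ - j * ‖w‖) ≤ B * ‖w‖ ^ 2 ∧
        ((stp G)^[j] p₀).1 ∈ Rg κ₂ ∧ ‖((stp G)^[j] p₀).2‖ < ρ * ‖((stp G)^[j] p₀).1‖ ∧
        ‖((stp G)^[j] p₀).1 - (T₀ - j * w)‖ ≤ (g₀ - j * ‖w‖) / 8 ∧
        ‖((stp G)^[j] p₀).2‖ ≤ 2 * ‖w‖
  stb : ∀ T w : ℂ, 1 / 4 < ‖T‖ → ‖T‖ < 3 / 4 → T.im ≤ κ' / 5 * ‖T‖ → w ≠ 0 →
      ‖w‖ < c → ‖(start X T w).2 + w‖ ≤ A₀ * ‖w‖ ^ 3 ∧ ‖(start X T w).1 - T‖ ≤ B₀ * ‖w‖ ^ 2
  sm : ∀ W : ℝ, 0 ≤ W → W < c → Sm κ' ρ r Bf (1 / 8) W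

section par

variable {κ' κ₂ ρ C c A B A₀ B₀ : ℝ} {Ψ : ℂ → ℂ → ℂ} {G : ℂ × ℂ → ℂ} {r Bf : ℝ → ℝ}
    {X : ℂ × ℂ → ℂ}

/-- points of the cone with outward direction -/
structure NO (κ' c : ℝ) (t w : ℂ) : Prop where
  nc : (t, w) ∈ NC c
  out : Out κ' w

/-- state after `k` steps from `t + k w` -/
def sta (G X : ℂ × ℂ → ℂ) (k : ℕ) (t w : ℂ) : ℂ × ℂ := (stp G)^[k] (start X (t + k * w) w)

/-- admissible number of steps -/
def adm (k : ℕ) (t w : ℂ) : Prop := 1 / 2 < ‖t‖ + k * ‖w‖ ∧ ‖t‖ + k * ‖w‖ < 3 / 4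

theorem NO.facts {t w : ℂ} (h : NO κ' c t w) (hc : 0 < c) :
    t ≠ 0 ∧ ‖t‖ < 1 / 4 ∧ ‖t + Complex.I * (‖t‖ : ℂ)‖ ≤ ‖t‖ / 10 ∧ ‖w‖ < c * ‖t‖ ∧ ‖w‖ < c := by
  obtain ⟨h1, h2, h3, h4⟩ := h.nc
  simp only at h1 h2 h3 h4
  refine ⟨h1, h2, h3.le, h4, h4.trans_le ?_⟩
  nlinarith

theorem Par.gd (P : Par κ' κ₂ ρ C c A B A₀ B₀ Ψ G r Bf X) {t w : ℂ} (h : NO κ' c t w) {i : ℕ}
    {a : ℝ} (ha : a ≤ ‖t‖ / 4) (hi : ‖t‖ + i * ‖w‖ < 13 / 16) : Gd κ' a (t + i * w) := by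
  obtain ⟨h0, h1, h2, h3, h4⟩ := h.facts P.c_pos
  have hn : 0 < ‖t‖ := norm_pos_iff.2 h0
  have hg := geo (a := i) P.κ'_pos (P.κ_lt.trans P.κ_lt1) h2 (h.out.le P.κ'_pos) (Nat.cast_nonneg i)
  simp only [Complex.ofReal_natCast] at hg
  have hp : 0 ≤ (i : ℝ) * ‖w‖ := by positivity
  exact ⟨by linarith [hg.1], by linarith [hg.2.1], hg.2.2⟩

theorem Par.gd8 (P : Par κ' κ₂ ρ C c A B A₀ B₀ Ψ G r Bf X) {t w : ℂ} (h : NO κ' c t w) {i : ℕ}
    (hlo : 1 / 2 < ‖t‖ + i * ‖w‖) (hi : ‖t‖ + i * ‖w‖ < 13 / 16) : Gd κ' (1 / 8) (t + i * w) := by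
  obtain ⟨h0, h1, h2, h3, h4⟩ := h.facts P.c_pos
  have hg := geo (a := i) P.κ'_pos (P.κ_lt.trans P.κ_lt1) h2 (h.out.le P.κ'_pos) (Nat.cast_nonneg i)
  simp only [Complex.ofReal_natCast] at hg
  exact ⟨by linarith [hg.1], by linarith [hg.2.1], hg.2.2⟩

theorem Par.orbit (P : Par κ' κ₂ ρ C c A B A₀ B₀ Ψ G r Bf X) {t w : ℂ} (h : NO κ' c t w) {k : ℕ}
    (hk : adm k t w) (j : ℕ) (hj : j ≤ k) :
    ‖((stp G)^[j] (start X (t + k * w) w)).1 - (t + k * w - j * w)‖ * (‖t‖ + k * ‖w‖ - j * ‖w‖) ≤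
        B * ‖w‖ ^ 2 ∧
      ((stp G)^[j] (start X (t + k * w) w)).1 ∈ Rg κ₂ ∧
      ‖((stp G)^[j] (start X (t + k * w) w)).2‖ < ρ * ‖((stp G)^[j] (start X (t + k * w) w)).1‖ ∧
      ‖((stp G)^[j] (start X (t + k * w) w)).1 - (t + k * w - j * w)‖ ≤
        (‖t‖ + k * ‖w‖ - j * ‖w‖) / 8 ∧
      ‖((stp G)^[j] (start X (t + k * w) w)).2‖ ≤ 2 * ‖w‖ := by
  obtain ⟨h0, h1, h2, h3, h4⟩ := h.facts P.c_pos
  have hκ1 := P.κ_lt.trans P.κ_lt1
  have hR := ref_of (k := k) P.κ'_pos hκ1 h0 h2 (h.out.le P.κ'_pos) h.out.ne P.c_pos h3 hk.2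
  have hg := P.gd8 h (i := k) hk.1 (by linarith [hk.2])
  have hge := geo (a := k) P.κ'_pos hκ1 h2 (h.out.le P.κ'_pos) (Nat.cast_nonneg k)
  simp only [Complex.ofReal_natCast] at hge
  obtain ⟨s1, s2⟩ := P.stb (t + k * w) w (by linarith [hge.1, hk.1]) (by linarith [hge.2.1, hk.2])
    hg.im h.out.ne h4
  obtain ⟨-, o2, o3, o4, o5, o6⟩ := P.orb _ _ _ _ _ hR s1 s2 j hj
  exact ⟨o2, o3, o4, o5, o6⟩

theorem Par.indep (P : Par κ' κ₂ ρ C c A B A₀ B₀ Ψ G r Bf X) {t w : ℂ} (h : NO κ' c t w) {k : ℕ}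
    (hk : adm k t w) (hk' : adm (k + 1) t w) : sta G X (k + 1) t w = sta G X k t w := by
  obtain ⟨h0, h1, h2, h3, h4⟩ := h.facts P.c_pos
  unfold sta
  rw [Function.iterate_succ_apply]
  have e : t + ((k + 1 : ℕ) : ℂ) * w = t + k * w + w := by push_cast; ring
  have hc := P.c_le
  have hW := norm_nonneg w
  have c1 : ((k + 1 : ℕ) : ℝ) = k + 1 := by push_cast; ring
  have c2 : ((k + 2 : ℕ) : ℝ) = k + 2 := by push_cast; ring
  have hk1 := hk.1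
  have hk2 := hk'.2
  rw [c1] at hk2
  rw [e, match_step P.nds P.fam P.κ'_pos P.κ_lt P.κ_lt1 (by norm_num : (0 : ℝ) < 1 / 8) h.out.ne
    (P.sm _ (norm_nonneg _) h4) (P.gd8 h hk.1 (by linarith [hk.2])) (by
      rw [← e]
      refine P.gd8 h hk'.1 (by rw [c1]; linarith)) (by
      have e2 : t + k * w + w + w = t + ((k + 2 : ℕ) : ℂ) * w := by push_cast; ring
      rw [e2]
      refine P.gd8 h (by rw [c2]; linarith) (by rw [c2]; linarith))]

theorem Par.indep_le (P : Par κ' κ₂ ρ C c A B A₀ B₀ Ψ G r Bf X) {t w : ℂ} (h : NO κ' c t w)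
    {k l : ℕ} (hkl : k ≤ l) (hk : adm k t w) (hl : adm l t w) : sta G X l t w = sta G X k t w := by
  induction l, hkl using Nat.le_induction with
  | base => rfl
  | succ l hle ih =>
    have hW := norm_nonneg w
    have c1 : ((l + 1 : ℕ) : ℝ) = l + 1 := by push_cast; ring
    have hl2 := hl.2
    rw [c1] at hl2
    have hadm : adm l t w := by
      refine ⟨?_, by linarith⟩
      have : (k : ℝ) * ‖w‖ ≤ l * ‖w‖ := by gcongr
      linarith [hk.1]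
    rw [P.indep h hadm hl, ih hadm]

theorem Par.indep_all (P : Par κ' κ₂ ρ C c A B A₀ B₀ Ψ G r Bf X) {t w : ℂ} (h : NO κ' c t w)
    {k l : ℕ} (hk : adm k t w) (hl : adm l t w) : sta G X l t w = sta G X k t w := by
  rcases le_total k l with hkl | hkl
  · exact P.indep_le h hkl hk hl
  · exact (P.indep_le h hkl hl hk).symm

/-- chosen number of steps -/
def kk (t w : ℂ) : ℕ := ⌊(5 / 8 - ‖t‖) / ‖w‖⌋₊

theorem kk_spec {t w : ℂ} (hc : 0 < c) (hc64 : c ≤ 1 / 64) (h : NO κ' c t w) :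
    ‖t‖ + kk t w * ‖w‖ ≤ 5 / 8 ∧ 5 / 8 - ‖w‖ < ‖t‖ + kk t w * ‖w‖ := by
  obtain ⟨h0, h1, h2, h3, h4⟩ := h.facts hc
  have hW : 0 < ‖w‖ := norm_pos_iff.2 h.out.ne
  have hq : 0 ≤ (5 / 8 - ‖t‖) / ‖w‖ := div_nonneg (by linarith) hW.le
  constructor
  · have := Nat.floor_le hq
    rw [le_div_iff₀ hW] at this
    have e : (kk t w : ℝ) * ‖w‖ ≤ 5 / 8 - ‖t‖ := this
    linarith
  · have := Nat.lt_floor_add_one ((5 / 8 - ‖t‖) / ‖w‖)
    rw [div_lt_iff₀ hW] at this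
    have e : 5 / 8 - ‖t‖ < ((kk t w : ℝ) + 1) * ‖w‖ := this
    linarith

theorem kk_adm {t w : ℂ} (hc : 0 < c) (hc64 : c ≤ 1 / 64) (h : NO κ' c t w) :
    adm (kk t w) t w := by
  obtain ⟨h1, h2⟩ := kk_spec hc hc64 h
  obtain ⟨-, -, -, -, h4⟩ := h.facts hc
  exact ⟨by linarith, by linarith⟩

/-- the orbit family -/
def Xo (G X : ℂ × ℂ → ℂ) (p : ℂ × ℂ) : ℂ := (sta G X (kk p.1 p.2) p.1 p.2).1

theorem Par.Xo_eq (P : Par κ' κ₂ ρ C c A B A₀ B₀ Ψ G r Bf X) {t w : ℂ} (h : NO κ' c t w) {k : ℕ}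
    (hk : adm k t w) : Xo G X (t, w) = (sta G X k t w).1 := by
  unfold Xo
  rw [P.indep_all h hk (kk_adm P.c_pos P.c_le h)]

theorem isOpen_NC (c : ℝ) : IsOpen (NC c) := by
  have : NC c = {p : ℂ × ℂ | p.1 ≠ 0} ∩ ({p | ‖p.1‖ < 1 / 4} ∩
      ({p | ‖p.1 + Complex.I * (‖p.1‖ : ℂ)‖ < ‖p.1‖ / 10} ∩ {p | ‖p.2‖ < c * ‖p.1‖})) := by
    ext p; simp [NC]
  rw [this]
  refine IsOpen.inter (isOpen_ne_fun continuous_fst continuous_const)
    (IsOpen.inter ?_ (IsOpen.inter ?_ ?_))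
  · exact isOpen_lt continuous_fst.norm continuous_const
  · refine isOpen_lt ?_ ?_
    · fun_prop
    · fun_prop
  · refine isOpen_lt ?_ ?_
    · fun_prop
    · fun_prop

theorem isOpen_Out (κ' : ℝ) : IsOpen {w : ℂ | Out κ' w} := by
  unfold Out
  refine isOpen_lt Complex.continuous_im ?_
  exact continuous_const.mul (continuous_abs.comp Complex.continuous_re)

theorem eventually_NO {t w : ℂ} (h : NO κ' c t w) : ∀ᶠ p : ℂ × ℂ in 𝓝 (t, w), NO κ' c p.1 p.2 := by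
  have h1 := (isOpen_NC c).mem_nhds h.nc
  have h2 : ∀ᶠ p : ℂ × ℂ in 𝓝 (t, w), Out κ' p.2 := by
    have : ∀ᶠ v : ℂ in 𝓝 w, Out κ' v := (isOpen_Out κ').mem_nhds h.out
    exact continuous_snd.continuousAt.eventually this
  filter_upwards [h1, h2] with p hp1 hp2
  exact ⟨hp1, hp2⟩

theorem eventually_adm {t w : ℂ} {k : ℕ} (h : adm k t w) :
    ∀ᶠ p : ℂ × ℂ in 𝓝 (t, w), adm k p.1 p.2 := by
  have hc : Continuous fun p : ℂ × ℂ => ‖p.1‖ + k * ‖p.2‖ := by fun_prop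
  have h1 := (hc.tendsto (t, w)).eventually_const_lt h.1
  have h2 := (hc.tendsto (t, w)).eventually_lt_const h.2
  filter_upwards [h1, h2] with p hp1 hp2
  exact ⟨hp1, hp2⟩

theorem Fam.diffAt (hX : Fam κ' Ψ r Bf X) {a : ℝ} (ha : 0 < a) {T w : ℂ} (hT : T ∈ Sg κ')
    (hTa : a < ‖T‖) (hw : ‖w‖ < r a) : DifferentiableAt ℂ X (T, w) := by
  refine (hX.diff a ha).differentiableAt (IsOpen.mem_nhds ?_ ⟨hT, hTa, hw⟩)
  have : {p : ℂ × ℂ | p.1 ∈ Sg κ' ∧ a < ‖p.1‖ ∧ ‖p.2‖ < r a} =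
      (Prod.fst ⁻¹' Sg κ') ∩ ({p | a < ‖p.1‖} ∩ {p | ‖p.2‖ < r a}) := by
    ext p; simp
  rw [this]
  refine IsOpen.inter ((isOpen_Sg κ').preimage continuous_fst) (IsOpen.inter ?_ ?_)
  · exact isOpen_lt continuous_const continuous_fst.norm
  · exact isOpen_lt continuous_snd.norm continuous_const

theorem Par.state_diff (P : Par κ' κ₂ ρ C c A B A₀ B₀ Ψ G r Bf X) {t w : ℂ} (h : NO κ' c t w)
    {k : ℕ} (hk : adm k t w) (j : ℕ) (hj : j ≤ k) :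
    DifferentiableAt ℂ (fun p : ℂ × ℂ => (stp G)^[j] (start X (p.1 + k * p.2) p.2)) (t, w) := by
  obtain ⟨h0, h1, h2, h3, h4⟩ := h.facts P.c_pos
  have h8 : (0 : ℝ) < 1 / 8 := by norm_num
  induction j with
  | zero =>
    simp only [Function.iterate_zero, id_eq, start]
    have g1 := P.gd8 h (i := k) hk.1 (by linarith [hk.2])
    have c1 : ((k + 1 : ℕ) : ℝ) = k + 1 := by push_cast; ring
    have hW := norm_nonneg w
    have hc := P.c_le
    have g2 : Gd κ' (1 / 8) (t + k * w + w) := by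
      have := P.gd8 h (i := k + 1) (by rw [c1]; linarith [hk.1]) (by rw [c1]; linarith [hk.2])
      have e : t + ((k + 1 : ℕ) : ℂ) * w = t + k * w + w := by push_cast; ring
      rwa [e] at this
    have hr := (P.sm _ (norm_nonneg _) h4).rad
    have d1 : DifferentiableAt ℂ X (t + k * w, w) :=
      Fam.diffAt P.fam h8 (g1.sg P.κ'_pos h8) g1.low hr
    have d2 : DifferentiableAt ℂ X (t + k * w + w, w) :=
      Fam.diffAt P.fam h8 (g2.sg P.κ'_pos h8) g2.low hr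
    have l1 : DifferentiableAt ℂ (fun p : ℂ × ℂ => (p.1 + k * p.2, p.2)) (t, w) := by fun_prop
    have l2 : DifferentiableAt ℂ (fun p : ℂ × ℂ => (p.1 + k * p.2 + p.2, p.2)) (t, w) := by fun_prop
    have e1 : DifferentiableAt ℂ (fun p : ℂ × ℂ => X (p.1 + k * p.2, p.2)) (t, w) :=
      DifferentiableAt.comp (t, w) (g := X) d1 l1
    have e2 : DifferentiableAt ℂ (fun p : ℂ × ℂ => X (p.1 + k * p.2 + p.2, p.2)) (t, w) :=
      DifferentiableAt.comp (t, w) (g := X) d2 l2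
    exact e1.prodMk (e1.sub e2)
  | succ j ih =>
    have hj' : j ≤ k := by omega
    have ih := ih hj'
    obtain ⟨-, o3, o4, -, -⟩ := P.orbit h hk j hj'
    have hGd : DifferentiableAt ℂ G ((stp G)^[j] (start X (t + k * w) w)) :=
      P.nds.diff _ _ o3 o4
    have hGc : DifferentiableAt ℂ (fun p : ℂ × ℂ => G ((stp G)^[j] (start X (p.1 + k * p.2) p.2)))
        (t, w) := DifferentiableAt.comp (t, w) (g := G)
          (f := fun p : ℂ × ℂ => (stp G)^[j] (start X (p.1 + k * p.2) p.2)) hGd ih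
    have hfst : DifferentiableAt ℂ
        (fun p : ℂ × ℂ => ((stp G)^[j] (start X (p.1 + k * p.2) p.2)).1) (t, w) := ih.fst
    have : (fun p : ℂ × ℂ => (stp G)^[j + 1] (start X (p.1 + k * p.2) p.2)) =
        fun p : ℂ × ℂ => (((stp G)^[j] (start X (p.1 + k * p.2) p.2)).1 +
          G ((stp G)^[j] (start X (p.1 + k * p.2) p.2)),
          G ((stp G)^[j] (start X (p.1 + k * p.2) p.2))) := by
      funext p
      rw [Function.iterate_succ_apply']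
      rfl
    rw [this]
    exact (hfst.add hGc).prodMk hGc

theorem Par.Xo_diff (P : Par κ' κ₂ ρ C c A B A₀ B₀ Ψ G r Bf X) {t w : ℂ} (h : NO κ' c t w) :
    DifferentiableAt ℂ (Xo G X) (t, w) := by
  have hk := kk_adm P.c_pos P.c_le h
  have hd := (P.state_diff h hk _ le_rfl).fst
  refine hd.congr_of_eventuallyEq ?_
  filter_upwards [eventually_NO h, eventually_adm hk] with p hp1 hp2
  exact P.Xo_eq hp1 hp2

theorem Par.Xo_near (P : Par κ' κ₂ ρ C c A B A₀ B₀ Ψ G r Bf X) {t w : ℂ} (h : NO κ' c t w) :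
    ‖Xo G X (t, w) - t‖ ≤ B * ‖w‖ ^ 2 / ‖t‖ := by
  obtain ⟨h0, h1, h2, h3, h4⟩ := h.facts P.c_pos
  have hn : 0 < ‖t‖ := norm_pos_iff.2 h0
  have hk := kk_adm P.c_pos P.c_le h
  obtain ⟨o1, -⟩ := P.orbit h hk _ le_rfl
  have e1 : t + kk t w * w - kk t w * w = t := by ring
  have e2 : ‖t‖ + kk t w * ‖w‖ - kk t w * ‖w‖ = ‖t‖ := by ring
  rw [e1, e2] at o1
  rw [le_div_iff₀ hn]
  exact o1

/-- for small `w` the orbit family is the given family -/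
theorem Par.Xo_agree (P : Par κ' κ₂ ρ C c A B A₀ B₀ Ψ G r Bf X) {t w : ℂ} (h : NO κ' c t w)
    {a : ℝ} (ha : 0 < a) (hat : a ≤ ‖t‖ / 4) (hS : Sm κ' ρ r Bf a ‖w‖) :
    Xo G X (t, w) = X (t, w) := by
  have hk := kk_adm P.c_pos P.c_le h
  have hs := kk_spec P.c_pos P.c_le h
  obtain ⟨h0, h1, h2, h3, h4⟩ := h.facts P.c_pos
  have hc := P.c_le
  have := agree P.nds P.fam P.κ'_pos P.κ_lt P.κ_lt1 ha h.out.ne hS (kk t w) (by
    intro i hi
    refine P.gd h hat ?_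
    have : (i : ℝ) * ‖w‖ ≤ (kk t w + 1) * ‖w‖ := by
      gcongr
      exact_mod_cast hi
    linarith [hs.1])
  unfold Xo sta
  simp only
  rw [this]
  rfl

/-! ### Part 6: gluing the two half planes -/

/-- the convex sector on which both definitions live -/
def SP (κ' R : ℝ) : Set ℂ := {w | w.im < κ' / 10 * w.re} ∩ ({w | -w.im < κ' / 10 * w.re} ∩ ball 0 R)

theorem SP_convex (κ' R : ℝ) : Convex ℝ (SP κ' R) := by
  refine Convex.inter ?_ (Convex.inter ?_ (convex_ball _ _))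
  · intro x hx y hy a b ha hb hab
    simp only [mem_ofPred_eq] at hx hy ⊢
    simp only [Complex.add_im, Complex.add_re, Complex.smul_im, Complex.smul_re, smul_eq_mul]
    rcases eq_or_lt_of_le ha with h | h
    · have : b = 1 := by linarith
      subst this; rw [← h]; linarith
    · nlinarith [mul_lt_mul_of_pos_left hx h, mul_le_mul_of_nonneg_left hy.le hb]
  · intro x hx y hy a b ha hb hab
    simp only [mem_ofPred_eq] at hx hy ⊢
    simp only [Complex.add_im, Complex.add_re, Complex.smul_im, Complex.smul_re, smul_eq_mul]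
    rcases eq_or_lt_of_le ha with h | h
    · have : b = 1 := by linarith
      subst this; rw [← h]; linarith
    · nlinarith [mul_lt_mul_of_pos_left hx h, mul_le_mul_of_nonneg_left hy.le hb]

theorem SP_open (κ' R : ℝ) : IsOpen (SP κ' R) := by
  refine IsOpen.inter ?_ (IsOpen.inter ?_ isOpen_ball)
  · exact isOpen_lt Complex.continuous_im (continuous_const.mul Complex.continuous_re)
  · exact isOpen_lt Complex.continuous_im.neg (continuous_const.mul Complex.continuous_re)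

theorem SP_out {R : ℝ} {w : ℂ} (hκ' : 0 < κ') (h : w ∈ SP κ' R) : Out κ' w ∧ Out κ' (-w) := by
  obtain ⟨h1, h2, -⟩ := h
  simp only [mem_ofPred_eq] at h1 h2
  have hre : 0 < w.re := by
    by_contra hcon
    push Not at hcon
    nlinarith
  unfold Out
  simp only [Complex.neg_re, Complex.neg_im, abs_neg, abs_of_pos hre]
  exact ⟨h1, h2⟩

theorem SP_of {R : ℝ} {w : ℂ} (h1 : Out κ' w) (h2 : Out κ' (-w)) (hre : 0 < w.re)
    (hw : ‖w‖ < R) : w ∈ SP κ' R := by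
  unfold Out at h1 h2
  simp only [Complex.neg_re, Complex.neg_im, abs_neg, abs_of_pos hre] at h1 h2
  exact ⟨h1, h2, by simpa using hw⟩

theorem NC_iff (t w : ℂ) : (t, w) ∈ NC c ↔ (t ≠ 0 ∧ ‖t‖ < 1 / 4 ∧
    ‖t + Complex.I * (‖t‖ : ℂ)‖ < ‖t‖ / 10 ∧ ‖w‖ < c * ‖t‖) := Iff.rfl

theorem NC_neg {t w : ℂ} (h : (t, w) ∈ NC c) : (t, -w) ∈ NC c := by
  rw [NC_iff] at h ⊢
  rwa [norm_neg]

theorem Par.consist_pos (P : Par κ' κ₂ ρ C c A B A₀ B₀ Ψ G r Bf X) {t w : ℂ}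
    (hn : (t, w) ∈ NC c) (h1 : Out κ' w) (h2 : Out κ' (-w)) (hre : 0 < w.re) :
    Xo G X (t, w) = Xo G X (t, -w) := by
  have hκ' := P.κ'_pos
  obtain ⟨ht0, ht1, ht2, hw⟩ := (NC_iff t w).1 hn
  have hnt : 0 < ‖t‖ := norm_pos_iff.2 ht0
  set R := c * ‖t‖ with hR
  have hNO : ∀ v ∈ SP κ' R, NO κ' c t v ∧ NO κ' c t (-v) := by
    intro v hv
    have hv3 : ‖v‖ < R := by simpa using hv.2.2
    have hnc : (t, v) ∈ NC c := (NC_iff t v).2 ⟨ht0, ht1, ht2, hv3⟩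
    obtain ⟨o1, o2⟩ := SP_out hκ' hv
    exact ⟨⟨hnc, o1⟩, ⟨NC_neg hnc, o2⟩⟩
  have hf : DifferentiableOn ℂ (fun v => Xo G X (t, v)) (SP κ' R) := by
    intro v hv
    have h := P.Xo_diff (hNO v hv).1
    have hl : DifferentiableAt ℂ (fun v : ℂ => ((t, v) : ℂ × ℂ)) v := by fun_prop
    exact (DifferentiableAt.comp v (g := Xo G X) h hl).differentiableWithinAt
  have hg : DifferentiableOn ℂ (fun v => Xo G X (t, -v)) (SP κ' R) := by
    intro v hv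
    have h := P.Xo_diff (hNO v hv).2
    have hl : DifferentiableAt ℂ (fun v : ℂ => ((t, -v) : ℂ × ℂ)) v := by fun_prop
    exact (DifferentiableAt.comp v (g := Xo G X) h hl).differentiableWithinAt
  obtain ⟨σ, hσ, hσ1, hsm⟩ := exists_sm P.fam hκ' P.nds.ρ_pos (a := ‖t‖ / 4) (by positivity)
  have heq : ∀ v ∈ SP κ' R, ‖v‖ < σ → Xo G X (t, v) = Xo G X (t, -v) := by
    intro v hv hvσ
    have hS := hsm ‖v‖ (norm_nonneg _) hvσ
    have e1 := P.Xo_agree (hNO v hv).1 (by positivity) le_rfl hS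
    have e2 := P.Xo_agree (hNO v hv).2 (by positivity) le_rfl (by rwa [norm_neg])
    have g0 := P.gd (hNO v hv).1 (i := 0) (a := ‖t‖ / 4) le_rfl (by
      simp only [Nat.cast_zero, zero_mul, add_zero]; linarith)
    simp only [Nat.cast_zero, zero_mul, add_zero] at g0
    rw [e1, e2, P.fam.even (‖t‖ / 4) (by positivity) t v (g0.sg hκ' (by positivity)) g0.low hS.rad]
  -- a base point
  set ε := min σ R / 2 with hε
  have hRpos : 0 < R := mul_pos P.c_pos hnt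
  have hεpos : 0 < ε := by positivity
  have hεσ : ε < σ := by
    have := min_le_left σ R
    linarith
  have hεR : ε < R := by
    have := min_le_right σ R
    linarith
  have hz0 : (ε : ℂ) ∈ SP κ' R := by
    refine ⟨?_, ?_, ?_⟩
    · simp only [mem_ofPred_eq, Complex.ofReal_im, Complex.ofReal_re]; positivity
    · simp only [mem_ofPred_eq, Complex.ofReal_im, Complex.ofReal_re, neg_zero]; positivity
    · rw [mem_ball, dist_zero_right, Complex.norm_real, Real.norm_of_nonneg hεpos.le]; exact hεR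
  have hev : (fun v => Xo G X (t, v)) =ᶠ[𝓝 (ε : ℂ)] fun v => Xo G X (t, -v) := by
    have h1 : ∀ᶠ v : ℂ in 𝓝 (ε : ℂ), v ∈ SP κ' R := (SP_open κ' R).mem_nhds hz0
    have h2 : ∀ᶠ v : ℂ in 𝓝 (ε : ℂ), ‖v‖ < σ := by
      have := (continuous_norm.tendsto (ε : ℂ)).eventually_lt_const
        (show ‖(ε : ℂ)‖ < σ by rw [Complex.norm_real, Real.norm_of_nonneg hεpos.le]; exact hεσ)
      exact this
    filter_upwards [h1, h2] with v hv1 hv2
    exact heq v hv1 hv2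
  have hfa := hf.analyticOnNhd (SP_open κ' R)
  have hga := hg.analyticOnNhd (SP_open κ' R)
  have := hfa.eqOn_of_preconnected_of_eventuallyEq hga (SP_convex κ' R).isPreconnected hz0 hev
  exact this (SP_of h1 h2 hre hw)

theorem Par.consist (P : Par κ' κ₂ ρ C c A B A₀ B₀ Ψ G r Bf X) {t w : ℂ}
    (hn : (t, w) ∈ NC c) (h1 : Out κ' w) (h2 : Out κ' (-w)) :
    Xo G X (t, w) = Xo G X (t, -w) := by
  rcases lt_trichotomy w.re 0 with hre | hre | hre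
  · have := P.consist_pos (NC_neg hn) h2 (by rwa [neg_neg]) (by simpa using hre)
    rw [neg_neg] at this
    exact this.symm
  · exfalso
    unfold Out at h1 h2
    simp only [Complex.neg_re, Complex.neg_im, abs_neg, hre, abs_zero, mul_zero] at h1 h2
    linarith
  · exact P.consist_pos hn h1 h2 hre

open Classical in
/-- the glued family -/
def Xg (κ' : ℝ) (G X : ℂ × ℂ → ℂ) (p : ℂ × ℂ) : ℂ :=
  if Out κ' p.2 then Xo G X p else if Out κ' (-p.2) then Xo G X (p.1, -p.2) else p.1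

theorem Xg_out {p : ℂ × ℂ} (h : Out κ' p.2) : Xg κ' G X p = Xo G X p := by
  unfold Xg; rw [if_pos h]

theorem Par.Xg_out' (P : Par κ' κ₂ ρ C c A B A₀ B₀ Ψ G r Bf X) {p : ℂ × ℂ} (hn : p ∈ NC c)
    (h : Out κ' (-p.2)) : Xg κ' G X p = Xo G X (p.1, -p.2) := by
  unfold Xg
  by_cases h1 : Out κ' p.2
  · rw [if_pos h1]
    exact P.consist (t := p.1) (w := p.2) hn h1 h
  · rw [if_neg h1, if_pos h]

theorem Xg_zero {t : ℂ} : Xg κ' G X (t, 0) = t := by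
  have h1 : ¬ Out κ' (0 : ℂ) := fun h => h.ne rfl
  have h2 : ¬ Out κ' (-0 : ℂ) := by rwa [neg_zero]
  unfold Xg
  simp only
  rw [if_neg h1, if_neg h2]

theorem Par.Xg_even (P : Par κ' κ₂ ρ C c A B A₀ B₀ Ψ G r Bf X) {t w : ℂ}
    (hn : (t, w) ∈ NC c) : Xg κ' G X (t, -w) = Xg κ' G X (t, w) := by
  by_cases hw : w = 0
  · rw [hw, neg_zero]
  rcases out_or P.κ'_pos hw with h | h
  · rw [Xg_out (p := (t, w)) h, P.Xg_out' (p := (t, -w)) (NC_neg hn) (by simpa using h)]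
    simp
  · rw [Xg_out (p := (t, -w)) h, P.Xg_out' (p := (t, w)) hn h]

theorem Par.Xg_near (P : Par κ' κ₂ ρ C c A B A₀ B₀ Ψ G r Bf X) {t w : ℂ}
    (hn : (t, w) ∈ NC c) : ‖Xg κ' G X (t, w) - t‖ ≤ B * ‖w‖ ^ 2 / ‖t‖ := by
  by_cases hw : w = 0
  · subst hw
    rw [Xg_zero]
    simp
  rcases out_or P.κ'_pos hw with h | h
  · rw [Xg_out (p := (t, w)) h]
    exact P.Xo_near ⟨hn, h⟩
  · rw [P.Xg_out' (p := (t, w)) hn h]
    have := P.Xo_near ⟨NC_neg hn, h⟩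
    rwa [norm_neg] at this

theorem Par.Xg_diff (P : Par κ' κ₂ ρ C c A B A₀ B₀ Ψ G r Bf X) {t w : ℂ}
    (hn : (t, w) ∈ NC c) : DifferentiableAt ℂ (Xg κ' G X) (t, w) := by
  have hNC : ∀ᶠ p : ℂ × ℂ in 𝓝 (t, w), p ∈ NC c := (isOpen_NC c).mem_nhds hn
  by_cases hw : w = 0
  · subst hw
    obtain ⟨ht0, ht1, ht2, -⟩ := (NC_iff t 0).1 hn
    have hnt : 0 < ‖t‖ := norm_pos_iff.2 ht0
    obtain ⟨σ, hσ, hσ1, hsm⟩ := exists_sm P.fam P.κ'_pos P.nds.ρ_pos (a := ‖t‖ / 8) (by positivity)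
    -- near `(t,0)` the glued family is the given family
    have hc1 : ∀ᶠ p : ℂ × ℂ in 𝓝 (t, (0 : ℂ)), ‖p.2‖ < σ := by
      have hc : Continuous fun p : ℂ × ℂ => ‖p.2‖ := by fun_prop
      exact (hc.tendsto (t, (0 : ℂ))).eventually_lt_const (by simpa using hσ)
    have hc2 : ∀ᶠ p : ℂ × ℂ in 𝓝 (t, (0 : ℂ)), ‖t‖ / 2 < ‖p.1‖ := by
      have hc : Continuous fun p : ℂ × ℂ => ‖p.1‖ := by fun_prop
      exact (hc.tendsto (t, (0 : ℂ))).eventually_const_lt (by simp only; linarith)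
    have hgd : ∀ p : ℂ × ℂ, p ∈ NC c → ‖t‖ / 2 < ‖p.1‖ → Gd κ' (‖t‖ / 8) p.1 := by
      intro p hp hp2
      obtain ⟨q0, q1, q2, -⟩ := (NC_iff p.1 p.2).1 hp
      have hg := geo (a := 0) (t := p.1) (w := 0) P.κ'_pos (P.κ_lt.trans P.κ_lt1) q2.le (by simp)
        le_rfl
      simp only [mul_zero, add_zero] at hg
      exact ⟨by linarith, by linarith, hg.2.2⟩
    have heq : Xg κ' G X =ᶠ[𝓝 (t, (0 : ℂ))] X := by
      filter_upwards [hNC, hc1, hc2] with p hp hp1 hp2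
      have hS := hsm ‖p.2‖ (norm_nonneg _) hp1
      have hg0 := hgd p hp hp2
      have ha : (0 : ℝ) < ‖t‖ / 8 := by positivity
      have hle : ‖t‖ / 8 ≤ ‖p.1‖ / 4 := by linarith
      by_cases hp0 : p.2 = 0
      · have e : p = (p.1, 0) := by rw [← hp0]
        rw [e, Xg_zero]
        have := P.fam.near _ ha p.1 0 (hg0.sg P.κ'_pos ha) hg0.low (by
          have := hS.rad; rw [hp0] at this; exact this)
        simp only [norm_zero, ne_eq, OfNat.ofNat_ne_zero, not_false_eq_true, zero_pow, mul_zero,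
          norm_le_zero_iff, sub_eq_zero] at this
        exact this.symm
      · rcases out_or P.κ'_pos hp0 with h | h
        · rw [Xg_out (p := p) h]
          exact P.Xo_agree (t := p.1) (w := p.2) ⟨hp, h⟩ ha hle hS
        · rw [P.Xg_out' (p := p) hp h,
            P.Xo_agree (t := p.1) (w := -p.2) ⟨NC_neg hp, h⟩ ha hle (by rwa [norm_neg])]
          exact P.fam.even _ ha p.1 p.2 (hg0.sg P.κ'_pos ha) hg0.low hS.rad
    have hg0 := hgd (t, 0) hn (by simp only; linarith)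
    have ha : (0 : ℝ) < ‖t‖ / 8 := by positivity
    have hd : DifferentiableAt ℂ X (t, 0) :=
      Fam.diffAt P.fam ha (hg0.sg P.κ'_pos ha) hg0.low (by
        rw [norm_zero]; exact P.fam.r_pos _ ha)
    exact hd.congr_of_eventuallyEq heq
  rcases out_or P.κ'_pos hw with h | h
  · have hO : ∀ᶠ p : ℂ × ℂ in 𝓝 (t, w), Out κ' p.2 :=
      continuous_snd.continuousAt.eventually ((isOpen_Out κ').mem_nhds h)
    refine (P.Xo_diff ⟨hn, h⟩).congr_of_eventuallyEq ?_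
    filter_upwards [hO] with p hp
    exact Xg_out hp
  · have hO : ∀ᶠ p : ℂ × ℂ in 𝓝 (t, w), Out κ' (-p.2) := by
      have hc : ContinuousAt (fun p : ℂ × ℂ => -p.2) (t, w) := by fun_prop
      exact hc.eventually ((isOpen_Out κ').mem_nhds h)
    have hd : DifferentiableAt ℂ (fun p : ℂ × ℂ => Xo G X (p.1, -p.2)) (t, w) := by
      have hl : DifferentiableAt ℂ (fun p : ℂ × ℂ => (p.1, -p.2)) (t, w) := by fun_prop
      exact DifferentiableAt.comp (t, w) (g := Xo G X) (P.Xo_diff ⟨NC_neg hn, h⟩) hl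
    refine hd.congr_of_eventuallyEq ?_
    filter_upwards [hO, hNC] with p hp hp2
    exact P.Xg_out' hp2 hp

/-! ### Part 7: the reflection law on the cone -/

theorem EL_antisymm {κ c₀ M : ℝ} (hE : EndPsi κ c₀ M Ψ) {x y z : ℂ} (h1 : (x, y) ∈ DD κ c₀)
    (h2 : (y, z) ∈ DD κ c₀) : EL Ψ z y x = -EL Ψ x y z := by
  have hswap : ∀ a b : ℂ, (a, b) ∈ DD κ c₀ → (b, a) ∈ DD κ c₀ := by
    rintro a b ⟨q1, q2, q3, q4⟩
    simp only at q1 q2 q3 q4
    refine ⟨q2, q1, ?_, ?_⟩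
    · simp only; rw [norm_sub_rev]; exact q4
    · simp only; rw [norm_sub_rev]; exact q3
  have e1 : (fun y' => LL Ψ z y') =ᶠ[𝓝 y] fun y' => -LL Ψ y' z := by
    have hc : ContinuousAt (fun y' : ℂ => (y', z)) y := by fun_prop
    have := hc.eventually ((isOpen_DD κ c₀).mem_nhds h2)
    filter_upwards [this] with y' hy'
    have hs := hE.symm y' z hy'
    unfold LL
    rw [← hs]; ring
  have e2 : (fun y' => LL Ψ y' x) =ᶠ[𝓝 y] fun y' => -LL Ψ x y' := by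
    have hc : ContinuousAt (fun y' : ℂ => (x, y')) y := by fun_prop
    have := hc.eventually ((isOpen_DD κ c₀).mem_nhds h1)
    filter_upwards [this] with y' hy'
    have hs := hE.symm x y' hy'
    unfold LL
    rw [← hs]; ring
  unfold EL
  rw [e1.deriv_eq, e2.deriv_eq]
  simp only [deriv.fun_neg]
  ring

theorem EL_diag {κ c₀ M : ℝ} (hE : EndPsi κ c₀ M Ψ) {x : ℂ} (hx : x ∈ Sg κ) :
    EL Ψ x x x = 0 := by
  have hxx : ((x, x) : ℂ × ℂ) ∈ DD κ c₀ := by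
    have hn : 0 < ‖x‖ := norm_pos_iff.2 hx.1
    have := hE.c_pos
    refine ⟨hx, hx, ?_, ?_⟩ <;> · simp only [sub_self, norm_zero]; positivity
  have hd : DifferentiableAt ℂ (fun p : ℂ × ℂ => Ψ p.1 p.2) (x, x) :=
    hE.diff.differentiableAt ((isOpen_DD κ c₀).mem_nhds hxx)
  have d1 : DifferentiableAt ℂ (fun y => Ψ x y) x := by
    have hl : DifferentiableAt ℂ (fun y : ℂ => ((x, y) : ℂ × ℂ)) x := by fun_prop
    exact DifferentiableAt.comp x (g := fun p : ℂ × ℂ => Ψ p.1 p.2) hd hl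
  have d2 : DifferentiableAt ℂ (fun y => Ψ y x) x := by
    have hl : DifferentiableAt ℂ (fun y : ℂ => ((y, x) : ℂ × ℂ)) x := by fun_prop
    exact DifferentiableAt.comp x (g := fun p : ℂ × ℂ => Ψ p.1 p.2)
      (f := fun y : ℂ => ((y, x) : ℂ × ℂ)) hd hl
  have h1 : HasDerivAt (fun y => LL Ψ x y) 0 x := by
    have ha : HasDerivAt (fun y : ℂ => (y - x) ^ 3) (((3 : ℕ) : ℂ) * (x - x) ^ (3 - 1) * 1) x :=
      ((hasDerivAt_id' x).sub_const x).fun_pow 3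
    have := ha.fun_mul d1.hasDerivAt
    simpa [LL] using this
  have h2 : HasDerivAt (fun y => LL Ψ y x) 0 x := by
    have ha : HasDerivAt (fun y : ℂ => (x - y) ^ 3) (((3 : ℕ) : ℂ) * (x - x) ^ (3 - 1) * (-1)) x :=
      ((hasDerivAt_id' x).const_sub x).fun_pow 3
    have := ha.fun_mul d2.hasDerivAt
    simpa [LL] using this
  unfold EL
  rw [h1.deriv, h2.deriv, add_zero]

theorem Rg_sub_Sg {κ κ₂ : ℝ} (h : κ₂ ≤ κ) {x : ℂ} (hx : x ∈ Rg κ₂) : x ∈ Sg κ := by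
  obtain ⟨h1, h2, h3⟩ := hx
  refine ⟨h1, by linarith, ?_⟩
  have : κ₂ * ‖x‖ ≤ κ * ‖x‖ := by gcongr
  linarith

/-- the law for outward directions -/
theorem Par.Xo_el (P : Par κ' κ₂ ρ C c A B A₀ B₀ Ψ G r Bf X) {κ c₀ M : ℝ}
    (hE : EndPsi κ c₀ M Ψ) (hκ₂ : κ₂ ≤ κ) (hcc : 16 * c ≤ c₀) {t w : ℂ}
    (h1 : NO κ' c (t - w) w) (h2 : NO κ' c t w) (h3 : NO κ' c (t + w) w) :
    EL Ψ (Xo G X (t + w, w)) (Xo G X (t, w)) (Xo G X (t - w, w)) = 0 ∧
      (Xo G X (t + w, w), Xo G X (t, w)) ∈ DD κ c₀ ∧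
      (Xo G X (t, w), Xo G X (t - w, w)) ∈ DD κ c₀ := by
  obtain ⟨h0, h1', h2', h3', h4⟩ := h2.facts P.c_pos
  have hn : 0 < ‖t‖ := norm_pos_iff.2 h0
  have hW : 0 < ‖w‖ := norm_pos_iff.2 h2.out.ne
  have hc := P.c_le
  obtain ⟨k1, k2⟩ := kk_spec P.c_pos P.c_le h2
  set k := kk t w with hk
  have hkpos : k ≠ 0 := by
    intro h
    rw [h] at k2
    simp only [Nat.cast_zero, zero_mul, add_zero] at k2
    linarith
  obtain ⟨m, hm⟩ := Nat.exists_eq_succ_of_ne_zero hkpos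
  have hkm : (k : ℝ) = m + 1 := by rw [hm]; push_cast; ring
  have hkmc : (k : ℂ) = m + 1 := by rw [hm]; push_cast; ring
  have nt1 : ‖t‖ - ‖w‖ ≤ ‖t + w‖ := by
    have := norm_sub_norm_le t (-w)
    rw [sub_neg_eq_add, norm_neg] at this
    exact this
  have nt2 : ‖t + w‖ ≤ ‖t‖ + ‖w‖ := norm_add_le _ _
  have nt3 : ‖t‖ - ‖w‖ ≤ ‖t - w‖ := norm_sub_norm_le t w
  have nt4 : ‖t - w‖ ≤ ‖t‖ + ‖w‖ := norm_sub_le _ _
  have c1 : ((k + 1 : ℕ) : ℝ) = k + 1 := by push_cast; ring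
  have a0 : adm k t w := ⟨by linarith, by linarith⟩
  have am : adm m (t + w) w := ⟨by rw [hkm] at k2; linarith, by rw [hkm] at k1; linarith⟩
  have ap : adm (k + 1) (t - w) w := by
    constructor
    · rw [c1]; linarith
    · rw [c1]; linarith
  -- common start
  set p₀ := start X (t + k * w) w with hp₀
  have s0 : sta G X k t w = (stp G)^[k] p₀ := rfl
  have sm' : sta G X m (t + w) w = (stp G)^[m] p₀ := by
    unfold sta
    rw [hp₀]
    congr 2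
    rw [hkmc]; ring
  have sp : sta G X (k + 1) (t - w) w = (stp G)^[k + 1] p₀ := by
    unfold sta
    rw [hp₀]
    congr 2
    push_cast; ring
  have e0 : Xo G X (t, w) = ((stp G)^[k] p₀).1 := by rw [P.Xo_eq h2 a0, s0]
  have em : Xo G X (t + w, w) = ((stp G)^[m] p₀).1 := by rw [P.Xo_eq h3 am, sm']
  have ep : Xo G X (t - w, w) = ((stp G)^[k + 1] p₀).1 := by rw [P.Xo_eq h1 ap, sp]
  obtain ⟨-, o3, o4, o5, o6⟩ := P.orbit h2 a0 k le_rfl
  obtain ⟨-, m3, m4, m5, m6⟩ := P.orbit h2 a0 m (by omega)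
  obtain ⟨-, q3, q4, q5, q6⟩ := P.orbit h1 ap (k + 1) le_rfl
  rw [← hp₀] at o3 o4 o5 o6 m3 m4 m5 m6
  have hst : start X (t - w + ((k + 1 : ℕ) : ℂ) * w) w = p₀ := by
    rw [hp₀]; congr 1; push_cast; ring
  rw [hst] at q3 q4 q5 q6
  have ek : (stp G)^[k] p₀ = stp G ((stp G)^[m] p₀) := by
    rw [hm, Function.iterate_succ_apply']
  have ek1 : (stp G)^[k + 1] p₀ = stp G ((stp G)^[k] p₀) := by
    rw [Function.iterate_succ_apply']
  have hprev : ((stp G)^[k] p₀).1 - ((stp G)^[k] p₀).2 = ((stp G)^[m] p₀).1 := by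
    rw [ek]; simp [stp]
  have hnext : ((stp G)^[k + 1] p₀).1 = ((stp G)^[k] p₀).1 +
      G (((stp G)^[k] p₀).1, ((stp G)^[k] p₀).2) := by
    rw [ek1]; rfl
  have hnext2 : ((stp G)^[k + 1] p₀).1 - ((stp G)^[k] p₀).1 = ((stp G)^[k + 1] p₀).2 := by
    rw [ek1]; simp [stp]
  have hel := P.nds.el _ _ o3 o4
  rw [hprev, ← hnext] at hel
  rw [e0, em, ep]
  -- sizes
  have ex : t + k * w - k * w = t := by ring
  have eg : ‖t‖ + k * ‖w‖ - k * ‖w‖ = ‖t‖ := by ring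
  rw [ex, eg] at o5
  have hx : 7 / 8 * ‖t‖ ≤ ‖((stp G)^[k] p₀).1‖ := by
    have := norm_sub_norm_le t ((stp G)^[k] p₀).1
    have h' : ‖t - ((stp G)^[k] p₀).1‖ = ‖((stp G)^[k] p₀).1 - t‖ := norm_sub_rev _ _
    linarith
  have hwt : ‖w‖ ≤ ‖t‖ / 64 := by nlinarith
  have hxm : ‖((stp G)^[k] p₀).1‖ - 2 * ‖w‖ ≤ ‖((stp G)^[m] p₀).1‖ := by
    rw [← hprev]
    have := norm_sub_norm_le ((stp G)^[k] p₀).1 ((stp G)^[k] p₀).2
    linarith
  have hxp : ‖((stp G)^[k] p₀).1‖ - 2 * ‖w‖ ≤ ‖((stp G)^[k + 1] p₀).1‖ := by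
    have e : ((stp G)^[k + 1] p₀).1 = ((stp G)^[k] p₀).1 + ((stp G)^[k + 1] p₀).2 := by
      rw [← hnext2]; ring
    rw [e]
    have := norm_sub_norm_le ((stp G)^[k] p₀).1 (-((stp G)^[k + 1] p₀).2)
    rw [sub_neg_eq_add, norm_neg] at this
    linarith
  have hc₀ := hE.c_pos
  have hbig : ∀ a : ℝ, ‖t‖ / 2 ≤ a → 2 * ‖w‖ < c₀ * a := by
    intro a ha
    have h1 : c₀ * (‖t‖ / 2) ≤ c₀ * a := by gcongr
    have h2 : 16 * c * ‖t‖ ≤ c₀ * ‖t‖ := by gcongr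
    nlinarith
  refine ⟨hel, ⟨Rg_sub_Sg hκ₂ m3, Rg_sub_Sg hκ₂ o3, ?_, ?_⟩,
    ⟨Rg_sub_Sg hκ₂ o3, Rg_sub_Sg hκ₂ q3, ?_, ?_⟩⟩
  · have e : ((stp G)^[k] p₀).1 - ((stp G)^[m] p₀).1 = ((stp G)^[k] p₀).2 := by
      rw [← hprev]; ring
    simp only
    rw [e]
    exact lt_of_le_of_lt o6 (hbig _ (by linarith))
  · have e : ((stp G)^[k] p₀).1 - ((stp G)^[m] p₀).1 = ((stp G)^[k] p₀).2 := by
      rw [← hprev]; ring
    simp only
    rw [e]
    exact lt_of_le_of_lt o6 (hbig _ (by linarith))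
  · simp only
    rw [hnext2]
    exact lt_of_le_of_lt q6 (hbig _ (by linarith))
  · simp only
    rw [hnext2]
    exact lt_of_le_of_lt q6 (hbig _ (by linarith))

theorem Par.Xg_el (P : Par κ' κ₂ ρ C c A B A₀ B₀ Ψ G r Bf X) {κ c₀ M : ℝ}
    (hE : EndPsi κ c₀ M Ψ) (hκ₂ : κ₂ ≤ κ) (hcc : 16 * c ≤ c₀) {t w : ℂ}
    (h1 : (t - w, w) ∈ NC c) (h2 : (t, w) ∈ NC c) (h3 : (t + w, w) ∈ NC c) :
    EL Ψ (Xg κ' G X (t - w, w)) (Xg κ' G X (t, w)) (Xg κ' G X (t + w, w)) = 0 := by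
  by_cases hw : w = 0
  · subst hw
    simp only [sub_zero, add_zero, Xg_zero]
    obtain ⟨q0, q1, q2, -⟩ := (NC_iff t 0).1 h2
    have hg := geo (a := 0) (t := t) (w := 0) P.κ'_pos (P.κ_lt.trans P.κ_lt1) q2.le (by simp)
        le_rfl
    simp only [mul_zero, add_zero] at hg
    have hn : 0 < ‖t‖ := norm_pos_iff.2 q0
    refine EL_diag hE ⟨q0, by linarith, ?_⟩
    have := P.κ'_pos
    have := P.κ_lt
    nlinarith [hg.2.2]
  rcases out_or P.κ'_pos hw with h | h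
  · obtain ⟨e1, e2, e3⟩ := P.Xo_el hE hκ₂ hcc ⟨h1, h⟩ ⟨h2, h⟩ ⟨h3, h⟩
    rw [Xg_out (p := (t - w, w)) h, Xg_out (p := (t, w)) h, Xg_out (p := (t + w, w)) h]
    have := EL_antisymm hE e2 e3
    rw [this, e1, neg_zero]
  · have q1 : NO κ' c (t - -w) (-w) := ⟨by rw [sub_neg_eq_add]; exact NC_neg h3, h⟩
    have q2 : NO κ' c t (-w) := ⟨NC_neg h2, h⟩
    have q3 : NO κ' c (t + -w) (-w) := ⟨by rw [← sub_eq_add_neg]; exact NC_neg h1, h⟩
    obtain ⟨e1, -, -⟩ := P.Xo_el hE hκ₂ hcc q1 q2 q3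
    rw [P.Xg_out' (p := (t - w, w)) h1 h, P.Xg_out' (p := (t, w)) h2 h,
      P.Xg_out' (p := (t + w, w)) h3 h]
    simp only
    rw [← sub_eq_add_neg, sub_neg_eq_add] at e1
    exact e1

end par

end L2

/-- **T5-L2** -/
theorem cone_of_ndm (hN : NDM) : Cone := by
  intro κ κ' c₀ M Ψ r Bf X hκ' hκ hE hX
  set κ₂ := (κ + κ') / 2 with hκ₂
  have hκ₂1 : κ' < κ₂ := by rw [hκ₂]; linarith
  have hκ₂2 : κ₂ < κ := by rw [hκ₂]; linarith
  have hκ₂3 : κ₂ < 1 := hκ₂2.trans hE.κ_lt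
  obtain ⟨ρ, C, G, hG⟩ := L2.nds_of_ndm hN hE hκ₂2
  obtain ⟨A₀, B₀, σ₀, hσ₀, hst⟩ := L2.start_bound hX hκ' (by linarith)
  obtain ⟨A, B, c₁, hA, hB, hc₁, hc64, horb⟩ := L2.orbit (A₀ := A₀) (B₀ := B₀) hG hκ' hκ₂1 hκ₂3
  obtain ⟨σ₁, hσ₁, hσ1', hsm⟩ := L2.exists_sm hX hκ' hG.ρ_pos (a := 1 / 8) (by norm_num)
  have hc₀ := hE.c_pos
  set c := min c₁ (min σ₀ (min σ₁ (c₀ / 16))) with hc
  have i0 : 0 < c := lt_min hc₁ (lt_min hσ₀ (lt_min hσ₁ (by positivity)))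
  have i1 : c ≤ c₁ := min_le_left _ _
  have i2 : c ≤ σ₀ := (min_le_right _ _).trans (min_le_left _ _)
  have i3 : c ≤ σ₁ := (min_le_right _ _).trans ((min_le_right _ _).trans (min_le_left _ _))
  have i4 : c ≤ c₀ / 16 := (min_le_right _ _).trans ((min_le_right _ _).trans (min_le_right _ _))
  have P : L2.Par κ' κ₂ ρ C c A B A₀ B₀ Ψ G r Bf X := by
    refine ⟨hG, hX, hκ', hκ₂1, hκ₂3, i0, by linarith, hA, hB, ?_, ?_, ?_⟩
    · intro T₀ w g₀ k p₀ hR h1 h2 j hj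
      exact horb c T₀ w g₀ k p₀ i0 i1 hR h1 h2 j hj
    · intro T w h1 h2 h3 h4 h5
      exact hst T w h1 h2 h3 h4 (by linarith)
    · intro W h0 hW
      exact hsm W h0 (by linarith)
  refine ⟨c, B, L2.Xg κ' G X, i0, ?_, ?_, ?_, ?_⟩
  · intro p hp
    exact (P.Xg_diff (t := p.1) (w := p.2) hp).differentiableWithinAt
  · intro t w h
    exact P.Xg_near h
  · intro t w h
    exact P.Xg_even h
  · intro t w h1 h2 h3
    exact P.Xg_el hE hκ₂2.le (by linarith) h1 h2 h3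

end Crest.Agent.R102.T5R
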