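import Crest.Agent.R102.IsoPos_297
import Crest.Agent.R102.IsoNeg5_486

/-!
# Row 102, (T5), leaf T5-L6I: `NoI` outright (helper496)
-/

set_option autoImplicit false

namespace Crest.Agent.R102.T5L6IFin496

/-- `NoI`: there is no isotropic homogeneous germ. -/
theorem noI : Crest.Agent.R102.T5R.NoI :=
  Crest.Agent.R102.T5L6I496.noI_of Crest.Agent.R102.Iso3297.isoPos
    Crest.Agent.R102.IsoNeg486.isoNeg

end Crest.Agent.R102.T5L6IFin496
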