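import Crest.Agent.R102.T5End_160
import Crest.Agent.R102.C1K_821
import Crest.Agent.R102.C1Sec_963
import Crest.Agent.R102.P2c_596

/-!
Row 102, T5-P2 (helper160): C1 ⇒ the family near a top line end.
-/

set_option autoImplicit false

open Set Filter Topology Metric
open scoped ComplexConjugate

noncomputable section

namespace Crest.Agent.R102.T5R

namespace P2

open Crest.Agent.R102.T5 Crest.Agent.R102.A929 Crest.Agent.R102.B821
open Crest.Agent.R102.Spine Crest.Agent.R102.C0 Crest.Agent.R102.C1 Crest.Agent.R102.C1Sec963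

theorem LeafOn.congr {k : ℂ × ℂ → ℂ} {K : Set ℂ} {r B : ℝ} {X X' : ℂ × ℂ → ℂ}
    (h : LeafOn k K r B X) (he : ∀ t ∈ K, ∀ w : ℂ, ‖w‖ < r → X' (t, w) = X (t, w)) :
    LeafOn k K r B X' := by
  refine ⟨h.diff.congr ?_, ?_, ?_⟩
  · rintro ⟨t, w⟩ ⟨ht, hw⟩
    exact he t ht w (by simpa using hw)
  · intro t ht w hw
    rw [he t ht w hw]
    exact h.near t ht w hw
  · intro t w hw h1 h2 h3
    rw [he _ h1 w hw, he _ h2 w hw, he _ h3 w hw]
    exact h.law t w hw h1 h2 h3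

variable {q : C(ℂ, ℂ)} {η ρ r B : ℝ} {b φ p : ℂ × ℂ → ℂ} {m₀ : ℂ → ℂ}
  {V : Set ℂ} {θ H : ℂ → ℂ} {h : ℝ}

/-- **the global family on the maximal strip** -/
theorem glob (F : LineFam q η ρ r B b φ p m₀) (E : VExt q η V θ H) (hV : Str h ⊆ V)
    (hη : η ≤ h) : ∃ X : ℂ × ℂ → ℂ, LeafLoc (kk θ H) (Str h) X ∧
      (∀ t ∈ Str ρ, ∀ᶠ x in 𝓝 ((t, 0) : ℂ × ℂ), X x = b x) := by
  classical
  have hρ := F.ρ_pos
  have hρη : 2 * ρ < η := F.ρ_lt
  have hρh : ρ < h := by linarith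
  set hs : ℕ → ℝ := fun n => h - (h - ρ) / (n + 2) with hhs
  have hpos : 0 < h - ρ := by linarith
  have hs1 : ∀ n, ρ < hs n := by
    intro n
    have hn : (0 : ℝ) ≤ n := Nat.cast_nonneg n
    have : (h - ρ) / (n + 2) < h - ρ := by
      rw [div_lt_iff₀ (by positivity)]
      nlinarith
    simp only [hhs]; linarith
  have hs2 : ∀ n, hs n < h := by
    intro n
    have hn : (0 : ℝ) ≤ n := Nat.cast_nonneg n
    have : 0 < (h - ρ) / (n + 2) := by positivity
    simp only [hhs]; linarith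
  have hs3 : ∀ y : ℝ, y < h → ∃ n : ℕ, y < hs n := by
    intro y hy
    obtain ⟨n, hn⟩ := exists_nat_gt ((h - ρ) / (h - y))
    refine ⟨n, ?_⟩
    have h1 : 0 < h - y := by linarith
    rw [div_lt_iff₀ h1] at hn
    have : (h - ρ) / (n + 2) < h - y := by
      rw [div_lt_iff₀ (by positivity)]
      nlinarith
    simp only [hhs]; linarith
  have hsmono : ∀ {m n : ℕ}, m ≤ n → hs m ≤ hs n := by
    intro m n hmn
    simp only [hhs]
    have : (h - ρ) / (n + 2) ≤ (h - ρ) / (m + 2) := by gcongr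
    linarith
  choose rr BB XX r0 r1 _ _ P a4 _ using
    fun n : ℕ => strip_pre F E hV hη (h₂ := hs n) (hs1 n) (hs2 n)
  let N : ℂ → ℕ := fun t => if h : ∃ n : ℕ, |t.im| < hs n then Nat.find h else 0
  have hN : ∀ (t : ℂ) (M : ℕ), |t.im| < hs M → N t ≤ M ∧ |t.im| < hs (N t) := by
    intro t M hM
    have hex : ∃ n : ℕ, |t.im| < hs n := ⟨M, hM⟩
    simp only [N, dif_pos hex]
    exact ⟨Nat.find_le hM, Nat.find_spec hex⟩
  have hrm : ∀ M : ℕ, ∃ δ : ℝ, 0 < δ ∧ ∀ n ≤ M, δ ≤ rr n := by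
    intro M
    induction M with
    | zero => exact ⟨rr 0, r0 0, fun n hn => by rw [Nat.le_zero.1 hn]⟩
    | succ M ih =>
      obtain ⟨δ, h1, h2⟩ := ih
      refine ⟨min δ (rr (M + 1)), lt_min h1 (r0 _), fun n hn => ?_⟩
      rcases Nat.lt_or_ge n (M + 1) with h3 | h3
      · exact (min_le_left _ _).trans (h2 n (by omega))
      · have : n = M + 1 := le_antisymm hn h3
        rw [this]; exact min_le_right _ _
  have h0ρ : (0 : ℂ) ∈ Str ρ := by rw [mem_Str]; simpa using hρ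
  have hagree : ∀ (n M : ℕ), n ≤ M → ∀ t ∈ Str (hs n), ∀ w : ℂ, ‖w‖ < rr n → ‖w‖ < rr M →
      XX n (t, w) = XX M (t, w) := by
    intro n M hnM t ht w hw hw'
    refine eq_of_eq_open (f := fun t => XX n (t, w)) (g := fun t => XX M (t, w)) (isOpen_Str _)
      (C1.convex_Str _).isPreconnected (slice_t (P n).lf.diff hw)
      ((slice_t (P M).lf.diff hw').mono (Str_mono (hsmono hnM))) (isOpen_Str ρ) (z₀ := 0)
      (Str_mono (hs1 n).le h0ρ) h0ρ ?_ t ht
    intro z _ hz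
    show XX n (z, w) = XX M (z, w)
    rw [a4 n z hz w hw, a4 M z hz w hw']
  let X : ℂ × ℂ → ℂ := fun x => XX (N x.1) x
  have hX : ∀ M : ℕ, ∃ δ : ℝ, 0 < δ ∧ δ ≤ rr M ∧ ∀ t ∈ Str (hs M), ∀ w : ℂ, ‖w‖ < δ →
      X (t, w) = XX M (t, w) := by
    intro M
    obtain ⟨δ, h1, h2⟩ := hrm M
    refine ⟨δ, h1, h2 M le_rfl, ?_⟩
    intro t ht w hw
    obtain ⟨h3, h4⟩ := hN t M ht
    exact hagree (N t) M h3 t h4 w (hw.trans_le (h2 _ h3)) (hw.trans_le (h2 _ le_rfl))
  refine ⟨X, ?_, ?_⟩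
  · intro c hc
    obtain ⟨M, hM⟩ := hs3 _ (mem_Str.1 hc)
    obtain ⟨δ, h1, h2, h3⟩ := hX M
    have hsub : ball c (hs M - |c.im|) ⊆ Str (hs M) := by
      intro t ht
      rw [mem_ball, dist_eq_norm] at ht
      have h5 := Complex.abs_im_le_norm (t - c)
      rw [mem_Str]
      have : |t.im| ≤ |c.im| + |(t - c).im| := by
        have := abs_add_le c.im (t - c).im
        rwa [Complex.sub_im, add_sub_cancel] at this
      linarith
    refine ⟨hs M - |c.im|, by linarith, δ, h1, BB M, ?_⟩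
    exact LeafOn.congr ((P M).lf.mono hsub h2 le_rfl) (fun t ht w hw => h3 t (hsub ht) w hw)
  · intro t ht
    obtain ⟨δ, h1, h2, h3⟩ := hX 0
    have hU : Str ρ ×ˢ ball (0 : ℂ) δ ∈ 𝓝 ((t, 0) : ℂ × ℂ) :=
      ((isOpen_Str ρ).prod isOpen_ball).mem_nhds ⟨ht, mem_ball_self h1⟩
    filter_upwards [hU] with x hx
    obtain ⟨hx1, hx2⟩ := hx
    rw [mem_ball, dist_zero_right] at hx2
    have e1 := h3 x.1 (Str_mono (hs1 0).le hx1) x.2 hx2
    have e2 := a4 0 x.1 hx1 x.2 (hx2.trans_le h2)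
    exact e1.trans e2

/-! ### the slit disc and the extended datum -/

theorem isOpen_VS (s : ℂ) (ε : ℝ) : IsOpen (VS s ε) := by
  have : VS s ε = {z : ℂ | ‖z - s‖ < ε} ∩ (fun z => Complex.I * (z - s)) ⁻¹' Complex.slitPlane := by
    ext z; simp [VS]
  rw [this]
  exact IsOpen.inter (isOpen_lt (by fun_prop) continuous_const)
    (Complex.isOpen_slitPlane.preimage (by fun_prop))

theorem VS_conn {s : ℂ} {ε : ℝ} (hε : 0 < ε) : IsPreconnected (VS s ε) := by
  have hst : StarConvex ℝ (s - Complex.I * ((ε / 2 : ℝ) : ℂ)) (VS s ε) := by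
    intro z hz a b ha hb hab
    obtain ⟨h1, h2⟩ := hz
    have e : a • (s - Complex.I * ((ε / 2 : ℝ) : ℂ)) + b • z - s =
        a • (-(Complex.I * ((ε / 2 : ℝ) : ℂ))) + b • (z - s) := by
      have hac : (a : ℂ) + b = 1 := by exact_mod_cast hab
      simp only [Complex.real_smul]
      linear_combination s * hac
    refine ⟨?_, ?_⟩
    · rw [e]
      have hn : ‖-(Complex.I * ((ε / 2 : ℝ) : ℂ))‖ < ε := by
        rw [norm_neg, norm_mul, Complex.norm_I, one_mul, Complex.norm_real,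
          Real.norm_of_nonneg (by positivity)]
        linarith
      have hc := (convex_ball (0 : ℂ) ε) (x := -(Complex.I * ((ε / 2 : ℝ) : ℂ))) (by simpa using hn)
        (y := z - s) (by simpa using h1) ha hb hab
      simpa using hc
    · rw [e, mul_add]
      have e1 : Complex.I * a • (-(Complex.I * ((ε / 2 : ℝ) : ℂ))) = ((a * (ε / 2) : ℝ) : ℂ) := by
        simp only [Complex.real_smul]
        have := Complex.I_sq
        push_cast
        linear_combination (-(a : ℂ) * (ε / 2)) * this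
      have e2 : Complex.I * b • (z - s) = (b : ℂ) * (Complex.I * (z - s)) := by
        simp only [Complex.real_smul]; ring
      rw [e1, e2]
      rw [Complex.mem_slitPlane_iff] at h2 ⊢
      simp only [Complex.add_re, Complex.add_im, Complex.re_ofReal_mul, Complex.im_ofReal_mul,
        Complex.ofReal_re, Complex.ofReal_im, zero_add]
      by_cases hb0 : b = 0
      · left
        have : a = 1 := by linarith
        rw [hb0, this]; simp; positivity
      · have hbp : 0 < b := lt_of_le_of_ne hb (Ne.symm hb0)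
        rcases h2 with h | h
        · left
          have : 0 ≤ a * (ε / 2) := by positivity
          nlinarith [mul_pos hbp h]
        · right
          exact mul_ne_zero hb0 h
  have hne : s - Complex.I * ((ε / 2 : ℝ) : ℂ) ∈ VS s ε := by
    refine ⟨?_, ?_⟩
    · have : s - Complex.I * ((ε / 2 : ℝ) : ℂ) - s = -(Complex.I * ((ε / 2 : ℝ) : ℂ)) := by ring
      rw [this, norm_neg, norm_mul, Complex.norm_I, one_mul, Complex.norm_real,
        Real.norm_of_nonneg (by positivity)]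
      linarith
    · have : Complex.I * (s - Complex.I * ((ε / 2 : ℝ) : ℂ) - s) = ((ε / 2 : ℝ) : ℂ) := by
        have := Complex.I_sq
        linear_combination (-((ε / 2 : ℝ) : ℂ)) * this
      rw [this, Complex.mem_slitPlane_iff]
      left; simp; positivity
  exact (StarConvex.isPathConnected hst hne).isConnected.isPreconnected

/-- the extended functions -/
def ext (h0 : ℝ) (f g : ℂ → ℂ) (z : ℂ) : ℂ := if |z.im| < h0 then f z else g z

theorem ext_str {h0 : ℝ} {f g : ℂ → ℂ} {z : ℂ} (hz : z ∈ Str h0) : ext h0 f g z = f z := by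
  unfold ext; rw [if_pos (mem_Str.1 hz)]

theorem ext_VS {h0 ε : ℝ} {f g : ℂ → ℂ} {s z : ℂ} (he : ∀ z ∈ VS s ε, |z.im| < h0 → g z = f z)
    (hz : z ∈ VS s ε) : ext h0 f g z = g z := by
  unfold ext
  split_ifs with h
  · exact (he z hz h).symm
  · rfl

theorem ext_diff {h0 ε : ℝ} {f g : ℂ → ℂ} {s : ℂ} (hf : DifferentiableOn ℂ f (Str h0))
    (hg : DifferentiableOn ℂ g (VS s ε)) (he : ∀ z ∈ VS s ε, |z.im| < h0 → g z = f z) :
    DifferentiableOn ℂ (ext h0 f g) (Str h0 ∪ VS s ε) := by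
  rintro z (hz | hz)
  · have h1 : DifferentiableAt ℂ f z := hf.differentiableAt ((isOpen_Str h0).mem_nhds hz)
    refine (h1.congr_of_eventuallyEq ?_).differentiableWithinAt
    filter_upwards [(isOpen_Str h0).mem_nhds hz] with x hx using ext_str hx
  · have h1 : DifferentiableAt ℂ g z := hg.differentiableAt ((isOpen_VS s ε).mem_nhds hz)
    refine (h1.congr_of_eventuallyEq ?_).differentiableWithinAt
    filter_upwards [(isOpen_VS s ε).mem_nhds hz] with x hx using ext_VS he hx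

variable {s : ℂ} {ε : ℝ} {Θ Hh q₁ : ℂ → ℂ} {c β C : ℝ} {h0 : ℝ}

theorem vext (D : DataS q η ρ r B b φ p m₀ θ H h0) (hs : s.im = h0)
    (E : EndS h0 θ H s ε Θ Hh q₁ c β C) :
    VExt q η (Str h0 ∪ VS s ε) (ext h0 θ Θ) (ext h0 H Hh) := by
  have h00 : 0 < h0 := E.ε_pos.trans E.ε_lt
  have hε := E.ε_pos
  have hεl := E.ε_lt
  refine ⟨(isOpen_Str h0).union (isOpen_VS s ε), ?_, ?_, ?_, ?_, ?_, ?_⟩
  · refine IsPreconnected.union (s - Complex.I * ((ε / 2 : ℝ) : ℂ)) ?_ ?_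
      (C1.convex_Str _).isPreconnected (VS_conn E.ε_pos)
    · rw [mem_Str]
      have : (s - Complex.I * ((ε / 2 : ℝ) : ℂ)).im = h0 - ε / 2 := by simp [hs]
      rw [this, abs_lt]
      constructor <;> linarith
    · refine ⟨?_, ?_⟩
      · have : s - Complex.I * ((ε / 2 : ℝ) : ℂ) - s = -(Complex.I * ((ε / 2 : ℝ) : ℂ)) := by ring
        rw [this, norm_neg, norm_mul, Complex.norm_I, one_mul, Complex.norm_real,
          Real.norm_of_nonneg (by positivity)]
        linarith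
      · have : Complex.I * (s - Complex.I * ((ε / 2 : ℝ) : ℂ) - s) = ((ε / 2 : ℝ) : ℂ) := by
          have := Complex.I_sq
          linear_combination (-((ε / 2 : ℝ) : ℂ)) * this
        rw [this, Complex.mem_slitPlane_iff]
        left; simp; positivity
  · intro z hz
    exact Or.inl (Str_mono D.le hz)
  · exact ext_diff D.ext.θ_diff E.Θ_diff E.Θ_eq
  · exact ext_diff D.ext.H_diff E.H_diff E.H_eq
  · intro z hz
    rw [ext_str (Str_mono D.le hz)]
    exact D.ext.θ_eq z hz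
  · intro z hz
    rw [ext_str (Str_mono D.le hz)]
    exact D.ext.H_eq z hz

theorem kloc (D : Datum q η) (E : VExt q η V θ H) : KLoc V (kk θ H) := by
  intro x hx
  obtain ⟨s, hs, hsV⟩ := Metric.isOpen_iff.1 E.open' x hx
  have hcl : closedBall x (s / 2) ⊆ V := (closedBall_subset_ball (by linarith)).trans hsV
  obtain ⟨ε, C, hε, hk, -⟩ := exists_KMap D E (isCompact_closedBall x (s / 2)) hcl
  exact ⟨s / 2, by positivity, ε, hε, C, KMap.mono' hk ball_subset_closedBall le_rfl le_rfl⟩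

/-! ### growth across the top line near the end -/

/-- centres -/
def FF (s : ℂ) (h0 ε : ℝ) : Set ℂ := {c | c.im = h0 ∧ 0 < ‖c - s‖ ∧ ‖c - s‖ < ε / 2}

/-- the region -/
def KK (s : ℂ) (h0 ε : ℝ) : Set ℂ := Str h0 ∪ ⋃ c ∈ FF s h0 ε, ball c (‖c - s‖ / 8 / 6000)

theorem grown {k X : ℂ × ℂ → ℂ} (hs : s.im = h0) (hε : 0 < ε) (hεl : ε < h0)
    (hX : LeafLoc k (Str h0) X) (hk : KLoc (Str h0 ∪ VS s ε) k) :
    ∃ X' : ℂ × ℂ → ℂ, LeafLoc k (KK s h0 ε) X' ∧
      ∀ t ∈ Str h0, ∀ᶠ p in 𝓝 ((t, 0) : ℂ × ℂ), X' p = X p := by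
  have h00 : 0 < h0 := hε.trans hεl
  refine grow_loc (F := FF s h0 ε) (η := fun c => ‖c - s‖ / 8) (u := fun _ => 1) (isOpen_Str h0)
    hX hk ?_ ?_ ?_ ?_ ?_ ?_
  · intro c hc
    obtain ⟨h1, h2, h3⟩ := hc
    rw [mem_closure_iff_nhds_basis nhds_basis_ball]
    intro δ hδ
    set d := min δ h0 / 2 with hd
    have hdpos : 0 < d := by positivity
    have hd1 : d < δ := by have := min_le_left δ h0; linarith
    have hd2 : d < h0 := by have := min_le_right δ h0; linarith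
    refine ⟨c - Complex.I * (d : ℂ), ?_, ?_⟩
    · rw [mem_Str]
      have : (c - Complex.I * (d : ℂ)).im = h0 - d := by simp [h1]
      rw [this, abs_lt]
      constructor <;> linarith
    · rw [mem_ball, dist_eq_norm]
      have : c - Complex.I * (d : ℂ) - c = -(Complex.I * (d : ℂ)) := by ring
      rw [this, norm_neg, norm_mul, Complex.norm_I, one_mul, Complex.norm_real,
        Real.norm_of_nonneg hdpos.le]
      exact hd1
  · intro c hc
    have := hc.2.1
    positivity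
  · intro c _
    simp
  · intro c hc t ht
    obtain ⟨h1, h2, h3⟩ := hc
    obtain ⟨h4, h5⟩ := ht
    simp only [map_one, mul_one, Complex.sub_im] at h5
    have h6 := Complex.abs_im_le_norm (t - c)
    rw [Complex.sub_im, abs_le] at h6
    rw [mem_Str, abs_lt]
    constructor
    · linarith [h6.1]
    · linarith
  · intro c hc z hz
    obtain ⟨h1, h2, h3⟩ := hc
    right
    rw [mem_closedBall, dist_eq_norm] at hz
    have h4 : ‖z - s‖ ≤ ‖z - c‖ + ‖c - s‖ := by
      have : z - s = (z - c) + (c - s) := by ring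
      rw [this]; exact norm_add_le _ _
    refine ⟨by linarith, ?_⟩
    rw [Complex.mem_slitPlane_iff]
    right
    have e1 : (Complex.I * (z - s)).im = (z - s).re := by simp
    rw [e1]
    have e2 : ‖c - s‖ = |(c - s).re| := by
      have : c - s = (((c - s).re : ℝ) : ℂ) := by
        apply Complex.ext
        · simp
        · simp [h1, hs]
      rw [this, Complex.norm_real, Real.norm_eq_abs]
      simp
    intro hcon
    have h5 := Complex.abs_re_le_norm (z - c)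
    have e3 : (z - c).re = -(c - s).re := by
      have : z - c = (z - s) - (c - s) := by ring
      rw [this, Complex.sub_re, hcon]; ring
    rw [e3, abs_neg, ← e2] at h5
    linarith
  · intro c hc
    exact ((C1.convex_Str h0).inter (convex_ball _ _)).isPreconnected

theorem isOpen_KK : IsOpen (KK s h0 ε) :=
  (isOpen_Str h0).union (isOpen_biUnion fun _ _ => isOpen_ball)

theorem KK_conn (h00 : 0 < h0) : IsPreconnected (KK s h0 ε) := by
  have h0S : (0 : ℂ) ∈ Str h0 := by rw [mem_Str]; simpa using h00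
  refine isPreconnected_of_forall (0 : ℂ) ?_
  rintro y (hy | hy)
  · exact ⟨Str h0, fun x hx => Or.inl hx, h0S, hy, (C1.convex_Str h0).isPreconnected⟩
  · simp only [mem_iUnion, exists_prop] at hy
    obtain ⟨c, hc, hyc⟩ := hy
    have hr : 0 < ‖c - s‖ / 8 / 6000 := by have := hc.2.1; positivity
    refine ⟨Str h0 ∪ ball c (‖c - s‖ / 8 / 6000), ?_, Or.inl h0S, Or.inr hyc, ?_⟩
    · rintro x (hx | hx)
      · exact Or.inl hx
      · right
        simp only [mem_iUnion, exists_prop]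
        exact ⟨c, hc, hx⟩
    · set d := min (‖c - s‖ / 8 / 6000) h0 / 2 with hd
      have hdpos : 0 < d := by positivity
      have hd1 : d < ‖c - s‖ / 8 / 6000 := by
        have := min_le_left (‖c - s‖ / 8 / 6000) h0; linarith
      have hd2 : d < h0 := by have := min_le_right (‖c - s‖ / 8 / 6000) h0; linarith
      refine IsPreconnected.union (c - Complex.I * (d : ℂ)) ?_ ?_
        (C1.convex_Str h0).isPreconnected (convex_ball _ _).isPreconnected
      · rw [mem_Str]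
        have : (c - Complex.I * (d : ℂ)).im = h0 - d := by simp [hc.1]
        rw [this, abs_lt]
        constructor <;> linarith
      · rw [mem_ball, dist_eq_norm]
        have : c - Complex.I * (d : ℂ) - c = -(Complex.I * (d : ℂ)) := by ring
        rw [this, norm_neg, norm_mul, Complex.norm_I, one_mul, Complex.norm_real,
          Real.norm_of_nonneg hdpos.le]
        exact hd1

/-- scaled sector points are in the region -/
theorem mem_KK (hs : s.im = h0) (hε : 0 < ε) (hεl : ε < h0) {t : ℂ} (ht0 : t ≠ 0)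
    (ht1 : ‖t‖ ≤ 1) (ht : t.im ≤ 1 / 100000 * ‖t‖) :
    s + ((ε / 4 : ℝ) : ℂ) * t ∈ KK s h0 ε := by
  have hn : 0 < ‖t‖ := norm_pos_iff.2 ht0
  have eim : (s + ((ε / 4 : ℝ) : ℂ) * t).im = h0 + ε / 4 * t.im := by
    rw [Complex.add_im, Complex.im_ofReal_mul, hs]
  rcases lt_or_ge t.im 0 with h | h
  · left
    rw [mem_Str, eim, abs_lt]
    have h1 := (abs_le.1 (Complex.abs_im_le_norm t)).1
    constructor
    · nlinarith
    · nlinarith
  · right
    simp only [mem_iUnion, exists_prop]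
    set c : ℂ := s + (((ε / 4) * t.re : ℝ) : ℂ) with hc
    have hcs : ‖c - s‖ = ε / 4 * |t.re| := by
      rw [hc, add_sub_cancel_left, Complex.norm_real, Real.norm_eq_abs, abs_mul,
        abs_of_pos (by positivity : (0 : ℝ) < ε / 4)]
    have hre : ‖t‖ / 2 ≤ |t.re| := by
      have := Complex.norm_le_abs_re_add_abs_im t
      rw [abs_of_nonneg h] at this
      linarith
    have hre1 : |t.re| ≤ 1 := (Complex.abs_re_le_norm t).trans ht1
    refine ⟨c, ⟨by rw [hc]; simp [hs], ?_, ?_⟩, ?_⟩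
    · rw [hcs]; nlinarith
    · rw [hcs]; nlinarith
    · rw [mem_ball, dist_eq_norm]
      have e : s + ((ε / 4 : ℝ) : ℂ) * t - c = ((ε / 4 * t.im : ℝ) : ℂ) * Complex.I := by
        rw [hc]
        apply Complex.ext
        · simp [Complex.re_ofReal_mul]
        · simp [Complex.im_ofReal_mul]
      rw [e, norm_mul, Complex.norm_I, mul_one, Complex.norm_real, Real.norm_of_nonneg
        (by positivity), hcs]
      have : t.im < |t.re| / 48000 := by linarith
      calc ε / 4 * t.im < ε / 4 * (|t.re| / 48000) := by gcongr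
        _ = ε / 4 * |t.re| / 8 / 6000 := by ring

/-! ### scaled family -/

/-- input (c1) -/
def C1H : Prop :=
  ∀ (V U Q : Set ℂ) (th Hh q : ℂ → ℂ), LZ V th Hh → IsOpen U → U ⊆ V → DifferentiableOn ℂ q U →
    (∀ z ∈ U, Complex.exp (q z) = deriv th z) → IsCompact Q → Q ⊆ U →
    ∃ δ > 0, ∀ x y z : ℂ, y ∈ Q → ‖x - y‖ < δ → ‖z - y‖ < δ →
      kk th Hh (y, z - y) = -kk th Hh (y, x - y) → EL (PsiQ q) x y z = 0

/-- input (c2) -/
def C2H : Prop :=
  ∀ (V : Set ℂ) (th Hh : ℂ → ℂ) (s : ℂ) (μ : ℝ), 0 < μ → LZ V th Hh →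
    LZ {t | s + (μ : ℂ) * t ∈ V} (fun t => th (s + (μ : ℂ) * t))
      (fun t => Hh (s + (μ : ℂ) * t) / (μ : ℂ) ^ 3) ∧
    ∀ t e : ℂ, s + (μ : ℂ) * t ∈ V → s + (μ : ℂ) * (t + e) ∈ V →
      kk (fun t => th (s + (μ : ℂ) * t)) (fun t => Hh (s + (μ : ℂ) * t) / (μ : ℂ) ^ 3) (t, e) =
        kk th Hh (s + (μ : ℂ) * t, (μ : ℂ) * e) / μ

theorem c1h : C1H := by
  intro V U Q th Hh q L hU hUV hq hexp hQ hQU
  exact P2c596.el_of_kk L hU hUV hq hexp hQ hQU

theorem c2h : C2H := by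
  intro V th Hh s μ hμ L
  have hμc : (μ : ℂ) ≠ 0 := by exact_mod_cast hμ.ne'
  exact ⟨P2c596.LZ_S hμc L, fun t e _ _ => P2c596.kk_S hμc t e⟩

theorem even_germ {K : Set ℂ} {X : ℂ × ℂ → ℂ} {k : ℂ × ℂ → ℂ} (hL : LeafLoc k K X)
    (hK : IsPreconnected K) {t₀ : ℂ} (h0 : t₀ ∈ K)
    (he : ∀ᶠ p in 𝓝 ((t₀, 0) : ℂ × ℂ), X (p.1, -p.2) = X p) :
    ∀ t ∈ K, ∀ᶠ p in 𝓝 ((t, 0) : ℂ × ℂ), X (p.1, -p.2) = X p := by
  refine germ_eq hK (f := fun p => X (p.1, -p.2)) (g := X) ?_ ?_ h0 he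
  · intro t ht
    obtain ⟨s, hs, r, hr, B, hB⟩ := hL t ht
    refine ⟨s, hs, r, hr, ?_⟩
    refine hB.diff.comp (by fun_prop) ?_
    rintro ⟨x, y⟩ ⟨hx, hy⟩
    refine ⟨hx, ?_⟩
    rw [mem_ball, dist_zero_right] at hy ⊢
    simpa using hy
  · intro t ht
    obtain ⟨s, hs, r, hr, B, hB⟩ := hL t ht
    exact ⟨s, hs, r, hr, hB.diff⟩

/-- compact scaled sets -/
def Qa (a : ℝ) : Set ℂ := {t | a ≤ ‖t‖ ∧ ‖t‖ ≤ 1 ∧ t.im ≤ 1 / 100000 * ‖t‖}

def Qh (a : ℝ) : Set ℂ := {t | a / 2 ≤ ‖t‖ ∧ ‖t‖ ≤ 3 / 2 ∧ t.im ≤ 1 / 1000 * ‖t‖}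

/-- the bigger slit disc -/
def UU : Set ℂ := {t | ‖t‖ < 2 ∧ Complex.I * t ∈ Complex.slitPlane}

theorem compact_Qa (a : ℝ) : IsCompact (Qa a) := by
  refine (isCompact_closedBall (0 : ℂ) 1).of_isClosed_subset ?_ ?_
  · refine IsClosed.inter (isClosed_le continuous_const continuous_norm) (IsClosed.inter ?_ ?_)
    · exact isClosed_le continuous_norm continuous_const
    · exact isClosed_le Complex.continuous_im (continuous_const.mul continuous_norm)
  · intro t ht
    simpa using ht.2.1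

theorem compact_Qh (a : ℝ) : IsCompact (Qh a) := by
  refine (isCompact_closedBall (0 : ℂ) (3 / 2)).of_isClosed_subset ?_ ?_
  · refine IsClosed.inter (isClosed_le continuous_const continuous_norm) (IsClosed.inter ?_ ?_)
    · exact isClosed_le continuous_norm continuous_const
    · exact isClosed_le Complex.continuous_im (continuous_const.mul continuous_norm)
  · intro t ht
    simpa using ht.2.1

theorem slit_of {t : ℂ} (ht0 : t ≠ 0) (h : t.im < ‖t‖) : Complex.I * t ∈ Complex.slitPlane := by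
  rw [Complex.mem_slitPlane_iff]
  simp only [Complex.mul_re, Complex.I_re, zero_mul, Complex.I_im, one_mul, zero_sub,
    Complex.mul_im, zero_add]
  by_contra hcon
  push Not at hcon
  obtain ⟨h3, h4⟩ := hcon
  have him : 0 ≤ t.im := by linarith
  have hn : ‖t‖ = t.im := by
    have e : t = (t.im : ℂ) * Complex.I := by
      apply Complex.ext
      · simp only [Complex.mul_re, Complex.ofReal_re, Complex.I_re, mul_zero, Complex.ofReal_im,
          Complex.I_im, mul_one, sub_self]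
        simpa using h4
      · simp
    rw [e, norm_mul, Complex.norm_I, mul_one, Complex.norm_real, Real.norm_of_nonneg him]
    simp
  linarith

theorem Qh_UU {a : ℝ} (ha : 0 < a) : Qh a ⊆ UU := by
  intro t ht
  obtain ⟨h1, h2, h3⟩ := ht
  have hn : 0 < ‖t‖ := by linarith
  exact ⟨by linarith, slit_of (norm_pos_iff.1 hn) (by linarith)⟩

theorem isOpen_UU : IsOpen UU := by
  have : UU = {z : ℂ | ‖z‖ < 2} ∩ (fun z => Complex.I * z) ⁻¹' Complex.slitPlane := by
    ext z; simp [UU]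
  rw [this]
  exact IsOpen.inter (isOpen_lt (by fun_prop) continuous_const)
    (Complex.isOpen_slitPlane.preimage (by fun_prop))

theorem near_Qh {a : ℝ} (ha : 0 < a) {t y : ℂ} (ht : t ∈ Qa a) (hy : ‖y - t‖ ≤ 1 / 10000 * a)
    (ha1 : a ≤ 1) : y ∈ Qh a := by
  obtain ⟨h1, h2, h3⟩ := ht
  have h4 := norm_sub_norm_le t y
  have h5 : ‖t - y‖ = ‖y - t‖ := norm_sub_rev _ _
  have h6 := norm_sub_norm_le y t
  have h7 : y.im ≤ t.im + ‖y - t‖ := by
    have := Complex.abs_im_le_norm (y - t)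
    have h' : y.im - t.im ≤ |(y - t).im| := by
      rw [Complex.sub_im]; exact le_abs_self _
    linarith
  refine ⟨by linarith, by linarith, by linarith⟩

theorem exists_small {μ B m a δ : ℝ} (hμ : 0 < μ) (hm : 0 < m) (ha : 0 < a) (hδ : 0 < δ) :
    ∃ r > 0, ∀ W : ℝ, 0 ≤ W → W < r → μ * W < m ∧ |B| * μ * W ^ 2 ≤ 1 / 10000 * a ∧
      W + 2 * (|B| * μ * W ^ 2) < δ := by
  have hB : 0 ≤ |B| * μ := by positivity
  set n := min (1 / 10000 * a) (δ / 4) with hn
  have hnpos : 0 < n := by positivity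
  have n1 : n ≤ 1 / 10000 * a := min_le_left _ _
  have n2 : n ≤ δ / 4 := min_le_right _ _
  set r := min 1 (min (m / μ) (min (δ / 4) (n / (|B| * μ + 1)))) with hr
  have i0 : 0 < r := by positivity
  have i1 : r ≤ 1 := min_le_left _ _
  have i2 : r ≤ m / μ := (min_le_right _ _).trans (min_le_left _ _)
  have i3 : r ≤ δ / 4 := (min_le_right _ _).trans ((min_le_right _ _).trans (min_le_left _ _))
  have i4 : r ≤ n / (|B| * μ + 1) :=
    (min_le_right _ _).trans ((min_le_right _ _).trans (min_le_right _ _))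
  rw [le_div_iff₀ (by positivity)] at i4
  rw [le_div_iff₀ hμ] at i2
  refine ⟨r, i0, ?_⟩
  intro W hW hWr
  have h1 : |B| * μ * W ^ 2 ≤ n := by
    have h2 : |B| * μ * W ≤ n := by nlinarith
    have h3 : |B| * μ * W ^ 2 = (|B| * μ * W) * W := by ring
    rw [h3]
    have h4 : 0 ≤ |B| * μ * W := by positivity
    nlinarith
  refine ⟨by nlinarith, by linarith, by linarith⟩

set_option maxHeartbeats 1000000 in
theorem p2_of (h1 : C1H) (h2 : C2H) : T5R.P2 := by
  intro q₀ η ρ r B b φ p m₀ θ H h0 s ε Θ Hh q₁ c β C D hs E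
  have hε := E.ε_pos
  have hεl := E.ε_lt
  have h00 : 0 < h0 := hε.trans hεl
  have hV := vext D hs E
  set V : Set ℂ := Str h0 ∪ VS s ε with hVd
  set θe := ext h0 θ Θ with hθe
  set He := ext h0 H Hh with hHe
  have L := LZ_of_VExt D.fam.dat hV
  obtain ⟨X₀, hX₀, hX₀b⟩ := glob D.fam hV (fun z hz => Or.inl hz) D.le
  obtain ⟨X, hX, hXX₀⟩ := grown hs hε hεl hX₀ (kloc D.fam.dat hV)
  have h0S : (0 : ℂ) ∈ Str h0 := by rw [mem_Str]; simpa using h00
  have h0ρ : (0 : ℂ) ∈ Str ρ := by rw [mem_Str]; simpa using D.fam.ρ_pos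
  -- evenness
  have hXb : ∀ᶠ p in 𝓝 ((0, 0) : ℂ × ℂ), X p = b p := by
    filter_upwards [hXX₀ 0 h0S, hX₀b 0 h0ρ] with p hp1 hp2
    rw [hp1, hp2]
  have heven0 : ∀ᶠ p in 𝓝 ((0, 0) : ℂ × ℂ), X (p.1, -p.2) = X p := by
    have hc : Tendsto (fun p : ℂ × ℂ => (p.1, -p.2)) (𝓝 ((0, 0) : ℂ × ℂ)) (𝓝 ((0, 0) : ℂ × ℂ)) := by
      have : Continuous fun p : ℂ × ℂ => (p.1, -p.2) := by fun_prop
      have := this.tendsto ((0, 0) : ℂ × ℂ)
      simpa using this
    have hPD : PD ρ r ∈ 𝓝 ((0, 0) : ℂ × ℂ) := by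
      have ho : IsOpen (PD ρ r) := by
        have : PD ρ r = {p : ℂ × ℂ | |p.1.im| < ρ} ∩ {p | ‖p.2‖ < r} := by ext p; simp [PD]
        rw [this]
        refine IsOpen.inter (isOpen_lt ?_ continuous_const) (isOpen_lt ?_ continuous_const)
        · exact (Complex.continuous_im.comp continuous_fst).abs
        · exact continuous_snd.norm
      refine ho.mem_nhds ⟨by simpa using D.fam.ρ_pos, by simpa using D.fam.r_pos⟩
    filter_upwards [hXb, hc.eventually hXb, hPD] with p hp1 hp2 hp3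
    rw [hp1, hp2]
    exact D.fam.b_even p.1 p.2 hp3
  have hev := even_germ hX (KK_conn h00) (Or.inl h0S) heven0
  -- scale
  set μ : ℝ := ε / 4 with hμ
  have hμpos : 0 < μ := by positivity
  have hμc : (μ : ℂ) ≠ 0 := by exact_mod_cast hμpos.ne'
  obtain ⟨L2, hkk⟩ := h2 V θe He s μ hμpos L
  set th : ℂ → ℂ := fun t => θe (s + (μ : ℂ) * t) with hth
  set Hs : ℂ → ℂ := fun t => He (s + (μ : ℂ) * t) / (μ : ℂ) ^ 3 with hHs
  set q₂ := scq (1 / 4) q₁ with hq₂
  have hUVS : ∀ t ∈ UU, s + (μ : ℂ) * t ∈ VS s ε := by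
    intro t ht
    obtain ⟨u1, u2⟩ := ht
    refine ⟨?_, ?_⟩
    · rw [add_sub_cancel_left, norm_mul, Complex.norm_real, Real.norm_of_nonneg hμpos.le]
      nlinarith
    · rw [add_sub_cancel_left, Complex.mem_slitPlane_iff]
      rw [Complex.mem_slitPlane_iff] at u2
      have e : Complex.I * ((μ : ℂ) * t) = (μ : ℂ) * (Complex.I * t) := by ring
      rw [e, Complex.re_ofReal_mul, Complex.im_ofReal_mul]
      rcases u2 with h | h
      · exact Or.inl (mul_pos hμpos h)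
      · exact Or.inr (mul_ne_zero hμpos.ne' h)
  have hU4 : ∀ t ∈ UU, (((1 / 4 : ℝ) : ℝ) : ℂ) * t ∈ VS 0 1 := by
    intro t ht
    obtain ⟨u1, u2⟩ := ht
    refine ⟨?_, ?_⟩
    · rw [sub_zero, norm_mul, Complex.norm_real, Real.norm_of_nonneg (by norm_num)]
      linarith
    · rw [sub_zero, Complex.mem_slitPlane_iff]
      rw [Complex.mem_slitPlane_iff] at u2
      have e : Complex.I * ((((1 / 4 : ℝ) : ℝ) : ℂ) * t) =
        (((1 / 4 : ℝ) : ℝ) : ℂ) * (Complex.I * t) := by ring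
      rw [e, Complex.re_ofReal_mul, Complex.im_ofReal_mul]
      rcases u2 with h | h
      · exact Or.inl (mul_pos (by norm_num) h)
      · exact Or.inr (mul_ne_zero (by norm_num) h)
  have hUV : UU ⊆ {t | s + (μ : ℂ) * t ∈ V} := fun t ht => Or.inr (hUVS t ht)
  have hq₂d : DifferentiableOn ℂ q₂ UU := by
    refine (E.q_diff.comp (by fun_prop) ?_).add_const _
    intro t ht
    exact hU4 t ht
  have hq₂e : ∀ t ∈ UU, Complex.exp (q₂ t) = deriv th t := by
    intro t ht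
    have e1 := E.q_exp _ (hU4 t ht)
    have e2 : deriv th t = μ * deriv θe (s + (μ : ℂ) * t) := by
      exact P2c596.deriv_aff θe s (μ : ℂ) t
    have e3 : deriv θe (s + (μ : ℂ) * t) = deriv Θ (s + (μ : ℂ) * t) := by
      have : θe =ᶠ[𝓝 (s + (μ : ℂ) * t)] Θ := by
        filter_upwards [(isOpen_VS s ε).mem_nhds (hUVS t ht)] with x hx using ext_VS E.Θ_eq hx
      exact this.deriv_eq
    rw [e2, e3, hq₂]
    unfold scq
    rw [Complex.exp_add, e1, ← Complex.ofReal_exp, Real.exp_log (by norm_num)]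
    have e4 : s + (ε : ℂ) * ((((1 / 4 : ℝ) : ℝ) : ℂ) * t) = s + (μ : ℂ) * t := by
      rw [hμ]; push_cast; ring
    rw [e4, hμ]; push_cast; ring
  -- the scaled family
  set Y : ℂ × ℂ → ℂ := fun x => (X (s + (μ : ℂ) * x.1, (μ : ℂ) * x.2) - s) / μ with hY
  -- everything at level `a`
  have main : ∀ a : ℝ, 0 < a → a ≤ 1 / 8 → ∃ r' B' : ℝ, 0 < r' ∧
      (∀ t ∈ Qa a, ∃ σ > 0, DifferentiableOn ℂ Y (ball t σ ×ˢ ball 0 r')) ∧
      (∀ t ∈ Qa a, ∀ w : ℂ, ‖w‖ < r' → ‖Y (t, w) - t‖ ≤ B' * ‖w‖ ^ 2) ∧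
      (∀ t ∈ Qa a, ∀ w : ℂ, ‖w‖ < r' → Y (t, -w) = Y (t, w)) ∧
      (∀ t w : ℂ, t ∈ Qa a → t - w ∈ Qa a → t + w ∈ Qa a → ‖w‖ < r' →
        EL (PsiQ q₂) (Y (t - w, w)) (Y (t, w)) (Y (t + w, w)) = 0) := by
    intro a ha ha8
    have hcomp : IsCompact ((fun t : ℂ => s + (μ : ℂ) * t) '' Qa a) :=
      (compact_Qa a).image (by fun_prop)
    have hsubK : (fun t : ℂ => s + (μ : ℂ) * t) '' Qa a ⊆ KK s h0 ε := by
      rintro _ ⟨t, ht, rfl⟩
      have hn : 0 < ‖t‖ := ha.trans_le ht.1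
      exact mem_KK hs hε hεl (norm_pos_iff.1 hn) ht.2.1 ht.2.2
    obtain ⟨s₁, hs₁, r₁, hr₁, B₁, hB₁⟩ := compact_unif hX hcomp hsubK
    have hth := leafOn_thick hs₁ hB₁
    obtain ⟨δ, hδ, hEL⟩ := h1 _ UU (Qh a) th Hs q₂ L2 isOpen_UU hUV hq₂d hq₂e (compact_Qh a)
      (Qh_UU ha)
    obtain ⟨r', hr', hsm⟩ := exists_small (μ := μ) (B := B₁) (m := min r₁ (s₁ / 2)) (a := a)
      hμpos (lt_min hr₁ (by positivity)) ha hδ
    have hin : ∀ t ∈ Qa a, s + (μ : ℂ) * t ∈ thickening (s₁ / 2)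
        ((fun t : ℂ => s + (μ : ℂ) * t) '' Qa a) := fun t ht =>
      self_subset_thickening (by positivity) _ ⟨t, ht, rfl⟩
    have hμw : ∀ w : ℂ, ‖(μ : ℂ) * w‖ = μ * ‖w‖ := by
      intro w
      rw [norm_mul, Complex.norm_real, Real.norm_of_nonneg hμpos.le]
    have hnear : ∀ t ∈ Qa a, ∀ w : ℂ, ‖w‖ < r' → ‖Y (t, w) - t‖ ≤ |B₁| * μ * ‖w‖ ^ 2 := by
      intro t ht w hw
      have hw1 : ‖(μ : ℂ) * w‖ < min r₁ (s₁ / 2) := by
        rw [hμw]; exact (hsm _ (norm_nonneg _) hw).1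
      have h3 := hth.near _ (hin t ht) _ hw1
      have e : Y (t, w) - t = (X (s + (μ : ℂ) * t, (μ : ℂ) * w) - (s + (μ : ℂ) * t)) / μ := by
        simp only [hY]; field_simp; ring
      rw [e, norm_div, Complex.norm_real, Real.norm_of_nonneg hμpos.le, div_le_iff₀ hμpos]
      refine h3.trans ?_
      rw [hμw]
      have : B₁ * (μ * ‖w‖) ^ 2 ≤ |B₁| * (μ * ‖w‖) ^ 2 := by
        gcongr; exact le_abs_self _
      nlinarith [this]
    refine ⟨r', |B₁| * μ, hr', ?_, hnear, ?_, ?_⟩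
    · intro t ht
      refine ⟨s₁ / μ, by positivity, ?_⟩
      have hLd := (hB₁ _ ⟨t, ht, rfl⟩).diff
      have hdd : DifferentiableOn ℂ (fun x : ℂ × ℂ => X (s + (μ : ℂ) * x.1, (μ : ℂ) * x.2))
          (ball t (s₁ / μ) ×ˢ ball 0 r') := by
        refine hLd.comp (by fun_prop) ?_
        rintro ⟨x, y⟩ ⟨hx, hy⟩
        rw [mem_ball, dist_eq_norm] at hx
        rw [mem_ball, dist_zero_right] at hy
        refine ⟨?_, ?_⟩
        · rw [mem_ball, dist_eq_norm]
          simp only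
          have e : s + (μ : ℂ) * x - (s + (μ : ℂ) * t) = (μ : ℂ) * (x - t) := by ring
          rw [e, hμw]
          rw [lt_div_iff₀ hμpos] at hx
          linarith
        · rw [mem_ball, dist_zero_right, hμw]
          exact (hsm _ (norm_nonneg _) hy).1.trans_le (min_le_left _ _)
      have h9 := (hdd.sub_const s).mul_const ((μ : ℂ)⁻¹)
      refine h9.congr fun x _ => ?_
      simp only [hY, div_eq_mul_inv]
    · intro t ht w hw
      have hw1 : ‖(μ : ℂ) * w‖ < r₁ := by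
        rw [hμw]; exact (hsm _ (norm_nonneg _) hw).1.trans_le (min_le_left _ _)
      have hLd := (hB₁ _ ⟨t, ht, rfl⟩).diff
      have hz : s + (μ : ℂ) * t ∈ KK s h0 ε := hsubK ⟨t, ht, rfl⟩
      have := slice_eq (f := fun p => X (p.1, -p.2)) (g := X) (t := s + (μ : ℂ) * t) hr₁
        ⟨s₁, hs₁, by
          refine hLd.comp (by fun_prop) ?_
          rintro ⟨x, y⟩ ⟨hx, hy⟩
          refine ⟨hx, ?_⟩
          rw [mem_ball, dist_zero_right] at hy ⊢
          simpa using hy⟩ ⟨s₁, hs₁, hLd⟩ (hev _ hz) (w := (μ : ℂ) * w) hw1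
      simp only [hY]
      simp only at this
      rw [mul_neg, this]
    · intro t w ht hm hp hw
      have hw1 : ‖(μ : ℂ) * w‖ < min r₁ (s₁ / 2) := by
        rw [hμw]; exact (hsm _ (norm_nonneg _) hw).1
      obtain ⟨-, k2, k3⟩ := hsm _ (norm_nonneg _) hw
      have em : s + (μ : ℂ) * (t - w) = s + (μ : ℂ) * t - (μ : ℂ) * w := by ring
      have ep : s + (μ : ℂ) * (t + w) = s + (μ : ℂ) * t + (μ : ℂ) * w := by ring
      have hlaw := hth.law (s + (μ : ℂ) * t) ((μ : ℂ) * w) hw1 (by rw [← em]; exact hin _ hm)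
        (hin _ ht) (by rw [← ep]; exact hin _ hp)
      have n0 := hnear t ht w hw
      have n1 := hnear _ hm w hw
      have n2 := hnear _ hp w hw
      have q0 := near_Qh ha ht (n0.trans k2) (by linarith)
      have q1 := near_Qh ha hm (n1.trans k2) (by linarith)
      have q2 := near_Qh ha hp (n2.trans k2) (by linarith)
      have v0 : s + (μ : ℂ) * Y (t, w) ∈ V := Or.inr (hUVS _ (Qh_UU ha q0))
      have v1 : s + (μ : ℂ) * Y (t - w, w) ∈ V := Or.inr (hUVS _ (Qh_UU ha q1))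
      have v2 : s + (μ : ℂ) * Y (t + w, w) ∈ V := Or.inr (hUVS _ (Qh_UU ha q2))
      have eY : ∀ t : ℂ, s + (μ : ℂ) * Y (t, w) = X (s + (μ : ℂ) * t, (μ : ℂ) * w) := by
        intro t
        simp only [hY]; field_simp; ring
      refine hEL _ _ _ q0 ?_ ?_ ?_
      · have e : Y (t - w, w) - Y (t, w) = (Y (t - w, w) - (t - w)) - (Y (t, w) - t) - w := by ring
        rw [e]
        have := norm_sub_le ((Y (t - w, w) - (t - w)) - (Y (t, w) - t)) w
        have := norm_sub_le (Y (t - w, w) - (t - w)) (Y (t, w) - t)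
        linarith
      · have e : Y (t + w, w) - Y (t, w) = (Y (t + w, w) - (t + w)) - (Y (t, w) - t) + w := by ring
        rw [e]
        have := norm_add_le ((Y (t + w, w) - (t + w)) - (Y (t, w) - t)) w
        have := norm_sub_le (Y (t + w, w) - (t + w)) (Y (t, w) - t)
        linarith
      · rw [hkk _ _ v0 (by rw [add_sub_cancel]; exact v2), hkk _ _ v0 (by
          rw [add_sub_cancel]; exact v1)]
        have e1 : (μ : ℂ) * (Y (t + w, w) - Y (t, w)) =
            X (s + (μ : ℂ) * t + (μ : ℂ) * w, (μ : ℂ) * w) - X (s + (μ : ℂ) * t, (μ : ℂ) * w) := by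
          rw [← ep, ← eY, ← eY]; ring
        have e2 : (μ : ℂ) * (Y (t - w, w) - Y (t, w)) =
            X (s + (μ : ℂ) * t - (μ : ℂ) * w, (μ : ℂ) * w) - X (s + (μ : ℂ) * t, (μ : ℂ) * w) := by
          rw [← em, ← eY, ← eY]; ring
        rw [e1, e2, eY, hlaw, neg_div]
  -- level `min a (1/8)`
  have main' : ∀ a : ℝ, ∃ r' B' : ℝ, 0 < a → (0 < r' ∧
      (∀ t ∈ Qa (min a (1 / 8)), ∃ σ > 0, DifferentiableOn ℂ Y (ball t σ ×ˢ ball 0 r')) ∧
      (∀ t ∈ Qa (min a (1 / 8)), ∀ w : ℂ, ‖w‖ < r' → ‖Y (t, w) - t‖ ≤ B' * ‖w‖ ^ 2) ∧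
      (∀ t ∈ Qa (min a (1 / 8)), ∀ w : ℂ, ‖w‖ < r' → Y (t, -w) = Y (t, w)) ∧
      (∀ t w : ℂ, t ∈ Qa (min a (1 / 8)) → t - w ∈ Qa (min a (1 / 8)) →
        t + w ∈ Qa (min a (1 / 8)) → ‖w‖ < r' →
        EL (PsiQ q₂) (Y (t - w, w)) (Y (t, w)) (Y (t + w, w)) = 0)) := by
    intro a
    by_cases ha : 0 < a
    · obtain ⟨r', B', h⟩ := main (min a (1 / 8)) (lt_min ha (by norm_num)) (min_le_right _ _)
      exact ⟨r', B', fun _ => h⟩
    · exact ⟨0, 0, fun h => absurd h ha⟩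
  choose rf Bf hrf using main'
  have hDm : ∀ a : ℝ, 0 < a → Dm (1 / 100000) a ⊆ Qa (min a (1 / 8)) := by
    intro a ha t ht
    rcases ht with ⟨⟨t0, t1, t2⟩, t3⟩ | ⟨t1, t2, t3⟩
    · exact ⟨(min_le_right _ _).trans t3.le, t1.le, t2.le⟩
    · refine ⟨(min_le_left _ _).trans t2.le, t3.le, ?_⟩
      have := abs_nonneg t.re
      have := norm_nonneg t
      linarith
  refine ⟨1 / 4, 1 / 100000, rf, Bf, Y, by norm_num, by norm_num, by norm_num, by norm_num, ?_⟩
  refine ⟨fun a ha => (hrf a ha).1, ?_, ?_, ?_, ?_⟩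
  · rintro a ha ⟨t, w⟩ ⟨ht, hw⟩
    obtain ⟨σ, hσ, hd⟩ := (hrf a ha).2.1 t (hDm a ha ht)
    exact (hd.differentiableAt ((isOpen_ball.prod isOpen_ball).mem_nhds
      ⟨mem_ball_self hσ, by simpa using hw⟩)).differentiableWithinAt
  · intro a ha t w ht hw
    exact (hrf a ha).2.2.1 t (hDm a ha ht) w hw
  · intro a ha t w ht hw
    exact (hrf a ha).2.2.2.1 t (hDm a ha ht) w hw
  · intro a ha t w ht hm hp hw
    exact (hrf a ha).2.2.2.2 t w (hDm a ha ht) (hDm a ha hm) (hDm a ha hp) hw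

theorem p2 : T5R.P2 := p2_of c1h c2h

end P2

end Crest.Agent.R102.T5R
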