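import Crest.Agent.R102.MelSides_490
import Crest.Agent.R102.MelCurve_416
import Crest.Agent.R102.MLZ3_519
import Crest.Agent.R102.MelF_39
import Crest.Agent.R102.ExtF_39
import Crest.Agent.R102.RLimF_231
import Crest.Agent.R102.MelA_231
import Crest.Agent.R102.T5Asm_160

/-!
# Row 102, [T5]: final assembly `SecAB → ConeD → MelI → Spine.T5S` (helper490)
-/

set_option autoImplicit false

open Set Filter Topology Metric
open scoped ComplexConjugate

noncomputable section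

namespace Crest.Agent.R102.Mel

open Crest.Agent.R102.T5 Crest.Agent.R102.G576 Crest.Agent.R102.A929 Crest.Agent.R102.B821
open Crest.Agent.R102.T5R Crest.Agent.R102.C1 Crest.Agent.R102.C1Sec963 Crest.Agent.R102.Spine
open Crest.Agent.R102.End416 (Es sg zB st shtA sg_pow sg_lt)
open Crest.Agent.R102.Pain416 (HD bl bl_basis HD_mem)

theorem sides (hCD : ConeD) {κ c β C c₀A c₀B NA NB : ℝ} {qA qB : ℂ → ℂ} {rA BA rB BB : ℝ → ℝ}
    {XA XB : ℂ × ℂ → ℂ} (hκ10 : κ < 1 / 10) (hc : -1 ≤ c)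
    (eA : EndQ κ c β C qA) (eB : EndQ κ c β C qB)
    (psA : EndPsi (3 * κ / 4) c₀A NA (PsiQ qA)) (psB : EndPsi (3 * κ / 4) c₀B NB (PsiQ qB))
    (FA : Fam (κ / 2) (PsiQ qA) rA BA XA) (FB : Fam (κ / 2) (PsiQ qB) rB BB XB)
    (hX : ∀ t ∈ OvR (κ / 2), ∀ᶠ w in 𝓝 (0 : ℂ), XB (-t, w) = -XA (t, w)) :
    ∃ (cc CC l₀ : ℝ) (xA xB : ℝ → ℂ → ℂ),
      (∀ (j : ℂ) (M : ℂ → ℂ), (j = Complex.I ∨ j = -Complex.I) → Slope κ qA j M →
        Side κ (κ / 4) c β C cc CC l₀ qA j M xA) ∧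
      (∀ (j : ℂ) (M : ℂ → ℂ), (j = Complex.I ∨ j = -Complex.I) → Slope κ qB j M →
        Side κ (κ / 4) c β C cc CC l₀ qB j M xB) ∧
      (∀ l : ℝ, 0 < l → l < l₀ → ∀ t ∈ Dl (κ / 4) cc l, -t ∈ Dl (κ / 4) cc l → 0 < t.re →
        xB l (-t) = -xA l t) ∧
      Near0 (OvL (κ / 4)) (κ / 4) cc l₀ xA XA ∧ Near0 (OvR (κ / 4)) (κ / 4) cc l₀ xB XB := by
  have hκ := eA.κ_pos
  obtain ⟨cA, CA, lA, xA, DA, linkA⟩ := hCD (3 * κ / 4) (κ / 2) (κ / 4) c₀A NA (PsiQ qA) rA BA XA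
    (by linarith) (by linarith) (by linarith) (by linarith) psA FA
  obtain ⟨cB, CB, lB, xB, DB, linkB⟩ := hCD (3 * κ / 4) (κ / 2) (κ / 4) c₀B NB (PsiQ qB) rB BB XB
    (by linarith) (by linarith) (by linarith) (by linarith) psB FB
  obtain ⟨c₁A, hc₁A, lawA⟩ := Law519.lawR κ (κ / 2) c β C qA (by linarith) (by linarith) eA hc
  obtain ⟨c₁B, hc₁B, lawB⟩ := Law519.lawR κ (κ / 2) c β C qB (by linarith) (by linarith) eB hc
  have hcA := DA.c_pos
  have hcB := DB.c_pos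
  have hlA := DA.l₀_pos
  have hlB := DB.l₀_pos
  have hr1 := FA.r_pos (1 / 16) (by norm_num)
  have hr2 := FB.r_pos (1 / 16) (by norm_num)
  obtain ⟨CC, hCC1, hCCA, hCCB⟩ : ∃ CC : ℝ, 1 ≤ CC ∧ CA ≤ CC ∧ CB ≤ CC :=
    ⟨max (max CA CB) 1, le_max_right _ _, (le_max_left _ _).trans (le_max_left _ _),
      (le_max_right _ _).trans (le_max_left _ _)⟩
  obtain ⟨cc, hcc, h1, h2, h3, h4, h5, h6⟩ : ∃ cc : ℝ, 0 < cc ∧ cc ≤ cA ∧ cc ≤ cB ∧ cc ≤ κ / 4 ∧
      CC * cc ≤ 1 / 8 ∧ cc ≤ c₁A / 2 ∧ cc ≤ c₁B / 2 := by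
    refine ⟨min (min cA cB) (min (min (κ / 4) (1 / (8 * CC))) (min (c₁A / 2) (c₁B / 2))),
      ?_, ?_, ?_, ?_, ?_, ?_, ?_⟩
    · refine lt_min (lt_min hcA hcB) (lt_min (lt_min (by linarith) (by positivity))
        (lt_min (by linarith) (by linarith)))
    · exact (min_le_left _ _).trans (min_le_left _ _)
    · exact (min_le_left _ _).trans (min_le_right _ _)
    · exact (min_le_right _ _).trans ((min_le_left _ _).trans (min_le_left _ _))
    · have : min (min cA cB) (min (min (κ / 4) (1 / (8 * CC))) (min (c₁A / 2) (c₁B / 2))) ≤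
          1 / (8 * CC) := (min_le_right _ _).trans ((min_le_left _ _).trans (min_le_right _ _))
      rw [le_div_iff₀ (by positivity)] at this
      linarith
    · exact (min_le_right _ _).trans ((min_le_right _ _).trans (min_le_left _ _))
    · exact (min_le_right _ _).trans ((min_le_right _ _).trans (min_le_right _ _))
  obtain ⟨l₀, hl₀, g1, g2, g3, g4⟩ : ∃ l₀ : ℝ, 0 < l₀ ∧ l₀ ≤ lA ∧ l₀ ≤ lB ∧ l₀ ≤ rA (1 / 16) ∧
      l₀ ≤ rB (1 / 16) := by
    refine ⟨min (min lA lB) (min (rA (1 / 16)) (rB (1 / 16))), lt_min (lt_min hlA hlB)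
      (lt_min hr1 hr2), ?_, ?_, ?_, ?_⟩
    · exact (min_le_left _ _).trans (min_le_left _ _)
    · exact (min_le_left _ _).trans (min_le_right _ _)
    · exact (min_le_right _ _).trans (min_le_left _ _)
    · exact (min_le_right _ _).trans (min_le_right _ _)
  have DA' := DA.mono hcc h1 hCCA h4 hl₀ g1
  have DB' := DB.mono hcc h2 hCCB h4 hl₀ g2
  have rlA := rlaw_of DA' (by linarith) (κ := κ / 2) (by linarith) (by linarith) h3 h5 lawA
  have rlB := rlaw_of DB' (by linarith) (κ := κ / 2) (by linarith) (by linarith) h3 h6 lawB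
  refine ⟨cc, CC, l₀, xA, xB, ?_, ?_, ?_, ?_, ?_⟩
  · intro j M hj hM
    exact ⟨by linarith, by linarith, eA, hj, hM, DA', rlA⟩
  · intro j M hj hM
    exact ⟨by linarith, by linarith, eB, hj, hM, DB', rlB⟩
  · refine match_of FA FB (by linarith) hX DA' DB' ?_ ?_ g3 g4
    · intro l hl hl' t ht h16
      exact linkA (1 / 16) l (by norm_num) hl (hl'.trans_le g1) (hl'.trans_le g3) t
        (Dl_mono h1 ht) h16
    · intro l hl hl' t ht h16
      exact linkB (1 / 16) l (by norm_num) hl (hl'.trans_le g2) (hl'.trans_le g4) t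
        (Dl_mono h2 ht) h16
  · refine near0_of FA ?_ (by linarith) hcc h1 hl₀ g1 linkA
    rintro t ⟨t1, t2, t3, _⟩
    exact ⟨t1, t2, (le_abs_self _).trans_lt t3⟩
  · refine near0_of FB ?_ (by linarith) hcc h2 hl₀ g2 linkB
    rintro t ⟨t1, t2, t3, _⟩
    exact ⟨t1, t2, (le_abs_self _).trans_lt t3⟩

lemma SgZ_mem' {s a : ℂ} {ε κ : ℝ} (ha : a = 1 ∨ a = -1) (hε : 0 < ε) {τ : ℂ} (h : τ ∈ Sg κ) :
    s + a * ε * τ ∈ SgZ s a ε κ := by
  have := SgZ_mem (s := s) (κ := κ) ha hε le_rfl one_pos (τ := τ)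
    ⟨h.1, by rw [one_mul]; exact h.2.1, h.2.2⟩
  simpa using this

/-- the scaled leaf functions agree -/
lemma germ_match {s : ℂ} {ε κ l : ℝ} {θA HA θB HB : ℂ → ℂ} {XA XB : ℂ × ℂ → ℂ}
    (SA : SideZ s 1 ε κ θA HA XA) (hl : 0 < l) (hl1 : l < 1)
    (hm : ∀ z ∈ SgZ s 1 ε κ, z ∈ SgZ s (-1) ε κ → 0 < (z - s).re → θB z = θA z ∧ HB z = HA z ∧
      ∀ᶠ x in 𝓝 ((z, 0) : ℂ × ℂ), XB x = XA x) :
    ∀ t ∈ OvR (κ / 2), ∀ᶠ w in 𝓝 (0 : ℂ),
      (XB (s + -1 * (l * ε) * -t, -1 * (l * ε) * w) - s) / (-1 * (l * ε)) =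
        -((XA (s + 1 * (l * ε) * t, 1 * (l * ε) * w) - s) / (1 * (l * ε))) := by
  intro t ht
  have hε := SA.ε_pos
  have hκ := SA.κ_pos
  have hlc : (l : ℂ) ≠ 0 := by exact_mod_cast hl.ne'
  have hεc : (ε : ℂ) ≠ 0 := by exact_mod_cast hε.ne'
  have htn : 0 < ‖t‖ := norm_pos_iff.2 ht.1
  have h1 : s + 1 * (l * ε) * t ∈ SgZ s 1 ε κ := by
    refine SgZ_mem (Or.inl rfl) hε le_rfl hl ⟨ht.1, ?_, ?_⟩
    · nlinarith [ht.2.1]
    · have := (le_abs_self _).trans_lt ht.2.2.1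
      nlinarith
  have h2 : s + -1 * (l * ε) * -t ∈ SgZ s (-1) ε κ := by
    refine SgZ_mem (Or.inr rfl) hε le_rfl hl ⟨neg_ne_zero.2 ht.1, ?_, ?_⟩
    · rw [norm_neg]; nlinarith [ht.2.1]
    · rw [norm_neg, Complex.neg_im]
      have := (neg_le_abs _).trans_lt ht.2.2.1
      nlinarith
  have h12 : s + -1 * (l * ε) * -t = s + 1 * (l * ε) * t := by ring
  rw [h12] at h2 ⊢
  set z := s + 1 * (l * ε) * t with hz
  have hre : 0 < (z - s).re := by
    have e : z - s = ((l * ε : ℝ) : ℂ) * t := by rw [hz]; push_cast; ring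
    rw [e, Complex.re_ofReal_mul]
    exact mul_pos (mul_pos hl hε) ht.2.2.2
  obtain ⟨_, _, hg⟩ := hm z h1 h2 hre
  have hev := SA.even z h1
  have hc1 : Tendsto (fun w : ℂ => ((z, -1 * (l * ε) * w) : ℂ × ℂ)) (𝓝 0) (𝓝 (z, 0)) := by
    have : Continuous (fun w : ℂ => ((z, -1 * (l * ε) * w) : ℂ × ℂ)) := by fun_prop
    simpa using this.tendsto 0
  have hc2 : Tendsto (fun w : ℂ => ((z, 1 * (l * ε) * w) : ℂ × ℂ)) (𝓝 0) (𝓝 (z, 0)) := by
    have : Continuous (fun w : ℂ => ((z, 1 * (l * ε) * w) : ℂ × ℂ)) := by fun_prop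
    simpa using this.tendsto 0
  filter_upwards [hc1.eventually hg, hc2.eventually hev] with w a1 a2
  rw [a1]
  have e : -1 * ((l : ℂ) * ε) * w = -(1 * ((l : ℂ) * ε) * w) := by ring
  rw [e, a2]
  field_simp

/-- sheet `B` over the left end of sheet `A` -/
lemma sgB_left {n : ℕ} (hn : 0 < n) {s z : ℂ} (hz : (z - s).re < 0) :
    sgB n s z = Complex.exp (2 * Real.pi * Complex.I / n) * sg n s z := by
  unfold sgB End416.sg
  have hnC : (n : ℂ) ≠ 0 := by exact_mod_cast hn.ne'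
  set w := Complex.I * (z - s) with hw
  have him : w.im < 0 := by rw [hw]; simpa using hz
  have hw0 : w ≠ 0 := by
    rintro h
    rw [h] at him
    simp at him
  have e1 : Complex.I * (s - z) = -w := by rw [hw]; ring
  rw [e1, Complex.cpow_def_of_ne_zero (neg_ne_zero.2 hw0), Complex.cpow_def_of_ne_zero hw0]
  have hlog : Complex.log (-w) = Complex.log w + Real.pi * Complex.I := by
    unfold Complex.log
    rw [norm_neg, Complex.arg_neg_eq_arg_add_pi_of_im_neg him]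
    push_cast
    ring
  rw [hlog, ← Complex.exp_add, ← Complex.exp_add]
  congr 1
  field_simp
  ring

/-- sheet `B` at `- τ` from sheet `A` at `τ` -/
lemma sgB_neg {n : ℕ} {s : ℂ} (u : ℂ) :
    sgB n s (s + -1 * u) = Complex.exp (Real.pi * Complex.I / n) * sg n s (s + 1 * u) := by
  unfold sgB End416.sg
  congr 3
  ring

lemma sg_small {n : ℕ} (hn : 0 < n) {s : ℂ} {ε l : ℝ} (hε : 0 < ε) (hl : 0 < l) (v : ℂ)
    (hv : v ≠ 0) :
    Tendsto (fun ρ : ℝ => sg n s (s + 1 * ε * ((l : ℂ) * (ρ * v)))) (𝓝[>] 0) (𝓝[≠] 0) := by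
  have hlc : (l : ℂ) ≠ 0 := by exact_mod_cast hl.ne'
  have hεc : (ε : ℂ) ≠ 0 := by exact_mod_cast hε.ne'
  have hvn : 0 < ‖v‖ := norm_pos_iff.2 hv
  refine tendsto_nhdsWithin_iff.2 ⟨?_, ?_⟩
  · rw [Metric.tendsto_nhds]
    intro δ hδ
    have h0 : ∀ᶠ ρ : ℝ in 𝓝[>] 0, ρ < δ ^ n / (ε * l * ‖v‖) :=
      nhdsWithin_le_nhds (Iio_mem_nhds (by positivity))
    filter_upwards [h0, self_mem_nhdsWithin] with ρ h1 h2
    have h2' : (0 : ℝ) < ρ := h2
    rw [dist_zero_right]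
    refine sg_lt hn hδ ?_
    rw [add_sub_cancel_left, norm_mul, norm_mul, norm_mul, norm_mul, norm_one, one_mul,
      Complex.norm_real, Complex.norm_real, Complex.norm_real, Real.norm_of_nonneg hε.le,
      Real.norm_of_nonneg hl.le, Real.norm_of_nonneg h2'.le]
    rw [lt_div_iff₀ (by positivity)] at h1
    calc ε * (l * (ρ * ‖v‖)) = ρ * (ε * l * ‖v‖) := by ring
      _ < δ ^ n := h1
  · filter_upwards [self_mem_nhdsWithin] with ρ h2
    have h2' : (0 : ℝ) < ρ := h2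
    have hρc : (ρ : ℂ) ≠ 0 := by exact_mod_cast h2'.ne'
    intro h0
    rw [mem_singleton_iff] at h0
    have h3 := sg_pow (s := s) hn (s + 1 * ε * ((l : ℂ) * (ρ * v)))
    rw [h0, zero_pow hn.ne', add_sub_cancel_left] at h3
    have h4 : Complex.I * (1 * ε * ((l : ℂ) * (ρ * v))) ≠ 0 := by
      refine mul_ne_zero Complex.I_ne_zero (mul_ne_zero (mul_ne_zero one_ne_zero hεc)
        (mul_ne_zero hlc (mul_ne_zero hρc hv)))
    exact h4 h3.symm

theorem melF : MelF :=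
  MelF39.melF_of (ExtF39.extF_of pAn rLimF) pAn rLimF rRot rSym

theorem cone : Cone := cone_of_ndm NDM596.ndm

theorem t5F : T5F :=
  t5F_of cone T5L3_725.blowUp L4346.psiFlat (T5X897.redF T5L5F756.lawF L5H556.hom T5R426.realG)
    T5L6F836.noF

theorem t5I : T5I :=
  t5I_of cone T5L3_725.blowUp L4346.psiIso (T5X897.redI T5L5I861.lawI L5H556.hom T5R426.realG)
    noI

/-- **T5S** -/
theorem t5S_fin (h1 : SecAB) (h2 : ConeD) (h3 : MelI) : Spine.T5S := by
  intro q₀ η ρ r B b φ p m₀ θ H h0 hD hP s hs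
  obtain ⟨n, r₁, a, k, e, g, f, hr, D, hθd, hHd⟩ :=
    End416.endS_of_puisB hD.fam.dat hD.le hD.ext hs (hP s hs)
  have hn := D.n_pos
  have hnR : (0 : ℝ) < n := by exact_mod_cast hn
  have hnC : (n : ℂ) ≠ 0 := by exact_mod_cast hn.ne'
  have hh0 : 0 < h0 := lt_of_lt_of_le hD.fam.dat.η_pos hD.le
  -- regularity below `s`
  have hLZ := (zeroY q₀ η (Str h0) θ H hD.fam.dat hD.ext).1
  have hsub : ∀ z ∈ HD s h0, z ∈ Str h0 := by
    intro z hz
    have h1 := hz.1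
    have h2 : z.im < s.im := hz.2
    rw [mem_ball, dist_eq_norm] at h1
    have h3 := (Complex.abs_im_le_norm (z - s)).trans_lt h1
    rw [Complex.sub_im, abs_lt] at h3
    change |z.im| < h0
    rw [abs_lt]
    constructor
    · linarith [h3.1]
    · linarith
  have hHDm : HD s h0 ∈ bl s := HD_mem hh0
  have hθev : ∀ᶠ z in bl s, DifferentiableAt ℂ θ z := by
    filter_upwards [hHDm] with z hz using
      hD.ext.θ_diff.differentiableAt (hD.ext.open'.mem_nhds (hsub z hz))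
  have hLZev : ∀ᶠ z in bl s, deriv θ z * deriv (deriv H) z - deriv (deriv θ) z * deriv H z +
      deriv θ z ^ 3 * H z = -1 := by
    filter_upwards [hHDm] with z hz using hLZ z (hsub z hz)
  -- the two sides
  obtain ⟨ε, κ, θA, HA, θB, HB, XA, XB, hεr, hκ10, SA, SB, shA, shB, -, hm⟩ :=
    h1 q₀ η ρ r B b φ p m₀ θ H h0 hD s n r₁ a k e g f hs hr D
  have hε := SA.ε_pos
  have hκ := SA.κ_pos
  have hκ1 : κ < 1 := SA.κ_lt
  obtain ⟨l, hl, hl1⟩ : ∃ l : ℝ, 0 < l ∧ l < 1 := ⟨1 / 2, by norm_num, by norm_num⟩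
  have famA : ∀ qA : ℂ → ℂ, DifferentiableOn ℂ qA (Sg κ) →
      (∀ τ ∈ Sg κ, Complex.exp (qA τ) = ε * Es k g (sg n s (s + 1 * ε * τ))) →
      ∃ rA BA : ℝ → ℝ, Fam (κ / 2) (PsiQ (scq l qA)) rA BA
        (fun p => (XA (s + 1 * (l * ε) * p.1, 1 * (l * ε) * p.2) - s) / (1 * (l * ε))) := by
    intro qA hq hexp
    refine kPsi s 1 ε κ θA HA XA SA ε l (κ / 2) qA hε le_rfl hl hl1 (by linarith) (by linarith)
      hq ?_
    intro τ hτ
    rw [hexp τ hτ, (shA.y _ (SgZ_mem' (Or.inl rfl) hε hτ)).deriv]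
  have famB : ∀ qB : ℂ → ℂ, DifferentiableOn ℂ qB (Sg κ) →
      (∀ τ ∈ Sg κ, Complex.exp (qB τ) = ε * Es k g (sgB n s (s + (-1) * ε * τ))) →
      ∃ rB BB : ℝ → ℝ, Fam (κ / 2) (PsiQ (scq l qB)) rB BB
        (fun p => (XB (s + -1 * (l * ε) * p.1, -1 * (l * ε) * p.2) - s) / (-1 * (l * ε))) := by
    intro qB hq hexp
    refine kPsi s (-1) ε κ θB HB XB SB ε l (κ / 2) qB hε le_rfl hl hl1 (by linarith) (by linarith)
      hq ?_
    intro τ hτ
    rw [hexp τ hτ, (shB.y _ (SgZ_mem' (Or.inr rfl) hε hτ)).deriv]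
  have hX := germ_match SA hl hl1 hm
  by_cases ha : a = 0
  · -- flat
    left
    have hk1 : -(n : ℤ) < k := D.flat ha
    have hk2 : 2 * k ≠ n := D.flat1 ha
    have hk3 : k ≠ 2 * n := D.flat2 ha
    obtain ⟨C, qA, qB, MA, MB, eA, eB, xA, xB, mq, slA, slB, fA, fB, mM⟩ :=
      D.curve_flat hε hεr hκ hκ1
    have c1 : (-1 : ℝ) < (k / n : ℝ) := by
      rw [lt_div_iff₀ hnR]
      have : (-(n : ℤ) : ℝ) < (k : ℝ) := by exact_mod_cast hk1
      push_cast at this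
      linarith
    have c2 : (k / n : ℝ) ≠ 1 / 2 := by
      intro h
      rw [div_eq_div_iff hnR.ne' two_ne_zero] at h
      apply hk2
      have : (2 : ℝ) * k = n := by linarith
      exact_mod_cast this
    have c3 : (k / n : ℝ) ≠ 2 := by
      intro h
      rw [div_eq_iff hnR.ne'] at h
      exact hk3 (by exact_mod_cast h)
    have eA' := EndQ_scale eA hl hl1.le
    have eB' := EndQ_scale eB hl hl1.le
    obtain ⟨rA, BA, FA⟩ := famA qA eA.diff xA
    obtain ⟨rB, BB, FB⟩ := famB qB eB.diff xB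
    have hc01 := t5F κ (κ / 2) _ _ _ (scq l qA) rA BA _ (by linarith) (by linarith) eA' FA c1 c2 c3
    obtain ⟨c₀A, NA, psA, -⟩ := L4346.psiFlat κ (3 * κ / 4) _ _ _ (scq l qA) (by linarith)
      (by linarith) eA' c1 c2 c3
    obtain ⟨c₀B, NB, psB, -⟩ := L4346.psiFlat κ (3 * κ / 4) _ _ _ (scq l qB) (by linarith)
      (by linarith) eB' c1 c2 c3
    obtain ⟨cc, CC, l₀, xA', xB', sA, sB, hM, -, -⟩ :=
      sides h2 hκ10 c1.le eA' eB' psA psB FA FB hX
    have SA' := sA Complex.I _ (Or.inl rfl) (Slope_scale slA hl hl1.le)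
    have SB' := sB (-Complex.I) _ (Or.inr rfl) (Slope_scale slB hl hl1.le)
    obtain ⟨δ, hδ, hfin⟩ := melF κ (κ / 4) _ _ _ cc CC l₀ (scq l qA) Complex.I _ xA' (scq l qB)
      (-Complex.I) _ xB' hc01 SA' SB' ⟨rfl, fun τ hτ => by
        rw [exp_scq hl, exp_scq hl, mul_neg, mq _ (OvR_scale hl hl1.le hτ)], fun τ hτ => by
        simp only [mul_neg]
        exact mM _ (OvR_scale hl hl1.le hτ), hM⟩
    have hk : k = 0 ∨ k = n := by
      rcases hc01 with h | h
      · left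
        rw [div_eq_zero_iff] at h
        rcases h with h | h
        · exact_mod_cast h
        · exact absurd h hnR.ne'
      · right
        rw [div_eq_one_iff_eq hnR.ne'] at h
        exact_mod_cast h
    refine MLZ519.regB_of_single hh0 hs hθev hLZev D hk ?_
    refine (sg_small hn (s := s) hε hl (-1) (by norm_num)).frequently (Eventually.frequently ?_)
    have hρ : ∀ᶠ ρ : ℝ in 𝓝[>] 0, ρ < min δ 1 :=
      nhdsWithin_le_nhds (Iio_mem_nhds (lt_min hδ one_pos))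
    filter_upwards [hρ, self_mem_nhdsWithin] with ρ' h4 h5
    have h5' : (0 : ℝ) < ρ' := h5
    have hτ : ((ρ' : ℂ) * (-1)) ∈ OvL (κ / 4) := by
      refine ⟨?_, ?_, ?_, ?_⟩
      · simpa using h5'.ne'
      · rw [mul_neg_one, norm_neg, Complex.norm_real, Real.norm_of_nonneg h5'.le]
        exact h4.trans_le (min_le_right _ _)
      · rw [mul_neg_one, norm_neg, Complex.norm_real, Real.norm_of_nonneg h5'.le]
        simp only [Complex.neg_im, Complex.ofReal_im, neg_zero, abs_zero]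
        positivity
      · simpa using h5'
    have hfin' := hfin _ hτ (by
      rw [mul_neg_one, norm_neg, Complex.norm_real, Real.norm_of_nonneg h5'.le]
      exact h4.trans_le (min_le_left _ _))
    rw [fA, fB] at hfin'
    have e1 : s + (-1) * ε * ((l : ℂ) * -((ρ' : ℂ) * (-1))) = s + 1 * ε * (l * (ρ' * (-1))) := by
      ring
    rw [e1, sgB_left hn (by
      rw [add_sub_cancel_left]
      have : (1 : ℂ) * ε * (l * (ρ' * (-1))) = ((-(ε * l * ρ') : ℝ) : ℂ) := by push_cast; ring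
      rw [this, Complex.ofReal_re]
      have : 0 < ε * l * ρ' := by positivity
      linarith)] at hfin'
    exact hfin'
  · -- isotropic
    right
    obtain ⟨hk, hg0⟩ := D.iso ha
    obtain ⟨ha3, ha3'⟩ := D.iso3 ha
    have haR : (a : ℝ) ≠ 0 := by exact_mod_cast ha
    have hcR : (k / n : ℝ) = -1 := by
      rw [hk]; push_cast; field_simp
    have haa : a = n ∨ a = -n := by
      obtain ⟨C, qA, qB, eA, eB, vA, vB, xA, xB, mq⟩ := D.curveQ hε hεr hκ hκ1
      rw [hcR] at eA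
      have eA' := EndQ_scale eA hl hl1.le
      obtain ⟨rA, BA, FA⟩ := famA qA eA.diff xA
      have hlim := D.ylim (shtA n) hε ha hκ1 (fun τ hτ => vA τ (Sg_sub_VS hκ1 hτ))
      have hlim1 : Tendsto (fun τ => τ * (1 * Complex.exp (qA τ))) (𝓝[Sg κ] 0)
          (𝓝 (-(1 * Complex.I) * (a / n))) := by simpa using hlim
      have hlim2 := lim_scale hl hl1.le hlim1
      simp only [one_mul] at hlim2
      have key : ∃ s' : ℂ, (s' = 1 ∨ s' = -1) ∧
          -(Complex.I) * ((a : ℂ) / n) = s' * Complex.I * ((|(a : ℝ)| / n : ℝ) : ℂ) := by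
        rcases lt_or_gt_of_ne ha with h5 | h5
        · refine ⟨1, Or.inl rfl, ?_⟩
          have h7 : (a : ℝ) < 0 := by exact_mod_cast h5
          rw [abs_of_neg h7]
          push_cast
          ring
        · refine ⟨-1, Or.inr rfl, ?_⟩
          have h7 : (0 : ℝ) < (a : ℝ) := by exact_mod_cast h5
          rw [abs_of_pos h7]
          push_cast
          ring
      obtain ⟨s', hs', hkey⟩ := key
      rw [hkey] at hlim2
      have hm1 := t5I κ (κ / 2) _ _ (|(a : ℝ)| / n) s' (scq l qA) rA BA _ (by linarith)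
        (by linarith) eA' FA (by positivity) (by
          intro h5
          rw [div_eq_iff hnR.ne'] at h5
          rcases abs_eq_abs.1 (show |(a : ℝ)| = |(3 * n : ℝ)| by
            rw [h5, abs_of_pos (by positivity)]) with h6 | h6
          · exact ha3 (by exact_mod_cast h6)
          · exact ha3' (by exact_mod_cast h6)) hs' hlim2
      rw [div_eq_one_iff_eq hnR.ne'] at hm1
      rcases abs_eq_abs.1 (show |(a : ℝ)| = |(n : ℝ)| by rw [hm1, abs_of_pos hnR]) with h6 | h6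
      · left; exact_mod_cast h6
      · right; exact_mod_cast h6
    obtain ⟨j, C, qA, qB, MA, MB, EA, ZA, ZcA, EB, ZB, ZcB, hj, eA, eB, xA, xB, mq, slA, slB, mM,
      limA, limB, posA, posB, mpos⟩ := D.curve_iso haa hε hεr hκ hκ1
    have eA' := EndQ_scale eA hl hl1.le
    have eB' := EndQ_scale eB hl hl1.le
    obtain ⟨rA, BA, FA⟩ := famA qA eA.diff xA
    obtain ⟨rB, BB, FB⟩ := famB qB eB.diff xB
    have limA' := lim_scale hl hl1.le limA
    have limB' := lim_scale hl hl1.le limB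
    -- limits in the form of `PsiIso`
    have conv : ∀ (j : ℂ) (q : ℂ → ℂ), (j = Complex.I ∨ j = -Complex.I) →
        Tendsto (fun τ => τ * (j * Complex.exp (q τ))) (𝓝[Sg κ] 0) (𝓝 1) →
        ∃ s' : ℂ, (s' = 1 ∨ s' = -1) ∧ Tendsto (fun τ => τ * Complex.exp (q τ)) (𝓝[Sg κ] 0)
          (𝓝 (s' * Complex.I * ((1 : ℝ) : ℂ))) := by
      intro j q hj h
      rcases hj with rfl | rfl
      · refine ⟨-1, Or.inr rfl, ?_⟩
        have h5 := h.const_mul (-Complex.I)
        refine (h5.congr (fun τ => ?_)).trans ?_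
        · linear_combination (-(τ * Complex.exp (q τ))) * Complex.I_sq
        · simp
      · refine ⟨1, Or.inl rfl, ?_⟩
        have h5 := h.const_mul Complex.I
        refine (h5.congr (fun τ => ?_)).trans ?_
        · linear_combination (-(τ * Complex.exp (q τ))) * Complex.I_sq
        · simp
    obtain ⟨sA, hsA, lA⟩ := conv j (scq l qA) hj limA'
    have hj' : -j = Complex.I ∨ -j = -Complex.I := by
      rcases hj with h | h
      · right; rw [h]
      · left; rw [h, neg_neg]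
    obtain ⟨sB, hsB, lB⟩ := conv (-j) (scq l qB) hj' limB'
    obtain ⟨c₀A, NA, psA, -⟩ := L4346.psiIso κ (3 * κ / 4) _ _ 1 sA (scq l qA) (by linarith)
      (by linarith) eA' one_pos (by norm_num) hsA lA
    obtain ⟨c₀B, NB, psB, -⟩ := L4346.psiIso κ (3 * κ / 4) _ _ 1 sB (scq l qB) (by linarith)
      (by linarith) eB' one_pos (by norm_num) hsB lB
    obtain ⟨cc, CC, l₀, xA', xB', sA', sB', hM, nA, nB⟩ :=
      sides h2 hκ10 le_rfl eA' eB' psA psB FA FB hX
    have SA' := sA' j _ hj (Slope_scale slA hl hl1.le)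
    have SB' := sB' (-j) _ hj' (Slope_scale slB hl hl1.le)
    obtain ⟨δ, hδ, hfin⟩ := h3 κ (κ / 4) _ _ cc CC l₀ (scq l qA) j _ _ _ _ xA' _ (scq l qB)
      (-j) _ _ _ _ xB' _ SA' SB' ⟨rfl, fun τ hτ => by
        rw [exp_scq hl, exp_scq hl, mul_neg, mq _ (OvR_scale hl hl1.le hτ)], fun τ hτ => by
        simp only [mul_neg]
        exact mM _ (OvR_scale hl hl1.le hτ), hM⟩ nA nB limA' limB'
      (Pos_scale posA hl hl1.le) (Pos_scale posB hl hl1.le) (fun τ hτ => by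
        obtain ⟨m1, m2, m3⟩ := mpos _ (OvR_scale hl hl1.le hτ)
        simp only [mul_neg]
        exact ⟨m1, by rw [m2], by rw [m3]⟩)
    refine MLZ519.niceB_of_odd hh0 hs hθev D hk haa ?_
    refine (sg_small hn (s := s) hε hl 1 one_ne_zero).frequently (Eventually.frequently ?_)
    have hρ : ∀ᶠ ρ : ℝ in 𝓝[>] 0, ρ < min δ 1 :=
      nhdsWithin_le_nhds (Iio_mem_nhds (lt_min hδ one_pos))
    filter_upwards [hρ, self_mem_nhdsWithin] with ρ' h4 h5
    have h5' : (0 : ℝ) < ρ' := h5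
    have hτ : ((ρ' : ℂ) * 1) ∈ OvR (κ / 4) := by
      refine ⟨?_, ?_, ?_, ?_⟩
      · simpa using h5'.ne'
      · rw [mul_one, Complex.norm_real, Real.norm_of_nonneg h5'.le]
        exact h4.trans_le (min_le_right _ _)
      · rw [mul_one, Complex.norm_real, Real.norm_of_nonneg h5'.le, Complex.ofReal_im, abs_zero]
        positivity
      · simpa using h5'
    have hτSg : (l : ℂ) * ((ρ' : ℂ) * 1) ∈ Sg κ := by
      refine Sg_scale hl hl1.le ⟨hτ.1, hτ.2.1, (le_abs_self _).trans_lt (hτ.2.2.1.trans ?_)⟩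
      have := norm_pos_iff.2 hτ.1
      nlinarith
    have hfin' := (hfin _ hτ (by
      rw [mul_one, Complex.norm_real, Real.norm_of_nonneg h5'.le]
      exact h4.trans_le (min_le_left _ _))).1
    rw [exp_scq hl, exp_scq hl, xA _ hτSg, xB _ hτSg] at hfin'
    have e1 : s + (-1) * ε * ((l : ℂ) * ((ρ' : ℂ) * 1)) = s + -1 * (ε * (l * (ρ' * 1))) := by
      ring
    have e2 : s + 1 * ε * ((l : ℂ) * ((ρ' : ℂ) * 1)) = s + 1 * (ε * (l * (ρ' * 1))) := by
      ring
    rw [e1, sgB_neg, ← e2] at hfin'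
    have hlc : (l : ℂ) ≠ 0 := by exact_mod_cast hl.ne'
    have hεc : (ε : ℂ) ≠ 0 := by exact_mod_cast hε.ne'
    have h7 : (l : ℂ) * ε * (Es k g (Complex.exp (Real.pi * Complex.I / n) *
        sg n s (s + 1 * ε * ((l : ℂ) * ((ρ' : ℂ) * 1)))) +
        Es k g (sg n s (s + 1 * ε * ((l : ℂ) * ((ρ' : ℂ) * 1))))) = 0 := by
      linear_combination hfin'
    have h8 := (mul_eq_zero.1 h7).resolve_left (mul_ne_zero hlc hεc)
    exact eq_neg_of_add_eq_zero_left h8

end Crest.Agent.R102.Mel
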