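import Crest.Agent.R102.T5SMel_490
import Crest.Agent.R102.MelIAsm_490
import Crest.Agent.R102.MelI4_963
import Crest.Agent.R102.MelI2_519
import Crest.Agent.R102.ExtI_289
import Crest.Agent.R102.RLimI_231

/-!
# Row 102, [T5]: **`Spine.T5S`** (helper490, from the leaves of 160, 231, 39, 289, 297, 346, 348,
416, 426, 486, 496, 519, 556, 596, 725, 756, 799, 821, 836, 861, 897, 963, 217, H4)
-/

set_option autoImplicit false

namespace Crest.Agent.R102.Mel

/-- **MEL-I** -/
theorem melI : MelI :=
  MelIAsm490.melI_of_trap (MelI963.trapL (ExtI289.extI_of rLimI pAn) MelI519.posF)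

/-- **T5S** -/
theorem t5S : Spine.T5S := t5S_of_melI melI

end Crest.Agent.R102.Mel
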