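import Mathlib

/-!
T7-E of row 102: if `y, F` are entire, `F' = 2 i y F`, `F ≢ 0` and `P(F, y) = 0` for a nonzero
polynomial `P`, then `y` is constant.  (Rescaling at picked points.)
-/

open Filter Topology Metric Set

namespace Crest.Agent.R102.T7E966

/-- Point picking for an unbounded entire (in fact continuous) function. -/
theorem pick966 (y : ℂ → ℂ) (hy : Continuous y) (hub : ∀ B : ℝ, ∃ z, B < ‖y z‖) (R : ℝ)
    (hR : 0 < R) :
    ∃ z, 2 * R ≤ ‖y z‖ ∧ ∀ w, ‖w - z‖ ≤ R / ‖y z‖ → ‖y w‖ ≤ 2 * ‖y z‖ := by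
  obtain ⟨z0, hz0⟩ := hub (2 * R)
  have hcomp : IsCompact (closedBall z0 1) := isCompact_closedBall z0 1
  have hne : (closedBall z0 (1:ℝ)).Nonempty := ⟨z0, by simp⟩
  have hcont : ContinuousOn (fun z => ‖y z‖ * (1 - ‖z - z0‖)) (closedBall z0 1) := by
    apply Continuous.continuousOn; fun_prop
  obtain ⟨z, hzmem, hzmax⟩ := hcomp.exists_isMaxOn hne hcont
  have hmax : ∀ w ∈ closedBall z0 (1:ℝ), ‖y w‖ * (1 - ‖w - z0‖) ≤ ‖y z‖ * (1 - ‖z - z0‖) :=
    fun w hw => hzmax hw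
  have h0 : ‖y z0‖ ≤ ‖y z‖ * (1 - ‖z - z0‖) := by
    have := hmax z0 (by simp)
    simpa using this
  have hzd : ‖z - z0‖ ≤ 1 := by
    have := hzmem
    rwa [mem_closedBall, dist_eq_norm] at this
  set d : ℝ := 1 - ‖z - z0‖ with hd
  have hd0 : 0 ≤ d := by rw [hd]; linarith
  have hd1 : d ≤ 1 := by rw [hd]; linarith [norm_nonneg (z - z0)]
  have hMd : 2 * R < ‖y z‖ * d := lt_of_lt_of_le hz0 h0
  have hM0 : 0 ≤ ‖y z‖ := norm_nonneg _
  have hMpos : 0 < ‖y z‖ := by
    rcases hM0.eq_or_lt with h | h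
    · rw [← h] at hMd; linarith
    · exact h
  have hdpos : 0 < d := by
    rcases hd0.eq_or_lt with h | h
    · rw [← h] at hMd; linarith
    · exact h
  refine ⟨z, ?_, ?_⟩
  · have : ‖y z‖ * d ≤ ‖y z‖ * 1 := mul_le_mul_of_nonneg_left hd1 hM0
    linarith
  · intro w hw
    have hRd : R / ‖y z‖ ≤ d / 2 := by
      rw [div_le_iff₀ hMpos]
      nlinarith
    have hwz : ‖w - z‖ ≤ d / 2 := hw.trans hRd
    have hwz0 : ‖w - z0‖ ≤ 1 - d / 2 := by
      have : ‖w - z0‖ ≤ ‖w - z‖ + ‖z - z0‖ := by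
        have := norm_add_le (w - z) (z - z0)
        simpa using this
      have h2 : ‖z - z0‖ = 1 - d := by rw [hd]; ring
      linarith
    have hwmem : w ∈ closedBall z0 (1:ℝ) := by
      rw [mem_closedBall, dist_eq_norm]; linarith
    have h3 := hmax w hwmem
    have h4 : ‖y w‖ * (d / 2) ≤ ‖y w‖ * (1 - ‖w - z0‖) :=
      mul_le_mul_of_nonneg_left (by linarith) (norm_nonneg _)
    have h5 : ‖y w‖ * (d / 2) ≤ ‖y z‖ * d := h4.trans h3
    by_contra hcon
    push Not at hcon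
    have : 2 * ‖y z‖ * (d / 2) < ‖y w‖ * (d / 2) := mul_lt_mul_of_pos_right hcon (by linarith)
    nlinarith

/-- Cauchy: a function bounded by `2` on the ball of radius `2R` varies by at most `2|s|/R` on the
ball of radius `R`. -/
theorem osc966 (Y : ℂ → ℂ) (hY : Differentiable ℂ Y) (R : ℝ) (hR : 0 < R)
    (hb : ∀ s, ‖s‖ ≤ 2 * R → ‖Y s‖ ≤ 2) (s : ℂ) (hs : ‖s‖ ≤ R) :
    ‖Y s - Y 0‖ ≤ 2 / R * ‖s‖ := by
  have hder : ∀ t ∈ closedBall (0:ℂ) R, ‖deriv Y t‖ ≤ 2 / R := by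
    intro t ht
    rw [mem_closedBall, dist_zero_right] at ht
    apply Complex.norm_deriv_le_of_forall_mem_sphere_norm_le hR hY.diffContOnCl
    intro w hw
    apply hb
    rw [mem_sphere, dist_eq_norm] at hw
    have : ‖w‖ ≤ ‖w - t‖ + ‖t‖ := by
      have := norm_add_le (w - t) t
      simpa using this
    linarith
  have h := (convex_closedBall (0:ℂ) R).norm_image_sub_le_of_norm_deriv_le
    (fun x _ => hY.differentiableAt) hder (mem_closedBall_self hR.le)
    (show s ∈ closedBall (0:ℂ) R by rw [mem_closedBall, dist_zero_right]; exact hs)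
  simpa using h

/-- The logarithm of the ratio: `L' = 2 i Y`, `L 0 = 0`. -/
theorem log966 (Y L : ℂ → ℂ) (hL : ∀ s, HasDerivAt L (2 * Complex.I * Y s) s) (hL0 : L 0 = 0)
    (R : ℝ) (hR : 0 < R) (hosc : ∀ s, ‖s‖ ≤ R → ‖Y s - Y 0‖ ≤ 2 / R * ‖s‖) (s : ℂ) (hs : ‖s‖ ≤ R) :
    ‖L s - 2 * Complex.I * Y 0 * s‖ ≤ 4 / R * ‖s‖ * ‖s‖ := by
  set H : ℂ → ℂ := fun t => L t - 2 * Complex.I * Y 0 * t with hH
  have hHd : ∀ t, HasDerivAt H (2 * Complex.I * (Y t - Y 0)) t := by
    intro t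
    have h1 := (hL t).sub ((hasDerivAt_id t).const_mul (2 * Complex.I * Y 0))
    have h2 : 2 * Complex.I * Y t - 2 * Complex.I * Y 0 * 1 = 2 * Complex.I * (Y t - Y 0) := by
      ring
    rw [h2] at h1
    exact h1
  have hb : ∀ t ∈ closedBall (0:ℂ) ‖s‖, ‖deriv H t‖ ≤ 4 / R * ‖s‖ := by
    intro t ht
    rw [mem_closedBall, dist_zero_right] at ht
    rw [(hHd t).deriv, norm_mul, norm_mul, Complex.norm_I, mul_one]
    have h1 := hosc t (ht.trans hs)
    have h2 : 2 / R * ‖t‖ ≤ 2 / R * ‖s‖ := mul_le_mul_of_nonneg_left ht (by positivity)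
    have h3 : ‖(2:ℂ)‖ = 2 := by simp
    rw [h3]
    calc 2 * ‖Y t - Y 0‖ ≤ 2 * (2 / R * ‖s‖) := by linarith
      _ = 4 / R * ‖s‖ := by ring
  have h := (convex_closedBall (0:ℂ) ‖s‖).norm_image_sub_le_of_norm_deriv_le
    (fun x _ => (hHd x).differentiableAt) hb (mem_closedBall_self (norm_nonneg s))
    (show s ∈ closedBall (0:ℂ) ‖s‖ by rw [mem_closedBall, dist_zero_right])
  have hH0 : H 0 = 0 := by simp [hH, hL0]
  rw [hH0, sub_zero, sub_zero] at h
  exact h

/-- Independence of the exponentials in the form used. -/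
theorem exps966 (S : Finset ((_ : ℕ) × ℕ)) (b : ((_ : ℕ) × ℕ) → ℂ) (a : ℂ) (ha : a ≠ 0)
    (h : ∀ s : ℂ, ∑ q ∈ S, b q * Complex.exp (a * s) ^ q.2 = 0) (j : ℕ) :
    ∑ q ∈ S with q.2 = j, b q = 0 := by
  set Q : Polynomial ℂ := ∑ q ∈ S, Polynomial.C (b q) * Polynomial.X ^ q.2 with hQ
  have heval : ∀ x : ℂ, x ≠ 0 → Q.eval x = 0 := by
    intro x hx
    have h1 := h (Complex.log x / a)
    have h2 : a * (Complex.log x / a) = Complex.log x := by field_simp
    rw [h2, Complex.exp_log hx] at h1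
    rw [hQ, Polynomial.eval_finsetSum]
    simpa using h1
  have hQ0 : Q = 0 := by
    apply Polynomial.eq_zero_of_infinite_isRoot
    refine Set.Infinite.mono (s := ({0} : Set ℂ)ᶜ) ?_ ?_
    · intro x hx
      exact heval x hx
    · exact (Set.finite_singleton (0:ℂ)).infinite_compl
  have hc : Q.coeff j = 0 := by rw [hQ0]; simp
  rw [hQ, Polynomial.finsetSum_coeff] at hc
  rw [Finset.sum_filter]
  refine Eq.trans ?_ hc
  apply Finset.sum_congr rfl
  intro q _
  rw [Polynomial.coeff_C_mul, Polynomial.coeff_X_pow]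
  by_cases hq : q.2 = j
  · simp [hq]
  · have : ¬ j = q.2 := fun h => hq h.symm
    simp [hq, this]

/-- **T7-E.** -/
theorem t7e_966 (y F : ℂ → ℂ) (hy : Differentiable ℂ y) (hF : Differentiable ℂ F)
    (hODE : ∀ z, deriv F z = 2 * Complex.I * y z * F z) (hF0 : ∃ z, F z ≠ 0)
    (P : Polynomial (Polynomial ℂ)) (hP : P ≠ 0)
    (hPz : ∀ z, (P.map (Polynomial.evalRingHom (F z))).eval (y z) = 0) :
    ∃ c, ∀ z, y z = c := by
  -- the primitive
  obtain ⟨G, hG⟩ := (show Differentiable ℂ (fun z => 2 * Complex.I * y z) by fun_prop).isExactOn_univ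
  have hG' : ∀ z, HasDerivAt G (2 * Complex.I * y z) z := fun z => hG z (mem_univ z)
  have hconst : ∃ C : ℂ, C ≠ 0 ∧ ∀ z, F z = C * Complex.exp (G z) := by
    have hd : ∀ z, HasDerivAt (fun z => F z * Complex.exp (-(G z))) 0 z := by
      intro z
      have h1 : HasDerivAt F (2 * Complex.I * y z * F z) z := by
        rw [← hODE z]; exact (hF z).hasDerivAt
      have h2 := h1.mul ((hG' z).neg.cexp)
      have h3 : 2 * Complex.I * y z * F z * Complex.exp (-(G z))
          + F z * (Complex.exp (-(G z)) * -(2 * Complex.I * y z)) = 0 := by ring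
      have h4 := h2
      rw [show (-G) z = -(G z) from rfl, h3] at h4
      exact h4
    have hc : ∀ z w, (fun z => F z * Complex.exp (-(G z))) z
        = (fun z => F z * Complex.exp (-(G z))) w := by
      intro z w
      exact is_const_of_deriv_eq_zero (fun z => (hd z).differentiableAt) (fun z => (hd z).deriv) z w
    obtain ⟨z1, hz1⟩ := hF0
    refine ⟨F z1 * Complex.exp (-(G z1)), mul_ne_zero hz1 (Complex.exp_ne_zero _), ?_⟩
    intro z
    have := hc z z1
    simp only at this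
    rw [← this, mul_assoc, ← Complex.exp_add]
    simp
  obtain ⟨C, hC, hFC⟩ := hconst
  by_cases hbd : ∃ B : ℝ, ∀ z, ‖y z‖ ≤ B
  · obtain ⟨B, hB⟩ := hbd
    refine ⟨y 0, fun z => ?_⟩
    apply hy.apply_eq_apply_of_bounded
    rw [isBounded_iff_forall_norm_le]
    exact ⟨B, by rintro _ ⟨w, rfl⟩; exact hB w⟩
  exfalso
  push Not at hbd
  -- points
  have hpk : ∀ n : ℕ, ∃ z, 2 * (2 * ((n:ℝ) + 1)) ≤ ‖y z‖ ∧
      ∀ w, ‖w - z‖ ≤ (2 * ((n:ℝ) + 1)) / ‖y z‖ → ‖y w‖ ≤ 2 * ‖y z‖ :=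
    fun n => pick966 y hy.continuous hbd (2 * ((n:ℝ) + 1)) (by positivity)
  choose zz hz1 hz2 using hpk
  set M : ℕ → ℝ := fun n => ‖y (zz n)‖ with hM
  have hMpos : ∀ n, 0 < M n := fun n => lt_of_lt_of_le (by positivity) (hz1 n)
  have hMC : ∀ n, (M n : ℂ) ≠ 0 := fun n => by exact_mod_cast (hMpos n).ne'
  have hMinf : Tendsto M atTop atTop := by
    have hmono : ∀ n : ℕ, (n:ℝ) ≤ M n := by
      intro n
      have h1 := hz1 n
      have h2 : (0:ℝ) ≤ (n:ℝ) := Nat.cast_nonneg _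
      have h3 : M n = ‖y (zz n)‖ := rfl
      rw [h3]; linarith
    exact tendsto_atTop_mono hmono tendsto_natCast_atTop_atTop
  set Y : ℕ → ℂ → ℂ := fun n s => y (zz n + s / M n) / M n with hYdef
  have hYd : ∀ n, Differentiable ℂ (Y n) := by
    intro n
    have : Differentiable ℂ (fun s : ℂ => zz n + s / M n) := by fun_prop
    exact (hy.comp this).div_const _
  have hYb : ∀ (n : ℕ) (s : ℂ), ‖s‖ ≤ 2 * ((n:ℝ) + 1) → ‖Y n s‖ ≤ 2 := by
    intro n s hs
    have h1 : ‖(zz n + s / M n) - zz n‖ ≤ (2 * ((n:ℝ) + 1)) / ‖y (zz n)‖ := by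
      rw [add_sub_cancel_left, norm_div, Complex.norm_real, Real.norm_of_nonneg (hMpos n).le]
      exact div_le_div_of_nonneg_right hs (hMpos n).le
    have h2 := hz2 n _ h1
    simp only [hYdef]
    rw [norm_div, Complex.norm_real, Real.norm_of_nonneg (hMpos n).le, div_le_iff₀ (hMpos n)]
    exact h2
  have hY0 : ∀ n, ‖Y n 0‖ = 1 := by
    intro n
    simp only [hYdef, zero_div, add_zero]
    rw [norm_div, Complex.norm_real, Real.norm_of_nonneg (hMpos n).le]
    exact div_self (hMpos n).ne'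
  have hYosc : ∀ (n : ℕ) (s : ℂ), ‖s‖ ≤ (n:ℝ) + 1 → ‖Y n s - Y n 0‖ ≤ 2 / ((n:ℝ) + 1) * ‖s‖ :=
    fun n s hs => osc966 (Y n) (hYd n) ((n:ℝ) + 1) (by positivity) (hYb n) s hs
  set L : ℕ → ℂ → ℂ := fun n s => G (zz n + s / M n) - G (zz n) with hLdef
  have hLd : ∀ n s, HasDerivAt (L n) (2 * Complex.I * Y n s) s := by
    intro n s
    have h1 : HasDerivAt (fun s : ℂ => zz n + s / M n) (1 / M n) s := by
      have := ((hasDerivAt_id s).div_const (M n : ℂ)).const_add (zz n)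
      exact this
    have h2 := ((hG' (zz n + s / M n)).comp s h1).sub_const (G (zz n))
    have h3 : 2 * Complex.I * y (zz n + s / M n) * (1 / M n) = 2 * Complex.I * Y n s := by
      simp only [hYdef]; ring
    rw [h3] at h2
    exact h2
  have hL0 : ∀ n, L n 0 = 0 := by intro n; simp [hLdef]
  have hLest : ∀ (n : ℕ) (s : ℂ), ‖s‖ ≤ (n:ℝ) + 1 →
      ‖L n s - 2 * Complex.I * Y n 0 * s‖ ≤ 4 / ((n:ℝ) + 1) * ‖s‖ * ‖s‖ :=
    fun n s hs => log966 (Y n) (L n) (hLd n) (hL0 n) ((n:ℝ) + 1) (by positivity) (hYosc n) s hs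
  -- the support and the weights
  set S : Finset ((_ : ℕ) × ℕ) := P.support.sigma (fun k => (P.coeff k).support) with hS
  set p : ((_ : ℕ) × ℕ) → ℂ := fun q => (P.coeff q.1).coeff q.2 with hp
  have hpne : ∀ q ∈ S, p q ≠ 0 := by
    intro q hq
    rw [hS, Finset.mem_sigma] at hq
    exact Polynomial.mem_support_iff.mp hq.2
  have hSne : S.Nonempty := by
    obtain ⟨k, hk⟩ := Polynomial.support_nonempty.mpr hP
    have hk' : P.coeff k ≠ 0 := Polynomial.mem_support_iff.mp hk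
    obtain ⟨j, hj⟩ := Polynomial.support_nonempty.mpr hk'
    exact ⟨⟨k, j⟩, by rw [hS, Finset.mem_sigma]; exact ⟨hk, hj⟩⟩
  have hexpand : ∀ x w : ℂ, (P.map (Polynomial.evalRingHom x)).eval w
      = ∑ q ∈ S, p q * x ^ q.2 * w ^ q.1 := by
    intro x w
    rw [Polynomial.eval_map, Polynomial.eval₂_eq_sum, Polynomial.sum_def, hS, Finset.sum_sigma]
    apply Finset.sum_congr rfl
    intro k _
    rw [Polynomial.coe_evalRingHom, Polynomial.eval_eq_sum, Polynomial.sum_def, Finset.sum_mul]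
  -- vectors of weights
  set V : ℕ → (S → ℂ) := fun n q => (F (zz n)) ^ q.1.2 * (M n : ℂ) ^ q.1.1 with hV
  have hFne : ∀ z, F z ≠ 0 := fun z => by rw [hFC]; exact mul_ne_zero hC (Complex.exp_ne_zero _)
  have hVne : ∀ n, V n ≠ 0 := by
    intro n h0
    obtain ⟨q, hq⟩ := hSne
    have := congrFun h0 ⟨q, hq⟩
    simp only [hV, Pi.zero_apply] at this
    exact mul_ne_zero (pow_ne_zero _ (hFne _)) (pow_ne_zero _ (hMC n)) this
  have hVpos : ∀ n, 0 < ‖V n‖ := fun n => norm_pos_iff.mpr (hVne n)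
  set U : ℕ → (S → ℂ) := fun n => ((‖V n‖ : ℂ)⁻¹) • V n with hU
  have hUne : ∀ (n : ℕ) (q : S), U n q ≠ 0 := by
    intro n q
    have h1 : U n q = ((‖V n‖ : ℂ)⁻¹) * V n q := rfl
    have h2 : V n q = (F (zz n)) ^ q.1.2 * (M n : ℂ) ^ q.1.1 := rfl
    rw [h1, h2]
    exact mul_ne_zero (inv_ne_zero (Complex.ofReal_ne_zero.mpr (hVpos n).ne'))
      (mul_ne_zero (pow_ne_zero _ (hFne _)) (pow_ne_zero _ (hMC n)))
  have hU1 : ∀ n, ‖U n‖ = 1 := by
    intro n
    simp only [hU]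
    rw [norm_smul, norm_inv, Complex.norm_real, norm_norm]
    exact inv_mul_cancel₀ (hVpos n).ne'
  -- compactness
  have hcomp : IsCompact ((sphere (0:ℂ) 1) ×ˢ (sphere (0 : S → ℂ) 1)) :=
    (isCompact_sphere _ _).prod (isCompact_sphere _ _)
  obtain ⟨⟨c, lam⟩, hcl, φ, hφ, hlim⟩ := hcomp.tendsto_subseq (x := fun n => (Y n 0, U n))
    (fun n => by
      refine ⟨?_, ?_⟩
      · simpa using hY0 n
      · simpa using hU1 n)
  have hc1 : ‖c‖ = 1 := by simpa using hcl.1
  have hlam1 : ‖lam‖ = 1 := by simpa using hcl.2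
  have hc0 : c ≠ 0 := by rw [← norm_pos_iff, hc1]; exact one_pos
  have hlc : Tendsto (fun n => Y (φ n) 0) atTop (𝓝 c) := by
    have := (continuous_fst.tendsto _).comp hlim
    exact this
  have hlU : Tendsto (fun n => U (φ n)) atTop (𝓝 lam) := by
    have := (continuous_snd.tendsto _).comp hlim
    exact this
  have hlq : ∀ q : S, Tendsto (fun n => U (φ n) q) atTop (𝓝 (lam q)) := by
    intro q
    exact ((continuous_apply q).tendsto _).comp hlU
  have hφinf : Tendsto φ atTop atTop := hφ.tendsto_atTop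
  have hinv : Tendsto (fun n : ℕ => 1 / ((n:ℝ) + 1)) atTop (𝓝 0) :=
    tendsto_one_div_add_atTop_nhds_zero_nat
  have hinvφ : Tendsto (fun n : ℕ => 1 / (((φ n : ℕ):ℝ) + 1)) atTop (𝓝 0) := hinv.comp hφinf
  -- limits of Y and L
  have hYlim : ∀ s : ℂ, Tendsto (fun n => Y (φ n) s) atTop (𝓝 c) := by
    intro s
    have hdiff : Tendsto (fun n => Y (φ n) s - Y (φ n) 0) atTop (𝓝 0) := by
      apply squeeze_zero_norm' (a := fun n => (1 / (((φ n : ℕ):ℝ) + 1)) * (2 * ‖s‖))
      · have hev : ∀ᶠ n in atTop, ‖s‖ ≤ ((φ n : ℕ):ℝ) + 1 := by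
          have : Tendsto (fun n => ((φ n : ℕ):ℝ) + 1) atTop atTop :=
            tendsto_atTop_add_const_right _ _ (tendsto_natCast_atTop_atTop.comp hφinf)
          exact this.eventually_ge_atTop ‖s‖
        filter_upwards [hev] with n hn
        have := hYosc (φ n) s hn
        calc _ ≤ _ := this
          _ = _ := by ring
      · simpa using hinvφ.mul_const (2 * ‖s‖)
    simpa using hdiff.add hlc
  have hLlim : ∀ s : ℂ, Tendsto (fun n => L (φ n) s) atTop (𝓝 (2 * Complex.I * c * s)) := by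
    intro s
    have hdiff : Tendsto (fun n => L (φ n) s - 2 * Complex.I * Y (φ n) 0 * s) atTop (𝓝 0) := by
      apply squeeze_zero_norm' (a := fun n => (1 / (((φ n : ℕ):ℝ) + 1)) * (4 * ‖s‖ * ‖s‖))
      · have hev : ∀ᶠ n in atTop, ‖s‖ ≤ ((φ n : ℕ):ℝ) + 1 := by
          have : Tendsto (fun n => ((φ n : ℕ):ℝ) + 1) atTop atTop :=
            tendsto_atTop_add_const_right _ _ (tendsto_natCast_atTop_atTop.comp hφinf)
          exact this.eventually_ge_atTop ‖s‖
        filter_upwards [hev] with n hn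
        have := hLest (φ n) s hn
        calc _ ≤ _ := this
          _ = _ := by ring
      · simpa using hinvφ.mul_const (4 * ‖s‖ * ‖s‖)
    have h2 : Tendsto (fun n => 2 * Complex.I * Y (φ n) 0 * s) atTop (𝓝 (2 * Complex.I * c * s)) :=
      (hlc.const_mul (2 * Complex.I)).mul_const s
    simpa using hdiff.add h2
  -- the relation at the rescaled points
  have hrel : ∀ (n : ℕ) (s : ℂ), ∑ q : S, p q.1 * U n q * Complex.exp (L n s) ^ q.1.2
      * (Y n s) ^ q.1.1 = 0 := by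
    intro n s
    have h1 := hPz (zz n + s / M n)
    rw [hexpand] at h1
    have hFs : F (zz n + s / M n) = F (zz n) * Complex.exp (L n s) := by
      rw [hFC, hFC (zz n)]
      simp only [hLdef]
      rw [mul_assoc, ← Complex.exp_add]
      congr 2
      ring
    have hYs : y (zz n + s / M n) = M n * Y n s := by
      simp only [hYdef]
      field_simp [hMC n]
    rw [hFs, hYs] at h1
    rw [← Finset.sum_coe_sort S (fun q => p q * (F (zz n) * Complex.exp (L n s)) ^ q.2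
      * (M n * Y n s) ^ q.1)] at h1
    have h2 : ((‖V n‖ : ℂ)⁻¹) * ∑ q : S, p q.1 * (F (zz n) * Complex.exp (L n s)) ^ q.1.2
      * (M n * Y n s) ^ q.1.1 = 0 := by rw [h1, mul_zero]
    rw [Finset.mul_sum] at h2
    rw [← h2]
    apply Finset.sum_congr rfl
    intro q _
    simp only [hU, hV, Pi.smul_apply, smul_eq_mul, mul_pow]
    ring
  have hlimrel : ∀ s : ℂ, ∑ q : S, p q.1 * lam q * Complex.exp (2 * Complex.I * c * s) ^ q.1.2
      * c ^ q.1.1 = 0 := by
    intro s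
    have ht : Tendsto (fun n => ∑ q : S, p q.1 * U (φ n) q * Complex.exp (L (φ n) s) ^ q.1.2
      * (Y (φ n) s) ^ q.1.1) atTop (𝓝 (∑ q : S, p q.1 * lam q *
        Complex.exp (2 * Complex.I * c * s) ^ q.1.2 * c ^ q.1.1)) := by
      apply tendsto_finsetSum
      intro q _
      exact (((hlq q).const_mul (p q.1)).mul
        (((Complex.continuous_exp.tendsto _).comp (hLlim s)).pow q.1.2)).mul ((hYlim s).pow q.1.1)
    have h0 : (fun n => ∑ q : S, p q.1 * U (φ n) q * Complex.exp (L (φ n) s) ^ q.1.2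
      * (Y (φ n) s) ^ q.1.1) = fun _ => 0 := by
      funext n; exact hrel (φ n) s
    rw [h0] at ht
    exact (tendsto_nhds_unique ht tendsto_const_nhds)
  -- extend lam by zero
  classical
  set lam' : ((_ : ℕ) × ℕ) → ℂ := fun q => if h : q ∈ S then lam ⟨q, h⟩ else 0 with hlam'
  have hlam'S : ∀ q : S, lam' q.1 = lam q := by
    intro q
    simp only [hlam', q.2, dif_pos]
  have hlim2 : ∀ s : ℂ, ∑ q ∈ S, (p q * lam' q * c ^ q.1) *
      Complex.exp ((2 * Complex.I * c) * s) ^ q.2 = 0 := by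
    intro s
    rw [← Finset.sum_coe_sort S (fun q => (p q * lam' q * c ^ q.1) *
      Complex.exp ((2 * Complex.I * c) * s) ^ q.2), ← hlimrel s]
    apply Finset.sum_congr rfl
    intro q _
    rw [hlam'S q]
    ring
  have ha : 2 * Complex.I * c ≠ 0 := mul_ne_zero (mul_ne_zero two_ne_zero Complex.I_ne_zero) hc0
  have hcol := exps966 S (fun q => p q * lam' q * c ^ q.1) (2 * Complex.I * c) ha hlim2
  -- lower weights vanish
  have hlow : ∀ q : S, ∀ r : S, q.1.2 = r.1.2 → q.1.1 < r.1.1 → lam q = 0 := by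
    intro q r hqr hlt
    have hM' : Tendsto (fun n => (M (φ n))⁻¹) atTop (𝓝 0) :=
      tendsto_inv_atTop_zero.comp (hMinf.comp hφinf)
    have hle : ∀ n, ‖U (φ n) q‖ ≤ (M (φ n))⁻¹ := by
      intro n
      have hM1 : 1 ≤ M (φ n) := by
        have h1 := hz1 (φ n)
        have h2 : (0:ℝ) ≤ ((φ n : ℕ):ℝ) := Nat.cast_nonneg _
        linarith
      have hr1 : ‖U (φ n) r‖ ≤ 1 := by rw [← hU1 (φ n)]; exact norm_le_pi_norm _ r
      have hUr : ‖U (φ n) r‖ = ‖U (φ n) q‖ * M (φ n) ^ (r.1.1 - q.1.1) := by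
        simp only [hU, hV, Pi.smul_apply, smul_eq_mul, norm_mul, norm_pow, Complex.norm_real,
          Real.norm_of_nonneg (hMpos (φ n)).le, hqr]
        have : M (φ n) ^ r.1.1 = M (φ n) ^ q.1.1 * M (φ n) ^ (r.1.1 - q.1.1) := by
          rw [← pow_add]; congr 1; omega
        rw [this]; ring
      have hpow : M (φ n) ≤ M (φ n) ^ (r.1.1 - q.1.1) := by
        apply le_self_pow₀ hM1; omega
      rw [← one_div, le_div_iff₀ (hMpos _)]
      calc ‖U (φ n) q‖ * M (φ n) ≤ ‖U (φ n) q‖ * M (φ n) ^ (r.1.1 - q.1.1) :=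
            mul_le_mul_of_nonneg_left hpow (norm_nonneg _)
        _ = ‖U (φ n) r‖ := hUr.symm
        _ ≤ 1 := hr1
    have : Tendsto (fun n => U (φ n) q) atTop (𝓝 0) := squeeze_zero_norm hle hM'
    exact tendsto_nhds_unique (hlq q) this
  have hall : ∀ q : S, lam q = 0 := by
    intro q
    by_contra hq
    have h1 := hcol q.1.2
    have h2 : ∑ r ∈ S with r.2 = q.1.2, (p r * lam' r * c ^ r.1) = p q.1 * lam' q.1 * c ^ q.1.1 := by
      apply Finset.sum_eq_single_of_mem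
      · rw [Finset.mem_filter]; exact ⟨q.2, rfl⟩
      · intro r hr hrq
        rw [Finset.mem_filter] at hr
        have hr0 : lam ⟨r, hr.1⟩ = 0 := by
          rcases lt_trichotomy r.1 q.1.1 with h | h | h
          · exact hlow ⟨r, hr.1⟩ q hr.2 h
          · exfalso
            apply hrq
            rcases r with ⟨r1, r2⟩
            rcases q with ⟨⟨q1, q2⟩, hq2⟩
            simp only at h hr ⊢
            rw [h, hr.2]
          · exact absurd (hlow q ⟨r, hr.1⟩ hr.2.symm h) hq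
        have : lam' r = 0 := by rw [← hr0]; exact hlam'S ⟨r, hr.1⟩
        rw [this]; ring
    rw [h2] at h1
    rw [hlam'S q] at h1
    exact mul_ne_zero (mul_ne_zero (hpne q.1 q.2) hq) (pow_ne_zero _ hc0) h1
  have : lam = 0 := funext hall
  rw [this, norm_zero] at hlam1
  exact zero_ne_one hlam1

end Crest.Agent.R102.T7E966
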