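import Crest.Agent.R102.StepT_924

/-!
# Row 102, T1-E: the T-event is unavoidable (helper924)

`circle_no_sqrt`: a continuous function on a circle about `0` whose square is close to `a s` does not
exist. `teu`: the chain argument. A continuous state `(D, B)` on a parallelogram about the event which
satisfies the recursion `D(σ + ε ω)² = D(σ)² + ε (a ω + small)` as long as it stays near the event
cannot exist: the recursion propagates from the upstream side to the whole parallelogram.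
-/

set_option autoImplicit false

open Set Metric Complex
open scoped Real

namespace Crest.Agent.R102.TEU924

/-- no continuous square root of `a s` on a circle about `0`, even approximately -/
theorem circle_no_sqrt {D : ℂ → ℂ} {a : ℂ} {r : ℝ} (ha : a ≠ 0) (hr : 0 < r)
    (hc : ContinuousOn D (sphere 0 r))
    (h : ∀ s ∈ sphere (0 : ℂ) r, ‖D s ^ 2 - a * s‖ ≤ ‖a‖ * r / 2) : False := by
  obtain ⟨c, hcc⟩ : ∃ c : ℂ, c ^ 2 = a * r := by
    obtain ⟨c, hc⟩ := IsAlgClosed.exists_pow_nat_eq (a * r) (n := 2) (by norm_num)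
    exact ⟨c, hc⟩
  have har : a * (r : ℂ) ≠ 0 := mul_ne_zero ha (by exact_mod_cast hr.ne')
  have hc0 : c ≠ 0 := by
    rintro rfl
    rw [zero_pow (by norm_num)] at hcc
    exact har hcc.symm
  set p : ℝ → ℂ := fun θ => r * exp (θ * I) with hp
  have hps : ∀ θ, p θ ∈ sphere (0 : ℂ) r := by
    intro θ
    rw [mem_sphere_zero_iff_norm, hp]
    simp only [norm_mul, Complex.norm_real, Real.norm_eq_abs, abs_of_pos hr,
      Complex.norm_exp_ofReal_mul_I, mul_one]
  have hpc : Continuous p := by rw [hp]; fun_prop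
  set q : ℝ → ℂ := fun θ => D (p θ) * exp (-(θ / 2 * I)) / c with hq
  have hqc : Continuous q := by
    have h1 : Continuous fun θ => D (p θ) := hc.comp_continuous hpc hps
    have h2 : Continuous fun θ : ℝ => exp (-((θ : ℂ) / 2 * I)) := by fun_prop
    exact (h1.mul h2).div_const c
  have hqre : ∀ θ, (q θ).re ≠ 0 := by
    intro θ h0
    have h1 := h (p θ) (hps θ)
    have h2 : (q θ) ^ 2 - 1 = (D (p θ) ^ 2 - a * p θ) * exp (-(θ * I)) / (a * r) := by
      have e1 : exp (-((θ : ℂ) / 2 * I)) ^ 2 = exp (-(θ * I)) := by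
        rw [← Complex.exp_nat_mul]
        congr 1
        push_cast
        ring
      have e2 : exp ((θ : ℂ) * I) * exp (-(θ * I)) = 1 := by
        rw [← Complex.exp_add]; simp
      have e3 : (q θ) ^ 2 = D (p θ) ^ 2 * exp (-(θ * I)) / (a * r) := by
        rw [hq]
        simp only
        rw [div_pow, mul_pow, e1, hcc]
      rw [e3]
      have e4 : a * p θ * exp (-(θ * I)) = a * r := by
        rw [hp]
        simp only
        rw [show a * (r * exp (θ * I)) * exp (-(θ * I)) = a * r * (exp (θ * I) * exp (-(θ * I))) by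
          ring, e2, mul_one]
      rw [sub_mul, e4, sub_div, div_self har]
    have h3 : ‖(q θ) ^ 2 - 1‖ ≤ 1 / 2 := by
      rw [h2, norm_div, norm_mul, norm_mul, Complex.norm_real, Real.norm_eq_abs, abs_of_pos hr]
      have h4 : ‖exp (-((θ : ℂ) * I))‖ = 1 := by
        have : -((θ : ℂ) * I) = ((-θ : ℝ) : ℂ) * I := by push_cast; ring
        rw [this, Complex.norm_exp_ofReal_mul_I]
      rw [h4, mul_one, div_le_iff₀ (by positivity)]
      linarith
    have h4 : ((q θ) ^ 2 - 1).re = -(q θ).im ^ 2 - 1 := by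
      rw [sq, Complex.sub_re, Complex.mul_re, h0, Complex.one_re]
      ring
    have h5 := (Complex.abs_re_le_norm ((q θ) ^ 2 - 1)).trans h3
    rw [h4] at h5
    have h6 := (abs_le.1 h5).1
    nlinarith [sq_nonneg (q θ).im]
  have hends : q (2 * π) = -q 0 := by
    have e1 : p (2 * π) = p 0 := by
      rw [hp]; simp
    have e2 : exp (-(((2 * π : ℝ) : ℂ) / 2 * I)) = -1 := by
      have : -(((2 * π : ℝ) : ℂ) / 2 * I) = -(π * I) := by push_cast; ring
      rw [this, Complex.exp_neg, Complex.exp_pi_mul_I]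
      norm_num
    have e3 : exp (-(((0 : ℝ) : ℂ) / 2 * I)) = 1 := by simp
    rw [hq]
    simp only
    rw [e1, e2, e3]
    ring
  have hre : Continuous fun θ => (q θ).re := Complex.continuous_re.comp hqc
  have h0 : (0 : ℝ) ≤ 2 * π := by positivity
  rcases lt_or_gt_of_ne (hqre 0) with hneg | hpos
  · have h1 : 0 < (q (2 * π)).re := by rw [hends, Complex.neg_re]; linarith
    obtain ⟨θ, -, hθ⟩ := intermediate_value_Icc h0 hre.continuousOn ⟨hneg.le, h1.le⟩
    exact hqre θ hθ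
  · have h1 : (q (2 * π)).re < 0 := by rw [hends, Complex.neg_re]; linarith
    obtain ⟨θ, -, hθ⟩ := intermediate_value_Icc' h0 hre.continuousOn ⟨h1.le, hpos.le⟩
    exact hqre θ hθ

/-- **the T-event is unavoidable** (chain form). `x + τ ω`, `|x| ≤ A`, `|τ| ≤ T`: parallelogram about
the event `0`; `D, B` the state (angle and label, relative to the event), `S` the scaled displacement
to the next vertex minus its value at the event. -/
theorem teu {a ω : ℂ} {ε A T T₀ r ρ₀ ρ₁ r₀ κ₀ κ β₀ K : ℝ} {D B S : ℂ → ℂ} (ha : a ≠ 0)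
    (hω : 0 < ω.im) (hε : 0 < ε) (hr : 0 < r) (hr₀ : 0 < r₀) (hκ : 0 ≤ κ) (hK : 0 ≤ K)
    (hT₀ : 0 ≤ T₀) (hεT : ε ≤ T - T₀) (hrT : r ≤ T * ω.im) (hrA : r + T * |ω.re| ≤ A)
    (hcD : ∀ s, ‖s‖ = r → ContinuousAt D s)
    (hcS : ∀ x τ : ℝ, |x| ≤ A → -T ≤ τ → τ ≤ T - ε → ContinuousAt S (x + τ * ω))
    (hstart : ∀ x τ : ℝ, |x| ≤ A → -T ≤ τ → τ ≤ -T₀ →
      ‖D (x + τ * ω) ^ 2 - a * (x + τ * ω)‖ ≤ κ₀ ∧ ‖B (x + τ * ω)‖ ≤ β₀)
    (hS0 : ∀ x : ℝ, |x| ≤ A → ‖S (x + (-T : ℝ) * ω)‖ ≤ r₀)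
    (hstep : ∀ x τ : ℝ, |x| ≤ A → -T ≤ τ → τ ≤ T - ε → ‖D (x + τ * ω)‖ ≤ ρ₀ →
      ‖B (x + τ * ω)‖ ≤ ρ₁ → ‖S (x + τ * ω)‖ ≤ r₀ →
      ‖S (x + τ * ω)‖ ≤ r₀ / 2 ∧
      ‖D (x + (τ + ε : ℝ) * ω) ^ 2 - D (x + τ * ω) ^ 2 - a * (ε * ω)‖ ≤ ε * κ ∧
      ‖B (x + (τ + ε : ℝ) * ω) - B (x + τ * ω)‖ ≤ ε * K)
    (n1 : κ₀ + 2 * T * κ ≤ ‖a‖ * r / 2)
    (n2 : κ₀ + 2 * T * κ + ‖a‖ * (A + T * ‖ω‖) ≤ ρ₀ ^ 2) (hρ₀ : 0 ≤ ρ₀)
    (n3 : β₀ + 2 * T * K ≤ ρ₁) : False := by
  have hT : 0 < T := by linarith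
  have hA : 0 ≤ A := by
    have : 0 ≤ T * |ω.re| := by positivity
    linarith
  -- the claim along the chains
  have claim : ∀ n : ℕ, ∀ x τ : ℝ, |x| ≤ A → -T ≤ τ → τ ≤ T → τ ≤ -T₀ + n * ε →
      ‖D (x + τ * ω) ^ 2 - a * (x + τ * ω)‖ ≤ κ₀ + κ * (τ + T) ∧
      ‖B (x + τ * ω)‖ ≤ β₀ + K * (τ + T) := by
    intro n
    induction n with
    | zero =>
      intro x τ hx hτ1 _ hτ2
      obtain ⟨h1, h2⟩ := hstart x τ hx hτ1 (by simpa using hτ2)
      have h3 : 0 ≤ κ * (τ + T) := mul_nonneg hκ (by linarith)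
      have h4 : 0 ≤ K * (τ + T) := mul_nonneg hK (by linarith)
      exact ⟨by linarith, by linarith⟩
    | succ n ih =>
      intro x τ hx hτ1 hτT hτ2
      by_cases hle : τ ≤ -T₀ + n * ε
      · exact ih x τ hx hτ1 hτT hle
      push Not at hle
      set τ' : ℝ := τ - ε with hτ'
      have hn0 : (0 : ℝ) ≤ n * ε := by positivity
      have hτ'1 : -T ≤ τ' := by linarith
      have hτ'2 : τ' ≤ -T₀ + n * ε := by
        push_cast at hτ2
        linarith
      have hτ'3 : τ' ≤ T - ε := by linarith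
      -- the bounds along the segment
      have hsmall : ∀ t : ℝ, -T ≤ t → t ≤ τ' → ‖D (x + t * ω)‖ ≤ ρ₀ ∧ ‖B (x + t * ω)‖ ≤ ρ₁ := by
        intro t ht1 ht2
        obtain ⟨h1, h2⟩ := ih x t hx ht1 (by linarith) (by linarith)
        have h3 : κ * (t + T) ≤ 2 * T * κ := by
          have : t + T ≤ 2 * T := by linarith
          nlinarith
        have h4 : K * (t + T) ≤ 2 * T * K := by
          have : t + T ≤ 2 * T := by linarith
          nlinarith
        refine ⟨?_, by linarith⟩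
        have h5 : ‖(x : ℂ) + t * ω‖ ≤ A + T * ‖ω‖ := by
          refine (norm_add_le _ _).trans ?_
          rw [norm_mul, Complex.norm_real, Complex.norm_real, Real.norm_eq_abs, Real.norm_eq_abs]
          have h6 : |t| ≤ T := abs_le.2 ⟨ht1, by linarith⟩
          have h7 : |t| * ‖ω‖ ≤ T * ‖ω‖ := mul_le_mul_of_nonneg_right h6 (norm_nonneg _)
          linarith
        have h6 : ‖D (x + t * ω) ^ 2‖ ≤ ρ₀ ^ 2 := by
          have e : D (x + t * ω) ^ 2 = (D (x + t * ω) ^ 2 - a * (x + t * ω)) + a * (x + t * ω) := by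
            ring
          rw [e]
          refine (norm_add_le _ _).trans ?_
          rw [norm_mul]
          have h7 : ‖a‖ * ‖(x : ℂ) + t * ω‖ ≤ ‖a‖ * (A + T * ‖ω‖) :=
            mul_le_mul_of_nonneg_left h5 (norm_nonneg _)
          linarith
        rw [norm_pow] at h6
        exact (pow_le_pow_iff_left₀ (norm_nonneg _) hρ₀ two_ne_zero).1 h6
      -- `S` stays small along the segment
      have hSle : ‖S (x + τ' * ω)‖ ≤ r₀ / 2 := by
        by_contra hcon
        push Not at hcon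
        have hcont : ContinuousOn (fun t : ℝ => ‖S (x + t * ω)‖) (Icc (-T) τ') := by
          intro t ht
          have h1 := hcS x t hx ht.1 (ht.2.trans hτ'3)
          have h2 : ContinuousAt (fun t : ℝ => (x : ℂ) + t * ω) t := by fun_prop
          exact ((ContinuousAt.comp (f := fun t : ℝ => (x : ℂ) + t * ω) h1 h2).norm).continuousWithinAt
        obtain ⟨hD0, hB0⟩ := hsmall (-T) le_rfl hτ'1
        have hS1 := (hstep x (-T) hx le_rfl (by linarith) hD0 hB0 (hS0 x hx)).1
        have hmem : min ‖S (x + τ' * ω)‖ r₀ ∈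
            Icc ((fun t : ℝ => ‖S (x + t * ω)‖) (-T)) ((fun t : ℝ => ‖S (x + t * ω)‖) τ') := by
          refine ⟨?_, min_le_left _ _⟩
          refine hS1.trans (le_min hcon.le (by linarith))
        obtain ⟨t, ht, hteq⟩ := intermediate_value_Icc hτ'1 hcont hmem
        have h1 : ‖S (x + t * ω)‖ ≤ r₀ := by
          have : ‖S (x + t * ω)‖ = min ‖S (x + τ' * ω)‖ r₀ := hteq
          rw [this]; exact min_le_right _ _
        obtain ⟨hDt, hBt⟩ := hsmall t ht.1 ht.2
        have h2 := (hstep x t hx ht.1 (ht.2.trans hτ'3) hDt hBt h1).1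
        have h3 : ‖S (x + t * ω)‖ = min ‖S (x + τ' * ω)‖ r₀ := hteq
        rw [h3] at h2
        rcases min_choice ‖S (x + τ' * ω)‖ r₀ with hm | hm
        · rw [hm] at h2; linarith
        · rw [hm] at h2; linarith
      obtain ⟨hDt, hBt⟩ := hsmall τ' hτ'1 le_rfl
      obtain ⟨-, h1, h2⟩ := hstep x τ' hx hτ'1 hτ'3 hDt hBt (by linarith)
      obtain ⟨h3, h4⟩ := ih x τ' hx hτ'1 (by linarith) hτ'2
      have e0 : τ' + ε = τ := by rw [hτ']; ring
      rw [e0] at h1 h2
      have e1 : (τ : ℂ) = (τ' : ℂ) + ε := by rw [← e0]; push_cast; ring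
      constructor
      · have e2 : D (x + τ * ω) ^ 2 - a * (x + τ * ω) =
            (D (x + τ * ω) ^ 2 - D (x + τ' * ω) ^ 2 - a * (ε * ω)) +
            (D (x + τ' * ω) ^ 2 - a * (x + τ' * ω)) := by
          have e3 : a * ((x : ℂ) + τ * ω) = a * (x + τ' * ω) + a * (ε * ω) := by rw [e1]; ring
          rw [e3]; ring
        rw [e2]
        refine (norm_add_le _ _).trans ?_
        have e4 : κ * (τ + T) = κ * (τ' + T) + ε * κ := by rw [← e0]; ring
        linarith
      · have e2 : B (x + τ * ω) = (B (x + τ * ω) - B (x + τ' * ω)) + B (x + τ' * ω) := by ring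
        rw [e2]
        refine (norm_add_le _ _).trans ?_
        have e4 : K * (τ + T) = K * (τ' + T) + ε * K := by rw [← e0]; ring
        linarith
  obtain ⟨n, hn⟩ := exists_nat_gt ((T + T₀) / ε)
  rw [div_lt_iff₀ hε] at hn
  refine circle_no_sqrt ha hr (fun s hs => (hcD s (by simpa using hs)).continuousWithinAt) ?_
  intro s hs
  rw [mem_sphere_zero_iff_norm] at hs
  set τ : ℝ := s.im / ω.im with hτ
  set x : ℝ := s.re - τ * ω.re with hx
  have hsx : s = x + τ * ω := by
    apply Complex.ext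
    · simp [hx]
    · simp only [add_im, ofReal_im, mul_im, ofReal_re, zero_mul, add_zero, zero_add]
      rw [hτ]; field_simp
  have h1 : |τ| ≤ T := by
    rw [hτ, abs_div, abs_of_pos hω, div_le_iff₀ hω]
    exact ((Complex.abs_im_le_norm s).trans hs.le).trans hrT
  have h2 : |x| ≤ A := by
    rw [hx]
    refine (abs_sub _ _).trans ?_
    rw [abs_mul]
    have h3 : |τ| * |ω.re| ≤ T * |ω.re| := mul_le_mul_of_nonneg_right h1 (abs_nonneg _)
    have h4 := (Complex.abs_re_le_norm s).trans hs.le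
    linarith
  have h3 := (claim n x τ h2 (abs_le.1 h1).1 (abs_le.1 h1).2 (by
    have := (abs_le.1 h1).2
    linarith)).1
  rw [← hsx] at h3
  have h4 : κ * (τ + T) ≤ 2 * T * κ := by
    have : τ + T ≤ 2 * T := by linarith [(abs_le.1 h1).2]
    nlinarith
  linarith

end Crest.Agent.R102.TEU924
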