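import Crest.Agent.R102.EdgeDefs_255

/-!
Row 102, T1-B, EDGE leaf `ToWorld` (helper811): blow-ups with birth precision `→ 0` form a `World`.
`births_one` : the quantitative form of the births clause (first exit on a vertical line + identity
theorem + maximality of the sheet).
-/

set_option autoImplicit false

open Set Filter Topology Metric MeasureTheory Complex

noncomputable section

namespace Crest.Agent.R102.World811

open Crest.Agent.R102.Sup115 (HDu Dp E2 MaxiX GoodU)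
open Crest.Agent.R102.S5 (Half bl ray Cn)
open Crest.Agent.R102.B821 (q1 q2)
open Crest.Agent.R102.Edge255
open Crest.Agent.R266.SCV (analyticOnNhd_of_differentiableOn)

/-! ### the blow-up map -/

/-- inverse blow-up -/
def ubl (e : ℝ × ℝ) (s : ℝ) (y : ℂ × ℂ) : ℂ × ℂ := ((y.1 - e.1) / s, (y.2 - e.2) / s)

theorem bl_ubl {e : ℝ × ℝ} {s : ℝ} (hs : 0 < s) (y : ℂ × ℂ) : bl e s (ubl e s y) = y := by
  have h : (s : ℂ) ≠ 0 := by exact_mod_cast hs.ne'
  unfold bl ubl
  ext1
  · simp only; field_simp; ring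
  · simp only; field_simp; ring

theorem ubl_bl {e : ℝ × ℝ} {s : ℝ} (hs : 0 < s) (y : ℂ × ℂ) : ubl e s (bl e s y) = y := by
  have h : (s : ℂ) ≠ 0 := by exact_mod_cast hs.ne'
  unfold bl ubl
  ext1
  · simp only; field_simp; ring
  · simp only; field_simp; ring

theorem cont_bl (e : ℝ × ℝ) (s : ℝ) : Continuous (bl e s) := by
  unfold bl; fun_prop

theorem cont_ubl (e : ℝ × ℝ) (s : ℝ) : Continuous (ubl e s) := by
  unfold ubl; fun_prop

theorem an_bl (e : ℝ × ℝ) (s : ℝ) (x : ℂ × ℂ) : AnalyticAt ℂ (bl e s) x := by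
  unfold bl
  exact ((analyticAt_const.add (analyticAt_const.mul analyticAt_fst))).prod
    (analyticAt_const.add (analyticAt_const.mul analyticAt_snd))

theorem an_ubl (e : ℝ × ℝ) (s : ℝ) (x : ℂ × ℂ) : AnalyticAt ℂ (ubl e s) x := by
  unfold ubl
  simp only [div_eq_mul_inv]
  exact (((analyticAt_fst.sub analyticAt_const).mul analyticAt_const)).prod
    ((analyticAt_snd.sub analyticAt_const).mul analyticAt_const)

theorem bl_1_im (e : ℝ × ℝ) (s : ℝ) (x : ℂ × ℂ) : (bl e s x).1.im = s * x.1.im := by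
  simp [bl]

theorem bl_2_im (e : ℝ × ℝ) (s : ℝ) (x : ℂ × ℂ) : (bl e s x).2.im = s * x.2.im := by
  simp [bl]

theorem mem_Half {e : ℝ × ℝ} {s η m M : ℝ} (hs : 0 < s) (hM : s * M < η) {x : ℂ × ℂ}
    (h1 : ‖x.1‖ ≤ M) (h2 : ‖x.2‖ ≤ M) (h3 : 0 < x.2.im) (h4 : x.1.im < m * x.2.im) :
    bl e s x ∈ Half e η m := by
  have e1 : s * ‖x.1‖ ≤ s * M := mul_le_mul_of_nonneg_left h1 hs.le
  have e2 : s * ‖x.2‖ ≤ s * M := mul_le_mul_of_nonneg_left h2 hs.le
  refine ⟨?_, ?_, ?_, ?_, ?_⟩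
  · have : (bl e s x).1.re - e.1 = s * x.1.re := by simp [bl]
    rw [this, abs_mul, abs_of_pos hs]
    have := mul_le_mul_of_nonneg_left (Complex.abs_re_le_norm x.1) hs.le
    linarith
  · rw [bl_1_im]
    have h5 := mul_le_mul_of_nonneg_left (Complex.abs_im_le_norm x.1) hs.le
    have h6 := mul_le_mul_of_nonneg_left (neg_abs_le x.1.im) hs.le
    linarith
  · have : (bl e s x).2 - (e.2 : ℂ) = s * x.2 := by simp [bl]
    rw [this, norm_mul, Complex.norm_real, Real.norm_eq_abs, abs_of_pos hs]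
    linarith
  · rw [bl_2_im]; positivity
  · rw [bl_1_im, bl_2_im]
    have := mul_lt_mul_of_pos_left h4 hs
    linarith

/-! ### births at one window -/

theorem births_one {h a g ρ η r s ε : ℝ} {e : ℝ × ℝ} {X L : Set (ℂ × ℂ)} {B : ℂ × ℂ → ℂ}
    {q : ℂ × ℂ} {cn : ℂ} (hXo : IsOpen X) (hB : DifferentiableOn ℂ B X) (hmaxi : MaxiX h X B)
    (hE : E2 X L a g ρ η e) (ha : 0 ≤ a) (hρ : 0 < ρ) (hs : 0 < s) (hr : 0 < r)
    (hq0 : 0 < q.2.im) (hq : q.1.im = a * q.2.im) (hcn : cn.im = 0)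
    (c1 : ρ * (16 * (a + 4) * ‖q.2‖) ≤ r) (c2 : 2 * ρ * ‖q.2‖ ≤ q.2.im)
    (c3 : s * ((a + 2) * (‖q‖ + r)) < η) (hε : 0 < ε)
    {G : ℂ × ℂ → ℂ} {V : Set (ℂ × ℂ)} (hV : IsOpen V) (hqV : closedBall q r ⊆ V)
    (hG : DifferentiableOn ℂ G V) (hGh : ∀ x ∈ V, |(G x).im| < h)
    (hGB : ∀ x ∈ closedBall ((q.1 - ((r / 2 : ℝ) : ℂ) * I, q.2) : ℂ × ℂ) ε,
      G x = B (bl e s x) - cn) : False := by
  set M : ℝ := ‖q.2‖ with hM
  have hMq : q.2.im ≤ M := (le_abs_self _).trans (Complex.abs_im_le_norm q.2)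
  have hM0 : 0 < M := hq0.trans_le hMq
  have hMn : M ≤ ‖q‖ := norm_snd_le q
  have hsne : (s : ℂ) ≠ 0 := by exact_mod_cast hs.ne'
  have hρM : ρ * M * (16 * (a + 4)) ≤ r := by nlinarith
  have hρM0 : 0 < ρ * M := mul_pos hρ hM0
  have hρM64 : ρ * M ≤ r / 64 := by nlinarith
  have haρM : ρ * M * (7 + a) ≤ r / 8 := by nlinarith
  have hqr : 0 ≤ ‖q‖ + r := by positivity
  have c3' : s * (‖q‖ + r) ≤ s * ((a + 2) * (‖q‖ + r)) :=
    mul_le_mul_of_nonneg_left (by nlinarith) hs.le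
  -- the point outside
  obtain ⟨Q, hQX, hQ1, hQ2, hQ3, hQ4⟩ := hE.dense (e.1 + s * q.1.re - a * (s * q.2.re)) (by
      have h1 : e.1 + s * q.1.re - a * (s * q.2.re) - e.1 = s * (q.1.re - a * q.2.re) := by ring
      rw [h1, abs_mul, abs_of_pos hs]
      have h2 : |q.1.re - a * q.2.re| ≤ ‖q‖ + a * ‖q‖ := by
        refine (abs_sub _ _).trans ?_
        rw [abs_mul, abs_of_nonneg ha]
        exact add_le_add ((Complex.abs_re_le_norm _).trans (norm_fst_le q))
          (mul_le_mul_of_nonneg_left ((Complex.abs_re_le_norm _).trans hMn) ha)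
      have h3 : s * |q.1.re - a * q.2.re| ≤ s * ((a + 2) * (‖q‖ + r)) :=
        mul_le_mul_of_nonneg_left (by nlinarith [norm_nonneg q]) hs.le
      linarith)
    ((s : ℂ) * q.2) (by
      rw [norm_mul, Complex.norm_real, Real.norm_eq_abs, abs_of_pos hs]
      have : s * ‖q.2‖ ≤ s * (‖q‖ + r) := mul_le_mul_of_nonneg_left (by linarith) hs.le
      linarith)
    (by simpa using mul_pos hs hq0) (by
      rw [norm_mul, Complex.norm_real, Real.norm_eq_abs, abs_of_pos hs]
      have h1 : ((s : ℂ) * q.2).im = s * q.2.im := by simp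
      rw [h1]
      have h2 : ρ * M ≤ q.2.im := by linarith
      nlinarith)
  have hnz : ‖(s : ℂ) * q.2‖ = s * M := by
    rw [norm_mul, Complex.norm_real, Real.norm_eq_abs, abs_of_pos hs]
  rw [hnz] at hQ1 hQ2
  set p : ℂ × ℂ := ubl e s Q with hp
  have hbp : bl e s p = Q := bl_ubl hs Q
  have hb1 : (bl e s p).1.re = e.1 + s * p.1.re := by simp [bl]
  have hb2 : (bl e s p).2 = (e.2 : ℂ) + s * p.2 := rfl
  rw [hbp] at hb1 hb2
  have hp1 : |p.1.re - q.1.re| ≤ ρ * M := by
    have h1 : Q.1.re - (e.1 + s * q.1.re - a * (s * q.2.re) + a * ((s : ℂ) * q.2).re) =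
        s * (p.1.re - q.1.re) := by
      rw [hb1]; simp; ring
    rw [h1, abs_mul, abs_of_pos hs] at hQ1
    have h2 : s * |p.1.re - q.1.re| ≤ s * (ρ * M) := by linarith
    exact le_of_mul_le_mul_left h2 hs
  have hp2 : ‖p.2 - q.2‖ ≤ ρ * M := by
    have h1 : Q.2 - ((e.2 : ℂ) + (s : ℂ) * q.2) = s * (p.2 - q.2) := by rw [hb2]; ring
    rw [h1, norm_mul, Complex.norm_real, Real.norm_eq_abs, abs_of_pos hs] at hQ2
    have h2 : s * ‖p.2 - q.2‖ ≤ s * (ρ * M) := by linarith
    exact le_of_mul_le_mul_left h2 hs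
  have hi1 : Q.1.im = s * p.1.im := by rw [← hbp, bl_1_im]
  have hi2 : Q.2.im = s * p.2.im := by rw [← hbp, bl_2_im]
  have hp3 : (a - ρ) * p.2.im ≤ p.1.im := by
    rw [hi1, hi2] at hQ3
    have : s * ((a - ρ) * p.2.im) ≤ s * p.1.im := by linarith
    exact le_of_mul_le_mul_left this hs
  have hp4 : p.1.im ≤ (a + ρ) * p.2.im := by
    rw [hi1, hi2] at hQ4
    have : s * p.1.im ≤ s * ((a + ρ) * p.2.im) := by linarith
    exact le_of_mul_le_mul_left this hs
  have hpi : |p.2.im - q.2.im| ≤ ρ * M := by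
    have := Complex.abs_im_le_norm (p.2 - q.2)
    rw [Complex.sub_im] at this
    linarith
  have hpi' := abs_le.1 hpi
  have hA0 : 0 < p.2.im := by nlinarith
  have hA1 : p.2.im ≤ 2 * M := by nlinarith
  have hρA : ρ * p.2.im ≤ 2 * (ρ * M) := by nlinarith
  -- the vertical line below `p`
  set T : ℝ := p.1.im - (a - ρ) * p.2.im + r / 4 with hT
  have hT0 : 0 < T := by rw [hT]; linarith
  have hTr : T ≤ 4 * (ρ * M) + r / 4 := by rw [hT]; nlinarith
  let y : ℝ → ℂ × ℂ := fun t => (p.1 - t * I, p.2)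
  have hy0 : y 0 = p := by simp [y]
  have hycont : Continuous y := by fun_prop
  have hyball : ∀ t, 0 ≤ t → t ≤ T → y t ∈ ball q r := by
    intro t ht0 htT
    rw [mem_ball, Prod.dist_eq, dist_eq_norm, dist_eq_norm]
    refine max_lt ?_ (by show ‖p.2 - q.2‖ < r; linarith)
    show ‖p.1 - t * I - q.1‖ < r
    refine (Complex.norm_le_abs_re_add_abs_im _).trans_lt ?_
    have e1 : (p.1 - t * I - q.1).re = p.1.re - q.1.re := by simp
    have e2 : (p.1 - t * I - q.1).im = (p.1.im - a * p.2.im) + a * (p.2.im - q.2.im) - t := by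
      simp [hq]; ring
    rw [e1, e2]
    have e3 : |p.1.im - a * p.2.im| ≤ ρ * p.2.im := by
      rw [abs_le]; constructor <;> linarith
    have e4 : |a * (p.2.im - q.2.im)| ≤ a * (ρ * M) := by
      rw [abs_mul, abs_of_nonneg ha]; exact mul_le_mul_of_nonneg_left hpi ha
    have e5 : |(p.1.im - a * p.2.im) + a * (p.2.im - q.2.im) - t| ≤
        ρ * p.2.im + a * (ρ * M) + t := by
      refine (abs_sub _ _).trans (add_le_add ((abs_add_le _ _).trans (add_le_add e3 e4)) ?_)
      rw [abs_of_nonneg ht0]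
    nlinarith
  -- the low part
  let W : Set (ℂ × ℂ) := {x | x ∈ ball q r ∧ x.1.im < (a - ρ) * x.2.im ∧ 0 < x.2.im}
  have hWY : ∀ x ∈ W, bl e s x ∈ X := by
    rintro x ⟨hx, h1, h2⟩
    have hxn : ‖x‖ ≤ ‖q‖ + r := by
      have h3 : ‖x‖ ≤ ‖q‖ + ‖x - q‖ := by
        have := norm_add_le q (x - q); rwa [add_sub_cancel] at this
      have h4 : ‖x - q‖ < r := by rw [← dist_eq_norm]; exact hx
      linarith
    exact hE.low (mem_Half hs (by linarith) ((norm_fst_le x).trans hxn)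
      ((norm_snd_le x).trans hxn) h2 h1)
  have hWconv : Convex ℝ W := by
    have h1 : Convex ℝ (ball q r) := convex_ball q r
    have h2 : Convex ℝ {x : ℂ × ℂ | x.1.im < (a - ρ) * x.2.im} := by
      intro x hx z hz α β hα hβ hab
      simp only [mem_ofPred_eq] at hx hz ⊢
      have k1 : (α • x + β • z).1.im = α * x.1.im + β * z.1.im := by simp
      have k2 : (α • x + β • z).2.im = α * x.2.im + β * z.2.im := by simp
      rw [k1, k2]
      rcases hα.eq_or_lt with h0 | h0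
      · have : β = 1 := by linarith
        subst this; rw [← h0]; simpa using hz
      · nlinarith [mul_lt_mul_of_pos_left hx h0, mul_le_mul_of_nonneg_left hz.le hβ]
    have h3 : Convex ℝ {x : ℂ × ℂ | 0 < x.2.im} := by
      intro x hx z hz α β hα hβ hab
      simp only [mem_ofPred_eq] at hx hz ⊢
      have k2 : (α • x + β • z).2.im = α * x.2.im + β * z.2.im := by simp
      rw [k2]
      rcases hα.eq_or_lt with h0 | h0
      · have : β = 1 := by linarith
        subst this; rw [← h0]; simpa using hz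
      · nlinarith [mul_pos h0 hx, mul_nonneg hβ hz.le]
    have h4 := h1.inter (h2.inter h3)
    exact h4
  set c : ℂ × ℂ := (q.1 - ((r / 2 : ℝ) : ℂ) * I, q.2) with hc
  have hcW : c ∈ W := by
    refine ⟨?_, ?_, hq0⟩
    · rw [mem_ball, Prod.dist_eq, hc]
      simp only [dist_self]
      rw [dist_eq_norm, show q.1 - ((r / 2 : ℝ) : ℂ) * I - q.1 = -(((r / 2 : ℝ) : ℂ) * I) by ring,
        norm_neg, norm_mul, Complex.norm_I, mul_one, Complex.norm_real, Real.norm_eq_abs,
        abs_of_pos (by positivity)]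
      exact max_lt (by linarith) hr
    · show (q.1 - ((r / 2 : ℝ) : ℂ) * I).im < (a - ρ) * q.2.im
      have h1 : (q.1 - ((r / 2 : ℝ) : ℂ) * I).im = q.1.im - r / 2 := by simp
      rw [h1, hq]
      nlinarith
  have hyW : y T ∈ W := by
    refine ⟨hyball T hT0.le le_rfl, ?_, hA0⟩
    have h1 : (y T).1.im = p.1.im - T := by simp [y]
    have h2 : (y T).2.im = p.2.im := rfl
    rw [h1, h2, hT]; linarith
  -- the first exit
  have hTc : IsCompact (Icc 0 T ∩ {t | bl e s (y t) ∉ X}) :=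
    isCompact_Icc.inter_right (hXo.isClosed_compl.preimage ((cont_bl e s).comp hycont))
  have hTn : (Icc 0 T ∩ {t | bl e s (y t) ∉ X}).Nonempty :=
    ⟨0, ⟨le_rfl, hT0.le⟩, by show bl e s (y 0) ∉ X; rw [hy0, hbp]; exact hQX⟩
  obtain ⟨tm, ⟨⟨htm0, htmT⟩, htmX⟩, htmax⟩ := hTc.exists_isGreatest hTn
  have htmX' : bl e s (y tm) ∉ X := htmX
  have hlt : tm < T := by
    refine lt_of_le_of_ne htmT ?_
    rintro rfl
    exact htmX' (hWY _ hyW)
  have hin : ∀ t, tm < t → t ≤ T → bl e s (y t) ∈ X := by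
    intro t h1 h2
    by_contra hcon
    exact absurd (htmax ⟨⟨htm0.trans h1.le, h2⟩, hcon⟩) (not_le.2 h1)
  -- the connected component
  set Y : Set (ℂ × ℂ) := {x | x ∈ ball q r ∧ bl e s x ∈ X} with hY
  have hYo : IsOpen Y := isOpen_ball.inter (hXo.preimage (cont_bl e s))
  have hWY' : W ⊆ Y := fun x hx => ⟨hx.1, hWY x hx⟩
  have hSY : y '' Ioc tm T ⊆ Y := by
    rintro _ ⟨t, ⟨h1, h2⟩, rfl⟩
    exact ⟨hyball t (htm0.trans h1.le) h2, hin t h1 h2⟩
  have hWS : IsPreconnected (W ∪ y '' Ioc tm T) :=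
    hWconv.isPreconnected.union (y T) hyW ⟨T, ⟨hlt, le_rfl⟩, rfl⟩
      (isPreconnected_Ioc.image _ hycont.continuousOn)
  set U : Set (ℂ × ℂ) := connectedComponentIn Y c with hU
  have hUo : IsOpen U := hYo.connectedComponentIn
  have hUY : U ⊆ Y := connectedComponentIn_subset Y c
  have hsub : W ∪ y '' Ioc tm T ⊆ U :=
    hWS.subset_connectedComponentIn (Or.inl hcW) (union_subset hWY' hSY)
  have hGa : AnalyticOnNhd ℂ G U := fun x hx =>
    analyticOnNhd_of_differentiableOn hV hG x (hqV (ball_subset_closedBall (hUY hx).1))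
  have hBa : AnalyticOnNhd ℂ (fun x => B (bl e s x) - cn) U := fun x hx =>
    (AnalyticAt.comp (g := B) (analyticOnNhd_of_differentiableOn hXo hB _ (hUY hx).2)
      (an_bl e s x)).sub analyticAt_const
  have heq : EqOn G (fun x => B (bl e s x) - cn) U :=
    hGa.eqOn_of_preconnected_of_eventuallyEq hBa isPreconnected_connectedComponentIn
      (hsub (Or.inl hcW)) (by
        filter_upwards [closedBall_mem_nhds c hε] with x hx using hGB x hx)
  -- maximality
  refine htmX' (hmaxi (bl e s (y tm)) (fun z => G (ubl e s z) + cn) ?_ ?_ ?_)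
  · have h1 : AnalyticAt ℂ G (ubl e s (bl e s (y tm))) := by
      rw [ubl_bl hs]
      exact analyticOnNhd_of_differentiableOn hV hG _
        (hqV (ball_subset_closedBall (hyball tm htm0 htmT)))
    exact (AnalyticAt.comp (g := G) h1 (an_ubl e s _)).add analyticAt_const
  · show |(G (ubl e s (bl e s (y tm))) + cn).im| < h
    rw [ubl_bl hs, Complex.add_im, hcn, add_zero]
    exact hGh _ (hqV (ball_subset_closedBall (hyball tm htm0 htmT)))
  · have hpos : 0 < s * (T - tm) := mul_pos hs (by linarith)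
    filter_upwards [Ioo_mem_nhdsGT hpos] with τ hτ
    have e1 : ((bl e s (y tm)).1 - τ * I, (bl e s (y tm)).2) = bl e s (y (tm + τ / s)) := by
      unfold bl
      ext1
      · simp only [y]; push_cast; field_simp; ring
      · rfl
    have h1 : tm < tm + τ / s := by have := div_pos hτ.1 hs; linarith
    have h2 : tm + τ / s ≤ T := by
      have : τ / s ≤ T - tm := by rw [div_le_iff₀ hs]; linarith [hτ.2]
      linarith
    rw [e1]
    refine ⟨hin _ h1 h2, ?_⟩
    have h3 : ubl e s ⁻¹' U ∈ 𝓝 (bl e s (y (tm + τ / s))) := by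
      refine (cont_ubl e s).continuousAt.preimage_mem_nhds ?_
      rw [ubl_bl hs]
      exact hUo.mem_nhds (hsub (Or.inr ⟨_, ⟨h1, h2⟩, rfl⟩))
    filter_upwards [h3] with z hz
    have h4 := heq hz
    simp only at h4
    rw [h4, bl_ubl hs]
    ring

/-! ### integer translations -/

section shift

variable {h : ℝ} {ψ H : ℂ → ℂ}

theorem isOpen_Str (h : ℝ) : IsOpen (T5.Str h) :=
  isOpen_lt (continuous_abs.comp Complex.continuous_im) continuous_const

theorem str_int {z : ℂ} (hz : z ∈ T5.Str h) (m : ℤ) : z + (m : ℂ) ∈ T5.Str h := by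
  show |(z + (m : ℂ)).im| < h
  simpa using (show |z.im| < h from hz)

theorem per_int {f : ℂ → ℂ} {c : ℂ} (hf : ∀ z ∈ T5.Str h, f (z + 1) = f z + c) (m : ℤ) :
    ∀ z ∈ T5.Str h, f (z + (m : ℂ)) = f z + m * c := by
  induction m using Int.induction_on with
  | zero => intro z _; simp
  | succ i ih =>
    intro z hz
    have h1 := hf (z + ((i : ℤ) : ℂ)) (str_int hz _)
    rw [ih z hz] at h1
    push_cast at h1 ⊢
    rw [← add_assoc, h1]; ring
  | pred i ih =>
    intro z hz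
    have h0 : z + ((-(i : ℤ) - 1 : ℤ) : ℂ) ∈ T5.Str h := str_int hz _
    have h1 := hf _ h0
    have h2 : z + ((-(i : ℤ) - 1 : ℤ) : ℂ) + 1 = z + ((-(i : ℤ) : ℤ) : ℂ) := by push_cast; ring
    rw [h2, ih z hz] at h1
    have h3 : f (z + ((-(i : ℤ) - 1 : ℤ) : ℂ)) = f z + ((-(i : ℤ) : ℤ) : ℂ) * c - c := by
      rw [h1]; ring
    rw [h3]; push_cast; ring

theorem deriv_int {f : ℂ → ℂ} {c : ℂ} (hf : ∀ z ∈ T5.Str h, f (z + 1) = f z + c) (m : ℤ) {z : ℂ}
    (hz : z ∈ T5.Str h) : deriv f (z + (m : ℂ)) = deriv f z := by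
  have h1 : (fun x => f (x + (m : ℂ))) =ᶠ[𝓝 z] fun x => f x + m * c := by
    filter_upwards [(isOpen_Str h).mem_nhds hz] with x hx using per_int hf m x hx
  have h2 := h1.deriv_eq
  rw [deriv_comp_add_const, deriv_add_const] at h2
  exact h2

theorem cos_shift (x : ℂ) (k m : ℤ) (y : ℂ) :
    cos (x - 2 * Real.pi * (k : ℂ) - (y + ((-m : ℤ) : ℂ) * (2 * Real.pi))) = cos (x - y) := by
  have : x - 2 * Real.pi * (k : ℂ) - (y + ((-m : ℤ) : ℂ) * (2 * Real.pi)) =
      (x - y) + ((m - k : ℤ) : ℂ) * (2 * Real.pi) := by push_cast; ring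
  rw [this, Complex.cos_add_int_mul_two_pi]

theorem sin_shift (x : ℂ) (k m : ℤ) (y : ℂ) :
    sin (x - 2 * Real.pi * (k : ℂ) - (y + ((-m : ℤ) : ℂ) * (2 * Real.pi))) = sin (x - y) := by
  have : x - 2 * Real.pi * (k : ℂ) - (y + ((-m : ℤ) : ℂ) * (2 * Real.pi)) =
      (x - y) + ((m - k : ℤ) : ℂ) * (2 * Real.pi) := by push_cast; ring
  rw [this, Complex.sin_add_int_mul_two_pi]

theorem sub_int_eq (b : ℂ) (m : ℤ) : b - (m : ℂ) = b + ((-m : ℤ) : ℂ) := by push_cast; ring

theorem inc_shift (hc : Curve h ψ H) {b : ℂ} (hb : b ∈ T5.Str h) (k m : ℤ) {f p : ℂ}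
    (hi : F300.Inc ψ H f p b) :
    F300.Inc ψ H (f - 2 * Real.pi * (k : ℂ)) p (b - (m : ℂ)) := by
  have hH : ∀ z ∈ T5.Str h, H (z + 1) = H z + 0 := fun z hz => by rw [hc.H_per z hz, add_zero]
  unfold F300.Inc at hi ⊢
  rw [sub_int_eq, deriv_int hc.ψ_per _ hb, deriv_int hH _ hb, per_int hH _ b hb, mul_zero,
    add_zero, per_int hc.ψ_per _ b hb, cos_shift, sin_shift]
  exact hi

theorem sin_shift_ne (hc : Curve h ψ H) {b : ℂ} (hb : b ∈ T5.Str h) (k m : ℤ) {f : ℂ}
    (hi : deriv ψ b ≠ 0 → sin (f - ψ b) ≠ 0) :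
    deriv ψ (b - (m : ℂ)) ≠ 0 → sin (f - 2 * Real.pi * (k : ℂ) - ψ (b - (m : ℂ))) ≠ 0 := by
  rw [sub_int_eq, deriv_int hc.ψ_per _ hb, per_int hc.ψ_per _ b hb, sin_shift]
  exact hi

end shift

/-! ### derivatives of blow-ups -/

theorem hasFDerivAt_bl (e : ℝ × ℝ) (s : ℝ) (q : ℂ × ℂ) :
    HasFDerivAt (bl e s) ((s : ℂ) • ContinuousLinearMap.id ℂ (ℂ × ℂ)) q := by
  have h1 : bl e s = fun q => (((e.1 : ℂ), (e.2 : ℂ)) : ℂ × ℂ) + (s : ℂ) • q := by
    funext q; rfl
  rw [h1]
  exact ((hasFDerivAt_id q).const_smul (s : ℂ)).const_add _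

theorem fderiv_bl {F : ℂ × ℂ → ℂ} {e : ℝ × ℝ} {s : ℝ} {q : ℂ × ℂ} {c : ℂ}
    (hF : DifferentiableAt ℂ F (bl e s q)) (v : ℂ × ℂ) :
    fderiv ℂ (fun x => F (bl e s x) - c) q v = s * fderiv ℂ F (bl e s q) v := by
  have h1 : HasFDerivAt (fun x => F (bl e s x) - c)
      ((fderiv ℂ F (bl e s q)).comp ((s : ℂ) • ContinuousLinearMap.id ℂ (ℂ × ℂ))) q :=
    (hF.hasFDerivAt.comp q (hasFDerivAt_bl e s q)).sub_const c
  rw [h1.fderiv]
  simp

/-! ### compact sets -/

theorem exists_norm_bound {K : Set (ℂ × ℂ)} (hK : IsCompact K) : ∃ M : ℝ, 0 < M ∧ ∀ x ∈ K, ‖x‖ ≤ M := by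
  obtain ⟨M, hM⟩ := hK.isBounded.exists_norm_le
  exact ⟨max M 1, by positivity, fun x hx => (hM x hx).trans (le_max_left _ _)⟩

theorem exists_margin {K : Set (ℂ × ℂ)} (hK : IsCompact K) {m : ℝ} (hKm : K ⊆ Wg m) :
    ∃ c : ℝ, 0 < c ∧ ∀ x ∈ K, x.1.im + c ≤ m * x.2.im := by
  rcases K.eq_empty_or_nonempty with rfl | hne
  · exact ⟨1, one_pos, fun x hx => hx.elim⟩
  obtain ⟨x0, hx0, hmin⟩ := hK.exists_isMinOn hne
    (f := fun x : ℂ × ℂ => m * x.2.im - x.1.im) (by fun_prop)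
  refine ⟨m * x0.2.im - x0.1.im, by linarith [(hKm hx0).2], fun x hx => ?_⟩
  have := hmin hx
  simp only [mem_ofPred_eq] at this
  linarith

theorem ev_lt {s η : ℕ → ℝ} (hη : ∀ n, 0 < η n) (h : Tendsto (fun n => s n / η n) atTop (𝓝 0))
    (C : ℝ) : ∀ᶠ n in atTop, s n * C < η n := by
  have h1 : Tendsto (fun n => s n / η n * C) atTop (𝓝 (0 * C)) := h.mul_const C
  rw [zero_mul] at h1
  filter_upwards [h1 (Iio_mem_nhds one_pos)] with n hn
  have h2 : s n / η n * C < 1 := hn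
  have h3 : s n * C / η n < 1 := by rw [mul_div_right_comm]; exact h2
  rwa [div_lt_one (hη n)] at h3

theorem ev_mul_lt {ρ : ℕ → ℝ} (h : Tendsto ρ atTop (𝓝 0)) (C : ℝ) {ε : ℝ} (hε : 0 < ε) :
    ∀ᶠ n in atTop, ρ n * C < ε := by
  have h1 : Tendsto (fun n => ρ n * C) atTop (𝓝 (0 * C)) := h.mul_const C
  rw [zero_mul] at h1
  exact h1 (Iio_mem_nhds hε)

theorem isOpen_box (M m : ℝ) :
    IsOpen {x : ℂ × ℂ | ‖x.1‖ < M ∧ ‖x.2‖ < M ∧ 0 < x.2.im ∧ x.1.im < m * x.2.im} := by
  have h1 : IsOpen {x : ℂ × ℂ | ‖x.1‖ < M} := isOpen_lt (by fun_prop) continuous_const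
  have h2 : IsOpen {x : ℂ × ℂ | ‖x.2‖ < M} := isOpen_lt (by fun_prop) continuous_const
  have h3 : IsOpen {x : ℂ × ℂ | 0 < x.2.im} := isOpen_lt continuous_const (by fun_prop)
  have h4 : IsOpen {x : ℂ × ℂ | x.1.im < m * x.2.im} := isOpen_lt (by fun_prop) (by fun_prop)
  exact h1.inter (h2.inter (h3.inter h4))

/-! ### the leaf -/

theorem toWorld : ToWorld := by
  intro u0 R d h ψ H A φ p B X L D u s₀ a g e s ρ η hu hu0 ha hg he hs hs0 hρ hρ0 hη hsη hE
  have huR : (u : ℂ) ∈ ball (u0 : ℂ) R := by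
    rw [mem_ball, dist_eq_norm, ← Complex.ofReal_sub, Complex.norm_real, Real.norm_eq_abs, abs_lt]
    exact ⟨by linarith [hu.1], by linarith [hu.2]⟩
  have hu0' : (u : ℂ) ≠ 0 := by exact_mod_cast hu0
  refine ⟨ha, hg, D.A_ne u huR hu0', D.curve, ?_, ?_, ?_, ?_⟩
  · -- regL
    intro K hK hKc
    obtain ⟨M, hM0, hM⟩ := exists_norm_bound hKc
    filter_upwards [ev_lt hη hsη (M + 1)] with n hn
    refine ⟨{x | ‖x.1‖ < M + 1 ∧ ‖x.2‖ < M + 1 ∧ 0 < x.2.im ∧ x.1.im < (a + g) * x.2.im}, ?_, ?_,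
      ?_, ?_⟩
    · exact isOpen_box _ _
    · intro x hx
      have h1 := hM x hx
      exact ⟨by linarith [norm_fst_le x], by linarith [norm_snd_le x], (hK hx).1, (hK hx).2⟩
    · intro x hx
      have h1 : bl (e n) (s n) x ∈ L :=
        (hE n).line (mem_Half (hs n) hn hx.1.le hx.2.1.le hx.2.2.1 hx.2.2.2)
      have h2 : AnalyticAt ℂ (fun q => φ (bl (e n) (s n) q)) x :=
        AnalyticAt.comp (g := φ) (analyticOnNhd_of_differentiableOn D.L_open D.φ_diff _ h1)
          (an_bl _ _ x)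
      exact (h2.sub analyticAt_const).differentiableAt.differentiableWithinAt
    · intro x hx
      have h1 : bl (e n) (s n) x ∈ L :=
        (hE n).line (mem_Half (hs n) hn hx.1.le hx.2.1.le hx.2.2.1 hx.2.2.2)
      have h2 : AnalyticAt ℂ (fun q => p (bl (e n) (s n) q)) x :=
        AnalyticAt.comp (g := p) (analyticOnNhd_of_differentiableOn D.L_open D.p_diff _ h1)
          (an_bl _ _ x)
      exact h2.differentiableAt.differentiableWithinAt
  · -- regX
    intro K hK hKc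
    obtain ⟨M, hM0, hM⟩ := exists_norm_bound hKc
    obtain ⟨c, hc0, hc⟩ := exists_margin hKc hK
    filter_upwards [ev_lt hη hsη (M + 1), ev_mul_lt hρ0 M hc0] with n hn hn2
    refine ⟨{x | ‖x.1‖ < M + 1 ∧ ‖x.2‖ < M + 1 ∧ 0 < x.2.im ∧ x.1.im < (a - ρ n) * x.2.im}, ?_, ?_,
      ?_, ?_⟩
    · exact isOpen_box _ _
    · intro x hx
      have h1 := hM x hx
      refine ⟨by linarith [norm_fst_le x], by linarith [norm_snd_le x], (hK hx).1, ?_⟩
      have h2 := hc x hx
      have h3 : x.2.im ≤ M :=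
        ((le_abs_self _).trans (Complex.abs_im_le_norm x.2)).trans ((norm_snd_le x).trans h1)
      have h4 : ρ n * x.2.im ≤ ρ n * M := mul_le_mul_of_nonneg_left h3 (hρ n).le
      show x.1.im < (a - ρ n) * x.2.im
      nlinarith
    · intro x hx
      have h1 : bl (e n) (s n) x ∈ X :=
        (hE n).low (mem_Half (hs n) hn hx.1.le hx.2.1.le hx.2.2.1 hx.2.2.2)
      have h2 : AnalyticAt ℂ (fun q => B (bl (e n) (s n) q)) x :=
        AnalyticAt.comp (g := B) (analyticOnNhd_of_differentiableOn D.X_open D.B_diff _ h1)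
          (an_bl _ _ x)
      exact (h2.sub analyticAt_const).differentiableAt.differentiableWithinAt
    · intro x hx
      have hX : bl (e n) (s n) x ∈ X :=
        (hE n).low (mem_Half (hs n) hn hx.1.le hx.2.1.le hx.2.2.1 hx.2.2.2)
      have hL : bl (e n) (s n) x ∈ L := by
        refine (hE n).line (mem_Half (hs n) hn hx.1.le hx.2.1.le hx.2.2.1 ?_)
        have h1 : x.1.im < (a - ρ n) * x.2.im := hx.2.2.2
        have h2 : 0 < x.2.im := hx.2.2.1
        nlinarith [mul_pos (hρ n) h2, mul_pos hg h2]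
      have hb : B (bl (e n) (s n) x) ∈ T5.Str h := D.B_im _ hX
      have hx2 : (bl (e n) (s n) x).2 ≠ 0 := by
        intro h0
        have h1 := bl_2_im (e n) (s n) x
        rw [h0, Complex.zero_im] at h1
        have h2 : 0 < x.2.im := hx.2.2.1
        have := mul_pos (hs n) h2
        linarith
      refine ⟨?_, ?_, ?_⟩
      · have h1 : |(B (bl (e n) (s n) x)).im| < h := D.B_im _ hX
        simpa [nB] using h1
      · exact inc_shift D.curve hb _ _ (D.inc _ ⟨hX, hL⟩)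
      · exact sin_shift_ne D.curve hb _ _ (D.sin_ne _ ⟨hX, hL⟩ hx2)
  · -- area
    refine ⟨fun n => s n ^ 2, fun n w => A ((e n).2 + s n * w), fun n => by have := hs n; positivity,
      by simpa using hs0.pow 2, ?_, ?_⟩
    · intro K hK
      rw [Metric.tendstoUniformlyOn_iff]
      intro ε hε
      have hcont : ContinuousAt A u :=
        (D.A_diff.differentiableAt (isOpen_ball.mem_nhds huR)).continuousAt
      obtain ⟨δ, hδ, hA⟩ := Metric.continuousAt_iff.1 hcont ε hε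
      obtain ⟨M, hM⟩ := hK.isBounded.exists_norm_le
      have he2 : Tendsto (fun n => (e n).2) atTop (𝓝 u) :=
        (continuous_snd.tendsto (s₀, u)).comp he
      have h1 : ∀ᶠ n in atTop, |(e n).2 - u| < δ / 2 := by
        have := Metric.tendsto_nhds.1 he2 (δ / 2) (by positivity)
        filter_upwards [this] with n hn
        rwa [Real.dist_eq] at hn
      filter_upwards [h1, ev_mul_lt hs0 M (show 0 < δ / 2 by positivity)] with n hn1 hn2 w hw
      rw [dist_comm]
      refine hA ?_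
      rw [dist_eq_norm]
      have h3 : ((e n).2 : ℂ) + s n * w - u = (((e n).2 - u : ℝ) : ℂ) + s n * w := by
        push_cast; ring
      rw [h3]
      refine (norm_add_le _ _).trans_lt ?_
      rw [Complex.norm_real, Real.norm_eq_abs, norm_mul, Complex.norm_real, Real.norm_eq_abs,
        abs_of_pos (hs n)]
      have h4 : s n * ‖w‖ ≤ s n * M := mul_le_mul_of_nonneg_left (hM w hw) (hs n).le
      linarith
    · intro K hK hKc
      obtain ⟨M, hM0, hM⟩ := exists_norm_bound hKc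
      filter_upwards [ev_lt hη hsη M] with n hn x hx
      have h1 := hM x hx
      have hL : bl (e n) (s n) x ∈ L :=
        (hE n).line (mem_Half (hs n) hn ((norm_fst_le x).trans h1) ((norm_snd_le x).trans h1)
          (hK hx).1 (hK hx).2)
      have h2 : DifferentiableAt ℂ φ (bl (e n) (s n) x) :=
        D.φ_diff.differentiableAt (D.L_open.mem_nhds hL)
      have h3 : DifferentiableAt ℂ p (bl (e n) (s n) x) :=
        D.p_diff.differentiableAt (D.L_open.mem_nhds hL)
      have h4 := D.area _ hL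
      have h5 : ∀ v, fderiv ℂ (fun x => p (bl (e n) (s n) x)) x v =
          s n * fderiv ℂ p (bl (e n) (s n) x) v := by
        intro v
        have := fderiv_bl (c := 0) h3 v
        simpa using this
      unfold q1 q2 at h4 ⊢
      rw [fderiv_bl h2, fderiv_bl h2, h5, h5]
      have h6 : (bl (e n) (s n) x).2 = ((e n).2 : ℂ) + s n * x.2 := rfl
      rw [h6] at h4
      push_cast
      linear_combination (s n : ℂ) ^ 2 * h4
  · -- births
    intro q hq0 hq r hr hqr
    have hrq : r < q.2.im := by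
      have h1 : ((q.1, q.2 - ((r : ℝ) : ℂ) * I) : ℂ × ℂ) ∈ closedBall q r := by
        rw [mem_closedBall, Prod.dist_eq, dist_self, dist_eq_norm]
        have h2 : q.2 - ((r : ℝ) : ℂ) * I - q.2 = -(((r : ℝ) : ℂ) * I) := by ring
        simp only [h2, norm_neg, norm_mul, Complex.norm_I, mul_one, Complex.norm_real,
          Real.norm_eq_abs, abs_of_pos hr]
        exact max_le hr.le le_rfl
      have h3 := (hqr h1).1
      have h4 : (q.2 - ((r : ℝ) : ℂ) * I).im = q.2.im - r := by simp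
      simp only [h4] at h3
      linarith
    set ε : ℝ := r / (4 * (a + 1)) with hε
    have ha1 : 0 < a + 1 := by linarith
    have hε0 : 0 < ε := by positivity
    have hεm : ε * (4 * (a + 1)) = r := by rw [hε]; field_simp
    have hεr : ε ≤ r / 4 := by nlinarith
    set c : ℂ × ℂ := (q.1 - ((r / 2 : ℝ) : ℂ) * I, q.2) with hc
    have hsub : closedBall c ε ⊆ closedBall q r := by
      refine closedBall_subset_closedBall' ?_
      have h1 : dist c q ≤ r / 2 := by
        rw [Prod.dist_eq, hc]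
        simp only [dist_self]
        rw [dist_eq_norm, show q.1 - ((r / 2 : ℝ) : ℂ) * I - q.1 = -(((r / 2 : ℝ) : ℂ) * I) by ring,
          norm_neg, norm_mul, Complex.norm_I, mul_one, Complex.norm_real, Real.norm_eq_abs,
          abs_of_pos (by positivity)]
        exact max_le le_rfl (by positivity)
      linarith
    refine ⟨closedBall c ε, ?_, isCompact_closedBall _ _, ?_⟩
    · intro x hx
      rw [mem_closedBall, Prod.dist_eq, max_le_iff, dist_eq_norm, dist_eq_norm] at hx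
      have h1 := (Complex.abs_im_le_norm _).trans hx.1
      have h2 := (Complex.abs_im_le_norm _).trans hx.2
      have h3 : (x.1 - c.1).im = x.1.im - q.1.im + r / 2 := by simp [hc]; ring
      have h4 : (x.2 - c.2).im = x.2.im - q.2.im := by simp [hc]
      rw [h3, abs_le] at h1
      rw [h4, abs_le] at h2
      refine ⟨by linarith, ?_⟩
      show x.1.im < a * x.2.im
      have h5 : a * (q.2.im - ε) ≤ a * x.2.im := mul_le_mul_of_nonneg_left (by linarith) ha
      rw [hq] at h1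
      nlinarith
    · filter_upwards [ev_mul_lt hρ0 (16 * (a + 4) * ‖q.2‖) hr,
        ev_mul_lt hρ0 (2 * ‖q.2‖) hq0, ev_lt hη hsη ((a + 2) * (‖q‖ + r))] with n h1 h2 h3
      rintro ⟨G, V, hV, hqV, hG, hGh, hGB⟩
      refine births_one (cn := nB (fun x => B (bl (e n) (s n) x))) D.X_open D.B_diff D.maxi (hE n)
        ha (hρ n) (hs n) hr hq0 hq (by simp [nB]) h1.le (by linarith) h3 hε0 hV hqV hG hGh
        fun x hx => ?_
      exact hGB x ⟨hx, hqV (hsub hx)⟩

end Crest.Agent.R102.World811
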