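import Crest.Agent.R102.TransA_575
import Crest.Agent.R102.HolXY_289
import Crest.Agent.R102.Rat1I_389
import Crest.Agent.R102.Rat1D_389

/-!
Row 102, part (C), leaf H3, (T) TRANSFER, part B: the ring `O = (Hol U)[1/ω]` and its maps to
`Hol W` and to `R = Frac (Hol D)⟦ω⟧`.
-/

set_option linter.unusedSectionVars false
set_option autoImplicit false

namespace Crest.Agent.R102.CT575

open H3 Glue798 PowerSeries Finset Set Topology TopologicalSpace Metric Filter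

noncomputable section

section push

variable {K HV HD O R : Type*} [Field K] [CharZero K] [CommRing HV] [Algebra K HV] [CommRing HD]
  [Algebra K HD] [CommRing O] [CommRing R]

theorem X_dvd_mapX (lr : O →+* R) {y : O⟦X⟧} (hy : X ∣ y) : X ∣ PowerSeries.map lr y := by
  have h := map_dvd (PowerSeries.map lr) hy
  rwa [map_X] at h

theorem map_cD {dV : Derivation K HV HV} {dD : Derivation K HD HD} (rs : HV →+* HD)
    (hrs : ∀ f, rs (dV f) = dD (rs f)) (F : HV⟦X⟧) :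
    PowerSeries.map rs (cD dV F) = cD dD (PowerSeries.map rs F) := by
  ext n
  rw [coeff_map, coeff_cD, coeff_cD, coeff_map, hrs]

/-- vertices pushed forward -/
theorem pt_push (dV : Derivation K HV HV) (dD : Derivation K HD HD) (rs : HV →+* HD)
    (hrs : ∀ f, rs (dV f) = dD (rs f)) (φ : HV →+* O) {y : O⟦X⟧} (hy : X ∣ y) (lr : O →+* R)
    (χ : HD →+* R) (hχ : lr.comp φ = χ.comp rs) (F : HV⟦X⟧) :
    PowerSeries.map lr (pt (cD dV) (PowerSeries.map φ) y hy F) =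
      pt (cD dD) (PowerSeries.map χ) (PowerSeries.map lr y) (X_dvd_mapX lr hy)
        (PowerSeries.map rs F) := by
  have h1 := comp_pt (cD dV) (PowerSeries.map lr) (X_dvd_map_X lr) (PowerSeries.map φ) hy
  have h2 := pt_comp (cD dV) (cD dD) (PowerSeries.map rs) (map_cD rs hrs) (PowerSeries.map χ)
    (X_dvd_mapX lr hy)
  have h3 := congrArg (fun Ψ : HV⟦X⟧ →+* R⟦X⟧ => Ψ F) h1
  have h4 := congrArg (fun Ψ : HV⟦X⟧ →+* R⟦X⟧ => Ψ F) h2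
  simp only [RingHom.comp_apply] at h3 h4
  rw [h3, h4]
  refine congrArg (fun Ψ : HV⟦X⟧ →+* R⟦X⟧ => Ψ F) (pt_congr (cD dV) _ _ ?_ rfl)
  rw [← PowerSeries.map_comp, ← PowerSeries.map_comp, hχ]

/-- chains pushed forward -/
theorem chain_push (dV : Derivation K HV HV) (dD : Derivation K HD HD) (rs : HV →+* HD)
    (hrs : ∀ f, rs (dV f) = dD (rs f)) {z : HV} {G : ℕ → HV⟦X⟧} {N : ℕ} {φ : ℕ → HV →+* O}
    {y m k : ℕ → O⟦X⟧} {hy : ∀ i, X ∣ y i}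
    (h : H3.Chain (cD dV) (C z) G N (fun i => pt (cD dV) (PowerSeries.map (φ i)) (y i) (hy i)) m k)
    (lr : O →+* R) (χ : ℕ → HD →+* R) (hχ : ∀ i < N, lr.comp (φ i) = (χ i).comp rs) :
    H3.Chain (cD dD) (C (rs z)) (fun i => PowerSeries.map rs (G i)) N
      (fun i => pt (cD dD) (PowerSeries.map (χ i)) (PowerSeries.map lr (y i))
        (X_dvd_mapX lr (hy i)))
      (fun i => PowerSeries.map lr (m i)) (fun i => PowerSeries.map lr (k i)) := by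
  have hz : (C (rs z) : HD⟦X⟧) = PowerSeries.map rs (C z) := by rw [map_C]
  refine ⟨fun i hi => ?_, fun i hi => ?_, fun i hi => ?_⟩
  · rw [hz, ← pt_push dV dD rs hrs (φ i) (hy i) lr (χ i) (hχ i hi),
      ← pt_push dV dD rs hrs (φ i) (hy i) lr (χ i) (hχ i hi), h.inc i hi, map_add, map_mul]
  · rw [hz, ← pt_push dV dD rs hrs (φ i) (hy i) lr (χ i) (hχ i hi),
      ← pt_push dV dD rs hrs (φ i) (hy i) lr (χ i) (hχ i hi), h.inc' i hi, map_add, map_mul]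
  · rw [← map_cD rs hrs, ← pt_push dV dD rs hrs (φ i) (hy i) lr (χ i) (hχ i hi), ← map_mul,
      h.refl i hi, map_pow]

end push

section loc

variable {g : ℂ → ℂ} {c₀ e : ℂ} {N : ℕ} {ρ r : ℝ} {β m k q q' : ℕ → ℂ × ℂ → ℂ}

/-- `O = (Hol U)[1/ω]` -/
abbrev OO (c₀ : ℂ) (ρ : ℝ) : Type := Localization.Away (omH c₀ ρ)

/-- `R = Frac (Hol D)⟦ω⟧` -/
abbrev RR (c₀ : ℂ) (ρ : ℝ) : Type := FractionRing (Hol (bO c₀ ρ))⟦X⟧

/-- the small polydisc `W`, `ω ≠ 0` there -/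
def WW (c₀ : ℂ) (ρ : ℝ) : Opens (ℂ × ℂ) :=
  ⟨ball c₀ ρ ×ˢ ball ((ρ / 2 : ℝ) : ℂ) (ρ / 4), IsOpen.prod isOpen_ball isOpen_ball⟩

theorem WW_le {c₀ : ℂ} {ρ : ℝ} (hρ : 0 < ρ) : WW c₀ ρ ≤ UU c₀ ρ := by
  rintro p ⟨h1, h2⟩
  refine ⟨h1, ?_⟩
  have h3 : ‖p.2 - ((ρ / 2 : ℝ) : ℂ)‖ < ρ / 4 := by rw [← dist_eq_norm]; exact h2
  have h4 : ‖((ρ / 2 : ℝ) : ℂ)‖ = ρ / 2 := by
    rw [Complex.norm_real, Real.norm_of_nonneg (by linarith)]
  have h5 : ‖p.2‖ ≤ ‖p.2 - ((ρ / 2 : ℝ) : ℂ)‖ + ‖((ρ / 2 : ℝ) : ℂ)‖ := by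
    simpa using norm_add_le (p.2 - ((ρ / 2 : ℝ) : ℂ)) ((ρ / 2 : ℝ) : ℂ)
  change dist p.2 0 < ρ
  rw [dist_zero_right]
  linarith

theorem WW_ne {c₀ : ℂ} {ρ : ℝ} (hρ : 0 < ρ) {p : ℂ × ℂ} (hp : p ∈ WW c₀ ρ) : p.2 ≠ 0 := by
  intro h0
  have h3 : dist p.2 ((ρ / 2 : ℝ) : ℂ) < ρ / 4 := hp.2
  rw [h0, dist_zero_left, Complex.norm_real, Real.norm_of_nonneg (by linarith)] at h3
  linarith

theorem WW_preconnected (c₀ : ℂ) (ρ : ℝ) : IsPreconnected ((WW c₀ ρ : Opens (ℂ × ℂ)) : Set (ℂ × ℂ)) :=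
  (convex_ball c₀ ρ).isPreconnected.prod (convex_ball ((ρ / 2 : ℝ) : ℂ) (ρ / 4)).isPreconnected

theorem WW_nonempty {c₀ : ℂ} {ρ : ℝ} (hρ : 0 < ρ) : Nonempty (WW c₀ ρ) :=
  ⟨⟨(c₀, ((ρ / 2 : ℝ) : ℂ)), mem_ball_self hρ, mem_ball_self (by linarith)⟩⟩

theorem UU_nonempty {c₀ : ℂ} {ρ : ℝ} (hρ : 0 < ρ) : Nonempty (UU c₀ ρ) :=
  ⟨⟨(c₀, 0), mem_ball_self hρ, mem_ball_self hρ⟩⟩

theorem bO_nonempty {c₀ : ℂ} {ρ : ℝ} (hρ : 0 < ρ) : Nonempty (bO c₀ ρ) :=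
  ⟨⟨c₀, mem_ball_self hρ⟩⟩

/-- `TO = Tay` -/
theorem TO_eq_Tay {V : Opens ℂ} {W : Opens (ℂ × ℂ)} (h0 : ∀ c ∈ V, (c, (0 : ℂ)) ∈ W) (F : Hol W) :
    TO h0 F = HolXY289.Tay h0 F := by
  have e1 : dirD W ((0, 1) : ℂ × ℂ) = HolXY289.Dw W := by
    refine Derivation.ext fun f => ?_
    ext x
    rfl
  have e2 : (Hol.pull (fun c : ℂ => (c, (0 : ℂ))) (analyticOnNhd_id.prod analyticOnNhd_const) h0 :
      Hol W →+* Hol V) = (HolXY289.res0 h0 : Hol W →+* Hol V) := by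
    refine RingHom.ext fun f => ?_
    ext x
    change (Hol.pull (fun c : ℂ => (c, (0 : ℂ))) (analyticOnNhd_id.prod analyticOnNhd_const) h0 f :
      V → ℂ) x = _
    rw [Hol.pull_apply]
    rfl
  change PowerSeries.map (Hol.pull (fun c : ℂ => (c, (0 : ℂ)))
    (analyticOnNhd_id.prod analyticOnNhd_const) h0 : Hol W →+* Hol V) (Ty (dirD W (0, 1)) F) = _
  rw [e1, e2]
  rfl

theorem TO_injective {c₀ : ℂ} {ρ : ℝ} (hρ : 0 < ρ) :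
    Function.Injective (TO (UU_h0 (c₀ := c₀) hρ)) := by
  intro F G h
  rw [TO_eq_Tay, TO_eq_Tay] at h
  exact HolXY289.Tay_injective (UU_h0 (c₀ := c₀) hρ) (ρ := ρ) (fun p => Iff.rfl) h

theorem Dat.ta_injective (h : Dat g c₀ N ρ e r β m k q q') : Function.Injective h.ta :=
  TO_injective h.ch.ρ_pos

theorem UU_flip {c₀ : ℂ} {ρ : ℝ} : ∀ p ∈ UU c₀ ρ, ((p.1, -p.2) : ℂ × ℂ) ∈ UU c₀ ρ := by
  rintro p ⟨h1, h2⟩
  refine ⟨h1, ?_⟩
  change dist (-p.2) 0 < ρ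
  rw [dist_zero_right, norm_neg, ← dist_zero_right]
  exact h2

/-- the flip `ω ↦ -ω` -/
abbrev fl (c₀ : ℂ) (ρ : ℝ) : Hol (UU c₀ ρ) →ₐ[ℂ] Hol (UU c₀ ρ) := HolXY289.flip UU_flip

theorem Dat.even (h : Dat g c₀ N ρ e r β m k q q') {F : Hol (UU c₀ ρ)} (hF : fl c₀ ρ F = F) :
    ∃ E, h.ta F = evn E := by
  obtain ⟨E, hE⟩ := HolXY289.Tay_even (UU_h0 (c₀ := c₀) h.ch.ρ_pos) UU_flip hF
  exact ⟨E, by rw [Dat.ta, TO_eq_Tay]; exact hE⟩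

theorem Dat.fl_m (h : Dat g c₀ N ρ e r β m k q q') : fl c₀ ρ (hU c₀ ρ (m 0)) = hU c₀ ρ (m 0) := by
  ext p
  rw [HolXY289.flip_apply, toH_apply (h.ch.an_m 0 (Nat.zero_le _)),
    toH_apply (h.ch.an_m 0 (Nat.zero_le _))]
  exact h.ch.even_m p p.2

theorem Dat.fl_k (h : Dat g c₀ N ρ e r β m k q q') : fl c₀ ρ (hU c₀ ρ (k 0)) = hU c₀ ρ (k 0) := by
  ext p
  rw [HolXY289.flip_apply, toH_apply (h.ch.an_k 0 (Nat.zero_le _)),
    toH_apply (h.ch.an_k 0 (Nat.zero_le _))]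
  exact h.ch.even_k p p.2

theorem isDomain_D (c₀ : ℂ) {ρ : ℝ} (hρ : 0 < ρ) : IsDomain (Hol (bO c₀ ρ)) :=
  haveI := bO_nonempty (c₀ := c₀) hρ
  Hol.isDomain (bO_preconnected c₀ ρ)

theorem isDomain_U (c₀ : ℂ) {ρ : ℝ} (hρ : 0 < ρ) : IsDomain (Hol (UU c₀ ρ)) :=
  haveI := UU_nonempty (c₀ := c₀) hρ
  Hol.isDomain (UU_preconnected c₀ ρ)

theorem isDomain_W (c₀ : ℂ) {ρ : ℝ} (hρ : 0 < ρ) : IsDomain (Hol (WW c₀ ρ)) :=
  haveI := WW_nonempty (c₀ := c₀) hρ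
  Hol.isDomain (WW_preconnected c₀ ρ)

/-- restriction `Hol U → Hol W` -/
def Dat.rw (h : Dat g c₀ N ρ e r β m k q q') : Hol (UU c₀ ρ) →ₐ[ℂ] Hol (WW c₀ ρ) :=
  Hol.res (WW_le h.ch.ρ_pos)

theorem Dat.rw_injective (h : Dat g c₀ N ρ e r β m k q q') : Function.Injective h.rw :=
  haveI := WW_nonempty (c₀ := c₀) h.ch.ρ_pos
  Glue798.res_injective (WW_le h.ch.ρ_pos) (UU_preconnected c₀ ρ)

theorem Dat.isUnit_rw (h : Dat g c₀ N ρ e r β m k q q') : IsUnit (h.rw (omH c₀ ρ)) := by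
  refine Hol.isUnit _ fun x => ?_
  rw [Dat.rw, Hol.res_apply, toH_apply analyticOnNhd_snd]
  exact WW_ne h.ch.ρ_pos x.2

/-- `O → Hol W` -/
def Dat.lw (h : Dat g c₀ N ρ e r β m k q q') : OO c₀ ρ →+* Hol (WW c₀ ρ) :=
  IsLocalization.Away.lift (omH c₀ ρ) (g := (h.rw : Hol (UU c₀ ρ) →+* Hol (WW c₀ ρ))) h.isUnit_rw

theorem Dat.lw_alg (h : Dat g c₀ N ρ e r β m k q q') (a : Hol (UU c₀ ρ)) :
    h.lw (algebraMap _ (OO c₀ ρ) a) = h.rw a :=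
  IsLocalization.Away.lift_eq (omH c₀ ρ) h.isUnit_rw a

theorem loc_lift_injective {A B : Type*} [CommRing A] [CommRing B] (x : A) (f : A →+* B)
    (hx : IsUnit (f x)) (hf : Function.Injective f) :
    Function.Injective (IsLocalization.Away.lift (S := Localization.Away x) x hx) := by
  rw [injective_iff_map_eq_zero]
  intro s hs
  obtain ⟨n, a, ha⟩ := IsLocalization.Away.surj x s
  have h1 := congrArg (IsLocalization.Away.lift (S := Localization.Away x) x hx) ha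
  rw [map_mul, hs, zero_mul, IsLocalization.Away.lift_eq] at h1
  have h2 : a = 0 := hf (h1.symm.trans (map_zero f).symm)
  rw [h2, map_zero] at ha
  have h3 : IsUnit (algebraMap A (Localization.Away x) x) :=
    IsLocalization.Away.algebraMap_isUnit x
  exact ((h3.pow n).mul_left_eq_zero).1 ha

theorem Dat.lw_injective (h : Dat g c₀ N ρ e r β m k q q') : Function.Injective h.lw :=
  loc_lift_injective _ _ _ h.rw_injective

/-- `(Hol D)⟦ω⟧ → R` -/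
def jR (c₀ : ℂ) (ρ : ℝ) : (Hol (bO c₀ ρ))⟦X⟧ →+* RR c₀ ρ := algebraMap _ _

theorem jR_injective {c₀ : ℂ} {ρ : ℝ} : Function.Injective (jR c₀ ρ) :=
  IsFractionRing.injective _ _

theorem isUnit_jX {c₀ : ℂ} {ρ : ℝ} (hρ : 0 < ρ) : IsUnit (jR c₀ ρ X) := by
  have h1 := isDomain_D c₀ hρ
  have h2 : (X : (Hol (bO c₀ ρ))⟦X⟧) ∈ nonZeroDivisors _ :=
    mem_nonZeroDivisors_of_ne_zero PowerSeries.X_ne_zero
  exact IsLocalization.map_units (RR c₀ ρ) (⟨X, h2⟩ : nonZeroDivisors (Hol (bO c₀ ρ))⟦X⟧)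

/-- `Hol U → R` -/
def Dat.tr (h : Dat g c₀ N ρ e r β m k q q') : Hol (UU c₀ ρ) →+* RR c₀ ρ :=
  (jR c₀ ρ).comp (h.ta : Hol (UU c₀ ρ) →+* (Hol (bO c₀ ρ))⟦X⟧)

theorem Dat.tr_injective (h : Dat g c₀ N ρ e r β m k q q') : Function.Injective h.tr :=
  jR_injective.comp h.ta_injective

theorem Dat.isUnit_tr (h : Dat g c₀ N ρ e r β m k q q') : IsUnit (h.tr (omH c₀ ρ)) := by
  have : h.tr (omH c₀ ρ) = jR c₀ ρ X := by
    rw [Dat.tr, RingHom.comp_apply, RingHom.coe_coe, h.ta_om]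
  rw [this]
  exact isUnit_jX h.ch.ρ_pos

/-- `O → R` -/
def Dat.lr (h : Dat g c₀ N ρ e r β m k q q') : OO c₀ ρ →+* RR c₀ ρ :=
  IsLocalization.Away.lift (omH c₀ ρ) (g := h.tr) h.isUnit_tr

theorem Dat.lr_alg (h : Dat g c₀ N ρ e r β m k q q') (a : Hol (UU c₀ ρ)) :
    h.lr (algebraMap _ (OO c₀ ρ) a) = h.tr a :=
  IsLocalization.Away.lift_eq (omH c₀ ρ) h.isUnit_tr a

end loc

end

end Crest.Agent.R102.CT575
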