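import Crest.Agent.R102.SideP_174
import Crest.Agent.R102.Step5Defs_613

/-!
Row 102, T1-B EDGE, slow regime (helper174): object joint of SIDE.

* `KD A x u s` : deep compact of the window `(x, u, s)`;
* `vert`, `lat` : oscillation of a holomorphic `φ` on `KD` controls the values at the centres of the
  neighbouring windows (Schwarz lemma);
* `side_pt` : control of `φ` at the side points of the disc.
-/

set_option autoImplicit false

open Set Filter Topology Metric Complex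

noncomputable section

namespace Crest.Agent.R102.TreeS174

open Crest.Agent.R102.S5 (ray bl Half)
open Crest.Agent.R102.SideP174 (V K)

/-- deep compact of the window `(x, u, s)` -/
def KD (A x u s : ℝ) : Set (ℂ × ℂ) :=
  {q | |q.1.re - x| ≤ A * s ∧ ‖q.2 - (u : ℂ)‖ ≤ A * s ∧ s ≤ A * (-q.1.im) ∧ -q.1.im ≤ A * s ∧
    s ≤ A * q.2.im}

lemma ray_fst (x u s : ℝ) : (ray (x, u) s).1 = (x : ℂ) + s * (-I) := rfl

lemma ray_snd (x u s : ℝ) : (ray (x, u) s).2 = (u : ℂ) + s * (I / 4) := rfl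

lemma ray_1re (x u s : ℝ) : (ray (x, u) s).1.re = x := by
  rw [ray_fst]; simp

lemma ray_1im (x u s : ℝ) : (ray (x, u) s).1.im = -s := by
  rw [ray_fst]; simp

lemma ray_2im (x u s : ℝ) : (ray (x, u) s).2.im = s / 4 := by
  rw [ray_snd]
  have : (s : ℂ) * (I / 4) = ((s / 4 : ℝ) : ℂ) * I := by push_cast; ring
  rw [this]; simp

lemma ray_2re (x u s : ℝ) : (ray (x, u) s).2.re = u := by
  rw [ray_snd]
  have : (s : ℂ) * (I / 4) = ((s / 4 : ℝ) : ℂ) * I := by push_cast; ring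
  rw [this]; simp

lemma ray_2norm (x u u' : ℝ) {s : ℝ} (hs : 0 ≤ s) :
    ‖(ray (x, u') s).2 - (u : ℂ)‖ ≤ |u' - u| + s / 4 := by
  have e : (ray (x, u') s).2 - (u : ℂ) = ((u' - u : ℝ) : ℂ) + ((s / 4 : ℝ) : ℂ) * I := by
    rw [ray_snd]; push_cast; ring
  rw [e]
  refine (norm_add_le _ _).trans ?_
  rw [norm_mul, norm_I, mul_one, Complex.norm_real, Complex.norm_real, Real.norm_eq_abs,
    Real.norm_eq_abs, abs_of_nonneg (by linarith : (0 : ℝ) ≤ s / 4)]

/-- centres of the lower neighbours -/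
lemma ray_vert {A x u s s' : ℝ} (hA : 8 ≤ A) (hs : 0 < s) (h1 : s / 2 ≤ s') (h2 : s' ≤ s) :
    ray (x, u) s' ∈ KD A x u s := by
  have hs' : 0 < s' := by linarith
  refine ⟨?_, ?_, ?_, ?_, ?_⟩
  · rw [ray_1re]; simp; positivity
  · have := ray_2norm x u u hs'.le
    simp only [sub_self, abs_zero, zero_add] at this
    nlinarith
  · rw [ray_1im]; nlinarith
  · rw [ray_1im]; nlinarith
  · rw [ray_2im]; nlinarith

/-- centres of the lateral neighbours -/
lemma ray_lat {A x u x' u' s : ℝ} (hA : 8 ≤ A) (hs : 0 < s) (h : |x - x'| + |u - u'| ≤ s) :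
    ray (x', u') s ∈ KD A x u s := by
  have h1 : |x' - x| = |x - x'| := abs_sub_comm _ _
  have h2 : |u' - u| = |u - u'| := abs_sub_comm _ _
  have h3 := abs_nonneg (x - x')
  have h4 := abs_nonneg (u - u')
  refine ⟨?_, ?_, ?_, ?_, ?_⟩
  · rw [ray_1re, h1]; nlinarith
  · have := ray_2norm x' u u' hs.le
    rw [h2] at this
    nlinarith
  · rw [ray_1im]; nlinarith
  · rw [ray_1im]; nlinarith
  · rw [ray_2im]; nlinarith

lemma ball_sub_KD {A x u s : ℝ} (hA : 8 ≤ A) (hs : 0 < s) :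
    ball (ray (x, u) s) (s / 8) ⊆ KD A x u s := by
  intro q hq
  rw [mem_ball, Prod.dist_eq, max_lt_iff, dist_eq_norm, dist_eq_norm] at hq
  obtain ⟨h1, h2⟩ := hq
  have e1 : q.1.re - x = (q.1 - (ray (x, u) s).1).re := by rw [sub_re, ray_1re]
  have e2 : q.1.im + s = (q.1 - (ray (x, u) s).1).im := by rw [sub_im, ray_1im]; ring
  have e3 : q.2.im - s / 4 = (q.2 - (ray (x, u) s).2).im := by rw [sub_im, ray_2im]
  have a1 := Complex.abs_re_le_norm (q.1 - (ray (x, u) s).1)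
  have a2 := abs_le.1 (Complex.abs_im_le_norm (q.1 - (ray (x, u) s).1))
  have a3 := abs_le.1 (Complex.abs_im_le_norm (q.2 - (ray (x, u) s).2))
  rw [← e1] at a1
  rw [← e2] at a2
  rw [← e3] at a3
  have a4 : ‖q.2 - (u : ℂ)‖ ≤ s / 8 + s / 4 := by
    have h3 := ray_2norm x u u hs.le
    simp only [sub_self, abs_zero, zero_add] at h3
    have h4 : q.2 - (u : ℂ) = (q.2 - (ray (x, u) s).2) + ((ray (x, u) s).2 - (u : ℂ)) := by ring
    rw [h4]
    refine (norm_add_le _ _).trans ?_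
    linarith
  refine ⟨?_, ?_, ?_, ?_, ?_⟩
  · nlinarith
  · nlinarith
  · nlinarith [a2.1, a2.2]
  · nlinarith [a2.1, a2.2]
  · nlinarith [a3.1, a3.2]

section

variable {E : Type*} [NormedAddCommGroup E] [NormedSpace ℂ E] {A x u s : ℝ} {φ : ℂ × ℂ → E}
  {e : ℝ}

lemma e_nonneg (hA : 8 ≤ A) (hs : 0 < s)
    (he : ∀ q ∈ KD A x u s, ‖φ q - φ (ray (x, u) s)‖ ≤ e) : 0 ≤ e := by
  have := he _ (ray_vert hA hs (by linarith) le_rfl)
  rw [sub_self, norm_zero] at this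
  exact this

lemma vert (hA : 8 ≤ A) (hs : 0 < s)
    (he : ∀ q ∈ KD A x u s, ‖φ q - φ (ray (x, u) s)‖ ≤ e) {s' : ℝ} (h1 : s / 2 ≤ s')
    (h2 : s' ≤ s) : ‖φ (ray (x, u) s) - φ (ray (x, u) s')‖ ≤ e := by
  rw [norm_sub_rev]
  exact he _ (ray_vert hA hs h1 h2)

lemma lat (hA : 8 ≤ A) (hs : 0 < s) (hφ : DifferentiableOn ℂ φ (KD A x u s))
    (he : ∀ q ∈ KD A x u s, ‖φ q - φ (ray (x, u) s)‖ ≤ e) {x' u' : ℝ}
    (h : |x - x'| + |u - u'| ≤ s) :
    ‖φ (ray (x, u) s) - φ (ray (x', u') s)‖ ≤ 8 * ((|x - x'| + |u - u'|) / s) * e := by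
  have he0 := e_nonneg hA hs he
  set d : ℝ := |x - x'| + |u - u'| with hd
  have hd0 : 0 ≤ d := by rw [hd]; positivity
  rw [norm_sub_rev]
  rcases lt_or_ge d (s / 8) with hc | hc
  · have hsub := ball_sub_KD (x := x) (u := u) hA hs
    have hdist : dist (ray (x', u') s) (ray (x, u) s) ≤ d := by
      have e1 : (ray (x', u') s).1 - (ray (x, u) s).1 = ((x' - x : ℝ) : ℂ) := by
        rw [ray_fst, ray_fst]; push_cast; ring
      have e2 : (ray (x', u') s).2 - (ray (x, u) s).2 = ((u' - u : ℝ) : ℂ) := by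
        rw [ray_snd, ray_snd]; push_cast; ring
      rw [Prod.dist_eq, dist_eq_norm, dist_eq_norm, e1, e2, Complex.norm_real, Complex.norm_real,
        Real.norm_eq_abs, Real.norm_eq_abs, abs_sub_comm x', abs_sub_comm u']
      exact max_le (by rw [hd]; linarith [abs_nonneg (u - u')])
        (by rw [hd]; linarith [abs_nonneg (x - x')])
    have h1 := Complex.dist_le_div_mul_dist_of_mapsTo_ball (hφ.mono hsub)
      (R₂ := e) (fun q hq => by rw [mem_closedBall, dist_eq_norm]; exact he q (hsub hq))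
      (show ray (x', u') s ∈ ball (ray (x, u) s) (s / 8) from lt_of_le_of_lt hdist hc)
    rw [dist_eq_norm] at h1
    refine h1.trans ?_
    calc e / (s / 8) * dist (ray (x', u') s) (ray (x, u) s) ≤ e / (s / 8) * d := by gcongr
      _ = 8 * (d / s) * e := by field_simp
  · refine (he _ (ray_lat hA hs h)).trans ?_
    have : 1 ≤ 8 * (d / s) := by
      rw [← mul_div_assoc, le_div_iff₀ hs]; linarith
    nlinarith

end

/-- **control of `φ` at a side point** -/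
theorem side_pt {E : Type*} [NormedAddCommGroup E] [NormedSpace ℂ E] {P : Set (ℝ × ℝ)}
    {b : ℝ → ℝ → ℝ → ℝ} {φ : ℂ × ℂ → E} {e : ℝ → ℝ → ℝ → ℝ} {Ω : Set (ℂ × ℂ)}
    {A b0 C θ s1 s0 Es κ r x0 u0 : ℝ} (hA : 8 ≤ A) (hC : 1 ≤ C) (hθ0 : 0 < θ) (hθ1 : θ < 1)
    (hs0 : 0 < s0) (hEs : 0 ≤ Es) (hφ : DifferentiableOn ℂ φ Ω)
    (hΩ : ∀ x u s, (x, u) ∈ P → 0 < s → s ≤ s1 → KD A x u s ⊆ Ω)
    (he : ∀ x u s, (x, u) ∈ P → 0 < s → s ≤ s1 → ∀ q ∈ KD A x u s,
      ‖φ q - φ (ray (x, u) s)‖ ≤ e x u s)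
    (hb : ∀ x u s x' u' s', 0 < s → s ≤ s1 → V P b b0 s1 (κ + r) x u s → (x', u') ∈ P →
      0 < s' → ray (x', u') s' ∈ KD A x u s →
      |b x u s - b x' u' s'| ≤ C * ‖φ (ray (x, u) s) - φ (ray (x', u') s')‖)
    (hE : ∀ x u s, 0 < s → s ≤ s1 → V P b b0 s1 (κ + r) x u s →
      e x u s ≤ 2 * (max s s0 / s0) ^ θ * Es)
    (hW : V P b b0 s1 κ x0 u0 s0) {q : ℂ × ℂ} {u' T : ℝ} (hq : (q.1.re, u') ∈ P)
    (hd : |q.1.re - x0| + |u' - u0| ≤ T) (hsT : s0 ≤ T) (hT1 : T ≤ s1) (hq1 : q.1.im < 0)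
    (hqT : -q.1.im ≤ T) (hu' : |q.2.re - u'| ≤ q.2.im) (hq2 : 2 * q.2.im ≤ A * (-q.1.im))
    (hq3 : -q.1.im ≤ A * q.2.im)
    (hr : K (8 * C) θ * (T / s0) ^ θ * (1 + Real.log (T / (-q.1.im))) * Es ≤ r) :
    ‖φ q - φ (ray (x0, u0) s0)‖ ≤
      (K (8 * C) θ + 2) * (T / s0) ^ θ * (1 + Real.log (T / (-q.1.im))) * Es := by
  have hCp : 0 < C := by linarith
  set s' : ℝ := -q.1.im with hs'
  have hs'0 : 0 < s' := by rw [hs']; linarith
  have hTp : 0 < T := by linarith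
  have hlog : 0 ≤ Real.log (T / s') := Real.log_nonneg (by rw [le_div_iff₀ hs'0]; linarith)
  have hside := SideP174.side (E := E) (P := P) (b := b)
    (f := fun x u s => φ (ray (x, u) s)) (e := e) (b0 := b0) (C := 8 * C) (θ := θ) (s1 := s1)
    (s0 := s0) (Es := Es) (κ := κ) (r := r) (x0 := x0) (u0 := u0) (by linarith) hθ0 hθ1 hs0 hEs
    (by
      intro x u s s'' h1 h2 h3 h4 hV
      have h5 := vert hA h1 (he x u s hV.1 h1 h2) h3 h4
      have h0 := e_nonneg hA h1 (he x u s hV.1 h1 h2)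
      have h6 := hb x u s x u s'' h1 h2 hV hV.1 (by linarith) (ray_vert hA h1 h3 h4)
      constructor
      · refine h6.trans ?_
        calc C * ‖φ (ray (x, u) s) - φ (ray (x, u) s'')‖ ≤ C * e x u s := by gcongr
          _ ≤ 8 * C * e x u s := by nlinarith
      · refine h5.trans ?_
        nlinarith)
    (by
      intro x u x' u'' s h1 h2 h3 h4 hV
      have h0 := e_nonneg hA h1 (he x u s hV.1 h1 h2)
      have h5 := lat hA h1 (hφ.mono (hΩ x u s hV.1 h1 h2)) (he x u s hV.1 h1 h2) h4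
      have h6 := hb x u s x' u'' s h1 h2 hV h3 h1 (ray_lat hA h1 h4)
      have h7 : 0 ≤ (|x - x'| + |u - u''|) / s := by positivity
      have h8 : 0 ≤ 8 * ((|x - x'| + |u - u''|) / s) * e x u s := by positivity
      constructor
      · refine h6.trans ?_
        calc C * ‖φ (ray (x, u) s) - φ (ray (x', u'') s)‖
            ≤ C * (8 * ((|x - x'| + |u - u''|) / s) * e x u s) := by gcongr
          _ = _ := by ring
      · refine h5.trans ?_
        calc _ = 1 * (8 * ((|x - x'| + |u - u''|) / s) * e x u s) := by ring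
          _ ≤ C * (8 * ((|x - x'| + |u - u''|) / s) * e x u s) := by gcongr
          _ = _ := by ring)
    hE hW
  obtain ⟨hV, hf⟩ := hside q.1.re u' T s' hq hd hsT hT1 hs'0 hqT hr
  have hmem : q ∈ KD A q.1.re u' s' := by
    refine ⟨by rw [sub_self, abs_zero]; positivity, ?_, by nlinarith, by nlinarith, hq3⟩
    have h1 : q.2 - (u' : ℂ) = ((q.2.re - u' : ℝ) : ℂ) + (q.2.im : ℂ) * I := by
      apply Complex.ext <;> simp
    rw [h1]
    refine (norm_add_le _ _).trans ?_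
    have h2 : 0 ≤ q.2.im := (abs_nonneg _).trans hu'
    rw [norm_mul, norm_I, mul_one, Complex.norm_real, Complex.norm_real, Real.norm_eq_abs,
      Real.norm_eq_abs, abs_of_nonneg h2]
    linarith
  have hs'1 : s' ≤ s1 := by linarith
  have h1 := he q.1.re u' s' hq hs'0 hs'1 q hmem
  have h2 := hE q.1.re u' s' hs'0 hs'1 hV
  have h3 : (max s' s0 / s0) ^ θ ≤ (T / s0) ^ θ := by
    apply Real.rpow_le_rpow (by positivity) _ hθ0.le
    gcongr
    exact max_le hqT hsT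
  have h4 : e q.1.re u' s' ≤ 2 * (T / s0) ^ θ * (1 + Real.log (T / s')) * Es := by
    calc e q.1.re u' s' ≤ 2 * (max s' s0 / s0) ^ θ * Es := h2
      _ ≤ 2 * (T / s0) ^ θ * Es := by gcongr
      _ = 2 * (T / s0) ^ θ * 1 * Es := by ring
      _ ≤ _ := by gcongr; linarith
  have h5 : φ q - φ (ray (x0, u0) s0)
      = (φ q - φ (ray (q.1.re, u') s')) + (φ (ray (q.1.re, u') s') - φ (ray (x0, u0) s0)) := by
    abel
  rw [h5]
  refine (norm_add_le _ _).trans ?_
  have h6 : (K (8 * C) θ + 2) * (T / s0) ^ θ * (1 + Real.log (T / s')) * Es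
      = 2 * (T / s0) ^ θ * (1 + Real.log (T / s')) * Es
        + K (8 * C) θ * (T / s0) ^ θ * (1 + Real.log (T / s')) * Es := by ring
  rw [h6]
  exact add_le_add (h1.trans h4) hf

end Crest.Agent.R102.TreeS174
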