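import Crest.Agent.R102.HolA_929

/-!
Row 102, part (A) (helper929): real trigonometric polynomials with weighted coefficients,
elementary sums.
-/

set_option autoImplicit false

open Set Filter Topology Metric Complex MeasureTheory
open scoped Real ContDiff ComplexConjugate

noncomputable section

namespace Crest.Agent.R102.A929

/-- `∑_{k=1}^K e^{-2πηk} (α_k c_k e(kz) + β_k \bar c_k e(-kz))` -/
def Tg (η : ℝ) (K : ℕ) (α β : ℕ → ℂ) (c : Fin K → ℂ) (z : ℂ) : ℂ :=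
  ∑ k : Fin K, (Real.exp (-(2 * π * η * ((k : ℕ) + 1 : ℕ))) : ℂ) *
    (α (k + 1) * c k * ee ((((k : ℕ) + 1 : ℕ) : ℂ) * z) +
      β (k + 1) * conj (c k) * ee (-((((k : ℕ) + 1 : ℕ) : ℂ) * z)))

section

variable {η : ℝ} {K : ℕ} {α β : ℕ → ℂ} {c c' : Fin K → ℂ} {z : ℂ}

lemma differentiable_Tg : Differentiable ℂ (Tg η K α β c) := by
  unfold Tg
  refine Differentiable.fun_sum (fun k _ => ?_)
  refine (Differentiable.add ?_ ?_).const_mul _
  · exact (differentiable_ee.comp (differentiable_id.const_mul _)).const_mul _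
  · exact (differentiable_ee.comp ((differentiable_id.const_mul _).neg)).const_mul _

lemma ee_nat_mul_add_one (m : ℕ) (z : ℂ) : ee ((m : ℂ) * (z + 1)) = ee ((m : ℂ) * z) := by
  rw [mul_add, mul_one, ee_add]
  have := ee_int (m : ℤ)
  push_cast at this
  rw [this, mul_one]

lemma ee_neg_nat_mul_add_one (m : ℕ) (z : ℂ) :
    ee (-((m : ℂ) * (z + 1))) = ee (-((m : ℂ) * z)) := by
  rw [ee_neg, ee_neg, ee_nat_mul_add_one]

lemma Tg_add_one : Tg η K α β c (z + 1) = Tg η K α β c z := by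
  unfold Tg
  refine Finset.sum_congr rfl (fun k _ => ?_)
  rw [ee_nat_mul_add_one, ee_neg_nat_mul_add_one]

lemma Tg_sub : Tg η K α β c z - Tg η K α β c' z = Tg η K α β (c - c') z := by
  unfold Tg
  rw [← Finset.sum_sub_distrib]
  refine Finset.sum_congr rfl (fun k _ => ?_)
  rw [Pi.sub_apply, map_sub]
  ring

lemma Tg_zero : Tg η K α β 0 z = 0 := by
  unfold Tg
  simp

lemma norm_ee_weight {m : ℕ} (h : |z.im| ≤ η) :
    Real.exp (-(2 * π * η * m)) * ‖ee ((m : ℂ) * z)‖ ≤ 1 := by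
  rw [norm_ee, ← Real.exp_add]
  refine Real.exp_le_one_iff.2 ?_
  have h1 : ((m : ℂ) * z).im = m * z.im := by simp
  rw [h1]
  have h2 := (abs_le.1 h).1
  have hm : (0 : ℝ) ≤ m := Nat.cast_nonneg m
  have h3 : 0 ≤ m * (η + z.im) := mul_nonneg hm (by linarith)
  have := Real.pi_pos
  nlinarith

lemma norm_ee_weight' {m : ℕ} (h : |z.im| ≤ η) :
    Real.exp (-(2 * π * η * m)) * ‖ee (-((m : ℂ) * z))‖ ≤ 1 := by
  have h1 : -((m : ℂ) * z) = (m : ℂ) * (-z) := by ring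
  rw [h1]
  refine norm_ee_weight ?_
  rw [Complex.neg_im, abs_neg]; exact h

lemma norm_Tg_le (h : z ∈ St η) :
    ‖Tg η K α β c z‖ ≤ (∑ k ∈ Finset.range K, (‖α (k + 1)‖ + ‖β (k + 1)‖)) * ‖c‖ := by
  unfold Tg
  refine (norm_sum_le _ _).trans ?_
  rw [Finset.sum_range (fun k => ‖α (k + 1)‖ + ‖β (k + 1)‖), Finset.sum_mul]
  refine Finset.sum_le_sum (fun k _ => ?_)
  have hc : ‖c k‖ ≤ ‖c‖ := norm_le_pi_norm c k
  have hcn := norm_nonneg (c k)
  have w1 := norm_ee_weight (m := (k : ℕ) + 1) (z := z) (η := η) h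
  have w2 := norm_ee_weight' (m := (k : ℕ) + 1) (z := z) (η := η) h
  set W : ℝ := Real.exp (-(2 * π * η * ((k : ℕ) + 1 : ℕ))) with hW
  have hW0 : 0 ≤ W := Real.exp_nonneg _
  rw [norm_mul]
  have e1 : ‖((W : ℝ) : ℂ)‖ = W := by rw [Complex.norm_real, Real.norm_of_nonneg hW0]
  rw [e1]
  calc W * ‖α (k + 1) * c k * ee ((((k : ℕ) + 1 : ℕ) : ℂ) * z) +
      β (k + 1) * conj (c k) * ee (-((((k : ℕ) + 1 : ℕ) : ℂ) * z))‖
      ≤ W * (‖α (k + 1)‖ * ‖c k‖ * ‖ee ((((k : ℕ) + 1 : ℕ) : ℂ) * z)‖ +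
        ‖β (k + 1)‖ * ‖c k‖ * ‖ee (-((((k : ℕ) + 1 : ℕ) : ℂ) * z))‖) := by
        refine mul_le_mul_of_nonneg_left ?_ hW0
        refine (norm_add_le _ _).trans (le_of_eq ?_)
        rw [norm_mul, norm_mul, norm_mul, norm_mul, RCLike.norm_conj]
    _ = ‖α (k + 1)‖ * ‖c k‖ * (W * ‖ee ((((k : ℕ) + 1 : ℕ) : ℂ) * z)‖) +
        ‖β (k + 1)‖ * ‖c k‖ * (W * ‖ee (-((((k : ℕ) + 1 : ℕ) : ℂ) * z))‖) := by ring
    _ ≤ ‖α (k + 1)‖ * ‖c k‖ * 1 + ‖β (k + 1)‖ * ‖c k‖ * 1 :=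
        add_le_add (mul_le_mul_of_nonneg_left w1 (by positivity))
          (mul_le_mul_of_nonneg_left w2 (by positivity))
    _ = (‖α (k + 1)‖ + ‖β (k + 1)‖) * ‖c k‖ := by ring
    _ ≤ (‖α (k + 1)‖ + ‖β (k + 1)‖) * ‖c‖ := mul_le_mul_of_nonneg_left hc (by positivity)

lemma conj_ee_Tg (z : ℂ) : conj (ee z) = ee (-(conj z)) := by
  unfold ee
  rw [← Complex.exp_conj]
  congr 1
  simp only [map_mul, Complex.conj_I, Complex.conj_ofReal]
  have : (starRingEnd ℂ) 2 = 2 := map_ofNat (starRingEnd ℂ) 2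
  rw [this]
  ring

/-- reality -/
lemma Tg_real (h : ∀ k, β k = conj (α k)) (x : ℝ) : (Tg η K α β c x).im = 0 := by
  rw [← Complex.conj_eq_iff_im]
  unfold Tg
  rw [map_sum]
  refine Finset.sum_congr rfl (fun k _ => ?_)
  rw [map_mul, Complex.conj_ofReal, map_add, map_mul, map_mul, map_mul, map_mul, conj_ee_Tg, conj_ee_Tg,
    Complex.conj_conj, h (k + 1), Complex.conj_conj]
  have e1 : conj ((((k : ℕ) + 1 : ℕ) : ℂ) * (x : ℂ)) = (((k : ℕ) + 1 : ℕ) : ℂ) * (x : ℂ) := by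
    rw [map_mul, Complex.conj_ofReal, Complex.conj_natCast]
  rw [map_neg, e1, neg_neg]
  ring

lemma ee_shift (m : ℕ) (z w : ℂ) : ee ((m : ℂ) * (z + w)) = ee ((m : ℂ) * z) * ee ((m : ℂ) * w) := by
  rw [mul_add, ee_add]

lemma Tg_shift (w : ℂ) : Tg η K α β c (z + w) =
    Tg η K (fun k => α k * ee ((k : ℂ) * w)) (fun k => β k * ee (-((k : ℂ) * w))) c z := by
  unfold Tg
  refine Finset.sum_congr rfl (fun k _ => ?_)
  have e1 : -((((k : ℕ) + 1 : ℕ) : ℂ) * (z + w)) =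
      -((((k : ℕ) + 1 : ℕ) : ℂ) * z) + -((((k : ℕ) + 1 : ℕ) : ℂ) * w) := by ring
  rw [ee_shift, e1, ee_add]
  push_cast
  ring

lemma Tg_sub_mult {α' β' : ℕ → ℂ} : Tg η K α β c z - Tg η K α' β' c z =
    Tg η K (fun k => α k - α' k) (fun k => β k - β' k) c z := by
  unfold Tg
  rw [← Finset.sum_sub_distrib]
  refine Finset.sum_congr rfl (fun k _ => ?_)
  ring

lemma Tg_congr {α' β' : ℕ → ℂ} (h1 : ∀ k, 1 ≤ k → k ≤ K → α k = α' k)
    (h2 : ∀ k, 1 ≤ k → k ≤ K → β k = β' k) : Tg η K α β c z = Tg η K α' β' c z := by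
  unfold Tg
  refine Finset.sum_congr rfl (fun k _ => ?_)
  rw [h1 (k + 1) (by omega) (by omega), h2 (k + 1) (by omega) (by omega)]

lemma deriv_Tg : deriv (Tg η K α β c) z =
    Tg η K (fun k => α k * (2 * π * I * k)) (fun k => β k * (-(2 * π * I * k))) c z := by
  have h : HasDerivAt (Tg η K α β c) (∑ k : Fin K,
      (Real.exp (-(2 * π * η * ((k : ℕ) + 1 : ℕ))) : ℂ) *
      (α (k + 1) * c k * (2 * π * I * ee ((((k : ℕ) + 1 : ℕ) : ℂ) * z) * (((k : ℕ) + 1 : ℕ) : ℂ)) +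
      β (k + 1) * conj (c k) * (2 * π * I * ee (-((((k : ℕ) + 1 : ℕ) : ℂ) * z)) *
        (-(((k : ℕ) + 1 : ℕ) : ℂ))))) z := by
    unfold Tg
    refine HasDerivAt.fun_sum (fun k _ => ?_)
    refine (HasDerivAt.add ?_ ?_).const_mul _
    · refine HasDerivAt.const_mul _ ?_
      have h1 : HasDerivAt (fun z : ℂ => (((k : ℕ) + 1 : ℕ) : ℂ) * z) (((k : ℕ) + 1 : ℕ) : ℂ) z := by
        simpa using (hasDerivAt_id z).const_mul ((((k : ℕ) + 1 : ℕ) : ℂ))
      exact (hasDerivAt_ee _).comp z h1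
    · refine HasDerivAt.const_mul _ ?_
      have h1 : HasDerivAt (fun z : ℂ => -((((k : ℕ) + 1 : ℕ) : ℂ) * z)) (-(((k : ℕ) + 1 : ℕ) : ℂ)) z := by
        have h2 := ((hasDerivAt_id z).const_mul ((((k : ℕ) + 1 : ℕ) : ℂ))).fun_neg
        simpa only [mul_one, id] using h2
      exact (hasDerivAt_ee _).comp z h1
  rw [h.deriv]
  unfold Tg
  refine Finset.sum_congr rfl (fun k _ => ?_)
  push_cast
  ring

end

/-! ### Fourier coefficients of exponentials -/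

lemma integral_ee_int (k : ℤ) : ∫ x in (0 : ℝ)..1, ee ((k : ℂ) * x) = if k = 0 then 1 else 0 := by
  split_ifs with h
  · subst h
    simp [ee_zero]
  · have hk : (2 * π * I * k : ℂ) ≠ 0 := by
      have : (k : ℂ) ≠ 0 := by exact_mod_cast h
      have h2 := Real.pi_ne_zero
      simp [this, h2, Complex.I_ne_zero]
    have h1 : ∀ x : ℝ, ee ((k : ℂ) * x) = Complex.exp ((2 * π * I * k) * x) := fun x => by
      unfold ee; ring_nf
    simp_rw [h1]
    rw [integral_exp_mul_complex hk]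
    have h3 : Complex.exp (2 * π * I * k * ((1 : ℝ) : ℂ)) = 1 := by
      have := ee_int k
      unfold ee at this
      simpa using this
    rw [h3]
    simp

/-- Fourier coefficients of a `Tg` -/
lemma coeff_Tg {η : ℝ} {K : ℕ} {α β : ℕ → ℂ} {c : Fin K → ℂ} (j : Fin K) :
    ∫ x in (0 : ℝ)..1, Tg η K α β c x * ee (-((((j : ℕ) + 1 : ℕ) : ℂ) * x)) =
      (Real.exp (-(2 * π * η * ((j : ℕ) + 1 : ℕ))) : ℂ) * (α (j + 1) * c j) := by
  have h1 : ∀ x : ℝ, Tg η K α β c x * ee (-((((j : ℕ) + 1 : ℕ) : ℂ) * x)) =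
      ∑ k : Fin K, ((Real.exp (-(2 * π * η * ((k : ℕ) + 1 : ℕ))) : ℂ) * (α (k + 1) * c k) *
        ee ((((k : ℕ) - (j : ℕ) : ℤ) : ℂ) * x) +
        (Real.exp (-(2 * π * η * ((k : ℕ) + 1 : ℕ))) : ℂ) * (β (k + 1) * conj (c k)) *
        ee ((((-((k : ℕ) + (j : ℕ) + 2) : ℤ)) : ℂ) * x)) := by
    intro x
    unfold Tg
    rw [Finset.sum_mul]
    refine Finset.sum_congr rfl (fun k _ => ?_)
    have e1 : ((((k : ℕ) - (j : ℕ) : ℤ) : ℂ) * x) = ((((k : ℕ) + 1 : ℕ) : ℂ) * x) +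
        (-((((j : ℕ) + 1 : ℕ) : ℂ) * x)) := by push_cast; ring
    have e2 : ((((-((k : ℕ) + (j : ℕ) + 2) : ℤ)) : ℂ) * x) = (-((((k : ℕ) + 1 : ℕ) : ℂ) * x)) +
        (-((((j : ℕ) + 1 : ℕ) : ℂ) * x)) := by push_cast; ring
    rw [e1, e2, ee_add, ee_add]
    ring
  simp_rw [h1]
  have hint : ∀ (m : ℤ), IntervalIntegrable (fun x : ℝ => ee ((m : ℂ) * x)) volume 0 1 := fun m =>
    (continuous_ee.comp (by fun_prop)).intervalIntegrable _ _
  rw [intervalIntegral.integral_finsetSum]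
  · have h2 : ∀ k : Fin K, ∫ x in (0 : ℝ)..1,
        ((Real.exp (-(2 * π * η * ((k : ℕ) + 1 : ℕ))) : ℂ) * (α (k + 1) * c k) *
        ee ((((k : ℕ) - (j : ℕ) : ℤ) : ℂ) * x) +
        (Real.exp (-(2 * π * η * ((k : ℕ) + 1 : ℕ))) : ℂ) * (β (k + 1) * conj (c k)) *
        ee ((((-((k : ℕ) + (j : ℕ) + 2) : ℤ)) : ℂ) * x)) =
        if k = j then (Real.exp (-(2 * π * η * ((j : ℕ) + 1 : ℕ))) : ℂ) * (α (j + 1) * c j) else 0 := by
      intro k
      rw [intervalIntegral.integral_add ((hint _).const_mul _) ((hint _).const_mul _),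
        intervalIntegral.integral_const_mul, intervalIntegral.integral_const_mul, integral_ee_int,
        integral_ee_int]
      rw [if_neg (show ¬ (-((k : ℕ) + (j : ℕ) + 2) : ℤ) = 0 by omega), mul_zero, add_zero]
      by_cases hkj : k = j
      · subst hkj
        simp
      · rw [if_neg hkj, if_neg, mul_zero]
        intro h
        apply hkj
        ext
        omega
    rw [Finset.sum_congr rfl (fun k _ => h2 k)]
    simp
  · intro k _
    exact ((hint _).const_mul _).add ((hint _).const_mul _)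

/-! ### sums -/

lemma sum_inv_le_sqrt (K : ℕ) : ∑ k ∈ Finset.range K, 1 / ((k : ℝ) + 1) ≤ 2 * √K := by
  induction K with
  | zero => simp
  | succ K ih =>
    rw [Finset.sum_range_succ]
    have h1 : 1 / ((K : ℝ) + 1) ≤ 2 * √((K : ℝ) + 1) - 2 * √K := by
      have hK : (0 : ℝ) ≤ K := Nat.cast_nonneg K
      set a := √((K : ℝ) + 1) with ha
      set b := √(K : ℝ) with hb
      have ha2 : a ^ 2 = K + 1 := Real.sq_sqrt (by linarith)
      have hb2 : b ^ 2 = K := Real.sq_sqrt hK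
      have ha1 : 1 ≤ a := by rw [ha, Real.one_le_sqrt]; linarith
      have hb0 : 0 ≤ b := Real.sqrt_nonneg _
      have hab : b ≤ a := Real.sqrt_le_sqrt (by linarith)
      rw [div_le_iff₀ (by linarith), ← ha2]
      have h3 : (a - b) * (a + b) = 1 := by ring_nf; linarith
      have h4 : (a - b) * (2 * a) ≥ 1 := by nlinarith
      nlinarith
    push_cast
    linarith

lemma sum_inv_sq_le (K : ℕ) : ∑ k ∈ Finset.range K, 1 / ((k : ℝ) + 1) ^ 2 ≤ 2 := by
  have h : ∀ K : ℕ, ∑ k ∈ Finset.range (K + 1), 1 / ((k : ℝ) + 1) ^ 2 ≤ 2 - 1 / ((K : ℝ) + 1) := by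
    intro K
    induction K with
    | zero => norm_num
    | succ K ih =>
      rw [Finset.sum_range_succ]
      have hK : (0 : ℝ) ≤ K := Nat.cast_nonneg K
      have h1 : 1 / ((K : ℝ) + 1 + 1) ^ 2 ≤ 1 / ((K : ℝ) + 1) - 1 / ((K : ℝ) + 1 + 1) := by
        rw [div_sub_div _ _ (by positivity) (by positivity), div_le_div_iff₀ (by positivity)
          (by positivity)]
        nlinarith
      push_cast
      linarith
  rcases Nat.eq_zero_or_pos K with rfl | hK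
  · simp
  · obtain ⟨m, rfl⟩ : ∃ m, K = m + 1 := ⟨K - 1, by omega⟩
    have := h m
    have h2 : 0 < 1 / ((m : ℝ) + 1) := by positivity
    linarith

end Crest.Agent.R102.A929
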