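import Crest.Agent.R102.A3_88
import Crest.Agent.R102.SpineDefs_478

/-!
Row 102, part (C) (helper88): vertical meromorphic continuation.

* `Rep F F' 1` : equality off a thin set; `rep1_of_preconnected`, `reg_congr`, `rep_reg`;
* `VM ρ r g x e F` : `F` is a meromorphic continuation of `g` along the vertical tube up to `x`;
* `vfun ρ r g` : the resulting function (`vfun_mer`, `vfun_an`).
-/

set_option autoImplicit false

open Set Filter Topology Metric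

noncomputable section

namespace Crest.Agent.R102.VC88

open Crest.Agent.R102.Mer88 Crest.Agent.R102.LeviM88 Crest.Agent.R102.Spine
open Crest.Agent.R102.C0

section Gen

variable {E : Type*} [NormedAddCommGroup E] [NormedSpace ℂ E]

theorem rep1_symm {F F' : E → ℂ} {x : E} (h : Rep F F' (fun _ => 1) x) :
    Rep F' F (fun _ => 1) x := by
  obtain ⟨D, hD, h1⟩ := h
  refine ⟨D, hD, ?_⟩
  filter_upwards [h1] with y hy h0
  rw [one_mul] at hy ⊢
  exact (hy h0).symm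

theorem rep1_trans {F F' P Q : E → ℂ} {x : E} (h : Rep F F' (fun _ => 1) x)
    (h' : Rep F' P Q x) : Rep F P Q x := by
  obtain ⟨D, hD, h1⟩ := h
  obtain ⟨D', hD', h1'⟩ := h'
  refine ⟨fun y => D y * D' y, hD.mul hD', ?_⟩
  filter_upwards [h1, h1'] with y hy hy' h0
  have h2 := hy (left_ne_zero_of_mul h0)
  rw [one_mul] at h2
  rw [h2]
  exact hy' (right_ne_zero_of_mul h0)

theorem reg_congr {F F' : E → ℂ} {x : E} (h : Rep F F' (fun _ => 1) x) : reg F x = reg F' x := by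
  by_cases hr : Regular F x
  · obtain ⟨G, hG, hR⟩ := hr
    rw [(reg_eq hG hR).self_of_nhds, (reg_eq hG (rep1_trans (rep1_symm h) hR)).self_of_nhds]
  · have hr' : ¬ Regular F' x := fun ⟨G, hG, hR⟩ => hr ⟨G, hG, rep1_trans h hR⟩
    unfold reg
    rw [dif_neg hr, dif_neg hr']

theorem merAt_sub {F F' : E → ℂ} {x : E} (h : MerAt F x) (h' : MerAt F' x) :
    MerAt (fun y => F y - F' y) x := by
  obtain ⟨P, Q, hP, hQ, D, hD, h1⟩ := h
  obtain ⟨P', Q', hP', hQ', D', hD', h1'⟩ := h'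
  refine ⟨fun y => P y * Q' y - P' y * Q y, fun y => Q y * Q' y,
    (hP.mul hQ'.1).sub (hP'.mul hQ.1), hQ.mul hQ', fun y => D y * D' y, hD.mul hD', ?_⟩
  filter_upwards [h1, h1'] with y hy hy' h0
  rw [← hy (left_ne_zero_of_mul h0), ← hy' (right_ne_zero_of_mul h0)]
  ring

theorem rep1_of_preconnected {F F' : E → ℂ} {S : Set E} (hS : IsPreconnected S)
    (hF : ∀ c ∈ S, MerAt F c) (hF' : ∀ c ∈ S, MerAt F' c) {c0 : E} (hc0 : c0 ∈ S)
    (h0 : Rep F F' (fun _ => 1) c0) : ∀ c ∈ S, Rep F F' (fun _ => 1) c := by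
  have h1 : Rep (fun y => F y - F' y) (fun _ => 0) (fun _ => 1) c0 := by
    obtain ⟨D, hD, h⟩ := h0
    refine ⟨D, hD, ?_⟩
    filter_upwards [h] with y hy hd
    have := hy hd
    rw [one_mul] at this ⊢
    rw [this, sub_self]
  have h2 := rep_of_preconnected hS (fun c hc => merAt_sub (hF c hc) (hF' c hc))
    (fun c _ => analyticAt_const) (fun c _ => analyticAt_const) hc0 h1
  intro c hc
  obtain ⟨D, hD, h⟩ := h2 c hc
  refine ⟨D, hD, ?_⟩
  filter_upwards [h] with y hy hd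
  have := hy hd
  rw [one_mul] at this ⊢
  exact sub_eq_zero.1 this

theorem rep_reg {F : E → ℂ} {x : E} (h : MerAt F x) : Rep F (reg F) (fun _ => 1) x := by
  obtain ⟨P, Q, hP, hQ, hR⟩ := h
  have hev := hP.eventually_analyticAt.and (hQ.1.eventually_analyticAt.and hR.eventually)
  obtain ⟨D, hD, h1⟩ := hR
  refine ⟨fun y => D y * Q y, hD.mul hQ, ?_⟩
  filter_upwards [h1, hev] with y hy hy2 h0
  have h2 : Q y ≠ 0 := right_ne_zero_of_mul h0
  rw [(reg_of_rep hy2.1 hy2.2.1 hy2.2.2 h2).self_of_nhds, one_mul, eq_div_iff h2, mul_comm]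
  exact hy (left_ne_zero_of_mul h0)

theorem merAt_reg {F : E → ℂ} {x : E} (h : MerAt F x) : MerAt (reg F) x := by
  have h1 := rep_reg h
  obtain ⟨P, Q, hP, hQ, hR⟩ := h
  exact ⟨P, Q, hP, hQ, rep1_trans (rep1_symm h1) hR⟩

theorem merAt_congr {F F' : E → ℂ} {x : E} (h : MerAt F x) (he : F =ᶠ[𝓝 x] F') :
    MerAt F' x := by
  obtain ⟨P, Q, hP, hQ, D, hD, h1⟩ := h
  refine ⟨P, Q, hP, hQ, D, hD, ?_⟩
  filter_upwards [h1, he] with y hy hy2 h0
  rw [← hy2]; exact hy h0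

end Gen

/-! ### tubes -/

theorem isOpen_Tube (s w0 : ℂ) (e : ℝ) : IsOpen (Tube s w0 e) := by
  have h1 : Continuous fun x : ℂ × ℂ => |x.1.re - s.re| := by fun_prop
  have h2 : Continuous fun x : ℂ × ℂ => x.1.im := by fun_prop
  have h3 : Continuous fun x : ℂ × ℂ => ‖x.2 - w0‖ := by fun_prop
  exact (isOpen_lt h1 continuous_const).inter ((isOpen_lt continuous_const h2).inter
    ((isOpen_lt h2 continuous_const).inter (isOpen_lt h3 continuous_const)))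

theorem convex_Tube (s w0 : ℂ) (e : ℝ) : Convex ℝ (Tube s w0 e) := by
  have h : Tube s w0 e =
      (Complex.reLm.comp (LinearMap.fst ℝ ℂ ℂ)) ⁻¹' Ioo (s.re - e) (s.re + e) ∩
      ((Complex.imLm.comp (LinearMap.fst ℝ ℂ ℂ)) ⁻¹' Ioo (-e) (s.im + e) ∩
        (LinearMap.snd ℝ ℂ ℂ) ⁻¹' ball w0 e) := by
    ext x
    simp only [Tube, mem_ofPred_eq, mem_inter_iff, mem_preimage, LinearMap.comp_apply,
      LinearMap.fst_apply, LinearMap.snd_apply, Complex.reLm_coe, Complex.imLm_coe, mem_Ioo,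
      mem_ball, dist_eq_norm, abs_lt]
    constructor
    · rintro ⟨⟨h1, h2⟩, h3, h4, h5⟩
      exact ⟨⟨by linarith, by linarith⟩, ⟨h3, h4⟩, h5⟩
    · rintro ⟨⟨h1, h2⟩, ⟨h3, h4⟩, h5⟩
      exact ⟨⟨by linarith, by linarith⟩, h3, h4, h5⟩
  rw [h]
  exact ((convex_Ioo _ _).linear_preimage _).inter (((convex_Ioo _ _).linear_preimage _).inter
    ((convex_ball _ _).linear_preimage _))

theorem isOpen_PD (ρ r : ℝ) : IsOpen (PD ρ r) := by
  have h1 : Continuous fun x : ℂ × ℂ => |x.1.im| := by fun_prop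
  have h2 : Continuous fun x : ℂ × ℂ => ‖x.2‖ := by fun_prop
  exact (isOpen_lt h1 continuous_const).inter (isOpen_lt h2 continuous_const)

theorem convex_PD (ρ r : ℝ) : Convex ℝ (PD ρ r) := by
  have h : PD ρ r = (Complex.imLm.comp (LinearMap.fst ℝ ℂ ℂ)) ⁻¹' Ioo (-ρ) ρ ∩
        (LinearMap.snd ℝ ℂ ℂ) ⁻¹' ball 0 r := by
    ext x
    simp only [PD, mem_ofPred_eq, mem_inter_iff, mem_preimage, LinearMap.comp_apply,
      LinearMap.fst_apply, LinearMap.snd_apply, Complex.imLm_coe, mem_Ioo,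
      mem_ball_zero_iff, abs_lt]
  rw [h]
  exact ((convex_Ioo _ _).linear_preimage _).inter ((convex_ball _ _).linear_preimage _)

/-! ### vertical continuation -/

/-- `F` is a meromorphic continuation of `g` along the vertical tube up to `x` -/
def VM (ρ r : ℝ) (g : ℂ × ℂ → ℂ) (x : ℂ × ℂ) (e : ℝ) (F : ℂ × ℂ → ℂ) : Prop :=
  0 < e ∧ 0 < x.1.im ∧ ‖x.2‖ < r ∧ (∀ y ∈ Tube x.1 x.2 e, MerAt F y) ∧
    ∀ y ∈ Tube x.1 x.2 e, y ∈ PD ρ r → Rep F g (fun _ => 1) y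

theorem mem_Tube {x : ℂ × ℂ} {e : ℝ} (he : 0 < e) (hx : 0 < x.1.im) : x ∈ Tube x.1 x.2 e :=
  ⟨by simpa using he, by linarith, by linarith, by simpa using he⟩

theorem base_mem_Tube {x : ℂ × ℂ} {e : ℝ} (he : 0 < e) (hx : 0 < x.1.im) :
    ((x.1.re : ℂ), x.2) ∈ Tube x.1 x.2 e :=
  ⟨by simpa using he, by simpa using he, by simp; linarith, by simpa using he⟩

theorem Tube_mono {s w0 : ℂ} {e e' : ℝ} (h : e ≤ e') : Tube s w0 e ⊆ Tube s w0 e' :=
  fun _ hx => ⟨hx.1.trans_le h, by linarith [hx.2.1], by linarith [hx.2.2.1],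
    hx.2.2.2.trans_le h⟩

variable {ρ r : ℝ} {g : ℂ × ℂ → ℂ}

theorem VM.unique (hρ : 0 < ρ) {x : ℂ × ℂ} {e e' : ℝ} {F F' : ℂ × ℂ → ℂ}
    (h : VM ρ r g x e F) (h' : VM ρ r g x e' F') : reg F x = reg F' x := by
  obtain ⟨he, hx, hr, hF, hFg⟩ := h
  obtain ⟨he', -, -, hF', hFg'⟩ := h'
  have hm : 0 < min e e' := lt_min he he'
  have hy0 := base_mem_Tube (x := x) hm hx
  have hyP : ((x.1.re : ℂ), x.2) ∈ PD ρ r := ⟨by simpa using hρ, hr⟩
  refine reg_congr (rep1_of_preconnected (convex_Tube x.1 x.2 (min e e')).isPreconnected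
    (fun c hc => hF c (Tube_mono (min_le_left _ _) hc))
    (fun c hc => hF' c (Tube_mono (min_le_right _ _) hc)) hy0 ?_ x (mem_Tube hm hx))
  exact rep1_trans (hFg _ (Tube_mono (min_le_left _ _) hy0) hyP)
    (rep1_symm (hFg' _ (Tube_mono (min_le_right _ _) hy0) hyP))

theorem VM.eventually {x : ℂ × ℂ} {e : ℝ} {F : ℂ × ℂ → ℂ} (h : VM ρ r g x e F) :
    ∀ᶠ x' in 𝓝 x, VM ρ r g x' (e / 2) F := by
  obtain ⟨he, hx, hr, hF, hFg⟩ := h
  have h1 : ∀ᶠ x' : ℂ × ℂ in 𝓝 x, 0 < x'.1.im :=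
    (by fun_prop : Continuous fun x' : ℂ × ℂ => x'.1.im).continuousAt.eventually
      (lt_mem_nhds hx)
  have h2 : ∀ᶠ x' : ℂ × ℂ in 𝓝 x, ‖x'.2‖ < r :=
    (by fun_prop : Continuous fun x' : ℂ × ℂ => ‖x'.2‖).continuousAt.eventually
      (gt_mem_nhds hr)
  filter_upwards [h1, h2, ball_mem_nhds x (by linarith : 0 < e / 2)] with x' k1 k2 k3
  rw [mem_ball, Prod.dist_eq, max_lt_iff, dist_eq_norm, dist_eq_norm] at k3
  have k4 := (Complex.abs_re_le_norm (x'.1 - x.1)).trans_lt k3.1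
  have k5 := (Complex.abs_im_le_norm (x'.1 - x.1)).trans_lt k3.1
  rw [Complex.sub_re, abs_lt] at k4
  rw [Complex.sub_im, abs_lt] at k5
  have hsub : Tube x'.1 x'.2 (e / 2) ⊆ Tube x.1 x.2 e := by
    rintro y ⟨y1, y2, y3, y4⟩
    rw [abs_lt] at y1
    refine ⟨by rw [abs_lt]; constructor <;> linarith, by linarith, by linarith, ?_⟩
    calc ‖y.2 - x.2‖ = ‖(y.2 - x'.2) + (x'.2 - x.2)‖ := by congr 1; ring
      _ ≤ ‖y.2 - x'.2‖ + ‖x'.2 - x.2‖ := norm_add_le _ _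
      _ < e := by linarith [k3.2]
  exact ⟨by linarith, k1, k2, fun y hy => hF y (hsub hy), fun y hy => hFg y (hsub hy)⟩

open Classical in
/-- the function obtained by vertical continuation -/
def vfun (ρ r : ℝ) (g : ℂ × ℂ → ℂ) (x : ℂ × ℂ) : ℂ :=
  if h : ∃ F : ℂ × ℂ → ℂ, ∃ e, VM ρ r g x e F then reg h.choose x else 0

theorem vfun_eq (hρ : 0 < ρ) {x : ℂ × ℂ} {e : ℝ} {F : ℂ × ℂ → ℂ} (h : VM ρ r g x e F) :
    vfun ρ r g x = reg F x := by
  have h1 : ∃ F : ℂ × ℂ → ℂ, ∃ e, VM ρ r g x e F := ⟨F, e, h⟩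
  unfold vfun
  rw [dif_pos h1]
  obtain ⟨e', h2⟩ := h1.choose_spec
  exact VM.unique hρ h2 h

theorem vfun_eventually (hρ : 0 < ρ) {x : ℂ × ℂ} {e : ℝ} {F : ℂ × ℂ → ℂ}
    (h : VM ρ r g x e F) : vfun ρ r g =ᶠ[𝓝 x] reg F := by
  filter_upwards [h.eventually] with y hy
  exact vfun_eq hρ hy

theorem vfun_mer (hρ : 0 < ρ) {x : ℂ × ℂ} {e : ℝ} {F : ℂ × ℂ → ℂ}
    (h : VM ρ r g x e F) : MerAt (vfun ρ r g) x :=
  merAt_congr (merAt_reg (h.2.2.2.1 x (mem_Tube h.1 h.2.1))) (vfun_eventually hρ h).symm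

theorem vfun_an (hρ : 0 < ρ) {x : ℂ × ℂ} {e : ℝ} {F : ℂ × ℂ → ℂ}
    (h : VM ρ r g x e F) (hF : AnalyticAt ℂ F x) :
    AnalyticAt ℂ (vfun ρ r g) x ∧ vfun ρ r g x = F x := by
  have h1 : reg F =ᶠ[𝓝 x] F :=
    reg_eq hF (rep_of_analytic (Eventually.of_forall fun _ => one_mul _))
  have h2 := (vfun_eventually hρ h).trans h1
  exact ⟨hF.congr h2.symm, h2.self_of_nhds⟩

end Crest.Agent.R102.VC88
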