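import Crest.Agent.R102.IfaceA_929
import Crest.Agent.R102.Var_575

/-!
Row 102, part (A) (helper575): `LeafVAR`.
-/

set_option autoImplicit false

open Set Filter Topology Metric Complex MeasureTheory
open scoped Real ContDiff

noncomputable section

namespace Crest.Agent.R102.A929

open Crest.Agent.R102.Var575

/-- real valued elements of `AA` -/
def IsRe (f : AA) : Prop := ∀ r : unitInterval, (f r).im = 0

lemma IsRe.mul {f g : AA} (hf : IsRe f) (hg : IsRe g) : IsRe (f * g) := fun r => by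
  rw [AA.mul_apply, Complex.mul_im, hf r, hg r]; ring

lemma IsRe.smul {f : AA} {c : ℂ} (hc : c.im = 0) (hf : IsRe f) : IsRe (c • f) := fun r => by
  rw [AA.smul_apply, Complex.mul_im, hf r, hc]; ring

lemma IsRe.exp {f : AA} (hf : IsRe f) : IsRe (NormedSpace.exp f) := fun r => by
  rw [exp_apply, Complex.exp_im, hf r, Real.sin_zero, mul_zero]

lemma IsRe.cosA {f : AA} (hf : IsRe f) : IsRe (cosA f) := fun r => by
  rw [cosA_apply]
  have h : f r = ((f r).re : ℂ) := Complex.ext rfl (by simp [hf r])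
  rw [h, ← Complex.ofReal_cos, Complex.ofReal_im]

lemma IsRe.ext_im {f : AA} (hf : IsRe f) (a : ℝ) : (ext f a).im = 0 := by
  unfold ext Set.IccExtend
  exact hf _

lemma im_integral_ext {f : AA} (hf : IsRe f) (b : ℝ) : (∫ a in (0 : ℝ)..b, ext f a).im = 0 := by
  have h1 : (fun a => ext f a) = fun a => (((ext f a).re : ℝ) : ℂ) := by
    funext a
    exact Complex.ext rfl (by simp [hf.ext_im a])
  rw [h1, intervalIntegral.integral_ofReal, Complex.ofReal_im]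

lemma IsRe.J {f : AA} (hf : IsRe f) : IsRe (J f) := fun r => by
  rw [J_apply]; exact im_integral_ext hf _

lemma im_Lam {f : AA} (hf : IsRe f) : (Lam f).im = 0 := by
  rw [Lam_apply]; exact im_integral_ext hf _

lemma im_Ic {X : AA × ℂ} (h1 : IsRe X.1) (h2 : X.2.im = 0) : (Ic X).im = 0 := by
  unfold Ic
  refine im_Lam (IsRe.mul (IsRe.exp (IsRe.smul (by simp) h1)) (IsRe.cosA (IsRe.smul h2 ?_)))
  exact IsRe.J (IsRe.exp h1)

lemma im_Is {X : AA × ℂ} (h1 : IsRe X.1) (h2 : X.2.im = 0) : (Is X).im = 0 := by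
  unfold Is
  refine im_Lam (IsRe.mul (IsRe.exp (IsRe.smul (by simp) h1)) (IsRe.J (IsRe.mul (IsRe.exp h1)
    (IsRe.cosA (IsRe.smul h2 ?_)))))
  exact IsRe.J (IsRe.exp h1)

lemma im_bf {X : AA × ℂ} (h1 : IsRe X.1) (h2 : X.2.im = 0) : (bf X).im = 0 := by
  unfold bf
  rw [Complex.div_im, im_Ic h1 h2, im_Is h1 h2]; ring

lemma im_phi {y : ℝ} (hy : 0 ≤ y) : (phi (y : ℂ)).im = 0 := by
  have h1 : sq (y : ℂ) = ((Real.exp (Real.log (1 + y) / 2) : ℝ) : ℂ) := by
    unfold sq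
    have : (1 : ℂ) + (y : ℂ) = ((1 + y : ℝ) : ℂ) := by push_cast; ring
    rw [this, ← Complex.ofReal_log (by linarith)]
    push_cast
    rfl
  unfold phi
  rw [h1]
  have h2 : (1 : ℂ) / (((Real.exp (Real.log (1 + y) / 2) : ℝ) : ℂ) *
      (1 + ((Real.exp (Real.log (1 + y) / 2) : ℝ) : ℂ))) =
      ((1 / (Real.exp (Real.log (1 + y) / 2) * (1 + Real.exp (Real.log (1 + y) / 2))) : ℝ) : ℂ) := by
    push_cast; ring
  rw [h2, Complex.ofReal_im]

lemma eq_re {z : ℂ} (h : z.im = 0) : z = (z.re : ℂ) := Complex.ext rfl (by simp [h])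

lemma im_Qf {X : AA × ℂ} (h1 : IsRe X.1) (h2 : X.2.im = 0) : (Qf X).im = 0 := by
  have hb := eq_re (im_bf h1 h2)
  have hz := eq_re h2
  unfold Qf
  rw [hb, hz]
  have e1 : ((X.2.re : ℂ)) ^ 2 * ((bf X).re : ℂ) ^ 2 = ((X.2.re ^ 2 * (bf X).re ^ 2 : ℝ) : ℂ) := by
    push_cast; ring
  rw [e1, eq_re (im_phi (y := X.2.re ^ 2 * (bf X).re ^ 2) (by positivity)), ← Complex.ofReal_pow,
    ← Complex.ofReal_mul, Complex.ofReal_im]

/-- `Pq` is real on real points -/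
lemma im_Pq {q : C(ℂ, ℂ)} (hq : ∀ x : ℝ, (q x).im = 0) (x e : ℝ) : (Pq q x e).im = 0 := by
  have h1 : IsRe (Xq q x e).1 := fun r => by
    have e1 : (x : ℂ) + (e : ℂ) * ((r : ℝ) : ℂ) = ((x + e * (r : ℝ) : ℝ) : ℂ) := by push_cast; ring
    show (dq q x e r).im = 0
    rw [dq_apply, Complex.sub_im, hq, e1, hq, sub_zero]
  have h2 : (Xq q x e).2.im = 0 := by
    show ((e : ℂ) * Complex.exp (q x)).im = 0
    rw [Complex.mul_im, Complex.ofReal_im, Complex.exp_im, hq, Real.sin_zero]; ring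
  unfold Pq
  rw [eq_re (im_Qf h1 h2), ← Complex.ofReal_pow, ← Complex.ofReal_mul, Complex.ofReal_im]

/-- the real reflection function -/
def Pr (q : C(ℂ, ℂ)) (x e : ℝ) : ℝ := (Pq q x e).re

lemma Pq_real {q : C(ℂ, ℂ)} (hq : ∀ x : ℝ, (q x).im = 0) (x e : ℝ) :
    Pq q x e = ((Pr q x e : ℝ) : ℂ) := eq_re (im_Pq hq x e)

lemma EP_real {q : C(ℂ, ℂ)} (hq : ∀ x : ℝ, (q x).im = 0) (a b c : ℝ) :
    EP q a b c = ((EPr (Pr q) a b c : ℝ) : ℂ) := by
  unfold EP EPr
  have e1 : -((b : ℂ) - (a : ℂ)) = ((-(b - a) : ℝ) : ℂ) := by push_cast; ring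
  have e2 : (c : ℂ) - (b : ℂ) = ((c - b : ℝ) : ℂ) := by push_cast; ring
  rw [e1, e2, Pq_real hq, Pq_real hq]
  push_cast
  ring

lemma varData_of {ρ C : ℝ} (hL : LocQ ρ C) {q : C(ℂ, ℂ)} {q1 q2 : ℂ → ℂ} {B ε₀ ε₁ : ℝ}
    {M : ℝ → ℝ → ℝ} (hS : Sm q q1 q2 RR B) (hq : ∀ x : ℝ, (q x).im = 0)
    (hper : ∀ x : ℝ, q (x + 1) = q x) (hA : IsAct q ε₀ M) (hε₁ : 0 < ε₁)
    (hR : RStarP q ε₁) {m₀ : ℝ} (hm : 0 < m₀) (hm1 : m₀ ≤ 1) (hm2 : CX B * m₀ < ρ)
    (hm3 : m₀ ≤ ε₀) : VarData (Pr q) M m₀ (CP C B) ε₁ where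
  m_pos := hm
  C_pos := by
    have := hS.B_ge
    have := hL.C_ge
    have := CX_ge hS.B_ge
    unfold CP
    positivity
  ε_pos := hε₁
  PL := by
    intro m x x' e e' hm' hmm he he'
    have hB := hS.B_ge
    have hCX := CX_ge hB
    have mem : ∀ x : ℝ, (x : ℂ) ∈ RR := fun x => by simp [RR]
    have mem2 : ∀ x e : ℝ, (x : ℂ) + (e : ℂ) ∈ RR := fun x e => by simp [RR]
    have h1 := hS.PL hL (mem x) (mem2 x e) (mem x') (mem2 x' e') (m := m)
      (by rw [Complex.norm_real]; exact he) (by rw [Complex.norm_real]; exact he')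
      (hmm.trans hm1) (lt_of_le_of_lt (mul_le_mul_of_nonneg_left hmm (by linarith)) hm2)
    have e1 : ((e' : ℂ) ^ 2 - (e : ℂ) ^ 2) / 8 = (((e' ^ 2 - e ^ 2) / 8 : ℝ) : ℂ) := by
      push_cast; ring
    rw [Pq_real hq, Pq_real hq, e1, ← Complex.ofReal_sub, ← Complex.ofReal_sub,
      ← Complex.ofReal_sub, ← Complex.ofReal_sub, Complex.norm_real, Complex.norm_real,
      Complex.norm_real] at h1
    exact h1
  perP := by
    intro x e _
    unfold Pr Pq
    have e1 : Xq q ((x + 1 : ℝ) : ℂ) e = Xq q x e := by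
      unfold Xq
      refine Prod.ext (AA.ext' (fun r => ?_)) ?_
      · show dq q ((x + 1 : ℝ) : ℂ) e r = dq q x e r
        rw [dq_apply, dq_apply]
        have e2 : ((x + 1 : ℝ) : ℂ) + (e : ℂ) * ((r : ℝ) : ℂ) = ((x + e * (r : ℝ) : ℝ) : ℂ) + 1 := by
          push_cast; ring
        have e3 : ((x + 1 : ℝ) : ℂ) = (x : ℂ) + 1 := by push_cast; ring
        have e4 : (x : ℂ) + (e : ℂ) * ((r : ℝ) : ℂ) = ((x + e * (r : ℝ) : ℝ) : ℂ) := by
          push_cast; ring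
        rw [e2, e3, e4, hper, hper]
      · show (e : ℂ) * Complex.exp (q ((x + 1 : ℝ) : ℂ)) = (e : ℂ) * Complex.exp (q x)
        have e3 : ((x + 1 : ℝ) : ℂ) = (x : ℂ) + 1 := by push_cast; ring
        rw [e3, hper]
    rw [e1]
  M1 := by
    intro x y h0 h1
    have h2 := hA.d x y (by linarith) (by linarith)
    have h3 : HasDerivAt (fun z : ℝ => (z, y)) ((1 : ℝ), (0 : ℝ)) x :=
      (hasDerivAt_id x).prodMk (hasDerivAt_const x y)
    have h4 := HasFDerivAt.comp_hasDerivAt (f := fun z : ℝ => (z, y)) x h2 h3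
    refine h4.congr_deriv ?_
    unfold Pr
    push_cast
    simp
  M2 := by
    intro x y h0 h1
    have h2 := hA.d x y (by linarith) (by linarith)
    have h3 : HasDerivAt (fun z : ℝ => (x, z)) ((0 : ℝ), (1 : ℝ)) y :=
      (hasDerivAt_const y x).prodMk (hasDerivAt_id y)
    have h4 := HasFDerivAt.comp_hasDerivAt (f := fun z : ℝ => (x, z)) y h2 h3
    refine h4.congr_deriv ?_
    unfold Pr
    push_cast
    simp
  RS := by
    intro n j x hn hj hst hcl hcr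
    have h1 := hR n j x hn hj hst hcl (fun i hi1 hi2 => by
      rw [EP_real hq, hcr i hi1 hi2, Complex.ofReal_zero])
    have e1 : ((x (n - 1) : ℝ) : ℂ) - (j : ℂ) = ((x (n - 1) - j : ℝ) : ℂ) := by push_cast; ring
    rw [e1, EP_real hq] at h1
    exact_mod_cast h1

/-- **LEAF VAR** -/
theorem leafVAR : LeafVAR := by
  intro ρ C hL q q1 q2 B ε₀ ε₁ A M hS hq hper hε₀ hA hε₁ hR hA0
  have hB := hS.B_ge
  have hCX := CX_ge hB
  have hρ := hL.ρ_pos
  set m₀ : ℝ := min (min 1 (ρ / (2 * CX B))) ε₀ with hm₀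
  have hm : 0 < m₀ := lt_min (lt_min one_pos (by positivity)) hε₀
  have hm1 : m₀ ≤ 1 := (min_le_left _ _).trans (min_le_left _ _)
  have hm2 : CX B * m₀ < ρ := by
    have h1 : m₀ ≤ ρ / (2 * CX B) := (min_le_left _ _).trans (min_le_right _ _)
    calc CX B * m₀ ≤ CX B * (ρ / (2 * CX B)) := mul_le_mul_of_nonneg_left h1 (by linarith)
      _ = ρ / 2 := by field_simp
      _ < ρ := by linarith
  have hm3 : m₀ ≤ ε₀ := min_le_right _ _
  have hV := varData_of hL hS hq hper hA hε₁ hR hm hm1 hm2 hm3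
  obtain ⟨n₀, hn₀⟩ := exists_nat_ge (max (max (2 / m₀) (768 * CP C B)) (max (2 / ε₁) (max (8 * A) 1)))
  have b1 : 2 / m₀ ≤ n₀ := ((le_max_left _ _).trans (le_max_left _ _)).trans hn₀
  have b2 : 768 * CP C B ≤ n₀ := ((le_max_right _ _).trans (le_max_left _ _)).trans hn₀
  have b3 : 2 / ε₁ ≤ n₀ := ((le_max_left _ _).trans (le_max_right _ _)).trans hn₀
  have b4 : 8 * A ≤ n₀ :=
    (((le_max_left _ _).trans (le_max_right _ _)).trans (le_max_right _ _)).trans hn₀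
  have b5 : (1 : ℝ) ≤ n₀ :=
    (((le_max_right _ _).trans (le_max_right _ _)).trans (le_max_right _ _)).trans hn₀
  refine ⟨32, 1 / 512, n₀, by norm_num, by norm_num, ?_⟩
  intro n S r hn hr0 hr hSc hS1 hSw hE
  have hn' : (n₀ : ℝ) ≤ n := by exact_mod_cast hn
  have hn1 : (1 : ℝ) ≤ n := b5.trans hn'
  have hnpos : (0 : ℝ) < n := by linarith
  set w : ℝ := 1 / n with hw
  have hw0 : 0 < w := by positivity
  have hnw : (n : ℝ) * w = 1 := by rw [hw]; field_simp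
  have hb : ∀ a : ℝ, 0 ≤ a → a ≤ n₀ → a * w ≤ 1 := by
    intro a _ ha'
    rw [hw, mul_one_div, div_le_one hnpos]
    exact ha'.trans hn'
  have c1 : 2 * w ≤ m₀ := by
    have := hb (2 / m₀) (by positivity) b1
    rw [div_mul_eq_mul_div, div_le_one hm] at this
    exact this
  have c2 : 768 * CP C B * w ≤ 1 := hb _ (by have := hV.C_pos; positivity) b2
  have c3 : 2 * w ≤ ε₁ := by
    have := hb (2 / ε₁) (by positivity) b3
    rw [div_mul_eq_mul_div, div_le_one hε₁] at this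
    exact this
  have hsurj : Function.Surjective S := by
    intro z
    have hSk : ∀ k : ℤ, S k = S 0 + k := by
      intro k
      induction k using Int.induction_on with
      | zero => simp
      | succ i hi => push_cast at hi ⊢; rw [hS1, hi]; ring
      | pred i hi =>
        have := hS1 (-(i : ℝ) - 1)
        have e : -(i : ℝ) - 1 + 1 = -(i : ℝ) := by ring
        rw [e] at this
        push_cast at hi ⊢
        linarith
    set k : ℤ := ⌊z - S 0⌋ with hk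
    have h1 : S (k : ℝ) ≤ z := by
      rw [hSk]; have := Int.floor_le (z - S 0); linarith
    have h2 : z ≤ S ((k + 1 : ℤ) : ℝ) := by
      rw [hSk]; push_cast; have := Int.lt_floor_add_one (z - S 0); linarith
    obtain ⟨t, _, ht⟩ := intermediate_value_Icc (by push_cast; linarith : (k : ℝ) ≤ ((k + 1 : ℤ) : ℝ))
      hSc.continuousOn ⟨h1, h2⟩
    exact ⟨t, ht⟩
  have hstep : ∀ t, |S (t + w) - S t - w| ≤ w / 8 := by
    intro t
    refine (hSw t).trans ?_
    have h1 : (n : ℝ) ^ (2 : ℝ) ≤ (n : ℝ) ^ (5 / 2 : ℝ) :=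
      Real.rpow_le_rpow_of_exponent_le hn1 (by norm_num)
    have h2 : (n : ℝ) ^ (2 : ℝ) = (n : ℝ) ^ 2 := by
      rw [← Real.rpow_natCast]; norm_num
    rw [h2] at h1
    calc A / (n : ℝ) ^ (5 / 2 : ℝ) ≤ A / (n : ℝ) ^ 2 := by gcongr
      _ = (8 * A * w) * (w / 8) := by rw [hw]; field_simp
      _ ≤ 1 * (w / 8) := by
          have := hb (8 * A) (by positivity) b4
          gcongr
      _ = w / 8 := one_mul _
  have hn10 : (n : ℝ) ^ 4 ≤ (n : ℝ) ^ 10 := pow_le_pow_right₀ hn1 (by norm_num)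
  have hr4 : 512 * r ≤ w ^ 4 := by
    have h1 : 512 * r ≤ 1 / (n : ℝ) ^ 10 := by
      calc 512 * r ≤ 512 * (1 / 512 / (n : ℝ) ^ 10) := by gcongr
        _ = _ := by ring
    have h2 : 1 / (n : ℝ) ^ 10 ≤ 1 / (n : ℝ) ^ 4 := by gcongr
    have h3 : w ^ 4 = 1 / (n : ℝ) ^ 4 := by rw [hw]; ring
    rw [h3]; exact h1.trans h2
  have hE' : ∀ t, |EPr (Pr q) (S (t - w)) (S t) (S (t + w))| ≤ r := by
    intro t
    have h1 := hE t
    rw [EP_real hq, Complex.norm_real] at h1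
    exact h1
  obtain ⟨A₀, hA₀⟩ := var_action hV hw0 hnw c1 c2 c3 hsurj hS1 hstep hr0 hr4 hE'
  refine ⟨A₀, fun t => ?_⟩
  have h1 := hA₀ t
  have h2 : ∑ i ∈ Finset.range n, M (S (t + i / n)) (S (t + (i + 1) / n)) =
      ∑ i ∈ Finset.range n, M (S (t + i * w)) (S (t + (i + 1) * w)) := by
    refine Finset.sum_congr rfl (fun i _ => ?_)
    rw [hw, mul_one_div, mul_one_div]
  rw [h2]
  refine h1.trans ?_
  have : 0 ≤ r ^ 2 := sq_nonneg r
  gcongr

end Crest.Agent.R102.A929
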