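import Mathlib

/-!
Row 102, T1-B, EDGE (972 (K)): nested halving intervals over which the averages of a measurable set
stay in `[1/20, 19/20]` and are `1/3` and `2/3` infinitely often.
-/

set_option autoImplicit false

open Set Filter Topology MeasureTheory

noncomputable section

namespace Crest.Agent.R102.Wander811

/-! ### a zigzag -/

theorem path_of_transGen {α : Type} {R : α → α → Prop} {a b : α} (h : Relation.TransGen R a b) :
    ∃ k : ℕ, 0 < k ∧ ∃ p : ℕ → α, p 0 = a ∧ p k = b ∧ ∀ i < k, R (p i) (p (i + 1)) := by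
  induction h with
  | single h =>
    rename_i b
    refine ⟨1, one_pos, fun i => if i = 0 then a else b, by simp, by simp, fun i hi => ?_⟩
    obtain rfl : i = 0 := by omega
    simpa using h
  | tail _ h ih =>
    rename_i b c _
    obtain ⟨k, hk, p, h0, h1, h2⟩ := ih
    refine ⟨k + 1, by omega, fun i => if i ≤ k then p i else c, by simp [h0], by simp,
      fun i hi => ?_⟩
    rcases Nat.lt_succ_iff_lt_or_eq.1 hi with hi | rfl
    · simpa [hi.le, Nat.succ_le_of_lt hi] using h2 i hi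
    · simpa [h1] using h

theorem glue_seq {α : Type} {R : α → α → Prop} {t : ℕ → α}
    (ht : ∀ n, Relation.TransGen R (t n) (t (n + 1))) :
    ∃ s : ℕ → α, s 0 = t 0 ∧ (∀ n, R (s n) (s (n + 1))) ∧ ∀ n, ∃ m ≥ n, s m = t n := by
  -- finite stages
  let V : ℕ → ℕ × (ℕ → α) → Prop := fun n S =>
    n ≤ S.1 ∧ S.2 0 = t 0 ∧ S.2 S.1 = t n ∧ ∀ i < S.1, R (S.2 i) (S.2 (i + 1))
  have step : ∀ n (S : ℕ × (ℕ → α)), V n S → ∃ S' : ℕ × (ℕ → α), V (n + 1) S' ∧ S.1 < S'.1 ∧
      ∀ i ≤ S.1, S'.2 i = S.2 i := by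
    rintro n ⟨l, s⟩ ⟨hn, h0, hl, hR⟩
    obtain ⟨k, hk, p, hp0, hpk, hpR⟩ := path_of_transGen (ht n)
    simp only at hn h0 hl hR
    refine ⟨⟨l + k, fun i => if i ≤ l then s i else p (i - l)⟩, ⟨?_, ?_, ?_, ?_⟩, ?_, ?_⟩
    · simp only; omega
    · simp [h0]
    · simp only
      rw [if_neg (by omega), Nat.add_sub_cancel_left, hpk]
    · intro i hi
      simp only at hi ⊢
      rcases lt_trichotomy i l with h | rfl | h
      · rw [if_pos h.le, if_pos (Nat.succ_le_of_lt h)]; exact hR i h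
      · rw [if_pos le_rfl, if_neg (by omega), hl, Nat.add_sub_cancel_left, ← hp0]
        exact hpR 0 hk
      · rw [if_neg (by omega), if_neg (by omega)]
        have := hpR (i - l) (by omega)
        rwa [show i - l + 1 = i + 1 - l by omega] at this
    · simp only; omega
    · intro i hi
      simp only at hi ⊢
      rw [if_pos hi]
  choose! f hf1 hf2 hf3 using step
  let S : ℕ → ℕ × (ℕ → α) := fun n => Nat.rec (0, fun _ => t 0) (fun n S => f n S) n
  have hS0 : S 0 = (0, fun _ => t 0) := rfl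
  have hSs : ∀ n, S (n + 1) = f n (S n) := fun n => rfl
  have hV : ∀ n, V n (S n) := by
    intro n
    induction n with
    | zero =>
      rw [hS0]
      exact ⟨le_rfl, rfl, rfl, fun i hi => (Nat.not_lt_zero _ hi).elim⟩
    | succ n ih => rw [hSs]; exact hf1 n _ ih
  have hlt : ∀ n, (S n).1 < (S (n + 1)).1 := fun n => by rw [hSs]; exact hf2 n _ (hV n)
  have hmono : Monotone fun n => (S n).1 := monotone_nat_of_le_succ fun n => (hlt n).le
  have hag : ∀ n m, n ≤ m → ∀ i ≤ (S n).1, (S m).2 i = (S n).2 i := by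
    intro n m hnm
    induction m, hnm using Nat.le_induction with
    | base => intro i _; rfl
    | succ m hnm ih =>
      intro i hi
      rw [hSs, hf3 m _ (hV m) i (hi.trans (hmono hnm)), ih i hi]
  refine ⟨fun i => (S i).2 i, ?_, fun n => ?_, fun n => ⟨(S n).1, (hV n).1, ?_⟩⟩
  · exact (hV 0).2.1
  · have h1 : (S n).2 n = (S (n + 1)).2 n := (hag n (n + 1) (Nat.le_succ n) n (hV n).1).symm
    show R ((S n).2 n) ((S (n + 1)).2 (n + 1))
    rw [h1]
    exact (hV (n + 1)).2.2.2 n (lt_of_lt_of_le (Nat.lt_succ_self n) (hV (n + 1)).1)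
  · show (S (S n).1).2 (S n).1 = t n
    rw [hag n (S n).1 (hV n).1 (S n).1 le_rfl]
    exact (hV n).2.2.1

theorem zigzag {α : Type} {R : α → α → Prop} {P Q : α → Prop}
    (hP : ∀ a, P a → ∃ b, Q b ∧ Relation.TransGen R a b)
    (hQ : ∀ b, Q b → ∃ a, P a ∧ Relation.TransGen R b a) {a0 : α} (h0 : P a0) :
    ∃ s : ℕ → α, s 0 = a0 ∧ (∀ n, R (s n) (s (n + 1))) ∧ (∀ n, ∃ m ≥ n, P (s m)) ∧
      ∀ n, ∃ m ≥ n, Q (s m) := by
  choose! f hf1 hf2 using hP
  choose! g hg1 hg2 using hQ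
  let t : ℕ → α := fun n => Nat.rec a0 (fun n x => if Even n then f x else g x) n
  have ht0 : t 0 = a0 := rfl
  have hts : ∀ n, t (n + 1) = if Even n then f (t n) else g (t n) := fun n => rfl
  have hPQ : ∀ n, (Even n → P (t n)) ∧ (¬ Even n → Q (t n)) := by
    intro n
    induction n with
    | zero => exact ⟨fun _ => by rw [ht0]; exact h0, fun h => (h (by simp)).elim⟩
    | succ n ih =>
      by_cases hn : Even n
      · refine ⟨fun h => ?_, fun _ => ?_⟩
        · rw [Nat.even_add_one] at h; exact (h hn).elim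
        · rw [hts, if_pos hn]; exact hf1 _ (ih.1 hn)
      · refine ⟨fun _ => ?_, fun h => ?_⟩
        · rw [hts, if_neg hn]; exact hg1 _ (ih.2 hn)
        · rw [Nat.even_add_one] at h; exact (h hn).elim
  have ht : ∀ n, Relation.TransGen R (t n) (t (n + 1)) := by
    intro n
    by_cases hn : Even n
    · rw [hts, if_pos hn]; exact hf2 _ ((hPQ n).1 hn)
    · rw [hts, if_neg hn]; exact hg2 _ ((hPQ n).2 hn)
  obtain ⟨s, hs0, hsR, hst⟩ := glue_seq ht
  refine ⟨s, hs0.trans ht0, hsR, fun n => ?_, fun n => ?_⟩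
  · obtain ⟨m, hm, he⟩ := hst (2 * n)
    exact ⟨m, by omega, by rw [he]; exact (hPQ (2 * n)).1 (by simp)⟩
  · obtain ⟨m, hm, he⟩ := hst (2 * n + 1)
    exact ⟨m, by omega, by rw [he]; exact (hPQ (2 * n + 1)).2 (by simp)⟩

/-! ### averages -/

/-- indicator function -/
def ind (E : Set ℝ) : ℝ → ℝ := E.indicator fun _ => 1

/-- mass of `E` between `x` and `y` -/
def M (E : Set ℝ) (x y : ℝ) : ℝ := ∫ t in x..y, ind E t

/-- average of `E` over `(x, x + l]` -/
def av (E : Set ℝ) (x l : ℝ) : ℝ := M E x (x + l) / l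

variable {E : Set ℝ}

theorem ii (hE : MeasurableSet E) (x y : ℝ) : IntervalIntegrable (ind E) volume x y := by
  have h : IntervalIntegrable (fun _ : ℝ => (1 : ℝ)) volume x y := intervalIntegrable_const
  exact ⟨h.1.indicator hE, h.2.indicator hE⟩

theorem ind_nonneg (E : Set ℝ) (t : ℝ) : 0 ≤ ind E t :=
  indicator_nonneg (fun _ _ => zero_le_one) t

theorem M_add (hE : MeasurableSet E) (x y z : ℝ) : M E x y + M E y z = M E x z :=
  intervalIntegral.integral_add_adjacent_intervals (ii hE x y) (ii hE y z)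

theorem M_nonneg (E : Set ℝ) {x y : ℝ} (h : x ≤ y) : 0 ≤ M E x y :=
  intervalIntegral.integral_nonneg h fun t _ => ind_nonneg E t

theorem M_compl (hE : MeasurableSet E) (x y : ℝ) : M E x y + M Eᶜ x y = y - x := by
  rw [M, M, ← intervalIntegral.integral_add (ii hE x y) (ii hE.compl x y)]
  have : (fun t => ind E t + ind Eᶜ t) = fun _ => (1 : ℝ) := by
    funext t
    by_cases ht : t ∈ E <;> simp [ind, ht]
  rw [this]
  simp

theorem av_compl (hE : MeasurableSet E) (x : ℝ) {l : ℝ} (hl : 0 < l) :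
    av Eᶜ x l = 1 - av E x l := by
  have := M_compl hE x (x + l)
  rw [av, av, eq_sub_iff_add_eq, ← add_div, add_comm, this]
  field_simp
  ring

theorem av_half (hE : MeasurableSet E) (x : ℝ) {l : ℝ} (hl : 0 < l) :
    av E x (l / 2) + av E (x + l / 2) (l / 2) = 2 * av E x l := by
  have := M_add hE x (x + l / 2) (x + l)
  rw [av, av, av, show x + l / 2 + l / 2 = x + l by ring, ← this]
  field_simp

theorem cont_av (hE : MeasurableSet E) (l : ℝ) : Continuous fun x => av E x l := by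
  have h1 : Continuous fun b => ∫ t in (0 : ℝ)..b, ind E t :=
    intervalIntegral.continuous_primitive (fun a b => ii hE a b) 0
  have h2 : ∀ x, M E x (x + l) = (∫ t in (0 : ℝ)..(x + l), ind E t) - ∫ t in (0 : ℝ)..x, ind E t := by
    intro x
    have := M_add hE 0 x (x + l)
    simp only [M] at this ⊢
    linarith
  have h3 : (fun x => av E x l) = fun x =>
      ((∫ t in (0 : ℝ)..(x + l), ind E t) - ∫ t in (0 : ℝ)..x, ind E t) / l := by
    funext x; rw [av, h2]
  rw [h3]
  exact ((h1.comp (continuous_id.add continuous_const)).sub h1).div_const _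

/-- average as a volume ratio -/
theorem av_eq (hE : MeasurableSet E) (x : ℝ) {l : ℝ} (hl : 0 < l) :
    av E x l = (volume (E ∩ Icc x (x + l))).toReal / l := by
  rw [av, M, intervalIntegral.integral_of_le (by linarith), ind,
    ← integral_Icc_eq_integral_Ioc, setIntegral_indicator hE, setIntegral_const, smul_eq_mul,
    mul_one, Measure.real, inter_comm]

/-! ### the stopping argument -/

open Classical in
/-- points of `(x, x + l]` not stopped (average `≤ 1/20`) during the first `n` steps -/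
def N (E : Set ℝ) : ℕ → ℝ → ℝ → Set ℝ
  | 0, x, l => Ioc x (x + l)
  | n + 1, x, l => if av E x l ≤ 1 / 20 then ∅ else N E n x (l / 2) ∪ N E n (x + l / 2) (l / 2)

theorem N_sub (E : Set ℝ) (n : ℕ) : ∀ x l : ℝ, 0 < l → N E n x l ⊆ Ioc x (x + l) := by
  induction n with
  | zero => intro x l _; exact subset_rfl
  | succ n ih =>
    intro x l hl
    rw [N]
    split_ifs
    · exact empty_subset _
    · refine union_subset ((ih _ _ (by positivity)).trans (Ioc_subset_Ioc_right (by linarith)))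
        ((ih _ _ (by positivity)).trans (Ioc_subset_Ioc (by linarith) (by linarith)))

theorem N_meas (E : Set ℝ) (n : ℕ) : ∀ x l : ℝ, MeasurableSet (N E n x l) := by
  induction n with
  | zero => intro x l; exact measurableSet_Ioc
  | succ n ih =>
    intro x l
    rw [N]
    split_ifs
    · exact MeasurableSet.empty
    · exact (ih _ _).union (ih _ _)

theorem N_anti_step (E : Set ℝ) (n : ℕ) : ∀ x l : ℝ, 0 < l → N E (n + 1) x l ⊆ N E n x l := by
  induction n with
  | zero => intro x l hl; exact N_sub E 1 x l hl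
  | succ n ih =>
    intro x l hl
    by_cases hav : av E x l ≤ 1 / 20
    · rw [show N E (n + 1 + 1) x l = ∅ by rw [N, if_pos hav]]
      exact empty_subset _
    · rw [show N E (n + 1 + 1) x l = N E (n + 1) x (l / 2) ∪ N E (n + 1) (x + l / 2) (l / 2) by
          rw [N, if_neg hav],
        show N E (n + 1) x l = N E n x (l / 2) ∪ N E n (x + l / 2) (l / 2) by
          rw [N, if_neg hav]]
      exact union_subset_union (ih _ _ (by positivity)) (ih _ _ (by positivity))

theorem mass_le (hE : MeasurableSet E) (n : ℕ) : ∀ x l : ℝ, 0 < l →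
    M E x (x + l) ≤ l / 20 + ∫ t in N E n x l, ind E t := by
  have hint : ∀ n x l, 0 < l → IntegrableOn (ind E) (N E n x l) := fun n x l hl =>
    (((ii hE x (x + l)).1).mono_set (N_sub E n x l hl))
  induction n with
  | zero =>
    intro x l hl
    rw [M, intervalIntegral.integral_of_le (by linarith), N]
    linarith
  | succ n ih =>
    intro x l hl
    rw [N]
    split_ifs with hav
    · rw [av, div_le_iff₀ hl] at hav
      simp only [Measure.restrict_empty, integral_zero_measure]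
      linarith
    · have h1 := ih x (l / 2) (by positivity)
      have h2 := ih (x + l / 2) (l / 2) (by positivity)
      have h3 := M_add hE x (x + l / 2) (x + l / 2 + l / 2)
      rw [setIntegral_union _ (N_meas E n _ _) (hint n _ _ (by positivity))
        (hint n _ _ (by positivity))]
      · rw [show x + l = x + l / 2 + l / 2 by ring, ← h3]
        linarith
      · refine Set.disjoint_of_subset (N_sub E n _ _ (by positivity))
          (N_sub E n _ _ (by positivity)) ?_
        rw [Set.disjoint_left]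
        intro y h4 h5
        exact absurd h4.2 (not_le.2 h5.1)

/-- one admissible step: half length, average in `[1/20, 19/20]` -/
def Stp (E : Set ℝ) (p q : ℝ × ℝ) : Prop :=
  0 < p.2 ∧ q.2 = p.2 / 2 ∧ p.1 ≤ q.1 ∧ q.1 ≤ p.1 + p.2 / 2 ∧ 1 / 20 ≤ av E q.1 q.2 ∧
    av E q.1 q.2 ≤ 19 / 20

/-- no way up -/
def Bad (E : Set ℝ) (x l : ℝ) : Prop :=
  av E x l < 2 / 3 ∧ (1 / 20 < av E x l →
    ¬ ∃ q : ℝ × ℝ, av E q.1 q.2 = 2 / 3 ∧ Relation.TransGen (Stp E) (x, l) q)

theorem Bad.half (hE : MeasurableSet E) {x l : ℝ} (hl : 0 < l) (h : Bad E x l)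
    (hav : 1 / 20 < av E x l) : Bad E x (l / 2) ∧ Bad E (x + l / 2) (l / 2) := by
  have hno := h.2 hav
  have hsum := av_half hE x hl
  have hmid : ∀ y ∈ Icc x (x + l / 2), av E y (l / 2) ≠ 2 / 3 := by
    intro y hy he
    refine hno ⟨(y, l / 2), he, Relation.TransGen.single ⟨hl, rfl, hy.1, hy.2, ?_, ?_⟩⟩
    · show 1 / 20 ≤ av E y (l / 2); rw [he]; norm_num
    · show av E y (l / 2) ≤ 19 / 20; rw [he]; norm_num
  have hlow : ∀ y ∈ Icc x (x + l / 2), av E y (l / 2) < 2 / 3 := by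
    -- otherwise slide
    by_contra hcon
    push Not at hcon
    obtain ⟨y, hy, hy2⟩ := hcon
    have hex : ∃ z ∈ Icc x (x + l / 2), av E z (l / 2) < 2 / 3 := by
      by_contra hc2
      push Not at hc2
      have h1 := hc2 x ⟨le_rfl, by linarith⟩
      have h2 := hc2 (x + l / 2) ⟨by linarith, le_rfl⟩
      linarith [h.1]
    obtain ⟨z, hz, hz2⟩ := hex
    have hpre := (isPreconnected_Icc (a := x) (b := x + l / 2)).image _
      (cont_av hE (l / 2)).continuousOn
    have : (2 / 3 : ℝ) ∈ (fun y => av E y (l / 2)) '' Icc x (x + l / 2) :=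
      hpre.ordConnected.out ⟨z, hz, rfl⟩ ⟨y, hy, rfl⟩ ⟨hz2.le, hy2⟩
    obtain ⟨w, hw, hwe⟩ := this
    exact hmid w hw hwe
  have hgen : ∀ y ∈ Icc x (x + l / 2), Bad E y (l / 2) := by
    intro y hy
    refine ⟨hlow y hy, fun h20 => ?_⟩
    rintro ⟨q, hq, hR⟩
    refine hno ⟨q, hq, Relation.TransGen.head ⟨hl, rfl, hy.1, hy.2, h20.le, ?_⟩ hR⟩
    show av E y (l / 2) ≤ 19 / 20
    have := hlow y hy
    linarith
  exact ⟨hgen x ⟨le_rfl, by linarith⟩, hgen (x + l / 2) ⟨by linarith, le_rfl⟩⟩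

theorem Bad.desc (hE : MeasurableSet E) (n : ℕ) : ∀ x l : ℝ, 0 < l → Bad E x l →
    ∀ y ∈ N E n x l, ∃ x', y ∈ Ioc x' (x' + l / 2 ^ n) ∧ av E x' (l / 2 ^ n) < 2 / 3 := by
  induction n with
  | zero =>
    intro x l hl h y hy
    refine ⟨x, by simpa [N] using hy, by simpa using h.1⟩
  | succ n ih =>
    intro x l hl h y hy
    rw [N] at hy
    split_ifs at hy with hav
    · exact hy.elim
    · rw [not_le] at hav
      obtain ⟨h1, h2⟩ := h.half hE hl hav
      have he : l / 2 / 2 ^ n = l / 2 ^ (n + 1) := by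
        rw [pow_succ]; field_simp
      rcases hy with hy | hy
      · obtain ⟨x', h3, h4⟩ := ih x (l / 2) (by positivity) h1 y hy
        rw [he] at h3 h4
        exact ⟨x', h3, h4⟩
      · obtain ⟨x', h3, h4⟩ := ih (x + l / 2) (l / 2) (by positivity) h2 y hy
        rw [he] at h3 h4
        exact ⟨x', h3, h4⟩

/-- density in the form used -/
theorem dens (hE : MeasurableSet E) : ∀ᵐ y ∂(volume.restrict E), ∀ (x l : ℕ → ℝ),
    (∀ n, 0 < l n) → Tendsto l atTop (𝓝 0) → (∀ n, y ∈ Icc (x n) (x n + l n)) →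
    Tendsto (fun n => av E (x n) (l n)) atTop (𝓝 1) := by
  filter_upwards [IsUnifLocDoublingMeasure.ae_tendsto_measure_inter_div volume E 1] with y hy
  intro x l hl hl0 hmem
  have h1 := hy (fun n => x n + l n / 2) (fun n => l n / 2) (l := atTop)
    (tendsto_nhdsWithin_iff.2 ⟨by simpa using hl0.div_const 2,
      Eventually.of_forall fun n => by have := hl n; show 0 < l n / 2; positivity⟩)
    (Eventually.of_forall fun n => by
      rw [one_mul, Real.closedBall_eq_Icc]
      have := hmem n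
      exact ⟨by linarith [this.1], by linarith [this.2]⟩)
  have h2 := (ENNReal.tendsto_toReal ENNReal.one_ne_top).comp h1
  rw [ENNReal.toReal_one] at h2
  refine h2.congr fun n => ?_
  simp only [Function.comp]
  rw [Real.closedBall_eq_Icc, ENNReal.toReal_div, av_eq hE _ (hl n),
    show x n + l n / 2 - l n / 2 = x n by ring, show x n + l n / 2 + l n / 2 = x n + l n by ring,
    Real.volume_Icc, show x n + l n - x n = l n by ring, ENNReal.toReal_ofReal (hl n).le]

theorem up (hE : MeasurableSet E) {x l : ℝ} (hl : 0 < l) (h1 : 1 / 20 < av E x l)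
    (h2 : av E x l < 2 / 3) :
    ∃ q : ℝ × ℝ, av E q.1 q.2 = 2 / 3 ∧ Relation.TransGen (Stp E) (x, l) q := by
  by_contra hcon
  have hbad : Bad E x l := ⟨h2, fun _ => hcon⟩
  have hant : Antitone fun n => N E n x l := antitone_nat_of_succ_le fun n => N_anti_step E n x l hl
  have hint : IntegrableOn (ind E) (N E 0 x l) := ((ii hE x (x + l)).1).mono_set (N_sub E 0 x l hl)
  have hlim := tendsto_setIntegral_of_antitone (μ := volume) (f := ind E)
    (fun n => N_meas E n x l) hant ⟨0, hint⟩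
  have hzero : ∫ t in ⋂ n, N E n x l, ind E t = 0 := by
    rw [ind, setIntegral_indicator hE, setIntegral_const, smul_eq_mul, mul_one, Measure.real]
    have : volume ((⋂ n, N E n x l) ∩ E) = 0 := by
      have hd := dens hE
      rw [ae_restrict_iff' hE] at hd
      refine measure_mono_null ?_ (ae_iff.1 hd)
      rintro y ⟨hy, hyE⟩
      simp only [mem_ofPred_eq]
      intro hyd
      have hall := fun n => hbad.desc hE n x l hl y (mem_iInter.1 hy n)
      choose x' h3 h4 using hall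
      have h5 := hyd hyE x' (fun n => l / 2 ^ n) (fun n => by positivity) ?_
        (fun n => Ioc_subset_Icc_self (h3 n))
      · have h6 : (1 : ℝ) ≤ 2 / 3 := le_of_tendsto' h5 fun n => (h4 n).le
        norm_num at h6
      · have : Tendsto (fun n : ℕ => l * (1 / 2 : ℝ) ^ n) atTop (𝓝 (l * 0)) :=
          (tendsto_pow_atTop_nhds_zero_of_lt_one (by norm_num) (by norm_num)).const_mul l
        rw [mul_zero] at this
        refine this.congr fun n => ?_
        rw [one_div, inv_pow]; rfl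
    rw [this]; rfl
  rw [hzero] at hlim
  have h3 : M E x (x + l) ≤ l / 20 + 0 :=
    le_of_tendsto_of_tendsto' tendsto_const_nhds (tendsto_const_nhds.add hlim) fun n =>
      mass_le hE n x l hl
  rw [av, lt_div_iff₀ hl] at h1
  linarith

theorem stp_compl (hE : MeasurableSet E) {p q : ℝ × ℝ} (h : Stp Eᶜ p q) : Stp E p q := by
  obtain ⟨h0, h1, h2, h3, h4, h5⟩ := h
  have hq : 0 < q.2 := by rw [h1]; positivity
  rw [av_compl hE _ hq] at h4 h5
  exact ⟨h0, h1, h2, h3, by linarith, by linarith⟩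

theorem transGen_pos {p q : ℝ × ℝ} (h : Relation.TransGen (Stp E) p q) : 0 < q.2 := by
  induction h with
  | single h => rw [h.2.1]; have := h.1; positivity
  | tail _ h _ => rw [h.2.1]; have := h.1; positivity

theorem down (hE : MeasurableSet E) {x l : ℝ} (hl : 0 < l) (h1 : 1 / 3 < av E x l)
    (h2 : av E x l < 19 / 20) :
    ∃ q : ℝ × ℝ, av E q.1 q.2 = 1 / 3 ∧ Relation.TransGen (Stp E) (x, l) q := by
  have h3 := av_compl hE x hl
  obtain ⟨q, hq, hR⟩ := up hE.compl hl (by rw [h3]; linarith) (by rw [h3]; linarith)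
  have hq2 := transGen_pos hR
  rw [av_compl hE _ hq2] at hq
  exact ⟨q, by linarith, Relation.TransGen.mono (r := Stp Eᶜ) (fun _ _ h => stp_compl hE h) _ _ hR⟩

theorem halves_tendsto (l : ℝ) : Tendsto (fun n : ℕ => l / 2 ^ n) atTop (𝓝 0) := by
  have : Tendsto (fun n : ℕ => l * (1 / 2 : ℝ) ^ n) atTop (𝓝 (l * 0)) :=
    (tendsto_pow_atTop_nhds_zero_of_lt_one (by norm_num) (by norm_num)).const_mul l
  rw [mul_zero] at this
  refine this.congr fun n => ?_
  rw [one_div, inv_pow]; rfl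

/-- an interval with average `1/3` -/
theorem start (hE : MeasurableSet E) {a b : ℝ} (h1 : volume (E ∩ Ioo a b) ≠ 0)
    (h2 : volume (Ioo a b \ E) ≠ 0) :
    ∃ x l : ℝ, 0 < l ∧ a < x ∧ x + l < b ∧ av E x l = 1 / 3 := by
  have key : ∀ S : Set ℝ, MeasurableSet S → volume (S ∩ Ioo a b) ≠ 0 →
      ∃ y ∈ Ioo a b, Tendsto (fun n : ℕ => av S y (1 / 2 ^ n)) atTop (𝓝 1) := by
    intro S hS hne
    have hd := dens hS
    rw [ae_restrict_iff' hS] at hd
    have : ∃ y ∈ S ∩ Ioo a b, (y ∈ S → ∀ (x l : ℕ → ℝ), (∀ n, 0 < l n) → Tendsto l atTop (𝓝 0) →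
        (∀ n, y ∈ Icc (x n) (x n + l n)) → Tendsto (fun n => av S (x n) (l n)) atTop (𝓝 1)) := by
      by_contra hcon
      push Not at hcon
      refine hne (measure_mono_null ?_ (ae_iff.1 hd))
      intro y hy
      have := hcon y hy
      simp only [mem_ofPred_eq]
      intro hh
      obtain ⟨_, x, l, h3, h4, h5, h6⟩ := this
      exact h6 (hh hy.1 x l h3 h4 h5)
    obtain ⟨y, hy, hyd⟩ := this
    refine ⟨y, hy.2, hyd hy.1 (fun _ => y) (fun n => 1 / 2 ^ n) (fun n => by positivity)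
      (halves_tendsto 1) fun n => ⟨le_rfl, ?_⟩⟩
    have : (0 : ℝ) < 1 / 2 ^ n := by positivity
    linarith
  obtain ⟨y1, hy1, ht1⟩ := key E hE h1
  obtain ⟨y2, hy2, ht2⟩ := key Eᶜ hE.compl (by rwa [inter_comm, ← sdiff_eq])
  have hl0 := halves_tendsto 1
  have e1 : ∀ᶠ n : ℕ in atTop, (1 / 2 : ℝ) < av E y1 (1 / 2 ^ n) := ht1 (Ioi_mem_nhds (by norm_num))
  have e2 : ∀ᶠ n : ℕ in atTop, (5 / 6 : ℝ) < av Eᶜ y2 (1 / 2 ^ n) :=
    ht2 (Ioi_mem_nhds (by norm_num))
  have e3 : ∀ᶠ n : ℕ in atTop, (1 : ℝ) / 2 ^ n < b - y1 :=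
    hl0 (Iio_mem_nhds (by linarith [hy1.2]))
  have e4 : ∀ᶠ n : ℕ in atTop, (1 : ℝ) / 2 ^ n < b - y2 :=
    hl0 (Iio_mem_nhds (by linarith [hy2.2]))
  obtain ⟨n, k1, k2, k3, k4⟩ := (e1.and (e2.and (e3.and e4))).exists
  have hl : (0 : ℝ) < 1 / 2 ^ n := by positivity
  rw [av_compl hE _ hl] at k2
  have hpre := (isPreconnected_Ioo (a := a) (b := b - 1 / 2 ^ n)).image _
    (cont_av hE (1 / 2 ^ n)).continuousOn
  have : (1 / 3 : ℝ) ∈ (fun y => av E y (1 / 2 ^ n)) '' Ioo a (b - 1 / 2 ^ n) :=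
    hpre.ordConnected.out ⟨y2, ⟨hy2.1, by linarith⟩, rfl⟩ ⟨y1, ⟨hy1.1, by linarith⟩, rfl⟩
      ⟨by simp only; linarith, by simp only; linarith⟩
  obtain ⟨x, hx, hxe⟩ := this
  exact ⟨x, 1 / 2 ^ n, hl, hx.1, by linarith [hx.2], hxe⟩

/-- **(K)** (972): if both `E` and its complement have positive measure in `(a, b)`, then there are
nested intervals `[J n, J n + L / 2 ^ n] ⊆ (a, b)` over which the averages of `E` stay in
`[1/20, 19/20]` and equal `1/3` infinitely often and `2/3` infinitely often. -/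
theorem wander {E : Set ℝ} (hE : MeasurableSet E) {a b : ℝ} (h1 : volume (E ∩ Ioo a b) ≠ 0)
    (h2 : volume (Ioo a b \ E) ≠ 0) :
    ∃ (J : ℕ → ℝ) (L x0 : ℝ), 0 < L ∧
      (∀ n, a < J n ∧ J n + L / 2 ^ n < b) ∧
      (∀ n, J n ≤ J (n + 1) ∧ J (n + 1) + L / 2 ^ (n + 1) ≤ J n + L / 2 ^ n) ∧
      (∀ n, x0 ∈ Icc (J n) (J n + L / 2 ^ n)) ∧
      (∀ n, 1 / 20 ≤ av E (J n) (L / 2 ^ n) ∧ av E (J n) (L / 2 ^ n) ≤ 19 / 20) ∧
      (∀ n, ∃ m ≥ n, av E (J m) (L / 2 ^ m) = 1 / 3) ∧
      (∀ n, ∃ m ≥ n, av E (J m) (L / 2 ^ m) = 2 / 3) := by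
  obtain ⟨x, l, hl, hax, hxb, hxe⟩ := start hE h1 h2
  obtain ⟨s, hs0, hsR, hsP, hsQ⟩ := zigzag (α := ℝ × ℝ) (R := Stp E)
    (P := fun p => 0 < p.2 ∧ av E p.1 p.2 = 1 / 3) (Q := fun p => 0 < p.2 ∧ av E p.1 p.2 = 2 / 3)
    (fun p hp => by
      obtain ⟨q, hq, hR⟩ := up hE hp.1 (by rw [hp.2]; norm_num) (by rw [hp.2]; norm_num)
      exact ⟨q, ⟨transGen_pos hR, hq⟩, hR⟩)
    (fun p hp => by
      obtain ⟨q, hq, hR⟩ := down hE hp.1 (by rw [hp.2]; norm_num) (by rw [hp.2]; norm_num)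
      exact ⟨q, ⟨transGen_pos hR, hq⟩, hR⟩)
    (a0 := (x, l)) ⟨hl, hxe⟩
  have hlen : ∀ n, (s n).2 = l / 2 ^ n := by
    intro n
    induction n with
    | zero => rw [hs0]; simp
    | succ n ih => rw [(hsR n).2.1, ih, pow_succ]; field_simp
  have hnest : ∀ n, (s n).1 ≤ (s (n + 1)).1 ∧
      (s (n + 1)).1 + l / 2 ^ (n + 1) ≤ (s n).1 + l / 2 ^ n := by
    intro n
    obtain ⟨k1, k2, k3, k4, -⟩ := hsR n
    rw [hlen] at k4
    refine ⟨k3, ?_⟩
    have : l / 2 ^ n = l / 2 ^ (n + 1) + l / 2 ^ (n + 1) := by rw [pow_succ]; field_simp; ring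
    have h3 : l / 2 ^ n / 2 = l / 2 ^ (n + 1) := by rw [pow_succ]; field_simp
    rw [h3] at k4
    linarith
  have hpos : ∀ n : ℕ, 0 < l / 2 ^ n := fun n => by positivity
  have hin : ∀ n, a < (s n).1 ∧ (s n).1 + l / 2 ^ n < b := by
    intro n
    induction n with
    | zero => rw [hs0]; simpa using ⟨hax, hxb⟩
    | succ n ih => exact ⟨lt_of_lt_of_le ih.1 (hnest n).1, lt_of_le_of_lt (hnest n).2 ih.2⟩
  have hx0 : (⋂ n, Icc (s n).1 ((s n).1 + l / 2 ^ n)).Nonempty :=
    IsCompact.nonempty_iInter_of_sequence_nonempty_isCompact_isClosed _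
      (fun n => Icc_subset_Icc (hnest n).1 (hnest n).2)
      (fun n => nonempty_Icc.2 (by linarith [hpos n])) isCompact_Icc fun n => isClosed_Icc
  obtain ⟨x0, hx0⟩ := hx0
  refine ⟨fun n => (s n).1, l, x0, hl, hin, hnest, fun n => mem_iInter.1 hx0 n, fun n => ?_,
    fun n => ?_, fun n => ?_⟩
  · rcases n with _ | n
    · have : av E (s 0).1 (l / 2 ^ 0) = 1 / 3 := by rw [hs0]; simpa using hxe
      rw [this]; norm_num
    · have := (hsR n).2.2.2.2
      rwa [hlen] at this
  · obtain ⟨m, hm, h3⟩ := hsP n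
    exact ⟨m, hm, by rw [← hlen m]; exact h3.2⟩
  · obtain ⟨m, hm, h3⟩ := hsQ n
    exact ⟨m, hm, by rw [← hlen m]; exact h3.2⟩

end Crest.Agent.R102.Wander811
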