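import Mathlib

/-!
Row 102, part (C), Case E: **(Z) zeros of `sin δ` on the regular part of the leaves**
(helper628).

`l_± = (ψ ± δ, S ± N)` two consecutive lines of the family, jointly holomorphic near a point
`x = (t, w)` with `w ≠ 0`.  If `sin δ = 0` at `x`, then `∂ψ/∂t = 0` at `x`.
(Zeros of `y = θ'` are allowed; no label is needed.)
-/

set_option autoImplicit false

open Filter Topology Set

namespace Crest.Agent.R102.Z628

/-- analytic germs of two variables form a domain -/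
theorem eventually_zero_of_mul {f g : ℂ × ℂ → ℂ} {x : ℂ × ℂ} (hf : AnalyticAt ℂ f x)
    (hg : AnalyticAt ℂ g x) (h : ∀ᶠ y in 𝓝 x, f y * g y = 0) (hne : ∃ᶠ y in 𝓝 x, f y ≠ 0) :
    ∀ᶠ y in 𝓝 x, g y = 0 := by
  have h1 : ∀ᶠ y in 𝓝 x, AnalyticAt ℂ f y ∧ AnalyticAt ℂ g y ∧ f y * g y = 0 :=
    hf.eventually_analyticAt.and (hg.eventually_analyticAt.and h)
  obtain ⟨ε, hε, hball⟩ := Metric.eventually_nhds_iff_ball.1 h1
  obtain ⟨y, hy0, hy⟩ := (hne.and_eventually (Metric.ball_mem_nhds x hε)).exists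
  have hg0 : g =ᶠ[𝓝 y] 0 := by
    have h2 : ∀ᶠ z in 𝓝 y, f z ≠ 0 := (hball y hy).1.continuousAt.eventually_ne hy0
    filter_upwards [h2, Metric.isOpen_ball.mem_nhds hy] with z hz1 hz2
    have := (hball z hz2).2.2
    simpa [hz1] using this
  have h3 : EqOn g 0 (Metric.ball x ε) :=
    AnalyticOnNhd.eqOn_zero_of_preconnected_of_eventuallyEq_zero
      (fun z hz => (hball z hz).2.1) (convex_ball x ε).isPreconnected hy hg0
  filter_upwards [Metric.ball_mem_nhds x hε] with z hz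
  exact h3 hz

/-- **(Z)** -/
theorem psi_t_zero {S N ψ δ : ℂ × ℂ → ℂ} {x : ℂ × ℂ} (hS : AnalyticAt ℂ S x)
    (hN : AnalyticAt ℂ N x) (hψ : AnalyticAt ℂ ψ x) (hδ : AnalyticAt ℂ δ x)
    (hrel : ∀ᶠ y in 𝓝 x, ∀ v : ℂ × ℂ,
      Complex.sin (δ y) * Complex.cos (δ y) * fderiv ℂ S y v +
        S y * Complex.sin (δ y) ^ 2 * fderiv ℂ δ y v =
      Complex.cos (δ y) ^ 2 * N y * fderiv ℂ ψ y v)
    (hs : Complex.sin (δ x) = 0) (hne : ∃ᶠ y in 𝓝 x, Complex.sin (δ y) ≠ 0)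
    (harea : fderiv ℂ (fun y => ψ y + δ y) x (1, 0) * fderiv ℂ (fun y => S y + N y) x (0, 1) -
      fderiv ℂ (fun y => ψ y + δ y) x (0, 1) * fderiv ℂ (fun y => S y + N y) x (1, 0) ≠ 0) :
    fderiv ℂ ψ x (1, 0) = 0 := by
  by_contra hψ1
  have hc : Complex.cos (δ x) ≠ 0 := by
    intro h0
    have := Complex.sin_sq_add_cos_sq (δ x)
    rw [hs, h0] at this
    norm_num at this
  have hsin : AnalyticAt ℂ (fun y => Complex.sin (δ y)) x :=
    (Complex.analyticAt_sin).comp hδ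
  have hcos : AnalyticAt ℂ (fun y => Complex.cos (δ y)) x :=
    (Complex.analyticAt_cos).comp hδ
  have hd : ∀ {f : ℂ × ℂ → ℂ} (_ : AnalyticAt ℂ f x) (v : ℂ × ℂ),
      AnalyticAt ℂ (fun y => fderiv ℂ f y v) x := by
    intro f hf v
    exact (ContinuousLinearMap.analyticAt (ContinuousLinearMap.apply ℂ ℂ v) _).comp hf.fderiv
  set μ : ℂ × ℂ → ℂ := fun y =>
    (Complex.cos (δ y) * fderiv ℂ S y (1, 0) + S y * Complex.sin (δ y) * fderiv ℂ δ y (1, 0)) /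
      (Complex.cos (δ y) ^ 2 * fderiv ℂ ψ y (1, 0)) with hμ
  have hμa : AnalyticAt ℂ μ x := by
    refine AnalyticAt.div ((hcos.mul (hd hS _)).add ((hS.mul hsin).mul (hd hδ _)))
      ((hcos.pow 2).mul (hd hψ _)) ?_
    exact mul_ne_zero (pow_ne_zero _ hc) hψ1
  -- `N = μ sin δ` near `x`
  have hNe : ∀ᶠ y in 𝓝 x, N y = Complex.sin (δ y) * μ y := by
    have e1 : ∀ᶠ y in 𝓝 x, Complex.cos (δ y) ≠ 0 := hcos.continuousAt.eventually_ne hc
    have e2 : ∀ᶠ y in 𝓝 x, fderiv ℂ ψ y (1, 0) ≠ 0 := (hd hψ _).continuousAt.eventually_ne hψ1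
    filter_upwards [hrel, e1, e2] with y h1 h2 h3
    have h4 := h1 (1, 0)
    rw [hμ]
    field_simp
    linear_combination -h4
  -- second component
  have hg : ∀ᶠ y in 𝓝 x, Complex.cos (δ y) * fderiv ℂ S y (0, 1) +
      S y * Complex.sin (δ y) * fderiv ℂ δ y (0, 1) -
      Complex.cos (δ y) ^ 2 * μ y * fderiv ℂ ψ y (0, 1) = 0 := by
    refine eventually_zero_of_mul hsin (((hcos.mul (hd hS _)).add
      ((hS.mul hsin).mul (hd hδ _))).sub (((hcos.pow 2).mul hμa).mul (hd hψ _))) ?_ hne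
    filter_upwards [hrel, hNe] with y h1 h2
    have h4 := h1 (0, 1)
    rw [h2] at h4
    linear_combination h4
  have hS2 : fderiv ℂ S x (0, 1) = Complex.cos (δ x) * μ x * fderiv ℂ ψ x (0, 1) := by
    have h1 := hg.self_of_nhds
    rw [hs] at h1
    have h2 : Complex.cos (δ x) * (fderiv ℂ S x (0, 1) -
        Complex.cos (δ x) * μ x * fderiv ℂ ψ x (0, 1)) = 0 := by
      linear_combination h1
    rcases mul_eq_zero.1 h2 with h | h
    · exact absurd h hc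
    · linear_combination h
  have hS1 : fderiv ℂ S x (1, 0) = Complex.cos (δ x) * μ x * fderiv ℂ ψ x (1, 0) := by
    rw [hμ]
    simp only [hs]
    field_simp
    ring
  have hNd : ∀ v : ℂ × ℂ, fderiv ℂ N x v = Complex.cos (δ x) * μ x * fderiv ℂ δ x v := by
    intro v
    have h1 : N =ᶠ[𝓝 x] fun y => Complex.sin (δ y) * μ y := hNe
    rw [h1.fderiv_eq, fderiv_fun_mul hsin.differentiableAt hμa.differentiableAt]
    have h2 : fderiv ℂ (fun y => Complex.sin (δ y)) x = Complex.cos (δ x) • fderiv ℂ δ x :=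
      (hδ.differentiableAt.hasFDerivAt.csin).fderiv
    rw [h2, hs]
    simp only [add_apply, smul_apply, smul_eq_mul,
      zero_mul, zero_add]
    ring
  apply harea
  rw [fderiv_fun_add hψ.differentiableAt hδ.differentiableAt,
    fderiv_fun_add hS.differentiableAt hN.differentiableAt]
  simp only [add_apply, hNd, hS1, hS2]
  ring

/-- the relation of (Z) at a regular vertex: `ψ = θ(B)`, `S = H(B) cos δ`, `θ' N = H' sin δ` -/
theorem rel_of_vertex {S N ψ δ B : ℂ × ℂ → ℂ} {θ H : ℂ → ℂ} {θ' H' : ℂ} {y : ℂ × ℂ}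
    (hB : DifferentiableAt ℂ B y) (hδ : DifferentiableAt ℂ δ y)
    (hθ : HasDerivAt θ θ' (B y)) (hH : HasDerivAt H H' (B y))
    (eψ : ψ =ᶠ[𝓝 y] fun z => θ (B z)) (eS : S =ᶠ[𝓝 y] fun z => H (B z) * Complex.cos (δ z))
    (eN : θ' * N y = H' * Complex.sin (δ y)) (v : ℂ × ℂ) :
    Complex.sin (δ y) * Complex.cos (δ y) * fderiv ℂ S y v +
        S y * Complex.sin (δ y) ^ 2 * fderiv ℂ δ y v =
      Complex.cos (δ y) ^ 2 * N y * fderiv ℂ ψ y v := by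
  have h1 : HasFDerivAt (fun z => θ (B z)) (θ' • fderiv ℂ B y) y :=
    hθ.comp_hasFDerivAt y hB.hasFDerivAt
  have h2 : HasFDerivAt (fun z => H (B z)) (H' • fderiv ℂ B y) y :=
    hH.comp_hasFDerivAt y hB.hasFDerivAt
  have h3 := h2.mul hδ.hasFDerivAt.ccos
  rw [eψ.fderiv_eq, eS.fderiv_eq, h1.fderiv]
  have h4 : fderiv ℂ (fun z => H (B z) * Complex.cos (δ z)) y =
      H (B y) • (-Complex.sin (δ y) • fderiv ℂ δ y) + Complex.cos (δ y) • (H' • fderiv ℂ B y) :=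
    h3.fderiv
  rw [h4, eS.self_of_nhds]
  simp only [add_apply, smul_apply, smul_eq_mul]
  linear_combination (-Complex.cos (δ y) ^ 2 * (fderiv ℂ B y v)) * eN

/-- the relation extends by analytic continuation -/
theorem rel_extend {S N ψ δ : ℂ × ℂ → ℂ} {D : Set (ℂ × ℂ)} (hc : IsPreconnected D)
    (hS : AnalyticOnNhd ℂ S D) (hN : AnalyticOnNhd ℂ N D) (hψ : AnalyticOnNhd ℂ ψ D)
    (hδ : AnalyticOnNhd ℂ δ D) {x₀ : ℂ × ℂ} (hx₀ : x₀ ∈ D)
    (hrel : ∀ᶠ y in 𝓝 x₀, ∀ v : ℂ × ℂ,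
      Complex.sin (δ y) * Complex.cos (δ y) * fderiv ℂ S y v +
        S y * Complex.sin (δ y) ^ 2 * fderiv ℂ δ y v =
      Complex.cos (δ y) ^ 2 * N y * fderiv ℂ ψ y v) {y : ℂ × ℂ} (hy : y ∈ D) (v : ℂ × ℂ) :
    Complex.sin (δ y) * Complex.cos (δ y) * fderiv ℂ S y v +
        S y * Complex.sin (δ y) ^ 2 * fderiv ℂ δ y v =
      Complex.cos (δ y) ^ 2 * N y * fderiv ℂ ψ y v := by
  have hd : ∀ {f : ℂ × ℂ → ℂ} (_ : AnalyticOnNhd ℂ f D),
      AnalyticOnNhd ℂ (fun y => fderiv ℂ f y v) D := by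
    intro f hf z hz
    exact (ContinuousLinearMap.analyticAt (ContinuousLinearMap.apply ℂ ℂ v) _).comp
      (hf z hz).fderiv
  have hsin : AnalyticOnNhd ℂ (fun y => Complex.sin (δ y)) D :=
    fun z hz => (Complex.analyticAt_sin).comp (hδ z hz)
  have hcos : AnalyticOnNhd ℂ (fun y => Complex.cos (δ y)) D :=
    fun z hz => (Complex.analyticAt_cos).comp (hδ z hz)
  have h1 : AnalyticOnNhd ℂ (fun y => Complex.sin (δ y) * Complex.cos (δ y) * fderiv ℂ S y v +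
        S y * Complex.sin (δ y) ^ 2 * fderiv ℂ δ y v) D :=
    ((hsin.mul hcos).mul (hd hS)).add ((hS.mul (hsin.pow 2)).mul (hd hδ))
  have h2 : AnalyticOnNhd ℂ (fun y => Complex.cos (δ y) ^ 2 * N y * fderiv ℂ ψ y v) D :=
    ((hcos.pow 2).mul hN).mul (hd hψ)
  exact h1.eqOn_of_preconnected_of_eventuallyEq h2 hc hx₀ (hrel.mono fun y hy => hy v) hy

/-- `sin δ ≢ 0` propagates on connected domains -/
theorem frequently_ne {f : ℂ × ℂ → ℂ} {D : Set (ℂ × ℂ)} (hc : IsPreconnected D)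
    (hf : AnalyticOnNhd ℂ f D) {x₀ : ℂ × ℂ} (hx₀ : x₀ ∈ D) (h0 : f x₀ ≠ 0) {y : ℂ × ℂ}
    (hy : y ∈ D) : ∃ᶠ z in 𝓝 y, f z ≠ 0 := by
  intro h
  have h1 : f =ᶠ[𝓝 y] 0 := by
    filter_upwards [h] with z hz
    simpa using hz
  exact h0 (hf.eqOn_zero_of_preconnected_of_eventuallyEq_zero hc hy h1 hx₀)

/-- **(Z) on a connected domain `D`** of joint holomorphy of two consecutive lines, `w ≠ 0`. -/
theorem zeros {S N ψ δ : ℂ × ℂ → ℂ} {D : Set (ℂ × ℂ)} (hc : IsPreconnected D)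
    (hS : AnalyticOnNhd ℂ S D) (hN : AnalyticOnNhd ℂ N D) (hψ : AnalyticOnNhd ℂ ψ D)
    (hδ : AnalyticOnNhd ℂ δ D) {x₀ : ℂ × ℂ} (hx₀ : x₀ ∈ D) (h0 : Complex.sin (δ x₀) ≠ 0)
    (hrel : ∀ᶠ y in 𝓝 x₀, ∀ v : ℂ × ℂ,
      Complex.sin (δ y) * Complex.cos (δ y) * fderiv ℂ S y v +
        S y * Complex.sin (δ y) ^ 2 * fderiv ℂ δ y v =
      Complex.cos (δ y) ^ 2 * N y * fderiv ℂ ψ y v)
    (harea : ∀ x ∈ D, fderiv ℂ (fun y => ψ y + δ y) x (1, 0) *
        fderiv ℂ (fun y => S y + N y) x (0, 1) -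
      fderiv ℂ (fun y => ψ y + δ y) x (0, 1) * fderiv ℂ (fun y => S y + N y) x (1, 0) ≠ 0)
    (hD : IsOpen D) {x : ℂ × ℂ} (hx : x ∈ D) (hs : Complex.sin (δ x) = 0) :
    fderiv ℂ ψ x (1, 0) = 0 := by
  refine psi_t_zero (hS x hx) (hN x hx) (hψ x hx) (hδ x hx) ?_ hs ?_ (harea x hx)
  · filter_upwards [hD.mem_nhds hx] with y hy v
    exact rel_extend hc hS hN hψ hδ hx₀ hrel hy v
  · exact frequently_ne hc (fun z hz => (Complex.analyticAt_sin).comp (hδ z hz)) hx₀ h0 hx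

end Crest.Agent.R102.Z628
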